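import Crest.Agent.N207.CB.St2
import Crest.Agent.N207.J.Re6
import Crest.Agent.N207.L.Br2

/-! # Row 207, block L (helper72): the leaf `ANA` -/

set_option autoImplicit false
open Set Filter Topology
open Crest.Agent.N207.J

noncomputable section

namespace Crest.Agent.N207.CB

theorem amp_clm {Z : Type} [NormedAddCommGroup Z] [NormedSpace ℂ Z] (g : Z → ℕ → H) {C : ℝ}
    (hC : 0 ≤ C) (hP : ∀ z k, P k (g z k) = g z k)
    (ha : ∀ z z' k, g (z + z') k = g z k + g z' k) (hs : ∀ (c : ℂ) z k, g (c • z) k = c • g z k)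
    (hb : ∀ z (k : ℕ), ((k : ℝ) + 1) ^ 8 * ‖g z k‖ ≤ C * ‖z‖) :
    ∃ A : Z →L[ℂ] L.D, ‖A‖ ≤ 2 * C ∧ ∀ z k, L.trD 1 (A z) k = g z k ∧
      A z k = ((wt (6 : ℕ) k : ℝ) : ℂ) • g z k := by
  have h1 : ∀ z (s : Finset ℕ), ∑ k ∈ s, ‖((wt (6 : ℕ) k : ℝ) : ℂ) • g z k‖ ^ 2
      ≤ (2 * C * ‖z‖) ^ 2 := fun z s => by
    refine (Finset.sum_le_sum (g := fun k : ℕ => (C * ‖z‖) ^ 2 * (1 / ((k : ℝ) + 1) ^ 2))
      fun k _ => ?_).trans ?_
    · rw [norm_smul, Complex.norm_real, Real.norm_of_nonneg (wt_pos _ _).le, wt_nat, mul_one_div,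
        ← div_pow]
      refine pow_le_pow_left₀ (by positivity) ?_ 2
      rw [le_div_iff₀ (by positivity)]
      refine le_trans ?_ (hb z k)
      rw [mul_right_comm, ← pow_succ]
      exact mul_le_mul_of_nonneg_right (pow_le_pow_right₀ (by simp) (by norm_num)) (norm_nonneg _)
    · rw [← Finset.mul_sum]
      nlinarith [mul_le_mul_of_nonneg_left (sum_inv_sq_le s) (sq_nonneg (C * ‖z‖)),
        sq_nonneg (C * ‖z‖)]
  let A0 : Z →ₗ[ℂ] L.D :=
    { toFun := fun z => ⟨fun k => ((wt (6 : ℕ) k : ℝ) : ℂ) • g z k, memlp_of_le (h1 z)⟩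
      map_add' := fun z z' => lp.ext (funext fun k => (congrArg _ (ha z z' k)).trans (smul_add ..))
      map_smul' := fun c z => lp.ext (funext fun k =>
        (congrArg _ (hs c z k)).trans (smul_comm _ c _)) }
  have hA : ∀ z, ‖A0 z‖ ≤ 2 * C * ‖z‖ := fun z => lp_norm_le (by positivity) (h1 z)
  refine ⟨A0.mkContinuous _ hA, A0.mkContinuous_norm_le (by positivity) hA, fun z k => ⟨?_, rfl⟩⟩
  change _ • P k (((wt (6 : ℕ) k : ℝ) : ℂ) • g z k) = _
  rw [map_smul, hP, smul_smul, ← Complex.ofReal_mul, one_pow, one_div,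
    inv_mul_cancel₀ (wt_pos _ _).ne', Complex.ofReal_one, one_smul]

theorem ana : ANA := by
  have c0 := cM_pos 9
  refine ⟨2 * cM 9, by positivity, fun Z _ _ f t hb ha hs => ?_⟩
  have ht : t ∈ Ioo (t - 1 / 10) (t + 1 / 10) := ⟨by linarith, by linarith⟩
  have l1 := fun z z' k => pm_qm_lin (n := 7) 1 1 (fun o => (hb z o).1) (fun o => (hb z' o).1)
    (W := f (z + z')) (ev_An isOpen_Ioo ht fun x hx => by simpa using ha z z' x hx) k
  have l2 := fun (c : ℂ) z k => pm_qm_lin (n := 7) c 0 (fun o => (hb z o).1) (fun o => (hb z o).1)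
    (W := f (c • z)) (ev_An isOpen_Ioo ht fun x hx => by simpa using hs c z x hx) k
  obtain ⟨AQ, nq, hq⟩ := amp_clm (fun z k => qm (f z) k t) c0.le (fun z k => P_qm k t)
    (fun z z' k => by simpa using (l1 z z' k).2) (fun c z k => by simpa using (l2 c z k).2)
    fun z k => (pm_le (n := 7) (hb z) k).2
  obtain ⟨AP, np, hp⟩ := amp_clm (fun z k => pm (f z) k t) c0.le (fun z k => P_pm k t)
    (fun z z' k => by simpa using (l1 z z' k).1) (fun c z k => by simpa using (l2 c z k).1)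
    fun z k => (pm_le (n := 7) (hb z) k).1
  have e0 : ∀ z, AP z 0 = pm (f z) 0 t := fun z => by rw [(hp z 0).2, wt_nat]; simp
  refine ⟨AQ, AP, (ContinuousMap.evalCLM ℂ (prj 0)) ∘L Pc 0 ∘L
    lp.evalCLM ℂ (fun _ : ℕ => H) 2 0 ∘L AP, nq, np, ?_, fun z => ⟨fun k => (hq z k).1, fun k => (hp z k).1, ?_⟩⟩
  · refine ContinuousLinearMap.opNorm_le_bound _ (by positivity) fun z => ?_
    change ‖Pc 0 (AP z 0) (prj 0)‖ ≤ _
    refine ((Pc 0 (AP z 0)).norm_coe_le_norm _).trans ((norm_Pc_le 0 _).trans ?_)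
    have := (pm_le (n := 7) (hb z) 0).1
    rw [e0, P_pm]
    simp only [Nat.cast_zero, zero_add, one_pow, one_mul] at this ⊢
    nlinarith [norm_nonneg z]
  · change _ = toH (Pc 0 (AP z 0) (prj 0) • 1)
    obtain ⟨c, hc⟩ := E_zero (Pc_mem 0 (pm (f z) 0 t))
    rw [e0, hc, ← P_pm, ← toH_Pc, hc]
    simp

end Crest.Agent.N207.CB

end
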