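import Crest.Agent.N207.CB.St4
import Crest.Agent.N207.AI.Ev

/-!
# Row 207, block L, leaf ANX (helper80): amplitudes of constants, the constant mode
-/

set_option autoImplicit false

open scoped ContDiff
open Metric Set Filter Topology MeasureTheory
open Crest.GeometryTopology.CoordMetric Crest.Agent.R246.Zon797
open Crest.Agent.N207.I Crest.Agent.N207.J

noncomputable section

namespace Crest.Agent.N207.CB.Ax

variable {U U' : E4 → ℂ} {t : ℝ}

theorem mdU_congr (h : ∀ o : S3, U =ᶠ[𝓝 (Real.exp t • (o : E4))] U') (k : ℕ) :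
    mdU U k t = mdU U' k t ∧ mdU (Eu U) k t = mdU (Eu U') k t := by
  unfold mdU
  rw [rst_congr fun o => (h o).eq_of_nhds,
    rst_congr (U := Eu U) (U' := Eu U') fun o => by simp only [Du, (h o).fderiv_eq]]
  exact ⟨rfl, rfl⟩

theorem pm_congr (h : ∀ o : S3, U =ᶠ[𝓝 (Real.exp t • (o : E4))] U') (k : ℕ) :
    pm U k t = pm U' k t := by rw [pm, pm, (mdU_congr h k).1, (mdU_congr h k).2]

theorem qm_congr (h : ∀ o : S3, U =ᶠ[𝓝 (Real.exp t • (o : E4))] U') (k : ℕ) :
    qm U k t = qm U' k t := by rw [qm, qm, (mdU_congr h k).1, (mdU_congr h k).2]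

theorem P_one_zero : P 0 (toH 1) = toH 1 := mem_E.1 one_mem_E

theorem P_one_ne {k : ℕ} (hk : k ≠ 0) : P k (toH 1) = 0 := by
  rw [← P_one_zero]; exact P_P_ne hk _

theorem Eu_add_const (c : ℂ) : Eu (fun x => U x + c) = Eu U := by
  funext x; simp only [Du, fderiv_add_const]

theorem mdU_add_const (h : ∀ o : S3, ContinuousAt U (Real.exp t • (o : E4))) (c : ℂ) (k : ℕ) :
    mdU (fun x => U x + c) k t = mdU U k t + c • P k (toH 1) := by
  have e : rst (fun x => U x + c) t = rst U t + c • 1 := by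
    ext o
    rw [rst_apply' (U := fun x => U x + c) fun o => (h o).add continuousAt_const]
    simp [rst_apply' h]
  rw [mdU, e, map_add, map_add, map_smul, map_smul, mdU]

theorem pm_add_const (h : ∀ o : S3, ContinuousAt U (Real.exp t • (o : E4))) (c : ℂ) {k : ℕ}
    (hk : k ≠ 0) : pm (fun x => U x + c) k t = pm U k t := by
  rw [pm, mdU_add_const h, Eu_add_const, P_one_ne hk, smul_zero, add_zero, pm]

theorem pm_add_const_zero (h : ∀ o : S3, ContinuousAt U (Real.exp t • (o : E4))) (c : ℂ) :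
    pm (fun x => U x + c) 0 t = pm U 0 t + toH (c • 1) := by
  rw [pm, mdU_add_const h, Eu_add_const, P_one_zero, pm, map_smul]
  match_scalars <;> simp

theorem qm_add_const (h : ∀ o : S3, ContinuousAt U (Real.exp t • (o : E4))) (c : ℂ) (k : ℕ) :
    qm (fun x => U x + c) k t = qm U k t := by
  rw [qm, mdU_add_const h, Eu_add_const, qm]
  rcases eq_or_ne k 0 with rfl | hk
  · simp
  · rw [P_one_ne hk, smul_zero, add_zero]

theorem toH_const_inj {c d : ℂ} (h : toH (c • 1) = toH (d • 1)) : c = d := by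
  simpa using congrArg (fun u : CS => u (prj 0)) (toH_inj h)

/-- the constant mode of a real function -/
def mn (u : E4 → ℝ) (t : ℝ) : ℝ :=
  (∫ o : S3, (u (Real.exp t • (o : E4)) +
    2⁻¹ * fderiv ℝ u (Real.exp t • (o : E4)) (Real.exp t • (o : E4))) ∂sg) / (2 * Real.pi ^ 2)

variable {u : E4 → ℝ}

theorem cda_ofReal {n : WithTop ℕ∞} {x : E4} (h : ContDiffAt ℝ n u x) :
    ContDiffAt ℝ n (fun y => ((u y : ℝ) : ℂ)) x := Complex.ofRealCLM.contDiff.contDiffAt.comp x h

theorem pm_zero_eq (h : ∀ o : S3, ContDiffAt ℝ (1 : ℕ) u (Real.exp t • (o : E4))) :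
    pm (fun y => ((u y : ℝ) : ℂ)) 0 t = toH (((mn u t : ℝ) : ℂ) • 1) := by
  set U : E4 → ℂ := fun y => ((u y : ℝ) : ℂ) with hU
  have h1 : ∀ o : S3, ContDiffAt ℝ (0 + 1 : ℕ) U (Real.exp t • (o : E4)) := fun o =>
    cda_ofReal (h o)
  have e : pm U 0 t = P 0 (toH (rst U t + (2⁻¹ : ℂ) • rst (Eu U) t)) := by
    rw [pm, map_add, map_add, map_smul, map_smul, mdU, mdU]
    match_scalars <;> simp
  rw [e, ← toH_Pc, Pc_zero, mn]
  congr 2
  push_cast
  congr 1
  rw [← integral_complex_ofReal]
  refine integral_congr_ae (Eventually.of_forall fun o => ?_)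
  have h2 := Complex.ofRealCLM.hasFDerivAt.comp _ ((h o).differentiableAt (by simp)).hasFDerivAt
  show rst U t o + (2⁻¹ : ℂ) • rst (Eu U) t o = _
  rw [rst_apply' fun o => (h1 o).continuousAt,
    rst_apply' fun o => (contDiffAt_Du (ContinuousLinearMap.id ℝ E4) (h1 o)).continuousAt, Du,
    show fderiv ℝ U _ = _ from h2.fderiv]
  simp [hU]

theorem mn_congr {u' : E4 → ℝ} (h : ∀ o : S3, u =ᶠ[𝓝 (Real.exp t • (o : E4))] u') :
    mn u t = mn u' t := by
  unfold mn
  simp only [fun o => (h o).eq_of_nhds, fun o => (h o).fderiv_eq (𝕜 := ℝ)]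

theorem mn_comp (γ : Iso4) : mn (fun x => u (γ x)) t = mn u t := by
  unfold mn
  congr 1
  apply Complex.ofReal_injective
  rw [← integral_complex_ofReal, ← integral_complex_ofReal]
  refine Eq.trans ?_ (integral_cmp γ _)
  refine integral_congr_ae (Eventually.of_forall fun o => ?_)
  have := γ.toContinuousLinearEquiv.comp_right_fderiv (f := u) (x := Real.exp t • (o : E4))
  simp only [isoS_coe, ← map_smul]
  rw [show fderiv ℝ (fun x => u (γ x)) _ = _ from this]
  rfl

theorem mn_sum {ι : Type} [Fintype ι] {f : ι → E4 → ℝ} (c : ι → ℝ)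
    (h : ∀ i, ∀ o : S3, ContDiffAt ℝ (1 : ℕ) (f i) (Real.exp t • (o : E4))) :
    mn (fun x => ∑ i, c i * f i x) t = ∑ i, c i * mn (f i) t := by
  have hc : ∀ i, Continuous fun o : S3 => f i (Real.exp t • (o : E4)) +
      2⁻¹ * fderiv ℝ (f i) (Real.exp t • (o : E4)) (Real.exp t • (o : E4)) := fun i =>
    continuous_iff_continuousAt.2 fun o => by
      have c0 : ContinuousAt (fun o : S3 => Real.exp t • (o : E4)) o := by fun_prop
      have c1 := (h i o).continuousAt
      have c2 := ((h i o).fderiv_right (m := 0) (by simp)).continuousAt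
      exact (ContinuousAt.comp (f := fun o : S3 => Real.exp t • (o : E4)) c1 c0).add
        (continuousAt_const.mul ((ContinuousAt.comp (f := fun o : S3 => Real.exp t • (o : E4))
          c2 c0).clm_apply c0))
  unfold mn
  simp only [← mul_div_assoc, ← Finset.sum_div, ← integral_const_mul]
  rw [← integral_finsetSum _ fun i _ => (integrable_CSR _ (hc i)).const_mul (c i)]
  congr 1
  refine integral_congr_ae (Eventually.of_forall fun o => ?_)
  have h2 := HasFDerivAt.fun_sum (u := Finset.univ) fun i _ =>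
    ((h i o).differentiableAt (by simp)).hasFDerivAt.const_mul (c i)
  simp only [h2.fderiv, FunLike.coe_sum, Finset.sum_apply,
    smul_apply, smul_eq_mul, Finset.mul_sum, ← Finset.sum_add_distrib]
  exact Finset.sum_congr rfl fun i _ => by ring

theorem pullM_iso (γ : Iso4) (h : MetricField 4) (x : E4) (a b : Fin 4) :
    pullM γ h x a b = ∑ p : Fin 4 × Fin 4, γ (ee a) p.1 * γ (ee b) p.2 * h (γ x) p.1 p.2 := by
  rw [Fintype.sum_prod_type]
  show pullT γ (matT h) x ![a, b] = _
  rw [pullT, AI.evT_two, LinearIsometryEquiv.fderiv]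
  rfl

/-- an invariant bilinear form commutes with the isometry -/
theorem comm_of_inv (γ : Iso4) (c : Mt)
    (h : ∀ a b, c a b = ∑ p : Fin 4 × Fin 4, γ (ee a) p.1 * γ (ee b) p.2 * c p.1 p.2) (y : E4) :
    Matrix.toEuclideanLin c (γ y) = γ (Matrix.toEuclideanLin c y) := by
  have k1 : ∀ b, Matrix.toEuclideanLin c (γ (ee b)) = γ (Matrix.toEuclideanLin c (ee b)) := by
    intro b
    apply γ.symm.injective
    ext a
    rw [γ.symm_apply_apply, ← inner_ee, ← γ.inner_map_map, γ.apply_symm_apply]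
    have e : Matrix.toEuclideanLin c (ee b) a = c a b := by
      simp [Matrix.toEuclideanLin, Matrix.toLpLin_apply]
    rw [e, h a b, Fintype.sum_prod_type, PiLp.inner_apply]
    refine Finset.sum_congr rfl fun p _ => ?_
    simp [Matrix.toEuclideanLin, Matrix.toLpLin_apply, Matrix.mulVec, dotProduct, Finset.mul_sum]
    exact Finset.sum_congr rfl fun q _ => by ring
  have e : y = ∑ j, y j • ee j := by ext l; simp [Pi.single_apply]
  rw [e]
  simp only [map_sum, map_smul, k1]

variable {h : MetricField 4} {Γ : Subgroup Iso4} {I : Set ℝ}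

/-- the constant mode of an invariant field -/
theorem mn_inv (hI : IsOpen I) (ht : t ∈ I) (hi : Inv Γ 2 (An I) h) :
    (Matrix.of fun a b => mn (fun x => h x a b) t : Mt).IsSymm ∧ ∀ γ ∈ Γ, ∀ y : E4,
      Matrix.toEuclideanLin (Matrix.of fun a b => mn (fun x => h x a b) t : Mt) (γ y) =
        γ (Matrix.toEuclideanLin (Matrix.of fun a b => mn (fun x => h x a b) t : Mt) y) := by
  have hn : ∀ o : S3, An I ∈ 𝓝 (Real.exp t • (o : E4)) := fun o =>
    An_mem_nhds hI (polar_mem_An ht o)
  refine ⟨Matrix.IsSymm.ext fun a b => ?_, fun γ hγ => comm_of_inv γ _ ?_⟩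
  · simp only [Matrix.of_apply]
    refine mn_congr fun o => ?_
    filter_upwards [hn o] with x hx using (hi.symm x hx).apply a b
  · intro a b
    simp only [Matrix.of_apply]
    refine Eq.trans (mn_congr fun o => ?_) ((mn_sum (f := fun p x => h (γ x) p.1 p.2)
      (fun p : Fin 4 × Fin 4 => γ (ee a) p.1 * γ (ee b) p.2) fun p o => ?_).trans
      (Finset.sum_congr rfl fun p _ => by rw [mn_comp (u := fun x => h x p.1 p.2) γ]))
    · filter_upwards [hn o] with x hx
      rw [← pullM_iso, ← hi.eqv γ hγ x hx]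
    · have h1 := ((hi.sm p.1 p.2).contDiffAt (hn (isoS γ o))).of_le (m := (1 : ℕ)) (by norm_cast)
      rw [isoS_coe, ← map_smul] at h1
      exact h1.comp _ γ.contDiff.contDiffAt

end Crest.Agent.N207.CB.Ax

end
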