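import Crest.Agent.N207.CB.Anx1
import Crest.Agent.N207.I.Lim1
import Crest.Agent.N207.I.Car3

/-!
# Row 207, block L, leaf ANX (helper80): `anx : ANA → REG T → ANX T`
-/

set_option autoImplicit false

open scoped ContDiff
open Metric Set Filter Topology MeasureTheory
open Crest.GeometryTopology.CoordMetric
open Crest.Agent.NLib.Ell Crest.Agent.N207.I Crest.Agent.N207.J

noncomputable section

namespace Crest.Agent.N207.CB

namespace Ax

variable {M : Type*} {T : TD M} {v : T.V} {k : ℕ}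

open Classical in
/-- the value at the centre of a cell -/
def ptv (v : T.V) (k : ℕ) (s : T.S) (x : E4) : Cel (CI T v) k →L[ℂ] ℂ :=
  if h : x ∈ T.cK v s then Cel.evL ⟨(s, x), h⟩ 0 else 0

theorem ptv_eq {s : T.S} {x : E4} (h : x ∈ T.cK v s) (W : Cel (CI T v) k) :
    ptv v k s x W = W.val ⟨(s, x), h⟩ 0 := by rw [ptv, dif_pos h]; rfl

theorem ptv_lf {w : Fam T} {W : MC T v k} (hw : Lf T 0 w W) {s : T.S} {x : E4}
    (h : x ∈ T.cK v s) (a b : Fin 4) : ptv v k s x (W a b) = ((w s x a b : ℝ) : ℂ) := by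
  rw [ptv_eq h, hw ⟨(s, x), h⟩ a b 0 (mem_ball_self one_pos)]
  simp [cpt]

/-- the elements of `XC` are compatible on the overlaps of the cells -/
theorem compat {W : MC T v k} (hW : W ∈ XC T v k 0) (i : CI T v) {y : E4} (hy : y ∈ B1)
    (h : cpt T i y ∈ T.cK v i.1.1) (a b : Fin 4) :
    (W a b).val i y = ptv v k i.1.1 (cpt T i y) (W a b) := by
  let φ : MC T v k →L[ℂ] ℂ := (Cel.evL i y - ptv v k i.1.1 (cpt T i y)) ∘L
    (ContinuousLinearMap.proj b ∘L ContinuousLinearMap.proj a)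
  have key : XC T v k 0 ≤ LinearMap.ker φ.toLinearMap := Submodule.span_le.2
    (closure_minimal (by
      rintro W ⟨w, -, hw⟩
      show (W a b).val i y - ptv v k i.1.1 (cpt T i y) (W a b) = 0
      rw [ptv_lf hw h, hw i a b y hy]
      simp) φ.isClosed_ker)
  exact sub_eq_zero.1 (key hW)

variable {u : T.V} {e : ℝ} {I : Set ℝ}

theorem pb (hI : IsOpen I) (he : 0 < e) (hK : ∀ x ∈ An I, e • x ∈ T.cK v (Sum.inr u))
    {W : MC T v k} (hW : W ∈ XC T v k 0) (a b : Fin 4) {x : E4} (hx : x ∈ An I) :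
    J.PB k (fun z => ptv v k (Sum.inr u) (e • z) (W a b)) x (32 ^ k * ‖W‖) := by
  have hn := norm_pos_iff.2 hx.1
  let i : CI T v := ⟨(Sum.inr u, e • x), hK x hx⟩
  have hc : ContinuousAt (fun z : E4 => (8 / ‖x‖) • (z - x)) x := by fun_prop
  have h0 : (8 / ‖x‖) • (x - x) = 0 := by simp
  have ev : (fun z => ptv v k (Sum.inr u) (e • z) (W a b)) =ᶠ[𝓝 x]
      fun z => (W a b).val i ((8 / ‖x‖) • (z - x)) := by
    filter_upwards [An_mem_nhds hI hx, hc.preimage_mem_nhds (t := B1)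
      (h0 ▸ ball_mem_nhds _ one_pos)] with z hz hz'
    have e1 : cpt T i ((8 / ‖x‖) • (z - x)) = e • z := by
      show e • x + (‖e • x‖ / 8) • (8 / ‖x‖) • (z - x) = _
      rw [smul_smul, norm_smul, Real.norm_of_nonneg he.le,
        show e * ‖x‖ / 8 * (8 / ‖x‖) = e by field_simp, smul_sub, add_sub_cancel]
    rw [compat hW i hz' (e1 ▸ hK z hz), e1]
  have hck := ((W a b).cka i).mono ((norm_le_pi_norm (W a) b).trans (norm_le_pi_norm W a))
  refine ⟨ContDiffAt.congr_of_eventuallyEq ?_ ev, fun j hj => ?_⟩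
  · exact ContDiffAt.comp (g := (W a b).val i) x (h0 ▸ ((W a b).contDiffOn i).contDiffAt
      (ball_mem_nhds _ one_pos)) (by fun_prop)
  · rw [(ev.iteratedFDeriv ℝ j).eq_of_nhds,
      iteratedFDeriv_comp_sub (f := fun z => (W a b).val i ((8 / ‖x‖) • z))]
    have h1 := norm_iter_smul ((W a b).val i) (c := 8 / ‖x‖) (by positivity) j (x - x)
    have h2 := ((hck.of_le hj).ho_iter isOpen_ball).bdd 0 (mem_ball_self one_pos)
    rw [h0] at h1
    calc _ ≤ ‖x‖ ^ j * ((8 / ‖x‖) ^ j * (((4 : ℕ) : ℝ) ^ j * ‖W‖)) := by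
          gcongr; exact h1.trans (by gcongr)
      _ = 32 ^ j * ‖W‖ := by
          rw [← mul_assoc, ← mul_assoc, ← mul_pow, ← mul_pow]
          congr 2; push_cast; field_simp; norm_num
      _ ≤ _ := by gcongr; norm_num

theorem ev_real (hI : IsOpen I) (hK : ∀ x ∈ An I, e • x ∈ T.cK v (Sum.inr u))
    {w : Fam T} {W : MC T v k} (hw : Lf T 0 w W) (a b : Fin 4) {x : E4} (hx : x ∈ An I) :
    (fun z => ptv v k (Sum.inr u) (e • z) (W a b)) =ᶠ[𝓝 x]
      cf (fun z => w (Sum.inr u) (e • z)) a b := by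
  filter_upwards [An_mem_nhds hI hx] with z hz using ptv_lf hw (hK z hz) a b

theorem inv (hT : T.Ok) (hK : ∀ x ∈ An I, e • x ∈ T.cK v (Sum.inr u)) {w : Fam T}
    (hw : SecN T v 8 w) : Inv (T.Γ u) 2 (An I) fun z => w (Sum.inr u) (e • z) := by
  have hU : ∀ x ∈ An I, e • x ∈ (T.core v).U (Sum.inr u) := fun x hx =>
    (hT.core_pou v).sub _ (hK x hx)
  have ho := hT.core_ok v
  refine ⟨fun a b => ((hw.sm _ a b).of_le (by norm_cast)).comp (by fun_prop) hU,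
    fun x hx => hw.symm _ _ (hU x hx), fun γ hγ x hx => ?_⟩
  have h1 := hw.compat (Sum.inr u) (Sum.inr u) (e • x) γ ⟨hU x hx, ho.inv (Sum.inr u) γ hγ _ (hU x hx),
    Eventually.of_forall fun z => γ.contDiff.contDiffAt, by
      filter_upwards [(ho.isOpen _).mem_nhds (hU x hx)] with z hz
      exact ((ho.fib _ z hz _ (ho.inv (Sum.inr u) γ hγ z hz)).2 ⟨γ, hγ, rfl⟩).symm⟩
  ext a b
  have h2 : w (Sum.inr u) (e • x) a b = pullM γ (w (Sum.inr u)) (e • x) a b := congrFun h1 ![a, b]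
  rw [h2, pullM_iso, pullM_iso, map_smul]

theorem b2 (hT : T.Ok) (hI : IsOpen I) (he : 0 < e)
    (hK : ∀ x ∈ An I, e • x ∈ T.cK v (Sum.inr u)) {w : Fam T} (hs : SecN T v 8 w) {W : MC T v 8}
    (hW : W ∈ XC T v 8 0) (hw : Lf T 0 w W) :
    B2 (An I) (32 ^ 8 * ‖W‖) fun z => w (Sum.inr u) (e • z) := by
  intro x hx j hj a b
  have h1 := (pb hI he hK hW a b hx).2 j (by omega)
  rw [((ev_real hI hK hw a b hx).iteratedFDeriv ℝ j).eq_of_nhds] at h1
  rwa [← Complex.ofRealLI.norm_iteratedFDeriv_comp_left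
    (((inv hT hK hs).sm a b).contDiffAt (An_mem_nhds hI hx)) (by exact_mod_cast hj)]

theorem amp (hA : ANA) : ∃ C : ℝ, 0 < C ∧ ∀ {M : Type*} {T : TD M} {v u : T.V} {e : ℝ} {I : Set ℝ},
    IsOpen I → 0 < e → (∀ x ∈ An I, e • x ∈ T.cK v (Sum.inr u)) → ∀ t ∈ I,
    ∃ (AQ AP : XC T v 8 0 →L[ℂ] DD) (c : XC T v 8 0 →L[ℂ] MtC), ‖AQ‖ ≤ C ∧ ‖AP‖ ≤ C ∧ ‖c‖ ≤ C ∧
      ∀ (W : XC T v 8 0) (w : Fam T), Lf T 0 w W.1 → ∀ a b,
        (∀ k, L.trD 1 (AQ W (a, b)) k = qm (cf (fun z => w (Sum.inr u) (e • z)) a b) k t) ∧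
        (∀ k, L.trD 1 (AP W (a, b)) k = pm (cf (fun z => w (Sum.inr u) (e • z)) a b) k t) ∧
        pm (cf (fun z => w (Sum.inr u) (e • z)) a b) 0 t = toH (c W a b • 1) := by
  obtain ⟨C, hC, h⟩ := hA
  refine ⟨C * 32 ^ 8, by positivity, fun {M T v u e I} hI he hK t ht => ?_⟩
  have hK0 : ((32 ^ 8 : ℝ) : ℂ) ≠ 0 := by norm_num
  have h1 := fun a b => h (XC T v 8 0) (fun W z => ptv v 8 (Sum.inr u) (e • z)
    ((((32 ^ 8 : ℝ) : ℂ)⁻¹ • W).1 a b)) t (fun W o => (pb hI he hK (Subtype.prop _) a b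
      (polar_mem_An ht o)).mono le_rfl (le_of_eq (by
        rw [Submodule.coe_norm, Submodule.coe_smul, norm_smul, norm_inv, Complex.norm_real,
          Real.norm_of_nonneg (by positivity), mul_inv_cancel_left₀ (by positivity)])))
    (fun W W' x _ => by rw [smul_add, ← map_add]; rfl)
    (fun c W x _ => by rw [smul_comm, ← smul_eq_mul c, ← map_smul]; rfl)
  choose AQ AP c hQ hP hc h1 using h1
  have nb : ∀ {Y : Type} [NormedAddCommGroup Y] [NormedSpace ℂ Y] (A : XC T v 8 0 →L[ℂ] Y),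
      ‖A‖ ≤ C → ∀ W, ‖A (((32 ^ 8 : ℝ) : ℂ) • W)‖ ≤ C * 32 ^ 8 * ‖W‖ := fun A hA W => by
    refine (A.le_of_opNorm_le hA _).trans (le_of_eq ?_)
    rw [norm_smul, Complex.norm_real, Real.norm_of_nonneg (by positivity), mul_assoc]
  let sc : XC T v 8 0 →L[ℂ] XC T v 8 0 := ((32 ^ 8 : ℝ) : ℂ) • ContinuousLinearMap.id ℂ _
  refine ⟨ContinuousLinearMap.pi fun p => AQ p.1 p.2 ∘L sc,
    ContinuousLinearMap.pi fun p => AP p.1 p.2 ∘L sc,
    ContinuousLinearMap.pi fun a => ContinuousLinearMap.pi fun b => c a b ∘L sc,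
    ContinuousLinearMap.opNorm_le_bound _ (by positivity) fun W =>
      (pi_norm_le_iff_of_nonneg (by positivity)).2 fun p => nb _ (hQ _ _) W,
    ContinuousLinearMap.opNorm_le_bound _ (by positivity) fun W =>
      (pi_norm_le_iff_of_nonneg (by positivity)).2 fun p => nb _ (hP _ _) W,
    ContinuousLinearMap.opNorm_le_bound _ (by positivity) fun W =>
      (pi_norm_le_iff_of_nonneg (by positivity)).2 fun a =>
        (pi_norm_le_iff_of_nonneg (by positivity)).2 fun b => nb _ (hc _ _) W,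
    fun W w hw a b => ?_⟩
  have h2 := h1 a b (((32 ^ 8 : ℝ) : ℂ) • W)
  have h3 := fun o : S3 => ev_real hI hK hw a b (polar_mem_An ht o)
  simp only [inv_smul_smul₀ hK0, pm_congr h3, qm_congr h3] at h2
  exact h2

theorem cK_out {T0 : ℝ} (h0 : 0 ≤ T0) {x : E4} (hx : x ∈ An (Ioo (1 / 2) (7 / 2))) :
    Real.exp (sgn T v v * T0) • x ∈ T.cK v (Sum.inr v) := by
  have h1 := Real.add_one_le_exp (T0 + Real.log ‖x‖)
  rw [Real.exp_add, Real.exp_log (norm_pos_iff.2 hx.1)] at h1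
  rw [TD.mem_cK_out, sgn, if_pos rfl, one_mul, norm_smul, Real.norm_eq_abs, Real.abs_exp]
  linarith [hx.2.1]

theorem cK_inn (hT : T.Ok) (hk : T.kid v u) {T0 : ℝ} (h0 : -Real.log (T.r / 2) ≤ T0) {x : E4}
    (hx : x ∈ An (Ioo (-(7 / 2)) (-(1 / 2)))) :
    Real.exp (sgn T v u * T0) • x ∈ T.cK v (Sum.inr u) := by
  have hn := norm_pos_iff.2 hx.1
  have hr := hT.r_pos
  have h1 : Real.exp (-T0 + Real.log ‖x‖) ≤ Real.exp (Real.log (T.r / 2)) :=
    Real.exp_le_exp.2 (by linarith [hx.2.2])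
  rw [Real.exp_add, Real.exp_log hn, Real.exp_log (by positivity)] at h1
  rw [TD.mem_cK_inn (hT.kid_ne hk), sgn, if_neg (hT.kid_ne hk), neg_one_mul, norm_smul,
    Real.norm_eq_abs, Real.abs_exp]
  exact ⟨hk, by positivity, by linarith⟩

theorem cf_add (h : MetricField 4) (c : Mt) (a b : Fin 4) :
    cf (fun x => h x + c) a b = fun x => cf h a b x + ((c a b : ℝ) : ℂ) := by
  funext x; simp [cf]

end Ax

open Ax in
theorem anx {M : Type*} (T : TD M) (hA : ANA) (hR : REG T) : ANX T := by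
  intro hT
  obtain ⟨C, hC, h⟩ := amp hA
  have hl : 0 ≤ -Real.log (T.r / 2) := by
    have := Real.log_nonpos (x := T.r / 2) (by linarith [hT.r_pos]) (by linarith [hT.r_lt])
    linarith
  have hb : ∀ {S : Set E4} {h : MetricField 4} {N : ℝ}, 0 ≤ N → B2 S (32 ^ 8 * N) h →
      B2 S ((C + 32 ^ 8) * N) h := fun hN hh x hx j hj a b =>
    (hh x hx j hj a b).trans (by gcongr; linarith)
  have hC' : C ≤ C + 32 ^ 8 := le_add_of_nonneg_right (by positivity)
  refine ⟨C + 32 ^ 8, -Real.log (T.r / 2), by positivity, fun T0 h0 =>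
    ⟨fun v => ?_, fun v u hk => ?_⟩⟩
  · have hK := fun x => cK_out (T := T) (v := v) (hl.trans h0) (x := x)
    obtain ⟨A, _, _, h1, -, -, h2⟩ := h isOpen_Ioo (Real.exp_pos _) hK 1 (by norm_num)
    exact ⟨A, h1.trans hC', fun W w hs hw => ⟨fun a b => (h2 W w hw a b).1, inv hT hK hs,
      hb (norm_nonneg _) (b2 hT isOpen_Ioo (Real.exp_pos _) hK hs W.2 hw)⟩⟩
  · have hK := fun x => cK_inn hT hk h0 (x := x)
    have m1 : (-1 : ℝ) ∈ Ioo (-(7 / 2) : ℝ) (-(1 / 2)) := by norm_num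
    have m3 : (-3 : ℝ) ∈ Ioo (-(7 / 2) : ℝ) (-(1 / 2)) := by norm_num
    obtain ⟨_, A, _, -, h1, -, h2⟩ := h isOpen_Ioo (Real.exp_pos _) hK (-1) m1
    obtain ⟨_, _, c, -, -, h3, h4⟩ := h isOpen_Ioo (Real.exp_pos _) hK (-3) m3
    have cd : ∀ w, SecN T v 8 w → ∀ a b, ∀ t ∈ Ioo (-(7 / 2) : ℝ) (-(1 / 2)), ∀ o : S3,
        ContDiffAt ℝ (1 : ℕ) (fun x => unit T v u T0 w x a b) (Real.exp t • (o : E4)) :=
      fun w hs a b t ht o => (((inv hT hK hs).sm a b).contDiffAt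
        (An_mem_nhds isOpen_Ioo (polar_mem_An ht o))).of_le (by norm_cast)
    have ct : ∀ w, SecN T v 8 w → ∀ a b, ∀ t ∈ Ioo (-(7 / 2) : ℝ) (-(1 / 2)), ∀ o : S3,
        ContinuousAt (cf (unit T v u T0 w) a b) (Real.exp t • (o : E4)) :=
      fun w hs a b t ht o => (cda_ofReal (cd w hs a b t ht o)).continuousAt
    have key : ∀ (W : XC T v 8 0) w, SecN T v 8 w → Lf T 0 w W.1 → ∃ c' : Mt, Adm T u c' ∧
        c W = cm c' ∧ ∀ a b, pm (cf (unit T v u T0 w) a b) 0 (-3) = toH (cm c' a b • 1) := by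
      intro W w hs hw
      have h5 := mn_inv isOpen_Ioo m3 (inv hT hK hs)
      have h6 := fun a b => pm_zero_eq (cd w hs a b _ m3)
      exact ⟨_, ⟨h5.1, h5.2, fun hu => absurd hu hk.1⟩, funext₂ fun a b =>
        toH_const_inj ((h4 W w hw a b).2.2.symm.trans (h6 a b)), h6⟩
    have hS : ∀ W : XC T v 8 0, c W ∈ SC T u := fun ⟨W, hW⟩ => by
      induction hW using Submodule.span_induction with
      | mem W hW =>
        obtain ⟨w, hs, hw⟩ := (hR hT v 8).1 W hW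
        obtain ⟨c', h5, h6, -⟩ := key ⟨W, Submodule.subset_span hW⟩ w hs hw
        exact h6 ▸ Submodule.subset_span ⟨c', h5, rfl⟩
      | zero => exact map_zero c ▸ zero_mem _
      | add W W' hW hW' i1 i2 => exact map_add c ⟨W, hW⟩ ⟨W', hW'⟩ ▸ add_mem i1 i2
      | smul a W hW i1 => exact map_smul c a ⟨W, hW⟩ ▸ Submodule.smul_mem _ a i1
    refine ⟨A, c.codRestrict _ hS, h1.trans hC', ContinuousLinearMap.opNorm_le_bound _
      (by positivity) fun W => c.le_of_opNorm_le (h3.trans hC') W, fun W w hs hw =>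
      ⟨inv hT hK hs, hb (norm_nonneg _) (b2 hT isOpen_Ioo (Real.exp_pos _) hK hs W.2 hw), ?_⟩⟩
    obtain ⟨c', h5, h6, h7⟩ := key W w hs hw
    refine ⟨c', h5, h6, fun a b => ?_, fun c'' => ⟨fun a b k hk => ?_, fun a b k => ?_⟩⟩
    · simp only [sub_eq_add_neg]
      rw [cf_add, pm_add_const_zero (ct w hs a b _ m3), h7]
      simp [cm]
    · rw [cf_add, pm_add_const (ct w hs a b _ m1) _ hk]
      exact (h2 W w hw a b).2.1 k
    · rw [cf_add, qm_add_const (ct w hs a b _ m3)]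

end Crest.Agent.N207.CB

end
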