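import Crest.Agent.N207.CB.Lf2
import Crest.Agent.N207.I.Lim1
import Crest.Agent.N207.I.Car3
import Crest.Agent.N346.Mat

/-!
# Row 207, LIFT (helper17): the limit metric on the cells, and `lift : LIFT T`
-/

set_option autoImplicit false

open scoped ContDiff
open Metric Set Filter Topology
open Crest.GeometryTopology.CoordMetric
open Crest.Agent.NLib.Ell Crest.Agent.N207.I Crest.Agent.N207.Lg Crest.Agent.N207.Jt
open Crest.Agent.R202.Tens

noncomputable section

namespace Crest.Agent.N207.CB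

variable {M : Type*} {T : TD M} {v : T.V} {g : T.V → Fam T} {γ : ℝ}

theorem cell_norm (x : E4) {y : E4} (hy : y ∈ B1) :
    7 / 8 * ‖x‖ ≤ ‖x + (‖x‖ / 8) • y‖ ∧ ‖x + (‖x‖ / 8) • y‖ ≤ 9 / 8 * ‖x‖ := by
  have h1 : ‖(‖x‖ / 8) • y‖ ≤ ‖x‖ / 8 := by
    rw [norm_smul, Real.norm_of_nonneg (by positivity)]
    exact mul_le_of_le_one_right (by positivity) (mem_ball_zero_iff.1 hy).le
  have h2 := norm_add_le x ((‖x‖ / 8) • y)
  have h3 := norm_sub_le (x + (‖x‖ / 8) • y) ((‖x‖ / 8) • y)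
  rw [add_sub_cancel_right] at h3
  constructor <;> linarith

theorem cell_ball {x y : E4} (hx : ‖x‖ ≤ 3 / 2) (hy : y ∈ B1) :
    ‖x + (1 / 8 : ℝ) • y‖ ≤ 13 / 8 := by
  have h2 := norm_add_le x ((1 / 8 : ℝ) • y)
  rw [norm_smul, Real.norm_of_nonneg (by norm_num)] at h2
  have := mem_ball_zero_iff.1 hy
  linarith

theorem rad_pos1 {s : T.S} {x : E4} (hx : x ∈ T.cK v s) : 0 < rad T s x := by
  rcases s with a | w
  · show (0 : ℝ) < 1 / 8
    norm_num
  · show 0 < ‖x‖ / 8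
    by_cases hw : w = v
    · subst hw
      have := TD.mem_cK_out.1 hx
      linarith
    · have := ((TD.mem_cK_inn hw).1 hx).2.1
      linarith

theorem cell_mem {s : T.S} {x y : E4} (hx : x ∈ T.cK v s) (hy : y ∈ B1) :
    x + rad T s x • y ∈ (T.core v).U s := by
  rcases s with a | w
  · obtain ⟨h1, h2⟩ := TD.mem_cK_inl.1 hx
    exact TD.mem_core_inl.2 ⟨h1, (cell_ball h2 hy).trans_lt (by norm_num)⟩
  · obtain ⟨h1, h2⟩ := cell_norm x hy
    by_cases hw : w = v
    · subst hw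
      have := TD.mem_cK_out.1 hx
      exact TD.mem_core_out.2 (lt_of_lt_of_le (by linarith) h1)
    · obtain ⟨h3, h4, h5⟩ := (TD.mem_cK_inn hw).1 hx
      exact (TD.mem_core_inn hw).2 ⟨h3, lt_of_lt_of_le (by linarith) h1,
        lt_of_le_of_lt h2 (by linarith)⟩

theorem rad_pos (i : CI T v) : 0 < rad T i.1.1 i.1.2 := rad_pos1 i.2

theorem cpt_mem (i : CI T v) {y : E4} (hy : y ∈ B1) : cpt T i y ∈ (T.core v).U i.1.1 :=
  cell_mem i.2 hy

theorem lim_sm (hg : T.Lim g γ) {s : T.S} {x : E4} (hx : x ∈ (T.core v).U s) (a b : Fin 4) :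
    ContDiffAt ℝ ∞ (TD.dv (g v s) a b) x :=
  (((((hg.met v).riem s).contDiffOn a b).contDiffAt
    (((hg.met v).riem s).isOpen.mem_nhds hx))).sub contDiffAt_const

theorem end_bd {t u C e : ℝ} {j : ℕ} (ht : 0 < t) (h1 : 7 / 8 * t ≤ u) (he : u ^ e ≤ 1) {A : ℝ}
    (hA : A ≤ C * u ^ (e - j)) : (t / 8) ^ j * A ≤ |C| := by
  have hu : 0 < u := lt_of_lt_of_le (by positivity) h1
  have h2 : (t / 8) ^ j ≤ u ^ j := pow_le_pow_left₀ (by positivity) (by linarith) j
  have h3 : A ≤ |C| * (u ^ j)⁻¹ := by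
    refine hA.trans ?_
    rw [Real.rpow_sub hu, Real.rpow_natCast, div_eq_mul_inv]
    have : u ^ e * (u ^ j)⁻¹ ≤ (u ^ j)⁻¹ := mul_le_of_le_one_left (by positivity) he
    exact (mul_le_mul_of_nonneg_right (le_abs_self C) (by positivity)).trans
      (mul_le_mul_of_nonneg_left this (abs_nonneg C))
  calc (t / 8) ^ j * A ≤ (t / 8) ^ j * (|C| * (u ^ j)⁻¹) := by gcongr
    _ ≤ u ^ j * (|C| * (u ^ j)⁻¹) := by gcongr
    _ = |C| := by field_simp

/-- scale invariant jets of the limit metric on the cells -/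
theorem lim_jet (h : T.Ok) (hγ : 0 < γ) (hg : T.Lim g γ) (v : T.V) (s : T.S) (j : ℕ)
    (a b : Fin 4) : ∃ N : ℝ, ∀ x ∈ T.cK v s, ∀ y ∈ B1, rad T s x ^ j *
      ‖iteratedFDeriv ℝ j (TD.dv (g v s) a b) (x + rad T s x • y)‖ ≤ N := by
  rcases s with c | w
  · by_cases hc : T.vx c = v
    · obtain ⟨N, hN⟩ := (isCompact_closedBall (0 : E4) (13 / 8)).exists_bound_of_continuousOn
        (f := iteratedFDeriv ℝ j (TD.dv (g v (Sum.inl c)) a b)) fun z hz =>
          ((lim_sm hg (TD.mem_core_inl.2 ⟨hc, (mem_closedBall_zero_iff.1 hz).trans_lt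
            (by norm_num)⟩) a b).continuousAt_iteratedFDeriv (kle j)).continuousWithinAt
      refine ⟨N, fun x hx y hy => ?_⟩
      refine (mul_le_of_le_one_left (norm_nonneg _) ?_).trans
        (hN _ (mem_closedBall_zero_iff.2 (cell_ball (TD.mem_cK_inl.1 hx).2 hy)))
      exact pow_le_one₀ (rad_pos1 hx).le (show (1 / 8 : ℝ) ≤ 1 by norm_num)
    · exact ⟨0, fun x hx => absurd (TD.mem_cK_inl.1 hx).1 hc⟩
  · by_cases hw : w = v
    · subst hw
      obtain ⟨C, hC⟩ := hg.out w j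
      refine ⟨|C|, fun x hx y hy => ?_⟩
      have h1 := TD.mem_cK_out.1 hx
      have h2 := TD.mem_core_out.1 (cell_mem hx hy)
      exact end_bd (by linarith) (cell_norm x hy).1
        (Real.rpow_le_one_of_one_le_of_nonpos h2.le (by linarith)) (hC a b _ h2)
    · by_cases hk : T.kid v w
      · obtain ⟨C, hC⟩ := hg.inn w hk.1 j
        refine ⟨|C|, fun x hx y hy => ?_⟩
        have h1 := ((TD.mem_cK_inn hw).1 hx).2.1
        obtain ⟨-, h2, h3⟩ := (TD.mem_core_inn hw).1 (cell_mem hx hy)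
        rw [hk.2] at hC
        exact end_bd h1 (cell_norm x hy).1
          (Real.rpow_le_one h2.le (h3.trans h.r_lt).le hγ.le) (hC a b _ h2 h3)
      · exact ⟨0, fun x hx => absurd ((TD.mem_cK_inn hw).1 hx).1 hk⟩

/-- `CKA` on a cell from scale invariant jets -/
theorem cka_cellR {f : E4 → ℝ} {x : E4} {r N : ℝ} {k : ℕ} (hr : 0 < r)
    (hs : ∀ y ∈ B1, ContDiffAt ℝ ∞ f (x + r • y))
    (hb : ∀ j ≤ k + 1, ∀ y ∈ B1, r ^ j * ‖iteratedFDeriv ℝ j f (x + r • y)‖ ≤ N) :
    CKA (1 / 2) B1 k (2 * N) fun y => f (x + r • y) := by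
  refine CKA.of_bounds isOpen_ball (convex_ball _ _) (by norm_num) (by norm_num)
    (fun y hy => (((hs y hy).of_le (kle _)).comp y (by fun_prop)).contDiffWithinAt)
    fun j hj y hy => ?_
  refine (norm_iter_smul (fun z => f (x + z)) hr j y).trans ?_
  rw [iteratedFDeriv_comp_add_left]
  exact hb j hj y hy

theorem lim_cka (h : T.Ok) (hγ : 0 < γ) (hg : T.Lim g γ) (v : T.V) (k : ℕ) :
    ∃ N : ℝ, 0 ≤ N ∧ ∀ (i : CI T v) a b,
      CKA (1 / 2) B1 k N fun y => g v i.1.1 (cpt T i y) a b := by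
  choose N hN using lim_jet h hγ hg v
  obtain ⟨N0, hN0⟩ := Finite.exists_le fun q : T.S × Fin (k + 2) × Fin 4 × Fin 4 =>
    N q.1 q.2.1 q.2.2.1 q.2.2.2
  refine ⟨2 * max N0 0 + 1, by positivity, fun i a b => ?_⟩
  have h1 := cka_cellR (k := k) (N := max N0 0) (rad_pos i)
    (fun y hy => lim_sm hg (cell_mem i.2 hy) a b) fun j hj y hy =>
      ((hN _ j a b _ i.2 y hy).trans (hN0 (i.1.1, ⟨j, by omega⟩, a, b))).trans (le_max_left _ _)
  have h2 : ‖(1 : Mt) a b‖ ≤ 1 := by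
    rw [Matrix.one_apply]
    split_ifs <;> simp
  exact ((h1.add isOpen_ball (CKA.const ((1 : Mt) a b))).mono (by linarith)).congr isOpen_ball
    fun y _ => (sub_add_cancel _ _).symm

theorem lim_lift (h : T.Ok) (hγ : 0 < γ) (hg : T.Lim g γ) (v : T.V) (k : ℕ) :
    ∃ G0 : MC T v k, Lf T 0 (g v) G0 := by
  obtain ⟨N, h0, hN⟩ := lim_cka h hγ hg v k
  choose G0 hG using fun a b => exists_rp h0 fun i => hN i a b
  exact ⟨G0, fun i a b y hy => by rw [hG a b i y hy, pow_zero, one_mul]⟩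

theorem lim_pos (hg : T.Lim g γ) (v : T.V) :
    ∃ c : ℝ, 0 < c ∧ ∀ (i : CI T v), ∀ y ∈ B1, Pos c (g v i.1.1 (cpt T i y)) := by
  have key : ∀ s : T.S, ∃ c : ℝ, 0 < c ∧ ∀ x ∈ T.cK v s, ∀ y ∈ B1,
      Pos c (g v s (x + rad T s x • y)) := by
    have hs : ∀ s, ∀ z ∈ (T.core v).U s, ∀ p q, g v s z p q = g v s z q p := fun s z hz p q => by
      simpa using ((((hg.met v).riem s).posDef z hz).isHermitian.apply p q).symm
    rintro (c | w)
    · by_cases hc : T.vx c = v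
      · have hm : ∀ z ∈ closedBall (0 : E4) (13 / 8), z ∈ (T.core v).U (Sum.inl c) := fun z hz =>
          TD.mem_core_inl.2 ⟨hc, (mem_closedBall_zero_iff.1 hz).trans_lt (by norm_num)⟩
        obtain ⟨e, he, hp⟩ := pos_of_compact (isCompact_closedBall (0 : E4) (13 / 8))
          (A := g v (Sum.inl c))
          (fun a b => ((((hg.met v).riem _).contDiffOn a b).continuousOn).mono hm)
          fun z hz => ((hg.met v).riem _).posDef z (hm z hz)
        exact ⟨e, he, fun x hx y hy =>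
          hp _ (mem_closedBall_zero_iff.2 (cell_ball (TD.mem_cK_inl.1 hx).2 hy))⟩
      · exact ⟨1, one_pos, fun x hx => absurd (TD.mem_cK_inl.1 hx).1 hc⟩
    · refine ⟨1 / 2, by norm_num, fun x hx y hy => pos_of_small (hs _ _ (cell_mem hx hy))
        fun a b => ?_⟩
      by_cases hw : w = v
      · subst hw
        exact hg.small_out w a b _ (TD.mem_core_out.1 (cell_mem hx hy))
      · obtain ⟨hk, h2, h3⟩ := (TD.mem_core_inn hw).1 (cell_mem hx hy)
        have := hg.small_inn w hk.1 a b _ h2 h3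
        rwa [hk.2] at this
  choose c hc hp using key
  obtain ⟨e, he⟩ := Finite.exists_le fun s => (c s)⁻¹
  refine ⟨(max e 1)⁻¹, by positivity, fun i y hy => (hp _ _ i.2 y hy).mono ?_⟩
  exact inv_le_of_inv_le₀ (hc _) ((he _).trans (le_max_left _ _))

theorem pos_add {c δ : ℝ} {A B : Mt} (h : Pos c A) (hs : B.IsSymm) (hB : ∀ a b, |B a b| ≤ δ) :
    Pos (c - 16 * δ) (A + B) := by
  refine ⟨fun a b => by rw [Matrix.add_apply, Matrix.add_apply, h.1 a b, hs.apply a b],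
    fun w => ?_⟩
  have h1 := abs_bil_le hB w w
  have h2 : bil (A + B) w w = bil A w w + bil B w w := by
    simp only [bil_apply, Matrix.add_apply, add_mul, Finset.sum_add_distrib]
  have h3 := neg_abs_le (bil B w w)
  have h4 := h.2 w
  push_cast at h1
  nlinarith

theorem pos_det {c : ℝ} {A : Mt} (h : Pos c A) (hc : 0 < c) : c ^ 4 ≤ A.det := by
  refine N346.Bs.det_lower (h.posDef hc) hc.le fun w => ?_
  have := h.2 (WithLp.toLp 2 w)
  rw [EuclideanSpace.real_norm_sq_eq, bil_apply] at this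
  simpa only [N346.Bs.qb, pow_two] using this

section Op

variable {A : Type} [NormedCommRing A] [NormedAlgebra ℂ A]

variable (A) in
/-- multiply the entry `c d` by `q` and put it at the place `a b` -/
def entOp (a b c d : Fin 4) : A →L[ℂ] (Fin 4 → Fin 4 → A) →L[ℂ] (Fin 4 → Fin 4 → A) :=
  (ContinuousLinearMap.compL ℂ (Fin 4 → Fin 4 → A) A (Fin 4 → Fin 4 → A)
    ((ContinuousLinearMap.single ℂ (fun _ : Fin 4 => Fin 4 → A) a).comp
      (ContinuousLinearMap.single ℂ (fun _ : Fin 4 => A) b))).comp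
  (((ContinuousLinearMap.compL ℂ (Fin 4 → Fin 4 → A) A A).flip
    ((ContinuousLinearMap.proj (R := ℂ) (φ := fun _ : Fin 4 => A) d).comp
      (ContinuousLinearMap.proj (R := ℂ) (φ := fun _ : Fin 4 => Fin 4 → A) c))).comp
    (ContinuousLinearMap.mul ℂ A))

theorem entOp_apply (a b c d : Fin 4) (q : A) (Ψ : Fin 4 → Fin 4 → A) :
    entOp A a b c d q Ψ =
      (Pi.single a (Pi.single b (q * Ψ c d) : Fin 4 → A) : Fin 4 → Fin 4 → A) := rfl

theorem entOp_sum (Q : Fin 4 → Fin 4 → Fin 4 → Fin 4 → A) (Ψ : Fin 4 → Fin 4 → A) (a b : Fin 4) :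
    (∑ a, ∑ b, ∑ c, ∑ d, entOp A a b c d (Q a b c d)) Ψ a b = ∑ c, ∑ d, Q a b c d * Ψ c d := by
  simp only [sum_apply, entOp_apply, Finset.sum_apply]
  rw [Finset.sum_eq_single a, Finset.sum_eq_single b] <;> simp +contextual [Pi.single_apply, eq_comm]

end Op

variable (T) in
/-- the context of the lift -/
def lctx (v : T.V) (k : ℕ) :
    Ctx (MC T v k × MC T v k) (CI T v × MetricField 4 × MetricField 4) (CI T v) where
  z0 := 0
  ι := Prod.fst
  R z p := LfAt T p.1 0 p.2.1 z.1 ∧ LfAt T p.1 0 p.2.2 z.2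
  c i := i.1.2
  r i := rad T i.1.1 i.1.2
  hr i := (rad_pos i).ne'

theorem LfAt.abs_le {k : ℕ} {i : CI T v} {β : MetricField 4} {W : MC T v k} (h : LfAt T i 0 β W)
    {y : E4} (hy : y ∈ B1) (a b : Fin 4) : |β (cpt T i y) a b| ≤ ‖W‖ := by
  have := RpA.abs_le (h a b) hy
  rw [pow_zero, one_mul] at this
  exact this.trans ((norm_le_pi_norm (W a) b).trans (norm_le_pi_norm W a))

variable (T) in
/-- **LIFT** -/
theorem lift : LIFT T := by
  intro g γ hγ h hg v k
  obtain ⟨G0, hG0⟩ := lim_lift h hγ hg v (k + 2)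
  obtain ⟨c, hc, hp⟩ := lim_pos hg v
  let C := lctx T v (k + 2)
  have w0 : C.WM (k + 2) 0 fun p => g v p.1.1.1 := fun a b =>
    AL.of_analytic analyticAt_const fun _ p _ => hG0 p.1 a b
  let pr : Fin 4 → Fin 4 → MC T v (k + 2) →L[ℂ] Cel (CI T v) (k + 2) := fun a b =>
    (ContinuousLinearMap.proj (R := ℂ) (φ := fun _ : Fin 4 => Cel (CI T v) (k + 2)) b).comp
      (ContinuousLinearMap.proj (R := ℂ) (φ := fun _ : Fin 4 => Fin 4 → Cel (CI T v) (k + 2)) a)
  have w1 : C.WM (k + 2) 0 fun p => p.2.1 := fun a b =>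
    AL.of_analytic (((pr a b).analyticAt _).comp analyticAt_fst) fun _ _ hp => hp.1 a b
  have w2 : C.WM (k + 2) 0 fun p => p.2.2 := fun a b =>
    AL.of_analytic (((pr a b).analyticAt _).comp analyticAt_snd) fun _ _ hp => hp.2 a b
  have z0 : ∀ i : CI T v, LfAt T i 0 0 (0 : MC T v (k + 2)) := fun i a b y _ => by simp
  have n1 : C.ND fun p => g v p.1.1.1 + p.2.1 := ⟨c ^ 4, by positivity, fun i =>
    ⟨(i, 0, 0), rfl, ⟨z0 i, z0 i⟩, fun y hy => by
      simp only [add_zero]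
      exact pos_det (hp i y hy) hc⟩⟩
  have n2 : C.ND fun p => g v p.1.1.1 + p.2.1 + p.2.2 := ⟨c ^ 4, by positivity, fun i =>
    ⟨(i, 0, 0), rfl, ⟨z0 i, z0 i⟩, fun y hy => by
      simp only [add_zero]
      exact pos_det (hp i y hy) hc⟩⟩
  have wb := w0.add w1
  have wG := wb.add w2
  choose R hR eR using wb.red n1 wG n2
  obtain ⟨L, hL, eL⟩ := wb.fgf n1 wG n2
  choose Q hQ eQ using fun a b c d => wb.inc.inc.pst n1 wG.inc.inc n2 (Matrix.single c d 1) a b
  let Ps := fun z => ∑ a, ∑ b, ∑ c, ∑ d, entOp (Cel (CI T v) k) a b c d (Q a b c d z)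
  have hR' : AnalyticAt ℂ (fun z a b => R a b z) 0 := AnalyticAt.pi fun a => AnalyticAt.pi (hR a)
  have hP : AnalyticAt ℂ Ps 0 :=
    Finset.analyticAt_fun_sum _ fun a _ => Finset.analyticAt_fun_sum _ fun b _ =>
      Finset.analyticAt_fun_sum _ fun c _ => Finset.analyticAt_fun_sum _ fun d _ =>
        ((entOp (Cel (CI T v) k) a b c d).analyticAt _).comp (hQ a b c d)
  have hA : AnalyticAt ℂ (fun z => ((fun a b => R a b z), L z, Ps z)) 0 := hR'.prod (hL.prod hP)
  have h1 := hA.continuousAt.eventually (ball_mem_nhds _ one_pos)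
  have h2 : ∀ᶠ z in 𝓝 (0 : MC T v (k + 2) × MC T v (k + 2)), z ∈ ball 0 (c / 64) :=
    ball_mem_nhds _ (by positivity)
  obtain ⟨ε, hε, hb⟩ := Metric.eventually_nhds_iff_ball.1 ((hA.eventually_analyticAt.and
    (h1.and h2)).and ((eventually_all.2 fun a => eventually_all.2 (eR a)).and (eL.and
      (eventually_all.2 fun a => eventually_all.2 fun b => eventually_all.2 fun c =>
        eventually_all.2 (eQ a b c)))))
  have hd : DifferentiableOn ℂ (fun z => ((fun a b => R a b z), L z, Ps z)) (ball 0 ε) :=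
    fun z hz => (hb z hz).1.1.differentiableAt.differentiableWithinAt
  refine ⟨⟨ε, ‖((fun a b => R a b 0), L 0, Ps 0)‖ + 1, hε, fun z a b => R a b z, L, Ps, hd.fst,
    hd.snd.fst, hd.snd.snd, fun z hz => ?_, fun z hz i β η hβ hη hs => ?_⟩⟩
  · have := (norm_lt_of_mem_ball (hb z hz).1.2.1).le
    exact ⟨(norm_fst_le _).trans this, ((norm_fst_le _).trans (norm_snd_le _)).trans this,
      ((norm_snd_le _).trans (norm_snd_le _)).trans this⟩
  obtain ⟨⟨-, -, h3⟩, h4, h5, h6⟩ := hb z hz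
  have h7 := (mem_ball_zero_iff.1 h3).le
  refine ⟨fun y hy => ?_, fun a b => h4 a b (i, β, η) ⟨hβ, hη⟩, h5 (i, β, η) ⟨hβ, hη⟩,
    fun ψ Ψ hψ a b y hy => ?_⟩
  · have p1 := pos_add (hp i y hy) (hs y hy).1 fun a b =>
      (hβ.abs_le hy a b).trans ((norm_fst_le z).trans h7)
    have p2 := pos_add p1 (hs y hy).2 fun a b =>
      (hη.abs_le hy a b).trans ((norm_snd_le z).trans h7)
    exact ⟨p1.posDef (by linarith), p2.posDef (by linarith)⟩
  · have := RpA.sum Finset.univ (fun c _ => RpA.sum Finset.univ fun d _ =>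
      RpA.mul (h6 a b c d (i, β, η) ⟨hβ, hη⟩) (hψ c d)) y hy
    rw [entOp_sum]
    refine this.trans (congrArg _ ?_)
    beta_reduce
    rw [PsT_eq _ _ ψ, Finset.mul_sum]
    refine Finset.sum_congr rfl fun c _ => ?_
    rw [Finset.mul_sum]
    refine Finset.sum_congr rfl fun d _ => ?_
    rw [pow_zero, one_mul, mul_left_comm]
    rfl

end Crest.Agent.N207.CB

end
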