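import Crest.Agent.N207.CB.St3
import Crest.Agent.N207.CB.Lf3
import Crest.Agent.N207.Ga.Met1

/-!
# Row 207 (helper17): `bg0 : BG0 T`
-/

set_option autoImplicit false

open scoped ContDiff
open Metric Set Filter Topology
open Crest.GeometryTopology.CoordMetric
open Crest.Agent.NLib.Ell Crest.Agent.N207.I Crest.Agent.N207.Jt Crest.Agent.N207.Ga

noncomputable section

namespace Crest.Agent.N207.CB

variable {M : Type*} {T : TD M} {v : T.V} {g : T.V → Fam T} {γ : ℝ}

/-- a uniform cell bound gives a lift -/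
theorem lift_of_cka {k j : ℕ} {w : Fam T} {N : ℝ} (h0 : 0 ≤ N)
    (h : ∀ (i : CI T v) a b, CKA (1 / 2) B1 k N fun y =>
      rad T i.1.1 i.1.2 ^ j * w i.1.1 (cpt T i y) a b) :
    ∃ W : MC T v k, Lf T j w W ∧ ‖W‖ ≤ 2 ^ (k + 1) * N := by
  choose W hW using fun a b => exists_rp h0 fun i => h i a b
  exact ⟨W, fun i a b => hW a b i, (pi_norm_le_iff_of_nonneg (by positivity)).2 fun a =>
    (pi_norm_le_iff_of_nonneg (by positivity)).2 fun b => (hW a b).norm_le h0 fun i => h i a b⟩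

/-- scale invariant jets give cell bounds on the ends -/
theorem cka_of_sj {u : T.V} {x : E4} (hx : x ∈ T.cK v (Sum.inr u)) {f : E4 → ℝ} {C : ℕ → ℝ}
    (hC : ∀ j, 0 ≤ C j) {ϖ : ℝ} (hϖ : 0 ≤ ϖ) (k : ℕ)
    (h : ∀ z ∈ (T.core v).U (Sum.inr u), SJ C ϖ f z) :
    CKA (1 / 2) B1 k (2 * ((∑ j ∈ Finset.range (k + 2), C j) * ϖ)) fun y =>
      f (x + rad T (Sum.inr u) x • y) := by
  refine cka_cellR (rad_pos1 hx) (fun y hy => (h _ (cell_mem hx hy)).sm) fun j hj y hy => ?_
  have h1 : rad T (Sum.inr u) x ≤ ‖x + rad T (Sum.inr u) x • y‖ := by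
    have h2 := (cell_norm x hy).1
    have h3 := norm_nonneg x
    exact le_trans (show ‖x‖ / 8 ≤ 7 / 8 * ‖x‖ by linarith) h2
  calc _ ≤ ‖x + rad T (Sum.inr u) x • y‖ ^ j * _ :=
        mul_le_mul_of_nonneg_right (pow_le_pow_left₀ (rad_pos1 hx).le h1 j) (norm_nonneg _)
    _ ≤ C j * ϖ := by rw [mul_comm]; exact (h _ (cell_mem hx hy)).bd j
    _ ≤ _ := mul_le_mul_of_nonneg_right (Finset.single_le_sum (fun i _ => hC i)
        (Finset.mem_range.2 (by omega))) hϖ

theorem tau_cont {u : T.V} {T0 : ℝ} {x : E4} (hx : x ≠ 0) : ContinuousAt (tau T v u T0) x := by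
  have := (log_sm hx).continuousAt
  unfold tau
  split_ifs
  · exact this.sub continuousAt_const
  · exact this.neg.sub continuousAt_const

theorem ew_le {u : T.V} {T0 : ℝ} {x : E4} (hγ : 0 < γ) (hx : x ≠ 0) (h : 0 ≤ tau T v u T0 x) :
    ew γ v u x ≤ Real.exp (-(γ * T0)) := by
  have hn := norm_pos_iff.2 hx
  unfold tau at h
  unfold ew
  split_ifs at h ⊢ <;> rw [Real.rpow_def_of_pos hn, Real.exp_le_exp] <;> nlinarith

theorem SJ.sub' {C D : ℕ → ℝ} {ϖ : ℝ} {f f' : E4 → ℝ} {x : E4} (h : SJ C ϖ f x)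
    (h' : SJ D ϖ f' x) : SJ (fun j => C j + D j) ϖ (fun z => f z - f' z) x :=
  ⟨h.sm.sub h'.sm, fun k => by
    have e := iteratedFDeriv_sub_apply (h.sm.of_le (kle k)) (h'.sm.of_le (kle k))
    rw [show (fun z => f z - f' z) = f - f' from rfl, e, add_mul]
    refine (mul_le_mul_of_nonneg_right (norm_sub_le _ _) (by positivity)).trans ?_
    rw [add_mul]; exact add_le_add (h.bd k) (h'.bd k)⟩

variable (T) in
/-- **BG0** -/
theorem bg0 : BG0 T := by
  intro g γ hγ h hg k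
  obtain ⟨C, hC0, hC⟩ := gb_sj hg
  obtain ⟨D, hD0, hD⟩ := lim_sj hg
  have hE : ∀ j, 0 ≤ C j + D j := fun j => add_nonneg (hC0 j) (hD0 j)
  have hS : 0 ≤ ∑ j ∈ Finset.range (k + 2), (C j + D j) := Finset.sum_nonneg fun j _ => hE j
  refine ⟨2 ^ (k + 1) * (2 * ∑ j ∈ Finset.range (k + 2), (C j + D j)), 4 / T.r,
    fun v T0 hT => ⟨⟨?_, fun s x hx => ?_⟩, ?_⟩⟩
  · exact (Atl.Sec.met (gb_met h hg hT v)).sub (Atl.Sec.met (hg.met v))
  · exact Matrix.IsSymm.sub ((gb_riem hg s).posDef x hx).isHermitian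
      (((hg.met v).riem s).posDef x hx).isHermitian
  have he := (Real.exp_pos (-(γ * T0))).le
  obtain ⟨W, hW, hn⟩ := lift_of_cka (v := v) (k := k) (j := 0) (w := gb T g T0 v - g v)
    (N := 2 * ((∑ j ∈ Finset.range (k + 2), (C j + D j)) * Real.exp (-(γ * T0))))
    (by positivity) (by
      rintro ⟨⟨c | u, x⟩, hx⟩ a b
      · exact (CKA.zero.mono (by positivity)).congr isOpen_ball fun y _ => by simp [gb]
      · refine (cka_of_sj hx (f := fun z => TD.dv (gb T g T0 v (Sum.inr u)) a b z -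
          TD.dv (g v (Sum.inr u)) a b z) hE he k fun z hz => ?_).congr isOpen_ball
          fun y _ => by simp [TD.dv, cpt]
        by_cases ht : 0 ≤ tau T v u T0 z
        · exact (SJ.sub' (hC T0 v u z hz a b) (hD v u z hz a b)).mono fun j =>
            mul_le_mul_of_nonneg_left (ew_le hγ (core_ne hz) ht) (hE j)
        · refine (sj_const 0 (fun j => mul_nonneg (hE j) he)
            (by simpa using mul_nonneg (hE 0) he)).congr ?_
          filter_upwards [(tau_cont (core_ne hz)).eventually (gt_mem_nhds (not_le.1 ht))] with y hy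
          simp only [TD.dv, gb_eq hy.le, sub_self])
  exact ⟨W, hW, hn.trans (le_of_eq (by ring))⟩

end Crest.Agent.N207.CB

end
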