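import Crest.Agent.N207.CB.Cell

/-!
# Row 207, LIFT (helper17): the closure predicate

`RpA x i f`: on the cell `i` the element `x : Cel I k` has the real values `f`.  `AL z0 ι R k φ`: the operation
`φ` is the restriction to the real points (`R z p`) of a map analytic at `z0` with values in
`Cel I k`.  Closed under sums, products, partial derivatives, inverses and square roots.
-/

set_option autoImplicit false

open scoped ContDiff
open Metric Set Filter Topology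
open Crest.Agent.NLib.Ell

noncomputable section

namespace Crest.Agent.N207.CB

variable {I : Type} {k : ℕ}

/-- on the cell `i`, `x` has the real values `f` -/
def RpA (x : Cel I k) (i : I) (f : EE 4 → ℝ) : Prop := ∀ y ∈ B1, x.val i y = (f y : ℂ)

/-- `x` has the real values `f` on all cells -/
def Rp (x : Cel I k) (f : I → EE 4 → ℝ) : Prop := ∀ i, RpA x i (f i)

namespace RpA

variable {x x' : Cel I k} {i : I} {f f' : EE 4 → ℝ}

theorem congr (h : RpA x i f) (e : ∀ y ∈ B1, f' y = f y) : RpA x i f' := fun y hy => by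
  rw [e y hy, h y hy]

theorem re (h : RpA x i f) {y : EE 4} (hy : y ∈ B1) : f y = (x.val i y).re := by
  rw [h y hy, Complex.ofReal_re]

theorem cka (h : RpA x i f) : CKA (1 / 2) B1 k ‖x‖ f :=
  ((x.cka i).clm1 isOpen_ball Complex.reCLM Complex.reCLM_norm.le).congr isOpen_ball
    fun _ hy => h.re hy

theorem abs_le (h : RpA x i f) {y : EE 4} (hy : y ∈ B1) : |f y| ≤ ‖x‖ := h.cka.bdd hy

theorem add (h : RpA x i f) (h' : RpA x' i f') : RpA (x + x') i fun y => f y + f' y :=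
  fun y hy => by simp [h y hy, h' y hy]

theorem sub (h : RpA x i f) (h' : RpA x' i f') : RpA (x - x') i fun y => f y - f' y :=
  fun y hy => by simp [h y hy, h' y hy]

theorem neg (h : RpA x i f) : RpA (-x) i fun y => -f y := fun y hy => by simp [h y hy]

theorem mul (h : RpA x i f) (h' : RpA x' i f') : RpA (x * x') i fun y => f y * f' y :=
  fun y hy => by simp [Cel.val_mul, h y hy, h' y hy]

theorem smul (c : ℝ) (h : RpA x i f) : RpA ((c : ℂ) • x) i fun y => c * f y :=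
  fun y hy => by rw [Cel.val_smul]; simp [h y hy]

theorem zero : RpA (0 : Cel I k) i fun _ => 0 := fun y _ => by simp

theorem one : RpA (1 : Cel I k) i fun _ => 1 := fun y hy => by simp [Cel.val_one i hy]

theorem const (c : ℝ) : RpA ((c : ℂ) • (1 : Cel I k)) i fun _ => c :=
  (one.smul c).congr fun _ _ => (mul_one c).symm

theorem sum {ι : Type*} (s : Finset ι) {x : ι → Cel I k} {f : ι → EE 4 → ℝ}
    (h : ∀ a ∈ s, RpA (x a) i (f a)) : RpA (∑ a ∈ s, x a) i fun y => ∑ a ∈ s, f a y :=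
  fun y hy => by
    rw [Cel.val_sum, Complex.ofReal_sum]
    exact Finset.sum_congr rfl fun a ha => h a ha y hy

theorem inc {x : Cel I (k + 1)} (h : RpA x i f) : RpA (Cel.inc x) i f := fun y hy => by
  rw [Cel.val_inc, h y hy]

theorem D {x : Cel I (k + 1)} (h : RpA x i f) (a : Fin 4) :
    RpA (Cel.D a x) i fun y => fderiv ℝ f y (ei a) := fun y hy => by
  have e : x.val i =ᶠ[𝓝 y] Complex.ofRealCLM ∘ f :=
    Filter.mem_of_superset (isOpen_ball.mem_nhds hy) fun z hz => h z hz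
  rw [Cel.val_D a x i hy, e.fderiv_eq,
    (Complex.ofRealCLM.hasFDerivAt.comp y (h.cka.diffAt isOpen_ball hy).hasFDerivAt).fderiv]
  rfl

theorem inverse (h : RpA x i f) (hu : IsUnit x) : RpA (Ring.inverse x) i fun y => (f y)⁻¹ :=
  fun y hy => by
    have e : x.val i y * (Ring.inverse x).val i y = 1 := by
      rw [← Cel.val_mul, Ring.mul_inverse_cancel x hu, Cel.val_one i hy]
    rw [Complex.ofReal_inv, ← h y hy]
    exact eq_inv_of_mul_eq_one_right e

end RpA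

theorem Rp.uniq {x x' : Cel I k} {f : I → EE 4 → ℝ} (h : Rp x f) (h' : Rp x' f) : x = x' :=
  Cel.ext fun i y hy => (h i y hy).trans (h' i y hy).symm

theorem Rp.norm_le {x : Cel I k} {f : I → EE 4 → ℝ} (h : Rp x f) {M : ℝ} (h0 : 0 ≤ M)
    (hM : ∀ i, CKA (1 / 2) B1 k M (f i)) : ‖x‖ ≤ 2 ^ (k + 1) * M :=
  Cel.norm_le' h0 (fun i => (hM i).clm1 isOpen_ball Complex.ofRealCLM Complex.ofRealCLM_norm.le) h

/-- a uniformly bounded real family has a representative -/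
theorem exists_rp {f : I → EE 4 → ℝ} {M : ℝ} (h0 : 0 ≤ M) (hM : ∀ i, CKA (1 / 2) B1 k M (f i)) :
    ∃ x : Cel I k, Rp x f :=
  ⟨Cel.mk (fun i y => (f i y : ℂ)) ⟨M, h0, fun i =>
    (hM i).clm1 isOpen_ball Complex.ofRealCLM Complex.ofRealCLM_norm.le⟩,
    fun i _ hy => Cel.val_mk _ _ i hy⟩

/-- composition with a function smooth near a compact set containing the values -/
theorem Rp.comp {x : Cel I k} {f : I → EE 4 → ℝ} (h : Rp x f) {Φ : ℝ → ℝ} {W K : Set ℝ}
    (hW : IsOpen W) (hK : IsCompact K) (hKW : K ⊆ W) (hΦ : ContDiffOn ℝ ∞ Φ W)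
    (hf : ∀ i, ∀ y ∈ B1, f i y ∈ K) : ∃ x' : Cel I k, Rp x' fun i y => Φ (f i y) := by
  obtain ⟨C, hC⟩ := Crest.Agent.NLib.Ell.comp 4 k (1 / 2) ‖x‖ (by norm_num) (by norm_num) ℝ ℝ Φ W K hW hK hKW hΦ
  exact exists_rp (M := max C 0) (le_max_right _ _) fun i =>
    (hC B1 (f i) isOpen_ball (hf i) (h i).cka).mono (le_max_left _ _)

theorem Rp.isUnit {x : Cel I k} {f : I → EE 4 → ℝ} (h : Rp x f) {c : ℝ} (hc : 0 < c)
    (hf : ∀ i, ∀ y ∈ B1, c ≤ f i y) : IsUnit x := by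
  obtain ⟨x', h'⟩ := h.comp (Φ := fun t => t⁻¹) (W := Ioi 0) (K := Icc c ‖x‖) isOpen_Ioi
    isCompact_Icc (fun t ht => hc.trans_le ht.1) (contDiffOn_id.inv fun t ht => ne_of_gt ht)
    fun i y hy => ⟨hf i y hy, (le_abs_self _).trans ((h i).abs_le hy)⟩
  refine IsUnit.of_mul_eq_one x' (Rp.uniq (fun i => (h i).mul (h' i)) fun i =>
    RpA.one.congr fun y hy => ?_)
  exact mul_inv_cancel₀ (hc.trans_le (hf i y hy)).ne'

/-- analytic square root near the square of a unit -/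
theorem exists_sqroot {A : Type*} [NormedCommRing A] [NormedAlgebra ℂ A] [CompleteSpace A] {s : A}
    (hs : IsUnit s) : ∃ S : A → A, AnalyticAt ℂ S (s * s) ∧ S (s * s) = s ∧
      ∀ᶠ d in 𝓝 (s * s), S d * S d = d := by
  obtain ⟨u, rfl⟩ := hs
  let L : A ≃L[ℂ] A := ContinuousLinearEquiv.equivOfInverse
    ((2 : ℂ) • ContinuousLinearMap.mul ℂ A (u : A))
    ((2 : ℂ)⁻¹ • ContinuousLinearMap.mul ℂ A ((u⁻¹ : Aˣ) : A))
    (fun v => by simp [smul_smul]) (fun v => by simp [smul_smul])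
  have hd : HasFDerivAt (fun t : A => t * t) (L : A →L[ℂ] A) (u : A) := by
    refine ((hasFDerivAt_id (𝕜 := ℂ) (u : A)).mul' (hasFDerivAt_id (𝕜 := ℂ) (u : A))).congr_fderiv ?_
    ext v
    simp [L, two_smul, mul_comm]
  have hc : ContDiffAt ℂ ω (fun t : A => t * t) (u : A) := contDiffAt_id.mul contDiffAt_id
  exact ⟨hc.localInverse hd (by simp), (hc.to_localInverse hd (by simp)).analyticAt,
    hc.localInverse_apply_image hd (by simp),
    (hc.hasStrictFDerivAt' hd (by simp)).eventually_right_inverse⟩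

theorem eq_sqrt_of_sq {w : ℂ} {t : ℝ} (h : w * w = t) (hw : 0 < w.re) : w = Real.sqrt t := by
  have h1 := congrArg Complex.re h
  have h2 := congrArg Complex.im h
  simp only [Complex.mul_re, Complex.mul_im, Complex.ofReal_re, Complex.ofReal_im] at h1 h2
  have h3 : w.im = 0 := by
    have : w.re * (2 * w.im) = 0 := by linarith
    rcases mul_eq_zero.1 this with h | h
    · exact absurd h hw.ne'
    · linarith
  rw [h3, mul_zero, sub_zero] at h1
  rw [← h1, Real.sqrt_mul_self hw.le]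
  exact Complex.ext (by simp) (by simp [h3])

variable {X : Type*} [NormedAddCommGroup X] [NormedSpace ℂ X] {P : Type*}

/-- the real operation `φ` (the datum `p` lives on the cell `ι p`) lifts to a map analytic at
`z0` -/
def AL (z0 : X) (ι : P → I) (R : X → P → Prop) (k : ℕ) (φ : P → EE 4 → ℝ) : Prop :=
  ∃ Φ : X → Cel I k, AnalyticAt ℂ Φ z0 ∧ ∀ᶠ z in 𝓝 z0, ∀ p, R z p → RpA (Φ z) (ι p) (φ p)

namespace AL

variable {z0 : X} {ι : P → I} {R : X → P → Prop} {φ φ' : P → EE 4 → ℝ}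

theorem of_analytic {Φ : X → Cel I k} (hΦ : AnalyticAt ℂ Φ z0)
    (h : ∀ z p, R z p → RpA (Φ z) (ι p) (φ p)) : AL z0 ι R k φ := ⟨Φ, hΦ, Eventually.of_forall h⟩

theorem congr (h : AL z0 ι R k φ) (e : ∀ z p, R z p → ∀ y ∈ B1, φ' p y = φ p y) :
    AL z0 ι R k φ' := by
  obtain ⟨Φ, hΦ, h⟩ := h
  exact ⟨Φ, hΦ, h.mono fun z hz p hp => (hz p hp).congr (e z p hp)⟩

theorem of_rp {x : Cel I k} {f : I → EE 4 → ℝ} (h : Rp x f) : AL z0 ι R k fun p => f (ι p) :=
  of_analytic analyticAt_const fun _ p _ => h (ι p)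

theorem const (c : ℝ) : AL z0 ι R k fun _ _ => c :=
  of_analytic analyticAt_const fun _ _ _ => RpA.const c

theorem add (h : AL z0 ι R k φ) (h' : AL z0 ι R k φ') :
    AL z0 ι R k fun p y => φ p y + φ' p y := by
  obtain ⟨Φ, hΦ, h⟩ := h
  obtain ⟨Φ', hΦ', h'⟩ := h'
  exact ⟨fun z => Φ z + Φ' z, hΦ.add hΦ',
    (h.and h').mono fun z hz p hp => (hz.1 p hp).add (hz.2 p hp)⟩

theorem neg (h : AL z0 ι R k φ) : AL z0 ι R k fun p y => -φ p y := by
  obtain ⟨Φ, hΦ, h⟩ := h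
  exact ⟨fun z => -Φ z, hΦ.neg, h.mono fun z hz p hp => (hz p hp).neg⟩

theorem mul (h : AL z0 ι R k φ) (h' : AL z0 ι R k φ') :
    AL z0 ι R k fun p y => φ p y * φ' p y := by
  obtain ⟨Φ, hΦ, h⟩ := h
  obtain ⟨Φ', hΦ', h'⟩ := h'
  exact ⟨fun z => Φ z * Φ' z, hΦ.mul hΦ',
    (h.and h').mono fun z hz p hp => (hz.1 p hp).mul (hz.2 p hp)⟩

theorem inc (h : AL z0 ι R (k + 1) φ) : AL z0 ι R k φ := by
  obtain ⟨Φ, hΦ, h⟩ := h
  exact ⟨fun z => Cel.inc (Φ z), (Cel.inc.analyticAt _).comp hΦ,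
    h.mono fun z hz p hp => (hz p hp).inc⟩

theorem D (h : AL z0 ι R (k + 1) φ) (a : Fin 4) :
    AL z0 ι R k fun p y => fderiv ℝ (φ p) y (ei a) := by
  obtain ⟨Φ, hΦ, h⟩ := h
  exact ⟨fun z => Cel.D a (Φ z), ((Cel.D a).analyticAt _).comp hΦ,
    h.mono fun z hz p hp => (hz p hp).D a⟩

theorem inv (h : AL z0 ι R k φ) {c : ℝ} (hc : 0 < c)
    (h0 : ∀ i, ∃ p, ι p = i ∧ R z0 p ∧ ∀ y ∈ B1, c ≤ φ p y) :
    AL z0 ι R k fun p y => (φ p y)⁻¹ := by
  obtain ⟨Φ, hΦ, h⟩ := h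
  choose p0 e0 h0 hf using h0
  have r0 : Rp (Φ z0) fun i => φ (p0 i) := fun i => by
    have := h.self_of_nhds _ (h0 i)
    rwa [e0] at this
  obtain ⟨u, hu⟩ := r0.isUnit hc hf
  have hU : ∀ᶠ z in 𝓝 z0, IsUnit (Φ z) := hΦ.continuousAt.eventually (hu ▸ u.nhds)
  exact ⟨fun z => Ring.inverse (Φ z), (analyticAt_inverse u).comp_of_eq hΦ hu.symm,
    (h.and hU).mono fun z hz p hp => (hz.1 p hp).inverse hz.2⟩

theorem sqrt (h : AL z0 ι R k φ) {c : ℝ} (hc : 0 < c)
    (h0 : ∀ i, ∃ p, ι p = i ∧ R z0 p ∧ ∀ y ∈ B1, c ≤ φ p y) :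
    AL z0 ι R k fun p y => Real.sqrt (φ p y) := by
  obtain ⟨Φ, hΦ, h⟩ := h
  choose p0 e0 h0 hf using h0
  have r0 : Rp (Φ z0) fun i => φ (p0 i) := fun i => by
    have := h.self_of_nhds _ (h0 i)
    rwa [e0] at this
  obtain ⟨s, hs⟩ := r0.comp (Φ := Real.sqrt) (W := Ioi 0) (K := Icc c ‖Φ z0‖) isOpen_Ioi
    isCompact_Icc (fun t ht => hc.trans_le ht.1) (contDiffOn_id.sqrt fun t ht => ne_of_gt ht)
    fun i y hy => ⟨hf i y hy, (le_abs_self _).trans ((r0 i).abs_le hy)⟩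
  have hc' : 0 < Real.sqrt c := Real.sqrt_pos.2 hc
  have hf' : ∀ i, ∀ y ∈ B1, Real.sqrt c ≤ Real.sqrt (φ (p0 i) y) := fun i y hy =>
    Real.sqrt_le_sqrt (hf i y hy)
  have e : Φ z0 = s * s := r0.uniq fun i => ((hs i).mul (hs i)).congr fun y hy =>
    (Real.mul_self_sqrt (hc.le.trans (hf i y hy))).symm
  obtain ⟨S, hS, hS0, hSS⟩ := exists_sqroot (hs.isUnit hc' hf')
  have hA : AnalyticAt ℂ (fun z => S (Φ z)) z0 := hS.comp_of_eq hΦ e
  have h1 : ∀ᶠ z in 𝓝 z0, S (Φ z) * S (Φ z) = Φ z := hΦ.continuousAt.eventually (e ▸ hSS)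
  have h2 : ∀ᶠ z in 𝓝 z0, S (Φ z) ∈ ball (S (Φ z0)) (Real.sqrt c) :=
    hA.continuousAt.eventually (ball_mem_nhds _ hc')
  refine ⟨fun z => S (Φ z), hA, (h.and (h1.and h2)).mono fun z hz p hp y hy => ?_⟩
  refine eq_sqrt_of_sq (by rw [← Cel.val_mul, hz.2.1, hz.1 p hp y hy]) ?_
  have h3 := hz.2.2
  rw [e, hS0, mem_ball_iff_norm] at h3
  have h4 := ((S (Φ z) - s).norm_val_le (ι p) y).trans_lt h3
  have h5 := (Complex.abs_re_le_norm _).trans_lt h4
  rw [Cel.val_sub, Pi.sub_apply, Pi.sub_apply, Complex.sub_re, hs _ y hy, Complex.ofReal_re] at h5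
  have := hf' (ι p) y hy
  have := (abs_lt.1 h5).1
  linarith

end AL

/-- the context of a lift: base point, real points, centres and radii of the cells -/
structure Ctx (X P : Type*) (I : Type) where
  z0 : X
  ι : P → I
  R : X → P → Prop
  c : I → EE 4
  r : I → ℝ
  hr : ∀ i, r i ≠ 0

namespace Ctx

variable (C : Ctx X P I)

/-- the point with cell coordinate `y` -/
def pt (p : P) (y : EE 4) : EE 4 := C.c (C.ι p) + C.r (C.ι p) • y

/-- `r^j φ` lifts -/
def W (k j : ℕ) (φ : P → EE 4 → ℝ) : Prop :=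
  AL C.z0 C.ι C.R k fun p y => C.r (C.ι p) ^ j * φ p (C.pt p y)

/-- bounded below at the base point -/
def Lo (φ : P → EE 4 → ℝ) : Prop :=
  ∃ c : ℝ, 0 < c ∧ ∀ i, ∃ p, C.ι p = i ∧ C.R C.z0 p ∧ ∀ y ∈ B1, c ≤ φ p (C.pt p y)

variable {C} {j j' : ℕ} {φ φ' : P → EE 4 → ℝ}

theorem W.congr (h : C.W k j φ) (e : ∀ p x, φ' p x = φ p x) : C.W k j φ' :=
  AL.congr h fun _ p _ _ _ => by rw [e]

theorem W.const (c : ℝ) : C.W k 0 fun _ _ => c := (AL.const c).congr fun _ _ _ _ _ => by simp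

theorem W.zero : C.W k j fun _ _ => 0 := (AL.const 0).congr fun _ _ _ _ _ => by simp

theorem W.add (h : C.W k j φ) (h' : C.W k j φ') : C.W k j fun p x => φ p x + φ' p x :=
  (AL.add h h').congr fun _ _ _ _ _ => by ring

theorem W.neg (h : C.W k j φ) : C.W k j fun p x => -φ p x :=
  (AL.neg h).congr fun _ _ _ _ _ => by ring

theorem W.sub (h : C.W k j φ) (h' : C.W k j φ') : C.W k j fun p x => φ p x - φ' p x :=
  (h.add h'.neg).congr fun _ _ => sub_eq_add_neg _ _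

theorem W.mul {l : ℕ} (h : C.W k j φ) (h' : C.W k j' φ') (e : j + j' = l) :
    C.W k l fun p x => φ p x * φ' p x :=
  (AL.mul h h').congr fun _ _ _ _ _ => by rw [← e]; ring

theorem W.mul0 (h : C.W k 0 φ) (h' : C.W k j φ') : C.W k j fun p x => φ p x * φ' p x :=
  h.mul h' (zero_add j)

theorem W.mul0' (h : C.W k j φ) (h' : C.W k 0 φ') : C.W k j fun p x => φ p x * φ' p x :=
  h.mul h' (add_zero j)

theorem W.cmul (c : ℝ) (h : C.W k j φ) : C.W k j fun p x => c * φ p x := (W.const c).mul0 h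

theorem W.sum {ι : Type*} (s : Finset ι) {φ : ι → P → EE 4 → ℝ} (h : ∀ a ∈ s, C.W k j (φ a)) :
    C.W k j fun p x => ∑ a ∈ s, φ a p x := by
  classical
  induction s using Finset.induction_on with
  | empty => simpa using W.zero
  | insert a s ha ih =>
    simp only [Finset.sum_insert ha]
    exact (h a (Finset.mem_insert_self _ _)).add
      (ih fun b hb => h b (Finset.mem_insert_of_mem hb))

theorem W.sumU {ι : Type*} [Fintype ι] {φ : ι → P → EE 4 → ℝ} (h : ∀ a, C.W k j (φ a)) :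
    C.W k j fun p x => ∑ a, φ a p x := W.sum _ fun a _ => h a

theorem W.prod {ι : Type*} (s : Finset ι) {φ : ι → P → EE 4 → ℝ} (h : ∀ a ∈ s, C.W k 0 (φ a)) :
    C.W k 0 fun p x => ∏ a ∈ s, φ a p x := by
  classical
  induction s using Finset.induction_on with
  | empty => simpa using W.const 1
  | insert a s ha ih =>
    simp only [Finset.prod_insert ha]
    exact (h a (Finset.mem_insert_self _ _)).mul0
      (ih fun b hb => h b (Finset.mem_insert_of_mem hb))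

theorem W.inc (h : C.W (k + 1) j φ) : C.W k j φ := AL.inc h

theorem fderiv_aff (f : EE 4 → ℝ) (c y v : EE 4) {r : ℝ} (hr : r ≠ 0) (j : ℕ) :
    fderiv ℝ (fun y => r ^ j * f (c + r • y)) y v = r ^ (j + 1) * fderiv ℝ f (c + r • y) v := by
  by_cases hd : DifferentiableAt ℝ f (c + r • y)
  · have h1 : HasFDerivAt (fun y : EE 4 => c + r • y) (r • ContinuousLinearMap.id ℝ (EE 4)) y :=
      ((hasFDerivAt_id y).const_smul r).const_add c
    have h2 := ((hd.hasFDerivAt.comp y h1).const_mul (r ^ j)).fderiv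
    simp only [Function.comp_def] at h2
    rw [h2]
    simp [pow_succ, mul_assoc]
  · rw [fderiv_zero_of_not_differentiableAt hd, fderiv_zero_of_not_differentiableAt]
    · simp
    intro h
    refine hd ?_
    have e : y = r⁻¹ • (c + r • y - c) := by simp [smul_smul, hr]
    have h2 : DifferentiableAt ℝ (fun x : EE 4 => r⁻¹ • (x - c)) (c + r • y) := by fun_prop
    have h3 := ((e ▸ h :
      DifferentiableAt ℝ (fun y => r ^ j * f (c + r • y)) (r⁻¹ • (c + r • y - c))).comp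
        (c + r • y) h2).const_mul (r ^ j)⁻¹
    refine h3.congr_of_eventuallyEq (Eventually.of_forall fun x => ?_)
    simp [smul_smul, hr]

theorem W.D (h : C.W (k + 1) j φ) (a : Fin 4) :
    C.W k (j + 1) fun p x => fderiv ℝ (φ p) x (ei a) :=
  (AL.D h a).congr fun _ p _ y _ => (fderiv_aff (φ p) _ y _ (C.hr _) j).symm

theorem W.inv (h : C.W k 0 φ) (hl : C.Lo φ) : C.W k 0 fun p x => (φ p x)⁻¹ := by
  obtain ⟨c, hc, hl⟩ := hl
  exact (AL.inv h hc (by simpa using hl)).congr fun _ _ _ _ _ => by simp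

theorem W.sqrt (h : C.W k 0 φ) (hl : C.Lo φ) : C.W k 0 fun p x => Real.sqrt (φ p x) := by
  obtain ⟨c, hc, hl⟩ := hl
  exact (AL.sqrt h hc (by simpa using hl)).congr fun _ _ _ _ _ => by simp

omit [NormedAddCommGroup X] [NormedSpace ℂ X] in
theorem Lo.sqrt (hl : C.Lo φ) : C.Lo fun p x => Real.sqrt (φ p x) := by
  obtain ⟨c, hc, hl⟩ := hl
  refine ⟨Real.sqrt c, Real.sqrt_pos.2 hc, fun i => ?_⟩
  obtain ⟨p, e, hp, h⟩ := hl i
  exact ⟨p, e, hp, fun y hy => Real.sqrt_le_sqrt (h y hy)⟩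

end Ctx

end Crest.Agent.N207.CB

end
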