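import Crest.Agent.N207.CB.St3
import Crest.Agent.N207.Lg.Flat
import Crest.Agent.N207.AI.Nat

/-!
# Row 207, block L, leaf GLU (helper21), part 1: pointwise tools
-/

set_option autoImplicit false

open scoped ContDiff
open Metric Set Filter Topology MeasureTheory
open Crest.GeometryTopology.CoordMetric Crest.Agent.R202.Tens
open Crest.Agent.N207.I Crest.Agent.N207.Lg Crest.Agent.N207.J

noncomputable section

namespace Crest.Agent.N207.CB.Gl

/-! ### dilations -/

section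
variable (H G : MetricField 4) (t : ℝ) (y : E4)

theorem pd_dil (f : E4 → ℝ) (c : Fin 4) :
    pderiv c (fun z => f (t • z)) y = t * pderiv c f (t • y) := by
  simp only [pderiv]; rw [fderiv_comp_smul]; rfl

theorem jet_dil : jet (fun z => G (t • z)) y = t • jet G (t • y) := by
  funext c a b; exact pd_dil t y (fun z => G z a b) c

theorem chr_dil : christoffel (fun z => G (t • z)) y = t • christoffel G (t • y) := by
  rw [chr_eq, chr_eq, jet_dil, chr_smul]; rfl

theorem ricci_dil : ricci (fun z => G (t • z)) y = t ^ 2 • ricci G (t • y) := by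
  funext i j
  simp only [ricci, chr_dil, Pi.smul_apply, smul_eq_mul, ← Finset.mul_sum, pd_cmul,
    fun k => pd_dil t y fun z => christoffel G z k i j,
    pd_dil t y fun z => ∑ k, christoffel G z k k i, mul_mul_mul_comm t _ t]
  ring

theorem TG_dil : TG (fun z => H (t • z)) (fun z => G (t • z)) y = t • TG H G (t • y) := by
  rw [TG_eq, TG_eq, jet_dil, chr_dil]; exact bar_hom _ _ _ _

theorem gauT_dil : gauT (fun z => H (t • z)) (fun z => G (t • z)) =
    fun y I => t * gauT H G (t • y) I := by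
  funext y I
  simp only [gauT, TG_dil, gv_smul']; rfl

theorem cov_dil (B : Tn 4 1) (J : Fin 2 → Fin 4) :
    cov (fun z => H (t • z)) (fun y I => t * B (t • y) I) y J = t ^ 2 * cov H B (t • y) J := by
  simp only [cov, chr_dil, Pi.smul_apply, smul_eq_mul, pd_cmul,
    pd_dil t y fun z => B z (Fin.tail J), mul_mul_mul_comm t _ t, ← Finset.mul_sum]
  ring

theorem redT_dil : redT (fun z => H (t • z)) (fun z => G (t • z)) y = t ^ 2 • redT H G (t • y) := by
  funext I
  simp only [redT, gauT_dil, cov_dil, ricci_dil, Pi.smul_apply, smul_eq_mul]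
  ring

theorem fgfF_dil :
    fgfF (fun z => H (t • z)) (fun z => G (t • z)) y = t ^ 2 * fgfF H G (t • y) := by
  simp only [fgfF, TG_dil, ricci_dil, fgf_hom]; rfl

theorem redT_cst (A : Mt) : redT (fun _ => A) G y = redT fl1 G y := by
  funext I
  have : gauT (fun _ => A) G = gauT fl1 G := by
    funext z J; simp only [gauT, TG_const]
  simp only [redT, this, cov_const_one]

theorem fgfF_cst (A : Mt) : fgfF (fun _ => A) G y = fgfF fl1 G y := by
  simp only [fgfF, TG_const, ricci_const]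

theorem pullM_dil (η : E4 → ℝ) (a : Mt) (ht : t ≠ 0) :
    pullM (PsiA (fun z => η (t • z)) a) fl1 y = pullM (PsiA η a) fl1 (t • y) := by
  have e : PsiA (fun z => η (t • z)) a = fun z => t⁻¹ • PsiA η a (t • z) := by
    funext z
    simp only [PsiA, map_smul, smul_add, smul_comm (η _) t, inv_smul_smul₀ ht]
  have e2 : fderiv ℝ (fun z => t⁻¹ • PsiA η a (t • z)) y = fderiv ℝ (PsiA η a) (t • y) := by
    have := congrFun (fderiv_const_smul_field (𝕜 := ℝ) (f := fun z => PsiA η a (t • z)) t⁻¹) y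
    rw [Pi.smul_apply, fderiv_comp_smul, inv_smul_smul₀ ht] at this
    exact this
  ext p q
  simp only [pullM, Matrix.of_apply, pullT, e, e2]; rfl

end

theorem pullM_congr {Φ Φ' : E4 → E4} {y : E4} (h : Φ =ᶠ[𝓝 y] Φ') :
    pullM Φ fl1 y = pullM Φ' fl1 y := by
  ext p q
  simp only [pullM, Matrix.of_apply, pullT, h.fderiv_eq]; rfl

theorem pullM_lin (A : E4 →L[ℝ] E4) (G : MetricField 4) (y : E4) (p q : Fin 4) :
    pullM A G y p q = ∑ a, ∑ b, A (EuclideanSpace.single p 1) a * A (EuclideanSpace.single q 1) b *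
      G (A y) a b := by
  simp only [pullM, Matrix.of_apply, pullT, AI.evT_two, A.fderiv]; rfl

theorem pullM_id (y : E4) : pullM (fun z => z) fl1 y = 1 := by
  ext p q
  simp only [pullM, AI.pullT_id, Matrix.of_apply]; rfl

theorem fgfF_cont {H G : MetricField 4} {U : Set E4} (hH : IsRiemannianOn H U)
    (hG : IsRiemannianOn G U) : ContinuousOn (fgfF H G) U := fun y hy => by
  have h1 := C2.of_riem hH hy
  have h2 := C2.of_riem hG hy
  refine (cA_fgf (m := 0) (h2.c_sq.of_le (by norm_num)) (h2.c_iv.of_le (by norm_num))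
    ((h1.c_TG h2).of_le (by norm_num)) ?_).continuousAt.continuousWithinAt
  exact contDiffAt_pi.2 fun i => contDiffAt_pi.2 fun j =>
    ((sm_ricci hH i j).contDiffAt (hH.isOpen.mem_nhds hy)).of_le (by norm_num)

/-! ### the Euler-Lagrange algebra -/

theorem tr2_tr (A B : Mt) : tr2 (fun a b => A a b) (fun a b => B a b) = (A.transpose * B).trace := by
  simp only [tr2, Matrix.trace, Matrix.diag, Matrix.mul_apply, Matrix.transpose_apply]
  exact Finset.sum_comm

theorem el_alg {G : Mt} (hG : G.PosDef) (s c : ℝ) (B k : Mt) (hk : k.IsSymm) :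
    tr2 (vG s (fun a b => G⁻¹ a b) k) (fun a b => TRg G (c • (G * B * G)) a b) =
      -(s * c * tr2 (fun a b => B a b) k) := by
  have hu : IsUnit G.det := hG.det_pos.ne'.isUnit
  have h1 : G⁻¹ * G = 1 := Matrix.nonsing_inv_mul _ hu
  have h2 : G * G⁻¹ = 1 := Matrix.mul_nonsing_inv _ hu
  have hs : G.transpose = G := by simpa using hG.isHermitian.eq
  have hi : G⁻¹.transpose = G⁻¹ := by rw [Matrix.transpose_nonsing_inv, hs]
  have e : vG s (fun a b => G⁻¹ a b) k =
      fun a b => (s • (((1 / 2) * (G⁻¹ * k).trace) • G⁻¹ - G⁻¹ * k * G⁻¹)) a b :=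
    vG_eq s _ fun a b => hk.apply b a
  have e2 : tr2 (fun a b => B a b) k = (k * B).trace := by
    exact (tr2_comm _ _).trans ((tr2_tr k B).trans (by rw [hk.eq]))
  have e3 : (G⁻¹ * k * G⁻¹ * (G * B * G)).trace = (k * B).trace := by
    calc _ = (G⁻¹ * (k * (G⁻¹ * G) * B * G)).trace := by simp only [Matrix.mul_assoc]
      _ = _ := by rw [h1, Matrix.trace_mul_comm, Matrix.mul_one, Matrix.mul_assoc, h2, Matrix.mul_one]
  have e4 : (G⁻¹ * k * G⁻¹ * G).trace = (G⁻¹ * k).trace := by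
    rw [Matrix.mul_assoc, h1, Matrix.mul_one]
  have e5 : (G⁻¹ * G).trace = 4 := by rw [h1]; simp
  rw [e, tr2_tr, e2, TRg, tr2_tr, hi]
  simp only [Matrix.transpose_smul, Matrix.transpose_sub, Matrix.transpose_mul, hi, hk.eq,
    Matrix.smul_mul, Matrix.mul_smul, Matrix.sub_mul, Matrix.mul_sub, Matrix.trace_smul,
    Matrix.trace_sub, smul_eq_mul, ← Matrix.mul_assoc G⁻¹ k, e3, e4, e5]
  ring

theorem tr2_sum {κ : Type} [Fintype κ] (X : M2 (Fin 4) ℝ) (μ : κ → ℝ) (A : κ → Mt) :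
    tr2 X (fun a b => (-∑ j, μ j • A j) a b) = -∑ j, μ j * tr2 X fun a b => A j a b := by
  simp only [tr2, Matrix.neg_apply, Matrix.sum_apply, Matrix.smul_apply, smul_eq_mul, mul_neg,
    Finset.sum_neg_distrib, Finset.mul_sum, neg_inj]
  rw [Finset.sum_comm (γ := κ)]
  refine Finset.sum_congr rfl fun a _ => ?_
  rw [Finset.sum_comm (γ := κ)]
  exact Finset.sum_congr rfl fun b _ => Finset.sum_congr rfl fun j _ => by ring

theorem el_pt {κ : Type} [Fintype κ] {H G : MetricField 4} {ψ : κ → MetricField 4} {μ : κ → ℝ}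
    {y : E4} (hG : (G y).PosDef) (e : redM H G y = -∑ j, μ j • PsT H G (ψ j) y)
    (k : M2 (Fin 4) ℝ) (hk : ∀ a b, k a b = k b a) :
    tr2 (vG (sq G y) (iv G y) k) (a2 (redT H G y)) =
      ∑ j, μ j * (sq H y * tr2 (up (iv H y) fun a b => ψ j y a b) k) := by
  have h0 : sq G y ≠ 0 := (Real.sqrt_pos.2 hG.det_pos).ne'
  rw [show a2 (redT H G y) = fun a b => redM H G y a b from rfl, e, tr2_sum, ← Finset.sum_neg_distrib]
  refine Finset.sum_congr rfl fun j _ => ?_
  have := el_alg hG (sq G y) (sq H y / sq G y) ((H y)⁻¹ * ψ j y * (H y)⁻¹) (Matrix.of k)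
    (Matrix.IsSymm.ext fun a b => hk b a)
  rw [mul_div_cancel₀ _ h0, ← Matrix.mul_assoc, ← Matrix.mul_assoc] at this
  rw [up_eq, ← mul_neg]
  exact congrArg _ (neg_eq_iff_eq_neg.2 this)

/-! ### the `A`-coordinates -/

theorem glue_le (x : ℝ) : x⁻¹ ^ 2 * expNegInvGlue x * expNegInvGlue (1 - x) ≤
    4 * (expNegInvGlue x + expNegInvGlue (1 - x)) ^ 2 := by
  have hp := expNegInvGlue.nonneg x
  have hq := expNegInvGlue.nonneg (1 - x)
  rcases le_or_gt x 0 with h | h
  · rw [expNegInvGlue.zero_of_nonpos h, mul_zero, zero_mul]; positivity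
  rcases le_or_gt (1 / 2) x with h1 | h1
  · have : x⁻¹ ≤ 2 := by rw [inv_le_comm₀ h two_pos]; linarith
    have h3 : x⁻¹ ^ 2 ≤ 2 ^ 2 := by gcongr
    have h4 := mul_le_mul_of_nonneg_right h3 (mul_nonneg hp hq)
    nlinarith [mul_nonneg hp hq]
  · have h2 : x⁻¹ ^ 2 * expNegInvGlue x ≤ 4 * expNegInvGlue (1 - x) := by
      have a1 : 2 ≤ x⁻¹ := by rw [le_inv_comm₀ two_pos h]; linarith
      have a2 : (1 - x)⁻¹ ≤ 2 := by rw [inv_le_comm₀ (by linarith) two_pos]; linarith
      rw [expNegInvGlue, expNegInvGlue, if_neg (by linarith), if_neg (by linarith)]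
      have a3 := Real.quadratic_le_exp_of_nonneg (show 0 ≤ x⁻¹ - 2 by linarith)
      have a4 : Real.exp (x⁻¹ - 2) * Real.exp (-x⁻¹) ≤ Real.exp (-(1 - x)⁻¹) := by
        rw [← Real.exp_add]; exact Real.exp_le_exp.2 (by linarith)
      have a5 : x⁻¹ ^ 2 ≤ 4 * Real.exp (x⁻¹ - 2) := by nlinarith [sq_nonneg (x⁻¹ - 2)]
      nlinarith [mul_le_mul_of_nonneg_right a5 (Real.exp_pos (-x⁻¹)).le]
    nlinarith [mul_le_mul_of_nonneg_right h2 hq, mul_nonneg hp hq]

theorem exists_dst (x : ℝ) : ∃ d : ℝ, |d| ≤ 8 ∧ HasDerivAt Real.smoothTransition d x := by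
  have h0 : ∀ x, HasDerivAt expNegInvGlue (x⁻¹ ^ 2 * expNegInvGlue x) x := fun x => by
    simpa using expNegInvGlue.hasDerivAt_polynomial_eval_inv_mul 1 x
  have h1 := (h0 (1 - x)).comp_const_sub 1 x
  have hp := Real.smoothTransition.pos_denom x
  refine ⟨_, ?_, (h0 x).fun_div ((h0 x).fun_add h1) hp.ne'⟩
  have a1 := glue_le x
  have a2 := glue_le (1 - x)
  rw [sub_sub_cancel] at a2
  have a3 := mul_nonneg (mul_nonneg (sq_nonneg x⁻¹) (expNegInvGlue.nonneg x))
    (expNegInvGlue.nonneg (1 - x))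
  have a4 := mul_nonneg (mul_nonneg (sq_nonneg (1 - x)⁻¹) (expNegInvGlue.nonneg (1 - x)))
    (expNegInvGlue.nonneg x)
  rw [abs_div, abs_of_pos (pow_pos hp 2), div_le_iff₀ (pow_pos hp 2), abs_le]
  constructor <;> nlinarith

theorem norm_lin_le {a : Mt} (ha : ∀ p q, |a p q| ≤ 1 / 100) (y : E4) :
    ‖Matrix.toEuclideanLin a y‖ ≤ 1 / 25 * ‖y‖ := by
  refine (pow_le_pow_iff_left₀ (norm_nonneg _) (by positivity) two_ne_zero).1 ?_
  rw [EuclideanSpace.real_norm_sq_eq, mul_pow, EuclideanSpace.real_norm_sq_eq]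
  have : ∀ p, (Matrix.toEuclideanLin a y p) ^ 2 ≤ 1 / 2500 * ∑ i, y i ^ 2 := fun p => by
    refine (Finset.sum_mul_sq_le_sq_mul_sq Finset.univ (a p) y).trans ?_
    gcongr
    have : ∀ q, a p q ^ 2 ≤ 1 / 10000 := fun q => by
      have := abs_le.1 (ha p q); nlinarith
    simp only [Fin.sum_univ_four]
    linarith [this 0, this 1, this 2, this 3]
  rw [Fin.sum_univ_four]
  linarith [this 0, this 1, this 2, this 3]

theorem stp_sm (a b : ℝ) : ContDiff ℝ ∞ (stp a b) :=
  Real.smoothTransition.contDiff.comp (by fun_prop)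

theorem stp_zero {a b τ : ℝ} (h : a < b) (hτ : τ ≤ a) : stp a b τ = 0 :=
  Real.smoothTransition.zero_of_nonpos (div_nonpos_of_nonpos_of_nonneg (by linarith) (by linarith))

theorem stp_one {a b τ : ℝ} (h : a < b) (hτ : b ≤ τ) : stp a b τ = 1 :=
  Real.smoothTransition.one_of_one_le ((one_le_div (by linarith)).2 (by linarith))

variable {M : Type*} {T : TD M}

theorem tau_sm (v w : T.V) (T0 : ℝ) {x : E4} (hx : x ≠ 0) : ContDiffAt ℝ ∞ (tau T v w T0) x := by
  have := (contDiffAt_norm ℝ (n := ∞) hx).log (norm_ne_zero_iff.2 hx)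
  unfold tau; split_ifs
  exacts [this.sub contDiffAt_const, this.neg.sub contDiffAt_const]

theorem riemA (v w : T.V) (T0 : ℝ) {a : Mt} (ha : ∀ p q, |a p q| ≤ 1 / 100) :
    IsRiemannianOn (pullM (PsiA (etC T v w T0) a) fl1) {x | x ≠ 0} := by
  let A : E4 →L[ℝ] E4 := LinearMap.toContinuousLinearMap (Matrix.toEuclideanLin a)
  refine Pull.riem' (g := fl1) (Φ := PsiA (etC T v w T0) a) (W := univ)
    ⟨isOpen_ne, riem_one isOpen_univ, fun _ _ => trivial, fun y hy => ?_, fun y _ i j => ?_,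
      fun y hy => ?_⟩
  · exact (contDiffAt_id.add (((stp_sm _ _).contDiffAt.comp y (tau_sm v w T0 hy)).smul
      A.contDiff.contDiffAt)).contDiffWithinAt
  · simp only [pullM, Matrix.of_apply, pullT, AI.evT_two]
    exact Finset.sum_congr rfl fun a _ => Finset.sum_congr rfl fun b _ => by
      simp only [matT, Matrix.cons_val_zero, Matrix.cons_val_one]; ring
  · have hn := norm_pos_iff.2 hy
    obtain ⟨D, hD, hτ⟩ : ∃ D : E4 →L[ℝ] ℝ, (∀ z, |D z| * ‖y‖ ≤ ‖z‖) ∧
        HasFDerivAt (tau T v w T0) D y := by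
      have b : ∀ z, |((‖y‖ ^ 2)⁻¹ • innerSL ℝ y) z| * ‖y‖ ≤ ‖z‖ := fun z => by
        have := abs_real_inner_le_norm y z
        simp only [smul_apply, innerSL_apply_apply, smul_eq_mul, abs_mul, abs_inv, abs_pow, abs_norm]
        rw [mul_right_comm, mul_comm, ← le_div_iff₀ (by positivity)]
        exact this.trans_eq (by field_simp)
      unfold tau; split_ifs
      · exact ⟨_, b, (hasFDerivAt_logn hy).sub_const _⟩
      · exact ⟨_, fun z => by simpa using b z, (hasFDerivAt_logn hy).fun_neg.sub_const _⟩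
    obtain ⟨d, hd, hs⟩ := exists_dst ((tau T v w T0 y - 1 / 5) / (4 / 5 - 1 / 5))
    have h1 := hs.comp_hasFDerivAt y ((hτ.sub_const (1 / 5)).mul_const (4 / 5 - 1 / 5 : ℝ)⁻¹)
    have h2 := (hasFDerivAt_id y).add (h1.smul A.hasFDerivAt)
    rw [show fderiv ℝ (PsiA (etC T v w T0) a) y = _ from h2.fderiv]
    refine (injective_iff_map_eq_zero _).2 fun z hz => ?_
    have h3 : z + (etC T v w T0 y • A z + (d * ((4 / 5 - 1 / 5 : ℝ)⁻¹ * D z)) • A y) = 0 := hz
    have h4 := (congrArg norm (eq_neg_of_add_eq_zero_left h3)).le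
    rw [norm_neg] at h4
    replace h4 := h4.trans (norm_add_le _ _)
    simp only [norm_smul, Real.norm_eq_abs, abs_mul] at h4
    have a1 : ‖A z‖ ≤ 1 / 25 * ‖z‖ := norm_lin_le ha z
    have a2 : ‖A y‖ ≤ 1 / 25 * ‖y‖ := norm_lin_le ha y
    have a3 : |etC T v w T0 y| ≤ 1 :=
      abs_le.2 ⟨by linarith [show 0 ≤ etC T v w T0 y from Real.smoothTransition.nonneg _],
        Real.smoothTransition.le_one _⟩
    have a4 : |(4 / 5 - 1 / 5 : ℝ)⁻¹| = 5 / 3 := by norm_num
    have a5 : |etC T v w T0 y| * ‖A z‖ ≤ 1 * (1 / 25 * ‖z‖) := by gcongr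
    have a6 : |d| * (5 / 3 * |D z|) * ‖A y‖ ≤ 8 * (5 / 3 * |D z|) * (1 / 25 * ‖y‖) := by gcongr
    rw [a4] at h4
    exact norm_le_zero_iff.1 (by linarith [hD z, norm_nonneg z])

end Crest.Agent.N207.CB.Gl

end
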