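import Crest.Agent.N207.CB.Trn1

/-!
# Row 207, block L (helper78): the leaf `TRN`
-/

set_option autoImplicit false

open scoped ContDiff Matrix
open Metric Set Filter Topology MeasureTheory
open Crest.GeometryTopology.CoordMetric
open Crest.Agent.NLib.Ell Crest.Agent.N207.I Crest.Agent.N207.Lg Crest.Agent.N207.J
open Crest.Agent.N207.I.TD

noncomputable section

namespace Crest.Agent.N207.CB

variable {M : Type*} {T : TD M}

/-- a `Γ`-invariant field supported in the far part of the end `u` is a section -/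
theorem sec_onE (h : T.Ok) {v u : T.V} {β : MetricField 4} (hβ : Inv (T.Γ u) ∞ {x | x ≠ 0} β)
    (h0 : ∀ x ∈ (T.base v).U (Sum.inr u), β x = 0) : Sec T v (onE T u β) := by
  have hS := h.str_core v
  have z : ∀ (F : E4 → E4) (S : Tn 4 2) (x : E4), S (F x) = 0 → pullT F S x = 0 :=
    fun F S x h => by funext I; simp [pullT, evT, h]
  have key : ∀ s, ∀ x : E4, sc (fun _ _ => 1) s v • x ∈ (T.base v).U s →
      matT (onE T u β s) x = 0 := by
    intro s x hx
    unfold onE
    split_ifs with e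
    · subst e
      simp only [sc, Sum.elim_inr, one_smul] at hx
      funext I; simp [matT, h0 x hx]
    · rfl
  refine ⟨⟨fun s I => ?_, hS.compat_of h (fun a b x F w hw _ e => ?_) fun w γ hγ x hx => ?_⟩,
    fun s x hx => ?_⟩
  · unfold onE
    split_ifs with e
    · subst e; exact (hβ.sm _ _).mono fun x hx => hS.ne u x hx
    · exact contDiffOn_const
  · subst hw
    rw [key a x e.self_of_nhds.1, z _ _ _ (key b _ e.self_of_nhds.2.1)]
  · unfold onE
    split_ifs with e
    · obtain rfl := Sum.inr.inj e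
      rw [← Trn.matT_pullM]
      funext I
      exact congrFun (congrFun (hβ.eqv γ hγ x (hS.ne w x hx)) _) _
    · exact (z _ _ _ rfl).symm
  · unfold onE
    split_ifs with e
    · subst e; exact hβ.symm x (hS.ne u x hx)
    · exact Matrix.isSymm_zero

namespace Trn

theorem inv_scale {Γ : Subgroup Iso4} {β : MetricField 4} (h : Inv Γ ∞ {x | x ≠ 0} β) {c : ℝ}
    (hc : c ≠ 0) : Inv Γ ∞ {x | x ≠ 0} fun x => β (c • x) := by
  have hm : ∀ x : E4, x ≠ 0 → c • x ≠ 0 := fun x hx => smul_ne_zero hc hx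
  refine ⟨fun a b => (h.sm a b).comp (contDiff_id.const_smul c).contDiffOn hm,
    fun x hx => h.symm _ (hm x hx), fun γ hγ x hx => ?_⟩
  rw [h.eqv γ hγ _ (hm x hx), pullM_iso, pullM_iso, map_smul]

theorem sec_endF (h : T.Ok) {v u : T.V} {T0 : ℝ} (h1 : 4 ≤ T0) (h2 : 4 / T.r ≤ T0)
    {β : MetricField 4} (hβ : Inv (T.Γ u) ∞ {x | x ≠ 0} β)
    (h0 : ∀ x : E4, sgn T v u * Real.log ‖x‖ ≤ 22 / 10 → β x = 0) : Sec T v (endF T v u T0 β) := by
  refine sec_onE h (inv_scale hβ (Real.exp_pos _).ne') fun x hx => h0 _ ?_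
  have hr := h.r_pos
  have key : ∀ c : ℝ, 0 < ‖x‖ → Real.log ‖Real.exp c • x‖ = c + Real.log ‖x‖ := fun c hx => by
    rw [norm_smul, Real.norm_of_nonneg (Real.exp_pos c).le,
      Real.log_mul (Real.exp_pos c).ne' hx.ne', Real.log_exp]
  by_cases e : u = v
  · subst e
    obtain ⟨a, b⟩ := mem_base_out.1 hx
    have := Real.log_le_sub_one_of_pos (zero_lt_one.trans a)
    rw [key _ (zero_lt_one.trans a)]
    simp only [sgn, if_true]; linarith
  · obtain ⟨-, a, -⟩ := (mem_base_inn e).1 hx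
    have x0 : 0 < ‖x‖ := lt_trans (by positivity) a
    have h3 := Real.log_le_sub_one_of_pos (inv_pos.2 x0)
    have h4 : ‖x‖⁻¹ ≤ 4 / T.r := by
      rw [← inv_div]; exact inv_anti₀ (by positivity) a.le
    rw [Real.log_inv] at h3
    rw [key _ x0]
    simp only [sgn, if_neg e]; linarith

open Classical in
/-- the cell of `ℝ⁴ \ 0` attached to a cell of the end `u` -/
def idx (v u : T.V) {c : ℝ} (hc : c ≠ 0) (γ : Iso4) (i : CI T v) : Option J0 :=
  if h : i.1.1 = Sum.inr u ∧ i.1.2 ≠ 0 then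
    some ⟨γ (c • i.1.2), by simpa [hc] using h.2⟩ else none

/-- the transport -/
def th (v u : T.V) [Fintype (T.Γ u)] {c : ℝ} (hc : c ≠ 0) (k : ℕ) : MJ k →L[ℂ] MC T v k :=
  ContinuousLinearMap.pi fun a => ContinuousLinearMap.pi fun b =>
    (((2 * Fintype.card (T.Γ u) : ℝ)⁻¹ : ℝ) : ℂ) • ∑ γ : T.Γ u, ∑ p, ∑ q,
      ((mat γ p a * mat γ q b : ℝ) : ℂ) • (rot (idx v u hc γ) γ).comp
        ((ContinuousLinearMap.proj q).comp (ContinuousLinearMap.proj p : MJ k →L[ℂ] _) +
          (ContinuousLinearMap.proj p).comp (ContinuousLinearMap.proj q : MJ k →L[ℂ] _))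

variable {v u : T.V} [Fintype (T.Γ u)] {c : ℝ} {k : ℕ}

theorem th_apply (hc : c ≠ 0) (W : MJ k) (a b : Fin 4) : th v u hc k W a b =
    (((2 * Fintype.card (T.Γ u) : ℝ)⁻¹ : ℝ) : ℂ) • ∑ γ : T.Γ u, ∑ p, ∑ q,
      ((mat γ p a * mat γ q b : ℝ) : ℂ) • rot (idx v u hc γ) γ (W p q + W q p) := by
  simp only [th, ContinuousLinearMap.pi_apply, smul_apply,
    sum_apply, ContinuousLinearMap.comp_apply, add_apply,
    ContinuousLinearMap.proj_apply]

theorem norm_th (hc : c ≠ 0) : ‖th v u hc k‖ ≤ 16 * 4 ^ k := by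
  refine ContinuousLinearMap.opNorm_le_bound _ (by positivity) fun W => ?_
  refine (pi_norm_le_iff_of_nonneg (by positivity)).2 fun a =>
    (pi_norm_le_iff_of_nonneg (by positivity)).2 fun b => ?_
  have hW : ∀ p q, ‖W p q‖ ≤ ‖W‖ := fun p q => (norm_le_pi_norm _ q).trans (norm_le_pi_norm _ p)
  have h1 : ∀ (γ : T.Γ u) p q, ‖((mat γ p a * mat γ q b : ℝ) : ℂ) •
      rot (idx v u hc γ) γ (W p q + W q p)‖ ≤ 4 ^ k * (2 * ‖W‖) := fun γ p q => by
    rw [norm_smul, Complex.norm_real, Real.norm_eq_abs, abs_mul]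
    refine (mul_le_of_le_one_left (norm_nonneg _)
      (mul_le_one₀ (abs_mat _ _ _) (abs_nonneg _) (abs_mat _ _ _))).trans ((norm_rot _ _ _).trans ?_)
    gcongr
    linarith [norm_add_le (W p q) (W q p), hW p q, hW q p]
  have hN : (0 : ℝ) < Fintype.card (T.Γ u) := by positivity
  rw [th_apply, norm_smul, Complex.norm_real, Real.norm_of_nonneg (by positivity),
    inv_mul_le_iff₀ (by positivity)]
  refine (norm_sum_le_of_le _ fun γ _ => norm_sum_le_of_le _ fun p _ =>
    norm_sum_le_of_le _ fun q _ => h1 γ p q).trans (le_of_eq ?_)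
  simp; ring

theorem lf_th (hc : 0 < c) {β : MetricField 4} {W : MJ k} (h : LfJ β W) :
    Lf T 0 (onE T u fun x => av (T.Γ u) β (c • x)) (th v u hc.ne' k W) := by
  intro i a b y hy
  rw [th_apply]
  simp only [Cel.val_smul, Pi.smul_apply, Cel.val_sum, val_rot _ _ _ _ hy, pow_zero, one_mul,
    smul_eq_mul]
  obtain ⟨⟨s, x⟩, hx⟩ := i
  by_cases e : s = Sum.inr u
  · subst e
    have x0 : x ≠ 0 := by
      rw [← norm_pos_iff]
      by_cases hv : u = v
      · subst hv; linarith [mem_cK_out.1 hx]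
      · exact ((mem_cK_inn hv).1 hx).2.1
    have hm : ∀ γ : Iso4, γ y ∈ B1 := fun γ => by simpa using hy
    have pt : ∀ γ : Iso4, γ (c • x) + (‖γ (c • x)‖ / 8) • γ y = γ (c • (x + (‖x‖ / 8) • y)) :=
      fun γ => by
        rw [γ.norm_map, norm_smul, Real.norm_of_nonneg hc.le, ← map_smul, ← map_add, smul_add,
          smul_smul, mul_div_assoc]
    simp only [idx, x0, ne_eq, not_false_eq_true, and_self, dite_true, Option.elim_some,
      Cel.val_add, Pi.add_apply, h _ _ _ _ (hm _), pt, onE, if_true, av_apply, cpt, rad,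
      Sum.elim_inr]
    push_cast
    rfl
  · simp [idx, e, onE]

end Trn

open Trn in
/-- **leaf TRN** -/
theorem trn (T : TD M) : TRN T := by
  intro h k
  refine ⟨16 * 4 ^ k, max 4 (4 / T.r), by positivity, fun v u T0 hT => ?_⟩
  have := h.fin u
  let _ : Fintype (T.Γ u) := Fintype.ofFinite _
  have h1 : 4 ≤ T0 := (le_max_left _ _).trans hT
  have h2 : 4 / T.r ≤ T0 := (le_max_right _ _).trans hT
  have hc := Real.exp_pos (-(sgn T v u * T0))
  refine ⟨th v u hc.ne' k, norm_th _, fun W hW => ?_, fun β W hW hβ h0 =>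
    ⟨sec_endF h h1 h2 hβ h0, fun i a b y hy => ?_⟩⟩
  · obtain ⟨β₁, β₂, W₁, W₂, s1, s2, z1, z2, l1, l2, rfl⟩ := cpx_split hW
    have key : ∀ (β : MetricField 4) (W : MJ k),
        (∀ a b, ContDiffOn ℝ ∞ (fun x => β x a b) {x | x ≠ 0}) →
        (∀ x : E4, sgn T v u * Real.log ‖x‖ ≤ 22 / 10 → β x = 0) → LfJ β W →
        th v u hc.ne' k W ∈ XC T v k 0 := fun β W s z l =>
      Submodule.subset_span (subset_closure ⟨endF T v u T0 (av (T.Γ u) β),
        sec_endF h h1 h2 (av_inv s) fun x hx => av_zero fun w hw => z w (hw ▸ hx), lf_th hc l⟩)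
    rw [map_add, map_smul]
    exact add_mem (key _ _ s1 z1 l1) (Submodule.smul_mem _ _ (key _ _ s2 z2 l2))
  · rw [lf_th hc hW i a b y hy]
    obtain ⟨⟨s, x⟩, hx⟩ := i
    simp only [endF, onE]
    split_ifs with e
    · subst e
      have x0 : 0 < ‖x‖ := by
        by_cases hv : u = v
        · subst hv; linarith [mem_cK_out.1 hx]
        · exact ((mem_cK_inn hv).1 hx).2.1
      have ne : x + (‖x‖ / 8) • y ≠ 0 := fun e => by
        have h3 : ‖x‖ = ‖(‖x‖ / 8) • y‖ := by
          rw [← norm_neg ((‖x‖ / 8) • y), ← eq_neg_of_add_eq_zero_left e]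
        rw [norm_smul, Real.norm_of_nonneg (by positivity)] at h3
        have : ‖y‖ < 1 := by simpa using hy
        nlinarith
      exact congrArg (fun m : Mt => ((rad T (Sum.inr u) x ^ 0 * m a b : ℝ) : ℂ))
        (av_eq hβ (smul_ne_zero hc.ne' ne))
    · rfl

end Crest.Agent.N207.CB

end
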