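import Crest.Agent.N207.CB.Bg0
import Crest.Agent.N207.CB.Cut
import Crest.Agent.N207.CB.Glu1
import Crest.Agent.N207.CB.Trn2
import Crest.Agent.N207.Lg.Flat

/-!
# Row 207 (helper17): `bga : BGA T`
-/

set_option autoImplicit false

open scoped ContDiff Matrix
open Metric Set Filter Topology
open Crest.GeometryTopology.CoordMetric Crest.Agent.R202.Tens
open Crest.Agent.NLib.Ell Crest.Agent.N207.I Crest.Agent.N207.Lg Crest.Agent.N207.Ga

noncomputable section

namespace Crest.Agent.N207.CB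

namespace Ba

/-- `η + y ⊗ dη` -/
def cA (η : E4 → ℝ) (y : E4) : Mt :=
  Matrix.of fun m i => η y * (1 : Mt) m i + y m * pderiv i η y

variable {η : E4 → ℝ} {a : Mt} {y : E4}

theorem sm_psi (h : ContDiffAt ℝ ∞ η y) : ContDiffAt ℝ ∞ (PsiA η a) y :=
  contDiffAt_id.add (h.smul
    (LinearMap.toContinuousLinearMap (Matrix.toEuclideanLin a)).contDiff.contDiffAt)

theorem fd_psi (h : DifferentiableAt ℝ η y) (w : E4) (l : Fin 4) :
    fderiv ℝ (PsiA η a) y w l = ((1 + a * cA η y) *ᵥ w.ofLp) l := by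
  have h2 := (hasFDerivAt_id y).add (h.hasFDerivAt.smul
    (LinearMap.toContinuousLinearMap (Matrix.toEuclideanLin a)).hasFDerivAt)
  rw [show fderiv ℝ (PsiA η a) y = _ from h2.fderiv]
  show w l + (η y * (a *ᵥ w.ofLp) l + fderiv ℝ η y w * (a *ᵥ y.ofLp) l) = _
  rw [fderiv_eq_sum]
  simp only [Matrix.mulVec, dotProduct, Matrix.add_apply, Matrix.mul_apply, cA, Matrix.of_apply,
    Matrix.one_apply, Fin.sum_univ_four]
  fin_cases l <;> simp <;> ring

theorem pull_sum (Φ : E4 → E4) (y : E4) (p q : Fin 4) : pullM Φ fl1 y p q =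
    ∑ l, fderiv ℝ Φ y (EuclideanSpace.single p 1) l * fderiv ℝ Φ y (EuclideanSpace.single q 1) l := by
  simp only [pullM, Matrix.of_apply, pullT, AI.evT_matT, bil_apply, Matrix.one_apply]
  simp

theorem pull_psi (h : DifferentiableAt ℝ η y) :
    pullM (PsiA η a) fl1 y = (1 + a * cA η y)ᵀ * (1 + a * cA η y) := by
  ext p q
  rw [pull_sum, Matrix.mul_apply]
  simp [fd_psi h]

theorem sm_cA (h : ContDiffAt ℝ ∞ η y) (m i : Fin 4) : ContDiffAt ℝ ∞ (fun z => cA η z m i) y :=
  (h.mul contDiffAt_const).add ((EuclideanSpace.proj m : E4 →L[ℝ] ℝ).contDiff.contDiffAt.mul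
    ((h.fderiv_right (m := ∞) le_rfl).clm_apply contDiffAt_const))

theorem sm_N (h : ContDiffAt ℝ ∞ η y) (l p : Fin 4) :
    ContDiffAt ℝ ∞ (fun z => (1 + a * cA η z) l p) y :=
  contDiffAt_const.add (ContDiffAt.sum (s := Finset.univ) fun m _ =>
    (contDiffAt_const (c := a l m)).mul (sm_cA h m p))

theorem sm_pull (h : ContDiffAt ℝ ∞ η y) (h' : ∀ᶠ z in 𝓝 y, DifferentiableAt ℝ η z) (p q : Fin 4) :
    ContDiffAt ℝ ∞ (fun z => pullM (PsiA η a) fl1 z p q) y :=
  (ContDiffAt.sum (s := Finset.univ) fun l _ => (sm_N (a := a) h l p).mul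
    (sm_N (a := a) h l q)).congr_of_eventuallyEq (h'.mono fun z hz => by
      show pullM _ _ _ p q = _
      rw [pull_psi hz, Matrix.mul_apply]; rfl)

theorem cA_min (h0 : ∀ z, 0 ≤ η z) (h : η y = 0) : cA η y = 0 := by
  have : IsLocalMin η y := Eventually.of_forall fun z => h ▸ h0 z
  ext m i
  simp [cA, h, pderiv, this.fderiv_eq_zero]

theorem cA_max (h0 : ∀ z, η z ≤ 1) (h : η y = 1) : cA η y = 1 := by
  have : IsLocalMax η y := Eventually.of_forall fun z => h ▸ h0 z
  ext m i
  simp [cA, h, pderiv, this.fderiv_eq_zero]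

theorem pull_inv {γ : Iso4} (h : DifferentiableAt ℝ η y) (h' : DifferentiableAt ℝ η (γ y))
    (e : ∀ z, η (γ z) = η z)
    (ha : ∀ z : E4, Matrix.toEuclideanLin a (γ z) = γ (Matrix.toEuclideanLin a z)) :
    PM (γ.toContinuousLinearEquiv : E4 →L[ℝ] E4) (pullM (PsiA η a) fl1 y)
      (pullM (PsiA η a) fl1 (γ y)) := by
  have d : ∀ {z : E4}, DifferentiableAt ℝ η z → DifferentiableAt ℝ (PsiA η a) z := fun h =>
    differentiableAt_id.add (h.smul
      (LinearMap.toContinuousLinearMap (Matrix.toEuclideanLin a)).differentiableAt)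
  have e1 : PsiA η a ∘ γ = γ ∘ PsiA η a := funext fun z => by simp [PsiA, e, ha]
  have e2 : ∀ w, fderiv ℝ (PsiA η a) (γ y) (γ w) = γ (fderiv ℝ (PsiA η a) y w) := fun w => by
    have h1 := ((d h').hasFDerivAt.comp y γ.toContinuousLinearEquiv.hasFDerivAt).fderiv
    have h2 := (γ.toContinuousLinearEquiv.hasFDerivAt.comp y (d h).hasFDerivAt).fderiv
    have h3 := h1.symm.trans ((congrArg (fun f => fderiv ℝ f y) e1).trans h2)
    exact congrArg (fun f : E4 →L[ℝ] E4 => f w) h3
  have b : ∀ {z : E4}, DifferentiableAt ℝ η z → ∀ u w : E4, bil (pullM (PsiA η a) fl1 z) u w =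
      inner ℝ (fderiv ℝ (PsiA η a) z u) (fderiv ℝ (PsiA η a) z w) := fun {z} hz u w => by
    rw [pull_psi hz, bil_apply, PiLp.inner_apply]
    simp only [fd_psi hz, Matrix.mul_apply, Matrix.transpose_apply, Matrix.mulVec, dotProduct,
      RCLike.inner_apply, conj_trivial]
    generalize 1 + a * cA η z = N
    simp only [Fin.sum_univ_four]
    ring
  intro i j
  rw [b h']
  show _ = inner ℝ (fderiv ℝ (PsiA η a) (γ y) (γ _)) (fderiv ℝ (PsiA η a) (γ y) (γ _))
  rw [e2, e2, γ.inner_map_map, ← b h, bil_apply]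
  simp

variable {M : Type*} {T : TD M} {v u : T.V} {T0 : ℝ}

theorem etC_sm {x : E4} (hx : x ≠ 0) : ContDiffAt ℝ ∞ (etC T v u T0) x :=
  (Gl.stp_sm _ _).contDiffAt.comp x (Gl.tau_sm v u T0 hx)

theorem etC_d {x : E4} (hx : x ≠ 0) : DifferentiableAt ℝ (etC T v u T0) x :=
  (etC_sm hx).differentiableAt (by simp)

theorem pull_sm {x : E4} (hx : x ≠ 0) (p q : Fin 4) :
    ContDiffAt ℝ ∞ (fun z => pullM (PsiA (etC T v u T0) a) fl1 z p q) x :=
  sm_pull (etC_sm hx) ((isOpen_ne.eventually_mem hx).mono fun _ hz => etC_d hz) p q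

theorem pull_lo {x : E4} (hx : x ≠ 0) (h : tau T v u T0 x ≤ 1 / 5) :
    pullM (PsiA (etC T v u T0) a) fl1 x = 1 := by
  rw [pull_psi (etC_d hx), cA_min (η := etC T v u T0) (fun _ => Real.smoothTransition.nonneg _)
    (Gl.stp_zero (by norm_num) h)]
  simp

theorem pull_hi {x : E4} (hx : x ≠ 0) (h : 4 / 5 ≤ tau T v u T0 x) :
    pullM (PsiA (etC T v u T0) a) fl1 x = (1 + a)ᵀ * (1 + a) := by
  rw [pull_psi (etC_d hx), cA_max (η := etC T v u T0) (fun _ => Real.smoothTransition.le_one _)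
    (Gl.stp_one (by norm_num) h), mul_one]

theorem inv_psi (ha : Adm T u a) :
    Inv (T.Γ u) ∞ {x | x ≠ 0} (pullM (PsiA (etC T v u T0) a) fl1 - fl1) := by
  refine ⟨fun p q x hx => ((pull_sm hx p q).sub contDiffAt_const).contDiffWithinAt,
    fun x hx => ?_, fun γ hγ x hx => ?_⟩
  · rw [Pi.sub_apply, pull_psi (etC_d hx)]
    exact (Matrix.isSymm_transpose_mul_self _).sub Matrix.isSymm_one
  · have h1 := (pull_inv (etC_d (T := T) (v := v) (u := u) (T0 := T0) hx)
      (etC_d (by simpa using hx)) (fun z => by simp [etC, tau]) (ha.comm γ hγ)).sub (pm_one γ)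
    have h2 := (pm_iff (F := γ) (G := pullM (PsiA (etC T v u T0) a) fl1 - fl1)
      (G' := pullM (PsiA (etC T v u T0) a) fl1 - fl1)).2 (by
        rw [LinearIsometryEquiv.fderiv]; exact h1)
    ext p q
    exact congrFun h2 ![p, q]

theorem red_flat {x : E4} (hx : x ≠ 0) (hp : (pullM (PsiA (etC T v u T0) a) fl1 x).PosDef) :
    redT (pullM (PsiA (etC T v u T0) a) fl1) (pullM (PsiA (etC T v u T0) a) fl1) x = 0 := by
  have h0 : (1 + a * cA (etC T v u T0) x).det ≠ 0 := fun h0 => by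
    have := hp.det_pos
    rw [pull_psi (etC_d hx), Matrix.det_mul, h0, mul_zero] at this
    exact lt_irrefl _ this
  have h1 : ∀ᶠ z in 𝓝 x, z ≠ 0 ∧ (1 + a * cA (etC T v u T0) z).det ≠ 0 :=
    (isOpen_ne.eventually_mem hx).and
      ((cA_det fun l p => sm_N (etC_sm hx) l p).continuousAt.eventually_ne h0)
  obtain ⟨V, hV, hO, hxV⟩ := _root_.eventually_nhds_iff.1 h1
  have P : Pull (pullM (PsiA (etC T v u T0) a) fl1) fl1 (PsiA (etC T v u T0) a) V univ := by
    refine ⟨hO, riem_one isOpen_univ, fun _ _ => trivial,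
      fun y hy => (sm_psi (etC_sm (hV y hy).1)).contDiffWithinAt, fun y _ i j => ?_,
      fun y hy => (injective_iff_map_eq_zero _).2 fun w hw => ?_⟩
    · simp only [pullM, Matrix.of_apply, pullT, AI.evT_matT, bil_apply]
      rfl
    · have := Matrix.eq_zero_of_mulVec_eq_zero (hV y hy).2 (v := w.ofLp) (funext fun l => by
        rw [← fd_psi (etC_d (hV y hy).1), hw]; rfl)
      ext l
      exact congrFun this l
  rw [(C2.of_riem P.riem' hxV).redT_self, AI.ricT_pull P hxV]
  funext I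
  simp [pullT, evT, ricT, ricci_const]

/-- the coefficients `cA` on the cells -/
theorem lift_cA (k : ℕ) : ∃ C : ℝ, 0 < C ∧ ∀ (v u : T.V) (T0 : ℝ), ∃ W : MC T v k,
    Lf T 0 (onE T u (cA (etC T v u T0))) W ∧ ‖W‖ ≤ C := by
  obtain ⟨C, hC0, hC⟩ := Cu.exists_cka_stp (T := T) (a := 1 / 5) (b := 4 / 5) (by norm_num) (k + 1)
  obtain ⟨K, hK0, hK⟩ := Cu.exists_cka_id k
  refine ⟨2 ^ (k + 1) * (C + 2 ^ (k + 1) * ((8 + K) * C)) + 1, by positivity, fun v u T0 => ?_⟩
  obtain ⟨W, hW, hn⟩ := lift_of_cka (v := v) (k := k) (j := 0) (w := onE T u (cA (etC T v u T0)))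
    (N := C + 2 ^ (k + 1) * ((8 + K) * C)) (by positivity) (by
      rintro ⟨⟨s, x⟩, hx⟩ m i
      by_cases hs : s = Sum.inr u
      · subst hs
        have h0 := Cu.cK_pos hx
        have h1 := hC v u T0 x h0
        have h2 : CKA (1 / 2) B1 k (8 + K) fun y : E4 => x m / (‖x‖ / 8) + y m := by
          refine ((CKA.const _).mono ?_).add isOpen_ball (hK.clm1 isOpen_ball
            (EuclideanSpace.proj m : E4 →L[ℝ] ℝ) (ContinuousLinearMap.opNorm_le_bound _ zero_le_one
              fun z => by simpa using PiLp.norm_apply_le z m))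
          rw [norm_div, Real.norm_of_nonneg (r := ‖x‖ / 8) (by positivity),
            div_le_iff₀ (by positivity)]
          linarith [PiLp.norm_apply_le x m]
        have h3 : |(1 : Mt) m i| ≤ 1 := by
          rw [Matrix.one_apply]
          split_ifs <;> simp
        refine (((h1.pred.const_mul isOpen_ball ((1 : Mt) m i)).mono
          (mul_le_of_le_one_left hC0 h3)).add isOpen_ball
            (h2.mul isOpen_ball (h1.pd i))).congr isOpen_ball fun y _ => ?_
        have h4 := Ctx.fderiv_aff (etC T v u T0) x y (ei i) (r := ‖x‖ / 8) (by positivity) 0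
        simp only [pow_zero, one_mul, zero_add, pow_one, etC] at h4
        rw [h4]
        simp only [onE, if_true, cA, cpt, rad, Sum.elim_inr, Matrix.of_apply, pow_zero, one_mul,
          pderiv, etC, PiLp.add_apply, PiLp.smul_apply, smul_eq_mul]
        field_simp
      · exact (CKA.zero.mono (by positivity)).congr isOpen_ball fun y _ => by simp [onE, hs])
  exact ⟨W, hW, by linarith⟩

section Alg

variable {A : Type} [NormedCommRing A] [NormedAlgebra ℂ A]

/-- `a * W` -/
def mW (W : Fin 4 → Fin 4 → A) (a : MtC) : Fin 4 → Fin 4 → A := fun l i => ∑ m, a l m • W m i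

theorem mW_add (W : Fin 4 → Fin 4 → A) (a b : MtC) (l i : Fin 4) :
    mW W (a + b) l i = mW W a l i + mW W b l i := by
  simp [mW, add_smul, Finset.sum_add_distrib]

theorem mW_smul (W : Fin 4 → Fin 4 → A) (c : ℂ) (a : MtC) (l i : Fin 4) :
    mW W (c • a) l i = c • mW W a l i := by
  simp [mW, Finset.smul_sum, mul_smul]

theorem norm_mW (W : Fin 4 → Fin 4 → A) (a : MtC) (l i : Fin 4) :
    ‖mW W a l i‖ ≤ 4 * ‖W‖ * ‖a‖ := by
  refine (norm_sum_le_of_le _ (n := fun _ => ‖a‖ * ‖W‖) fun m _ => (norm_smul_le _ _).trans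
    (mul_le_mul ((norm_le_pi_norm (a l) m).trans (norm_le_pi_norm a l))
      ((norm_le_pi_norm (W m) i).trans (norm_le_pi_norm W m)) (norm_nonneg _)
      (norm_nonneg _))).trans (le_of_eq ?_)
  simp; ring

theorem exists_B (W : Fin 4 → Fin 4 → A) : ∃ (B₁ : MtC →L[ℂ] (Fin 4 → Fin 4 → A))
    (B₂ : MtC →L[ℂ] MtC →L[ℂ] (Fin 4 → Fin 4 → A)), ‖B₁‖ ≤ 8 * ‖W‖ ∧ ‖B₂‖ ≤ 64 * ‖W‖ ^ 2 ∧
      (∀ a p q, B₁ a p q = mW W a p q + mW W a q p) ∧
      ∀ a b p q, B₂ a b p q = ∑ l, mW W a l p * mW W b l q := by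
  refine ⟨LinearMap.mkContinuous
      { toFun := fun a p q => mW W a p q + mW W a q p
        map_add' := fun a b => by funext p q; simp only [mW_add, Pi.add_apply]; ring
        map_smul' := fun c a => by
          funext p q; simp only [mW_smul, Pi.smul_apply, RingHom.id_apply, smul_add] }
      (8 * ‖W‖) fun a => ?_,
    LinearMap.mkContinuous₂ (LinearMap.mk₂ ℂ (fun a b p q => ∑ l, mW W a l p * mW W b l q)
      (fun a a' b => by funext p q; simp [mW_add, add_mul, Finset.sum_add_distrib])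
      (fun c a b => by funext p q; simp [mW_smul, Finset.smul_sum])
      (fun a b b' => by funext p q; simp [mW_add, mul_add, Finset.sum_add_distrib])
      (fun c a b => by funext p q; simp [mW_smul, Finset.smul_sum])) (64 * ‖W‖ ^ 2) fun a b => ?_,
    LinearMap.mkContinuous_norm_le _ (by positivity) _,
    LinearMap.mkContinuous₂_norm_le _ (by positivity) _, fun _ _ _ => rfl, fun _ _ _ _ => rfl⟩
  · refine (pi_norm_le_iff_of_nonneg (by positivity)).2 fun p =>
      (pi_norm_le_iff_of_nonneg (by positivity)).2 fun q => (norm_add_le _ _).trans ?_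
    linarith [norm_mW W a p q, norm_mW W a q p]
  · refine (pi_norm_le_iff_of_nonneg (by positivity)).2 fun p =>
      (pi_norm_le_iff_of_nonneg (by positivity)).2 fun q => ?_
    refine (norm_sum_le_of_le Finset.univ (n := fun _ => 4 * ‖W‖ * ‖a‖ * (4 * ‖W‖ * ‖b‖)) fun l _ =>
      (norm_mul_le _ _).trans (mul_le_mul (norm_mW W a l p) (norm_mW W b l q) (norm_nonneg _)
        (by positivity))).trans (le_of_eq ?_)
    simp; ring

end Alg

end Ba

open Ba in
/-- **BGA** -/
theorem bga {M : Type*} (T : TD M) : BGA T := by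
  intro h k
  obtain ⟨C, hC0, hC⟩ := lift_cA (T := T) k
  refine ⟨8 * C + 64 * C ^ 2, 4 / T.r, by positivity, fun v T0 hT => ⟨fun u => ?_,
    fun u a ha => sec_onE h (inv_psi ha) fun x hx => ?_, fun u a ha x hx h1 => ?_,
    fun g a s x hx hp => ?_⟩⟩
  · obtain ⟨W, hW, hn⟩ := hC v u T0
    obtain ⟨B₁, B₂, h1, h2, e1, e2⟩ := exists_B W
    have h3 : ‖W‖ ^ 2 ≤ C ^ 2 := by gcongr
    refine ⟨B₁, B₂, by nlinarith, by nlinarith, fun a i p q y hy => ?_⟩
    have r : ∀ l j, RpA (mW W (cm a) l j) i fun y =>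
        (a * onE T u (cA (etC T v u T0)) i.1.1 (cpt T i y)) l j := fun l j =>
      (RpA.sum Finset.univ fun m _ => RpA.smul (a l m) (hW i m j)).congr fun y _ => by
        simp [Matrix.mul_apply]
    have := ((r p q).add (r q p)).add (RpA.sum Finset.univ fun l _ => (r l p).mul (r l q)) y hy
    rw [Pi.add_apply, Pi.add_apply, e1, e2]
    refine this.trans (congrArg _ ?_)
    by_cases hs : i.1.1 = Sum.inr u
    · have hm := cpt_mem i hy
      rw [hs] at hm
      simp only [onE, hs, if_true, pow_zero, one_mul, Pi.sub_apply, pull_psi (etC_d (core_ne hm))]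
      generalize a * cA (etC T v u T0) (cpt T i y) = N
      simp [Matrix.add_mul, Matrix.mul_add, Matrix.mul_apply]
      ring
    · simp [onE, hs]
  · have h1 := (tau_base h hT hx).1
    have h2 : x ≠ 0 := by
      rintro rfl
      by_cases hu : u = v
      · subst hu
        have := (TD.mem_base_out.1 hx).1
        norm_num at this
      · have := ((TD.mem_base_inn hu).1 hx).2.1
        have := h.r_pos
        rw [norm_zero] at *
        linarith
    rw [Pi.sub_apply, pull_lo h2 (by linarith), sub_self]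
  · rw [pull_hi hx h1, Matrix.transpose_add, Matrix.transpose_one, ha.eq]
  · rcases s with b | u
    · rfl
    have h0 := core_ne hx
    have hc := tau_cont (v := v) (u := u) (T0 := T0) h0
    ext p q
    simp only [redM, Matrix.of_apply]
    by_cases ht : tau T v u T0 x < 1 / 5
    · have e : gbA T g T0 a v (Sum.inr u) =ᶠ[𝓝 x] gb T g T0 v (Sum.inr u) := by
        filter_upwards [hc.eventually (gt_mem_nhds ht), isOpen_ne.eventually_mem h0] with z h1 h2
        simp [gbA, pull_lo h2 h1.le]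
      rw [(redT_congr e e).eq_of_nhds]
    · have h1 := hc.eventually (lt_mem_nhds (show 1 / 10 < tau T v u T0 x by linarith))
      have e : gb T g T0 v (Sum.inr u) =ᶠ[𝓝 x] fl1 := h1.mono fun z hz => gb_one hz.le
      have e' : gbA T g T0 a v (Sum.inr u) =ᶠ[𝓝 x] pullM (PsiA (etC T v u T0) (a u)) fl1 :=
        h1.mono fun z hz => by simp [gbA, gb_one hz.le]
      rw [e'.eq_of_nhds] at hp
      rw [(redT_congr e e).eq_of_nhds, (redT_congr e' e').eq_of_nhds, red_flat h0 hp,
        (c2_one x).redT_self]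
      simp [ricT, ricci_const]

end Crest.Agent.N207.CB

end
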