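import Crest.Agent.N207.CB.St
import Crest.Agent.N207.L.Defs
import Crest.Agent.N207.J.Re5

/-!
# Row 207, block L (helper92): the extended neck `XN`, the root end `XH`, `ANA`, `BOOT`, `DSH`

Units: `T0 = 0`.  The extended neck is the annulus `1 < log |x| < ℓ - 1` (child units); the
parent's coordinate is `e^{-ℓ} x`, `-log` of its norm is the parent's collar coordinate.
-/

set_option autoImplicit false

open scoped ContDiff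
open Metric Set Filter Topology MeasureTheory
open Crest.GeometryTopology.CoordMetric
open Crest.Agent.NLib.Ell Crest.Agent.N207.I Crest.Agent.N207.Lg Crest.Agent.N207.J

noncomputable section

namespace Crest.Agent.N207.CB

/-- amplitudes of a matrix field -/
abbrev DD : Type := Fin 4 × Fin 4 → L.D

/-- all cells of `ℝ⁴ \ 0` -/
abbrev J0 : Type := {x : E4 // x ≠ 0}

abbrev MJ (k : ℕ) : Type := Fin 4 → Fin 4 → Cel J0 k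

/-- `W` is `w` on all cells -/
def LfJ {k : ℕ} (w : MetricField 4) (W : MJ k) : Prop :=
  ∀ (x : J0) a b, ∀ y ∈ B1, (W a b).val x y = ((w (x.1 + (‖x.1‖ / 8) • y) a b : ℝ) : ℂ)

/-- an entry as a complex function -/
def cf (w : MetricField 4) (a b : Fin 4) (x : E4) : ℂ := ((w x a b : ℝ) : ℂ)

/-- `y` = decaying amplitudes of `h` at `t` -/
def DatQ (h : MetricField 4) (t : ℝ) (y : DD) : Prop :=
  ∀ a b k, L.trD 1 (y (a, b)) k = qm (cf h a b) k t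

/-- `y` = growing amplitudes of `h` at `t`, `k ≠ 0` -/
def DatP (h : MetricField 4) (t : ℝ) (y : DD) : Prop :=
  ∀ a b k, k ≠ 0 → L.trD 1 (y (a, b)) k = pm (cf h a b) k t

/-- `C^m`, symmetric, `Γ`-invariant on `S` -/
structure Inv (Γ : Subgroup Iso4) (m : WithTop ℕ∞) (S : Set E4) (h : MetricField 4) : Prop where
  sm : ∀ a b, ContDiffOn ℝ m (fun x => h x a b) S
  symm : ∀ x ∈ S, (h x).IsSymm
  eqv : ∀ γ ∈ Γ, ∀ x ∈ S, h x = pullM γ h x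

/-- scale invariant `C²` bound -/
def B2 (S : Set E4) (η : ℝ) (h : MetricField 4) : Prop :=
  ∀ x ∈ S, ∀ j ≤ 2, ∀ a b, ‖x‖ ^ j * ‖iteratedFDeriv ℝ j (fun y => h y a b) x‖ ≤ η

/-- the cut-off of the source -/
def rho (τ : ℝ) : ℝ := 1 - stp (26 / 10) (28 / 10) τ

/-- the flat metric -/
abbrev fl1 : MetricField 4 := fun _ => 1

/-- the collar input `β` on an OUTER end: support and identification of the core solution with `u` -/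
structure ColO (Γ : Subgroup Iso4) (ε : ℝ) (y : DD) (u β : MetricField 4) : Prop where
  inv : Inv Γ ∞ {x | x ≠ 0} β
  supp : ∀ x : E4, Real.log ‖x‖ ≤ 22 / 10 ∨ 29 / 10 ≤ Real.log ‖x‖ → β x = 0
  unq : ∀ w : MetricField 4, Inv ⊥ 2 (An (Ioo (1 / 2) (7 / 2))) w →
    B2 (An (Ioo (1 / 2) (7 / 2))) ε w → DatQ w 1 y → (∀ a b k, pm (cf w a b) k 3 = 0) →
    (∀ x ∈ An (Ioo 1 3), (1 - rho (Real.log ‖x‖)) • Pop fl1 w x +
      (2 * rho (Real.log ‖x‖)) • redM fl1 (fl1 + β + w) x = 0) →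
    ∀ x ∈ An (Ioo 1 2), w x = u x

/-- the same at a PUNCTURE -/
structure ColI (Γ : Subgroup Iso4) (ε : ℝ) (y : DD) (u β : MetricField 4) : Prop where
  inv : Inv Γ ∞ {x | x ≠ 0} β
  supp : ∀ x : E4, -Real.log ‖x‖ ≤ 22 / 10 ∨ 29 / 10 ≤ -Real.log ‖x‖ → β x = 0
  unq : ∀ w : MetricField 4, Inv ⊥ 2 (An (Ioo (-(7 / 2)) (-(1 / 2)))) w →
    B2 (An (Ioo (-(7 / 2)) (-(1 / 2)))) ε w → DatP w (-1) y → (∀ a b k, qm (cf w a b) k (-3) = 0) →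
    (∀ a b, pm (cf w a b) 0 (-3) = 0) →
    (∀ x ∈ An (Ioo (-3) (-1)), (1 - rho (-Real.log ‖x‖)) • Pop fl1 w x +
      (2 * rho (-Real.log ‖x‖)) • redM fl1 (fl1 + β + w) x = 0) →
    ∀ x ∈ An (Ioo (-2) (-1)), w x = u x

/-- a smooth solution of the reduced equation on `An I` of size `η` with action `en` -/
structure ASol (Γ : Subgroup Iso4) (I : Set ℝ) (η en : ℝ) (u : MetricField 4) : Prop where
  inv : Inv Γ ∞ (An I) u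
  pos : ∀ x ∈ An I, ((fl1 + u) x).PosDef
  eq : ∀ x ∈ An I, redM fl1 (fl1 + u) x = 0
  bd : B2 (An I) η u
  int : IntegrableOn (fgfF fl1 (fl1 + u)) (An I)
  en : ∫ x in An I, fgfF fl1 (fl1 + u) x = en

/-- `W` is a smooth complex field supported in `22/10 ≤ e * log |x| ≤ 29/10` (`e = ± 1`) -/
def Cpx {k : ℕ} (e : ℝ) (W : MJ k) : Prop :=
  ∃ β₁ β₂ : MetricField 4, (∀ a b, ContDiffOn ℝ ∞ (fun x => β₁ x a b) {x | x ≠ 0} ∧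
      ContDiffOn ℝ ∞ (fun x => β₂ x a b) {x | x ≠ 0}) ∧
    (∀ x : E4, e * Real.log ‖x‖ ≤ 22 / 10 ∨ 29 / 10 ≤ e * Real.log ‖x‖ → β₁ x = 0 ∧ β₂ x = 0) ∧
    ∀ (x : J0) a b, ∀ y ∈ B1, (W a b).val x y =
      cf β₁ a b (x.1 + (‖x.1‖ / 8) • y) + Complex.I * cf β₂ a b (x.1 + (‖x.1‖ / 8) • y)

/-- **the extended neck** -/
structure XN (k : ℕ) where
  E : Type
  [nE : NormedAddCommGroup E]
  [sE : NormedSpace ℂ E]
  [cE : CompleteSpace E]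
  Cd : ℝ
  N : ℂ → E
  co : ℕ → ℕ → E
  dul : Dul Cd N co
  ε : ℝ
  C : ℝ
  ℓ0 : ℝ
  ε_pos : 0 < ε
  X : E × DD × DD → MJ k × MJ k × ℂ
  hol : DifferentiableOn ℂ X (ball (co 0 0, 0) ε)
  bd : ∀ p ∈ ball ((co 0 0, 0) : E × DD × DD) ε,
    ‖(X p).1‖ ≤ C * (‖p.2‖ ^ 2 + ‖p.1 - co 0 0‖) ∧ ‖(X p).2.1‖ ≤ C * (‖p.2‖ ^ 2 + ‖p.1 - co 0 0‖) ∧
      ‖(X p).2.2‖ ≤ C
  cpx : ∀ p ∈ ball ((co 0 0, 0) : E × DD × DD) ε, Cpx 1 (X p).1 ∧ Cpx (-1) (X p).2.1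
  real : ∀ (Γ : Subgroup Iso4) (ℓ : ℝ), ℓ0 ≤ ℓ → ∀ y : DD × DD,
    (N ℓ, y) ∈ ball ((co 0 0, 0) : E × DD × DD) ε → ∀ hc hp : MetricField 4,
    Inv Γ 2 (An (Ioo (1 / 2) (3 / 2))) hc → DatQ hc 1 y.1 →
    Inv Γ 2 (An (Ioo (-(3 / 2)) (-(1 / 2)))) hp → DatP hp (-1) y.2 →
    ∃ (u βc βp : MetricField 4) (en : ℝ),
      ASol Γ (Ioo 1 (ℓ - 1)) (C * (‖y‖ + ‖N ℓ - co 0 0‖)) en u ∧
      ColO Γ ε y.1 u βc ∧ ColI Γ ε y.2 (fun x => u (Real.exp ℓ • x)) βp ∧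
      LfJ βc (X (N ℓ, y)).1 ∧ LfJ βp (X (N ℓ, y)).2.1 ∧
      (X (N ℓ, y)).2.2 = ((Real.exp (-2 * ℓ) * en : ℝ) : ℂ)

attribute [instance] XN.nE XN.sE XN.cE

/-- **the root end** -/
structure XH (k : ℕ) where
  ε : ℝ
  C : ℝ
  ε_pos : 0 < ε
  X : DD → MJ k × ℂ
  hol : DifferentiableOn ℂ X (ball 0 ε)
  bd : ∀ y ∈ ball (0 : DD) ε, ‖(X y).1‖ ≤ C * ‖y‖ ^ 2 ∧ ‖(X y).2‖ ≤ C
  cpx : ∀ y ∈ ball (0 : DD) ε, Cpx 1 (X y).1
  real : ∀ (Γ : Subgroup Iso4), ∀ y ∈ ball (0 : DD) ε, ∀ hc : MetricField 4,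
    Inv Γ 2 (An (Ioo (1 / 2) (3 / 2))) hc → DatQ hc 1 y →
    ∃ (u βc : MetricField 4) (en : ℝ), ASol Γ (Ioi 1) (C * ‖y‖) en u ∧ ColO Γ ε y u βc ∧
      LfJ βc (X y).1 ∧ (X y).2 = (en : ℂ) ∧
      ∀ x ∈ An (Ioi 1), ∀ j ≤ 2, ∀ a b, ‖x‖ ^ j * ‖iteratedFDeriv ℝ j (fun z => u z a b) x‖ ≤
        C * ‖y‖ * (Real.exp 4 / ‖x‖) ^ (3 / 2 : ℝ)

/-- **leaves XN, XH (captain helper59)** -/
def XNS : Prop := ∀ k, Nonempty (XN k)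

def XHS : Prop := ∀ k, Nonempty (XH k)

/-- **leaf ANA (helper72)**: amplitudes as continuous linear maps -/
def ANA : Prop :=
  ∃ C : ℝ, 0 < C ∧ ∀ (Z : Type) [NormedAddCommGroup Z] [NormedSpace ℂ Z] (f : Z → E4 → ℂ) (t : ℝ),
    (∀ z, ∀ o : S3, J.PB 8 (f z) (Real.exp t • (o : E4)) ‖z‖) →
    (∀ z z', ∀ x ∈ An (Ioo (t - 1 / 10) (t + 1 / 10)), f (z + z') x = f z x + f z' x) →
    (∀ (c : ℂ) z, ∀ x ∈ An (Ioo (t - 1 / 10) (t + 1 / 10)), f (c • z) x = c * f z x) →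
    ∃ (AQ AP : Z →L[ℂ] L.D) (c0 : Z →L[ℂ] ℂ), ‖AQ‖ ≤ C ∧ ‖AP‖ ≤ C ∧ ‖c0‖ ≤ C ∧ ∀ z,
      (∀ k, L.trD 1 (AQ z) k = qm (f z) k t) ∧ (∀ k, L.trD 1 (AP z) k = pm (f z) k t) ∧
      pm (f z) 0 t = toH (c0 z • 1)

/-- **leaf BOOT (helper11)**: `C²` solutions are smooth -/
def BOOT : Prop :=
  ∀ (U : Set E4) (H G : MetricField 4) (κ : Type) [Fintype κ] (μ : κ → ℝ) (ψ : κ → MetricField 4),
    IsOpen U → IsRiemannianOn H U → (∀ j a b, ContDiffOn ℝ ∞ (fun x => ψ j x a b) U) →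
    (∀ a b, ContDiffOn ℝ 2 (fun x => G x a b) U) → (∀ x ∈ U, (G x).PosDef) →
    (∀ x ∈ U, redM H G x = ∑ j, μ j • PsT H G (ψ j) x) →
    ∀ a b, ContDiffOn ℝ ∞ (fun x => G x a b) U

/-- **leaf DSH (helper77)**: shift of the variable and the extra component `e^{-2L}` -/
def DSH : Prop :=
  ∀ (E : Type) [NormedAddCommGroup E] [NormedSpace ℂ E] [CompleteSpace E] (C : ℝ) (N : ℂ → E)
    (co : ℕ → ℕ → E), Dul C N co → ∀ s : ℝ, 0 ≤ s → ∃ (C' : ℝ) (co' : ℕ → ℕ → E × ℂ),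
      Dul C' (fun L => (N (L - s), Complex.exp (-2 * L))) co' ∧ co' 0 0 = (co 0 0, 0) ∧
      Tendsto (fun L : ℝ => N L) atTop (𝓝 (co 0 0))

end Crest.Agent.N207.CB

end
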