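import Crest.Agent.N207.CB.Boot1
import Crest.Agent.N207.CB.St2

/-!
# Row 207 (helper62): leaf `BOOT`, `C²` solutions of the reduced equation are smooth
-/

set_option autoImplicit false

open scoped ContDiff
open Metric Set Filter Topology
open Crest.GeometryTopology.CoordMetric
open Crest.Agent.NLib.Ell Crest.Agent.N207.Lg

noncomputable section

namespace Crest.Agent.N207.CB

namespace Bt

section cl
variable {X ι : Type*} [Fintype ι] [DecidableEq ι] {P : (X → ℝ) → Prop} (h : Cl P)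
  {A B : X → Matrix ι ι ℝ}
include h

omit [Fintype ι] [DecidableEq ι] in
theorem cl_prod {κ : Type*} (S : Finset κ) {f : κ → X → ℝ} (hf : ∀ i, P (f i)) :
    P fun x => ∏ i ∈ S, f i x := by
  classical
  induction S using Finset.induction_on with
  | empty => simpa using h.const 1
  | insert a S ha ih => simpa only [Finset.prod_insert ha] using h.mul (hf a) ih

theorem cl_det (hA : ∀ i j, P fun z => A z i j) : P fun z => (A z).det := by
  simp only [Matrix.det_apply']
  exact h.sum _ fun σ => h.mul (h.const _) (cl_prod h _ fun i => hA _ _)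

theorem cl_inv (hA : ∀ i j, P fun z => A z i j) (hd : P fun z => (A z).det⁻¹) (i j : ι) :
    P fun z => (A z)⁻¹ i j := by
  have e : (fun r => (A r)⁻¹ i j) = fun r => ((A r).det)⁻¹ *
      ((A r).updateRow j (Pi.single i 1)).det := by
    funext r
    simp only [Matrix.inv_def, Matrix.smul_apply, smul_eq_mul, Ring.inverse_eq_inv',
      Matrix.adjugate_apply]
  rw [e]
  refine h.mul hd (cl_det h fun a b => ?_)
  by_cases ha : a = j
  · subst ha; simpa using h.const _
  · simpa [Matrix.updateRow_ne ha] using hA a b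

omit [DecidableEq ι] in
theorem cl_mm (hA : ∀ i j, P fun z => A z i j) (hB : ∀ i j, P fun z => B z i j) (i j : ι) :
    P fun z => (A z * B z) i j := by
  simp only [Matrix.mul_apply]
  exact h.sum _ fun l => h.mul (hA _ _) (hB _ _)
end cl

variable {k : ℕ} {x0 : E4} {H G ψ : MetricField 4}

theorem sm_inv0 : ContDiffOn ℝ ∞ (fun t : ℝ => t⁻¹) (Ioi 0) :=
  contDiffOn_id.inv fun _ ht => ne_of_gt ht

theorem lc_iv (hG : ∀ a b, Lc k x0 fun x => G x a b) (hp : 0 < (G x0).det) (a b : Fin 4) :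
    Lc k x0 fun x => (G x)⁻¹ a b :=
  cl_inv (lc_cl k x0) hG ((cl_det (lc_cl k x0) hG).comp hp sm_inv0) a b

theorem lc_sq (hG : ∀ a b, Lc k x0 fun x => G x a b) (hp : 0 < (G x0).det) : Lc k x0 (sq G) :=
  (cl_det (lc_cl k x0) hG).comp hp (Φ := fun t => √t)
    (contDiffOn_id.sqrt fun _ ht => ne_of_gt ht)

theorem lc_PsT (hH : ∀ a b, Lc k x0 fun x => H x a b) (pH : 0 < (H x0).det)
    (hG : ∀ a b, Lc k x0 fun x => G x a b) (pG : 0 < (G x0).det)
    (hψ : ∀ a b, Lc k x0 fun x => ψ x a b) (a b : Fin 4) : Lc k x0 fun x => PsT H G ψ x a b := by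
  have c := lc_cl k x0
  have h1 : Lc k x0 fun x => sq H x / sq G x := by
    simp only [div_eq_mul_inv]
    exact c.mul (lc_sq hH pH) ((lc_sq hG pG).comp (Real.sqrt_pos.2 pG) sm_inv0)
  have h2 : ∀ a b, Lc k x0 fun x =>
      ((sq H x / sq G x) • (G x * (H x)⁻¹ * ψ x * (H x)⁻¹ * G x)) a b := fun a b =>
    c.mul h1 (cl_mm c (cl_mm c (cl_mm c (cl_mm c hG (lc_iv hH pH)) hψ) (lc_iv hH pH)) hG a b)
  exact c.sub (h2 a b) (c.mul (c.mul (c.const _) (c.tr2 (lc_iv hG pG) h2)) (hG a b))

/-- the right hand side of `G^{ab} ∂_a ∂_b G_ij = …` -/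
def rhs (H G R : MetricField 4) (i j : Fin 4) (y : E4) : ℝ :=
  2 * (qd (iv G y) (bar (G y) (jet G y) (christoffel H y)) i j -
      cvJ (G y) (iv G y) (rie (christoffel H y) (dGam H y)) i j - R y i j) -
    lapJ (iv G y) (bar3 (bar (G y) (jet G y) (christoffel H y))
      (dbar (G y) (jet G y) 0 (christoffel H y) (dGam H y)) (christoffel H y)) i j

theorem rhs_eq {y : E4} (hb : C2 H y) (h : C2 G y) (i j : Fin 4) :
    R273.SchB_152.P2 (fun x => (G x)⁻¹) (fun x => G x i j) y = rhs H G (redM H G) i j y := by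
  have e := hb.redT_eq h i j
  rw [hb.TTG_eq h.c2, TG_eq, riemann_eq] at e
  have e1 : redM H G y i j = redT H G y ![i, j] := rfl
  have e2 : lapJ (iv G y) (bar3 (bar (G y) (jet G y) (christoffel H y))
      (dbar (G y) (jet G y) (jet2 G y) (christoffel H y) (dGam H y)) (christoffel H y)) i j =
      lapJ (iv G y) (jet2 G y) i j + lapJ (iv G y) (bar3 (bar (G y) (jet G y) (christoffel H y))
        (dbar (G y) (jet G y) 0 (christoffel H y) (dGam H y)) (christoffel H y)) i j := by
    simp only [lapJ, ← Finset.sum_add_distrib]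
    refine Finset.sum_congr rfl fun a _ => Finset.sum_congr rfl fun b _ => ?_
    simp only [bar3, dbar, Pi.zero_apply]; ring
  have e3 : R273.SchB_152.P2 (fun x => (G x)⁻¹) (fun x => G x i j) y =
      lapJ (iv G y) (jet2 G y) i j := by
    simp only [R273.SchB_152.P2, D2_pd (h.c2 i j)]; rfl
  rw [e3, rhs, e1, e, e2]; ring

theorem lc_rhs {U : Set E4} {R : MetricField 4} (hH : IsRiemannianOn H U) (hx : x0 ∈ U)
    (hG : ∀ a b, Lc (k + 1) x0 fun x => G x a b) (pG : 0 < (G x0).det)
    (hR : ∀ a b, Lc k x0 fun x => R x a b) (i j : Fin 4) : Lc k x0 (rhs H G R i j) := by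
  have c := lc_cl k x0
  have s : ∀ a b d, ContDiffAt ℝ ∞ (fun z => christoffel H z a b d) x0 := fun a b d =>
    (sm_chr hH a b d).contDiffAt (hH.isOpen.mem_nhds hx)
  have h0 : P2 (Lc k x0) fun x => (G x : M2 (Fin 4) ℝ) := fun a b => (hG a b).pred
  have h1 : P2 (Lc k x0) (iv G) := lc_iv h0 pG
  have h2 : P3 (Lc k x0) (jet G) := fun d a b => (hG a b).pd d
  have h3 : P3 (Lc k x0) (christoffel H) := fun a b d => lc_of_smooth (s a b d)
  have h4 : P4 (Lc k x0) (dGam H) := fun e a b d => (lc_of_smooth (s a b d)).pd e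
  have h5 := c.bar h0 h2 h3
  exact c.sub (c.mul (c.const _) (c.sub (c.sub (c.qd h1 h5 i j) (c.cvJ h0 h1 (c.rie h3 h4) i j))
    (hR i j))) (c.lapJ h1 (c.bar3 h5 (c.dbar (Q := fun _ => 0) h0 h2
      (fun _ _ _ _ => c.const 0) h3 h4) h3) i j)

end Bt

open Bt in
/-- **leaf BOOT** -/
theorem boot : BOOT := by
  intro U H G κ _ μ ψ hU hH hψ hG hp he
  have c2 : ∀ x ∈ U, C2 G x := fun x hx =>
    ⟨fun a b => (hG a b).contDiffAt (hU.mem_nhds hx), mem_of_superset (hU.mem_nhds hx)
      fun y hy i j => by simpa using (hp y hy).isHermitian.apply j i, (hp x hx).det_pos⟩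
  let R : MetricField 4 := fun x => ∑ j, μ j • PsT H G (ψ j) x
  have main : ∀ x ∈ U, ∀ k, ∀ a b, Lc (k + 2) x fun y => G y a b := fun x hx => by
    have pG := (hp x hx).det_pos
    have hf : ∀ k, (∀ a b, Lc (k + 1) x fun y => G y a b) → ∀ a b, Lc k x (rhs H G R a b) :=
      fun k h => lc_rhs hH hx h pG fun a b => by
        simp only [R, Matrix.sum_apply, Matrix.smul_apply, smul_eq_mul]
        exact (lc_cl k x).sum _ fun j => (lc_cl k x).mul ((lc_cl k x).const _) (lc_PsT
          (fun a b => lc_of_smooth ((hH.contDiffOn a b).contDiffAt (hU.mem_nhds hx)))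
          (hH.posDef x hx).det_pos (fun a b => (h a b).pred) pG
          (fun a b => lc_of_smooth ((hψ j a b).contDiffAt (hU.mem_nhds hx))) a b)
    have hq : ∀ᶠ y in 𝓝 x, ((G y)⁻¹).PosDef :=
      mem_of_superset (hU.mem_nhds hx) fun y hy => (hp y hy).inv
    have e : ∀ a b, ∀ᶠ y in 𝓝 x, R273.SchB_152.P2 (fun x => (G x)⁻¹) (fun x => G x a b) y =
        rhs H G R a b y := fun a b => mem_of_superset (hU.mem_nhds hx) fun y hy => by
      have := rhs_eq (C2.of_riem hH hy) (c2 y hy) a b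
      rw [rhs, he y hy] at this
      exact this
    have l1 : ∀ a b, Lc 1 x fun y => G y a b := fun a b => lc_of_contDiffAt ((c2 x hx).c2 a b)
    have l2 : ∀ a b, Lc 2 x fun y => G y a b := fun a b =>
      lc_two (lc_iv (fun a b => (l1 a b).pred) pG) hq (hf 0 l1 a b) ((c2 x hx).c2 a b) (e a b)
    intro k
    induction k with
    | zero => exact l2
    | succ k ih =>
      exact fun a b => lc_step (lc_iv (fun a b => (ih a b).pred) pG) hq (hf _ ih a b) (l2 a b)
        (e a b)
  exact fun a b => contDiffOn_infty.2 fun k x hx =>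
    (main x hx k a b).pred.pred.contDiffAt.contDiffWithinAt

end Crest.Agent.N207.CB

end
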