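import Crest.Agent.NLib.Ell.OY
import Crest.Agent.NLib.Ell.SchAll
import Crest.Agent.N207.Lg.Hom

/-!
# Row 207 (helper62): germs of Hölder class, `C² ⇒ C^{2,1/2}` and the Schauder step
-/

set_option autoImplicit false

open scoped ContDiff
open Metric Set Filter Topology
open Crest.GeometryTopology.CoordMetric
open Crest.Agent.NLib.Ell Crest.Agent.R238.Sch Crest.Agent.R273.SchA_152 Crest.Agent.R273.SchD_152
open Crest.Agent.R273.SchB_152 (P2 ell_conv)
open Crest.Agent.R238 (Ell)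

noncomputable section

namespace Crest.Agent.N207.CB.Bt

variable {n k : ℕ} {x0 : EE n} {f g u : EE n → ℝ} {τ : EE n → Matrix (Fin n) (Fin n) ℝ}

/-- `f` is `C^{k,1/2}` near `x0` -/
def Lc (k : ℕ) (x0 : EE n) (f : EE n → ℝ) : Prop :=
  ∃ V, ∀ᶠ r in 𝓝[>] (0 : ℝ), CKA (1 / 2) (ball x0 r) k V f

theorem lc_of {r V : ℝ} (hr : 0 < r) (h : CKA (1 / 2) (ball x0 r) k V f) : Lc k x0 f :=
  ⟨V, by
    filter_upwards [Ioo_mem_nhdsGT hr] with _ hs using h.subset (ball_subset_ball hs.2.le)⟩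

theorem ev_ball {p : EE n → Prop} (h : ∀ᶠ x in 𝓝 x0, p x) :
    ∀ᶠ r in 𝓝[>] (0 : ℝ), ∀ x ∈ closedBall x0 r, p x := by
  obtain ⟨ε, hε, e⟩ := Metric.mem_nhds_iff.1 h
  exact mem_of_superset (Ioo_mem_nhdsGT hε) fun r hr x hx => e (closedBall_subset_ball hr.2 hx)

theorem Lc.ex (h : Lc k x0 f) : ∃ r V, 0 < r ∧ CKA (1 / 2) (ball x0 r) k V f := by
  obtain ⟨V, h⟩ := h
  obtain ⟨r, a, b⟩ := (h.and self_mem_nhdsWithin).exists
  exact ⟨r, V, b, a⟩

theorem lc_cl (k : ℕ) (x0 : EE n) : Lg.Cl (Lc k x0) where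
  const c := ⟨_, .of_forall fun _ => CKA.const c⟩
  add := fun ⟨_, a⟩ ⟨_, b⟩ => ⟨_, (a.and b).mono fun _ h => h.1.add isOpen_ball h.2⟩
  mul := fun ⟨_, a⟩ ⟨_, b⟩ => ⟨_, (a.and b).mono fun _ h => h.1.mul isOpen_ball h.2⟩

theorem Lc.congr (h : Lc k x0 f) (e : g =ᶠ[𝓝 x0] f) : Lc k x0 g := by
  obtain ⟨V, h⟩ := h
  exact ⟨V, (h.and (ev_ball e)).mono fun _ a =>
    a.1.congr isOpen_ball fun x hx => a.2 x (ball_subset_closedBall hx)⟩

theorem Lc.pred (h : Lc (k + 1) x0 f) : Lc k x0 f := h.imp fun _ a => a.mono fun _ b => b.pred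

theorem Lc.pd (h : Lc (k + 1) x0 f) (i : Fin n) : Lc k x0 (pderiv i f) :=
  h.imp fun _ a => a.mono fun _ b => b.pd i

theorem Lc.contDiffAt (h : Lc k x0 f) : ContDiffAt ℝ k f x0 := by
  obtain ⟨r, V, hr, h⟩ := h.ex
  exact (h.contDiffOn isOpen_ball (by norm_num)).contDiffAt (ball_mem_nhds _ hr)

theorem lc_of_contDiffAt (h : ContDiffAt ℝ (k + 1 : ℕ) f x0) : Lc k x0 f := by
  obtain ⟨r, hb, hr⟩ := ((ev_ball (h.eventually (by simp))).and self_mem_nhdsWithin).exists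
  have hB : ∀ j : ℕ, ∃ B, j ≤ k + 1 → ∀ x ∈ closedBall x0 r, ‖iteratedFDeriv ℝ j f x‖ ≤ B :=
    fun j => by
      by_cases hj : j ≤ k + 1
      · obtain ⟨B, hB⟩ := (isCompact_closedBall x0 r).exists_bound_of_continuousOn
          (f := iteratedFDeriv ℝ j f) fun x hx => ((hb x hx).iteratedFDeriv_right (m := 0) (i := j)
            (by exact_mod_cast (by omega : 0 + j ≤ k + 1))).continuousAt.continuousWithinAt
        exact ⟨B, fun _ => hB⟩
      · exact ⟨0, fun c => absurd c hj⟩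
  choose B hB using hB
  refine lc_of hr (CKA.of_bounds (M := ∑ j ∈ Finset.range (k + 2), |B j|) isOpen_ball
    (convex_ball _ _) (by norm_num) (by norm_num)
    (fun x hx => (hb x (ball_subset_closedBall hx)).contDiffWithinAt) fun j hj x hx => ?_)
  exact ((hB j hj x (ball_subset_closedBall hx)).trans (le_abs_self _)).trans
    (Finset.single_le_sum (f := fun j => |B j|) (fun _ _ => abs_nonneg _)
      (Finset.mem_range.2 (by omega)))

theorem lc_of_smooth (h : ContDiffAt ℝ ∞ f x0) : Lc k x0 f :=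
  lc_of_contDiffAt (h.of_le (by exact_mod_cast le_top))

/-- composition with a function that is smooth on `(0, ∞)` -/
theorem Lc.comp (h : Lc k x0 f) (h0 : 0 < f x0) {Φ : ℝ → ℝ} (hΦ : ContDiffOn ℝ ∞ Φ (Ioi 0)) :
    Lc k x0 fun x => Φ (f x) := by
  have hc : ∀ᶠ x in 𝓝 x0, f x ∈ Icc (f x0 / 2) (2 * f x0) :=
    h.contDiffAt.continuousAt.eventually (Icc_mem_nhds (by linarith) (by linarith))
  obtain ⟨V, h⟩ := h
  obtain ⟨C, hC⟩ := NLib.Ell.comp n k (1 / 2) V (by norm_num) (by norm_num) ℝ ℝ Φ (Ioi 0) _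
    isOpen_Ioi (isCompact_Icc (a := f x0 / 2) (b := 2 * f x0))
    (fun y hy => lt_of_lt_of_le (by linarith) hy.1) hΦ
  exact ⟨C, (h.and (ev_ball hc)).mono fun r a =>
    hC _ _ isOpen_ball (fun x hx => a.2 x (ball_subset_closedBall hx)) a.1⟩

/-- uniform ellipticity on compact sets -/
theorem exists_ell {K : Set (EE n)} (hK : IsCompact K)
    (hc : ∀ i j, ContinuousOn (fun x => τ x i j) K) (hp : ∀ x ∈ K, (τ x).PosDef) :
    ∃ lo hi, 0 < lo ∧ lo ≤ hi ∧ ∀ x ∈ K, Ell lo hi (τ x) := by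
  let q : EE n × (Fin n → ℝ) → ℝ := fun p => ∑ i, ∑ j, τ p.1 i j * p.2 i * p.2 j
  let s : (Fin n → ℝ) → ℝ := fun z => ∑ i, z i ^ 2
  have hs : ∀ z, z ≠ 0 → 0 < s z := fun z hz => by
    obtain ⟨i, hi⟩ := Function.ne_iff.1 hz
    exact Finset.sum_pos' (fun _ _ => sq_nonneg _) ⟨i, Finset.mem_univ _, sq_pos_of_ne_zero hi⟩
  have hq : ∀ x ∈ K, ∀ z, z ≠ 0 → 0 < q (x, z) := fun x hx z hz => by
    have := (hp x hx).dotProduct_mulVec_pos hz
    simp only [dotProduct, Matrix.mulVec, Finset.mul_sum, star_trivial] at this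
    refine this.trans_eq (Finset.sum_congr rfl fun i _ => Finset.sum_congr rfl fun j _ => ?_)
    ring
  have hS : ∀ z ∈ sphere (0 : Fin n → ℝ) 1, z ≠ 0 := fun z hz e => by simp [e] at hz
  have hC := hK.prod (isCompact_sphere (0 : Fin n → ℝ) 1)
  have hF : ContinuousOn (fun p => q p / s p.2) (K ×ˢ sphere (0 : Fin n → ℝ) 1) := by
    refine ContinuousOn.div (continuousOn_finsetSum _ fun i _ => continuousOn_finsetSum _
      fun j _ => (((hc i j).comp continuousOn_fst fun p hp => hp.1).mul ?_).mul ?_) ?_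
      fun p hp => (hs _ (hS _ hp.2)).ne'
    · fun_prop
    · fun_prop
    · exact Continuous.continuousOn (by fun_prop)
  obtain ⟨lo, l0, hl⟩ := hC.exists_forall_le' hF (a := 0) fun p hp =>
    div_pos (hq _ hp.1 _ (hS _ hp.2)) (hs _ (hS _ hp.2))
  obtain ⟨B, hB⟩ := hC.exists_bound_of_continuousOn hF
  refine ⟨lo, max lo B, l0, le_max_left _ _, fun x hx => ⟨fun i j => ?_, fun z => ?_⟩⟩
  · simpa using (hp x hx).isHermitian.apply j i
  by_cases hz : z = 0
  · simp [hz]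
  have hn : ‖z‖ ≠ 0 := norm_ne_zero_iff.2 hz
  have hm : (x, ‖z‖⁻¹ • z) ∈ K ×ˢ sphere (0 : Fin n → ℝ) 1 :=
    ⟨hx, by simp [norm_smul, inv_mul_cancel₀ hn]⟩
  have e : q (x, ‖z‖⁻¹ • z) / s (‖z‖⁻¹ • z) = q (x, z) / s z := by
    have e1 : q (x, ‖z‖⁻¹ • z) = ‖z‖⁻¹ ^ 2 * q (x, z) := by
      simp only [q, Finset.mul_sum, Pi.smul_apply, smul_eq_mul]
      exact Finset.sum_congr rfl fun i _ => Finset.sum_congr rfl fun j _ => by ring
    have e2 : s (‖z‖⁻¹ • z) = ‖z‖⁻¹ ^ 2 * s z := by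
      simp only [s, Finset.mul_sum, Pi.smul_apply, smul_eq_mul]
      exact Finset.sum_congr rfl fun i _ => by ring
    rw [e1, e2, mul_div_mul_left _ _ (by positivity)]
  have a := hl _ hm
  have b := ((le_abs_self _).trans (hB _ hm)).trans (le_max_right lo B)
  dsimp only at a b
  rw [e] at a b
  exact ⟨(le_div_iff₀ (hs z hz)).1 a, (div_le_iff₀ (hs z hz)).1 b⟩

theorem ev_ell (hc : ∀ i j, Lc k x0 fun x => τ x i j) (hp : ∀ᶠ x in 𝓝 x0, (τ x).PosDef) :
    ∃ lo hi, 0 < lo ∧ lo ≤ hi ∧ ∀ᶠ r in 𝓝[>] (0 : ℝ), ∀ x ∈ ball x0 r, Ell lo hi (τ x) := by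
  have h1 : ∀ᶠ x in 𝓝 x0, ∀ i j, ContinuousAt (fun x => τ x i j) x :=
    eventually_all.2 fun i => eventually_all.2 fun j =>
      ((hc i j).contDiffAt.eventually (by simp)).mono fun _ a => a.continuousAt
  obtain ⟨r, hb, hr⟩ := ((ev_ball (h1.and hp)).and self_mem_nhdsWithin).exists
  obtain ⟨lo, hi, a, b, c⟩ := exists_ell (isCompact_closedBall x0 r)
    (fun i j x hx => ((hb x hx).1 i j).continuousWithinAt) fun x hx => (hb x hx).2
  exact ⟨lo, hi, a, b, mem_of_superset (Ioo_mem_nhdsGT hr) fun s hs x hx =>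
    c x (ball_subset_closedBall (ball_subset_ball hs.2.le hx))⟩

theorem lc_mat (hc : ∀ i j, Lc k x0 fun x => τ x i j) : ∃ M, 0 ≤ M ∧
    ∀ᶠ r in 𝓝[>] (0 : ℝ), ∀ i j, CKA (1 / 2) (ball x0 r) k M fun x => τ x i j := by
  choose V hV using hc
  refine ⟨∑ i, ∑ j, |V i j|, by positivity, eventually_all.2 fun i => eventually_all.2 fun j =>
    (hV i j).mono fun _ a => a.mono ((le_abs_self _).trans ?_)⟩
  exact (Finset.single_le_sum (f := fun j => |V i j|) (fun _ _ => abs_nonneg _)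
    (Finset.mem_univ j)).trans (Finset.single_le_sum (f := fun i => ∑ j, |V i j|)
      (fun _ _ => by positivity) (Finset.mem_univ i))

/-- **the Schauder step** -/
theorem lc_step (hc : ∀ i j, Lc k x0 fun x => τ x i j) (hp : ∀ᶠ x in 𝓝 x0, (τ x).PosDef)
    (hf : Lc k x0 f) (hu : Lc 2 x0 u) (e : ∀ᶠ x in 𝓝 x0, P2 τ u x = f x) : Lc (k + 2) x0 u := by
  obtain ⟨lo, hi, l0, lh, h1⟩ := ev_ell hc hp
  obtain ⟨M, M0, h2⟩ := lc_mat hc
  obtain ⟨N, h3⟩ := hf
  obtain ⟨V, h4⟩ := hu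
  obtain ⟨r, ⟨⟨a1, a2⟩, ⟨a3, a4⟩, a5⟩, r0, r1⟩ := ((((h1.and h2).and ((h3.and h4).and
    (ev_ball e))).and (Ioo_mem_nhdsGT one_pos))).exists
  obtain ⟨C, -, H⟩ := schAll n k (1 / 2) lo hi M r (by norm_num) (by norm_num) l0 lh r0 r1.le
  refine lc_of (half_pos r0) (H x0 τ (fun _ _ => 0) (fun _ => 0) u f N V a1 a2
    (fun _ => CKA.zero.mono M0) (CKA.zero.mono M0) a3 ⟨V, a4⟩ (fun x hx => a4.bdd hx)
    fun x hx => ?_)
  simpa using a5 x (ball_subset_closedBall hx)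

/-- a function that vanishes outside `closedBall x0 (2ρ)` -/
theorem ho_ext {ρ M : ℝ} (h0 : 0 < ρ) (h1 : ρ ≤ 1) (h : HO (1 / 2) M (ball x0 (4 * ρ)) f)
    (hz : ∀ x, 2 * ρ ≤ dist x x0 → f x = 0) : HO (1 / 2) (2 / ρ * M) univ f := by
  have M0 : 0 ≤ M := h.nonneg (mem_ball_self (by linarith))
  refine ho_of_balls (by norm_num) (by norm_num) h0 h1 fun x _ => ?_
  by_cases hx : dist x x0 < 3 * ρ
  · exact h.subset fun y hy => by
      have := dist_triangle y x x0; rw [mem_ball] at hy ⊢; linarith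
  · refine ((ho_const (a := 1 / 2) (s := ball x ρ) (0 : ℝ)).mono (by simpa using M0)).congr
      fun y hy => hz y ?_
    have := dist_triangle x y x0; rw [mem_ball, dist_comm] at hy; linarith

theorem D2_pd {x : EE n} (hu : ContDiffAt ℝ 2 u x) (i j : Fin n) :
    D2 u x (ee i) (ee j) = pderiv i (pderiv j u) x := by
  have hd : DifferentiableAt ℝ (fderiv ℝ u) x :=
    (hu.fderiv_right (m := 1) (by norm_num)).differentiableAt (by norm_num)
  have h := ((ContinuousLinearMap.apply ℝ ℝ (ei j : EE n)).hasFDerivAt.comp x hd.hasFDerivAt).fderiv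
  change _ = fderiv ℝ ((ContinuousLinearMap.apply ℝ ℝ (ei j : EE n)) ∘ fderiv ℝ u) x _
  rw [h]; rfl

theorem pd2_mul {x : EE n} (hf : ContDiffAt ℝ 2 f x) (hu : ContDiffAt ℝ 2 u x) (i j : Fin n) :
    pderiv i (pderiv j fun y => f y * u y) x = f x * pderiv i (pderiv j u) x +
      (pderiv i f x * pderiv j u x + pderiv j f x * pderiv i u x + pderiv i (pderiv j f) x * u x) := by
  have d : ∀ {f : EE n → ℝ}, ContDiffAt ℝ 2 f x → DifferentiableAt ℝ f x := fun h =>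
    h.differentiableAt (by norm_num)
  have d' : ∀ {f : EE n → ℝ}, ContDiffAt ℝ 2 f x → DifferentiableAt ℝ (pderiv j f) x := fun h =>
    (R247.Bo84.contDiffAt_pderiv (m := 1) h (by norm_num) j).differentiableAt (by norm_num)
  have e : pderiv j (fun y => f y * u y) =ᶠ[𝓝 x] fun y => pderiv j f y * u y + f y * pderiv j u y :=
    ((hf.eventually (by simp)).and (hu.eventually (by simp))).mono fun y a =>
      pd_mul j (a.1.differentiableAt (by norm_num)) (a.2.differentiableAt (by norm_num))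
  rw [pd_congr i e, pd_add i ((d' hf).fun_mul (d hu)) ((d hf).fun_mul (d' hu)),
    pd_mul i (d' hf) (d hu), pd_mul i (d hf) (d' hu)]
  ring

/-- **a `C²` solution is `C^{2,1/2}`** -/
theorem lc_two (hc : ∀ i j, Lc 0 x0 fun x => τ x i j) (hp : ∀ᶠ x in 𝓝 x0, (τ x).PosDef)
    (hf : Lc 0 x0 f) (hu : ContDiffAt ℝ 2 u x0) (e : ∀ᶠ x in 𝓝 x0, P2 τ u x = f x) :
    Lc 2 x0 u := by
  obtain ⟨lo, hi, l0, lh, h1⟩ := ev_ell hc hp
  obtain ⟨M, M0, h2⟩ := lc_mat hc
  obtain ⟨N, h3⟩ := hf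
  obtain ⟨V, h4⟩ := lc_of_contDiffAt (k := 1) hu
  obtain ⟨r, ⟨⟨a1, a2⟩, ⟨a3, a4⟩, a5, a6⟩, r0, r1⟩ := ((((h1.and h2).and ((h3.and h4).and
    ((ev_ball e).and (ev_ball (hu.eventually (by simp)))))).and (Ioo_mem_nhdsGT one_pos))).exists
  obtain ⟨ρ, rfl⟩ : ∃ ρ, r = 4 * ρ := ⟨r / 4, by ring⟩
  have ρ0 : 0 < ρ := by linarith
  let χ : ContDiffBump x0 := ⟨ρ / 2, ρ, by linarith, by linarith⟩
  let η : ContDiffBump x0 := ⟨ρ, 2 * ρ, ρ0, by linarith⟩
  let σ : EE n → Matrix (Fin n) (Fin n) ℝ := fun x => η x • τ x + (1 - η x) • τ x0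
  let w : EE n → ℝ := fun x => χ x * u x
  have m0 : x0 ∈ ball x0 (4 * ρ) := mem_ball_self r0
  have sm : ∀ {φ : EE n → ℝ}, ContDiff ℝ ∞ φ → ∃ W, HO (1 / 2) W (ball x0 (4 * ρ)) φ := fun h =>
    (isCompact_closedBall x0 (4 * ρ)).exists_bound_of_continuousOn h.continuous.continuousOn |>.elim
      fun B hB => (isCompact_closedBall x0 (4 * ρ)).exists_bound_of_continuousOn
        (h.continuous_iteratedFDeriv (m := 1) (by exact_mod_cast le_top)).continuousOn |>.elim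
      fun B' hB' => ⟨_, CKA.of_bounds (k := 0) (M := max B B') isOpen_ball (convex_ball _ _)
        (by norm_num) (by norm_num) (h.of_le (by exact_mod_cast le_top)).contDiffOn fun j hj x hx => by
          rcases (by omega : j = 0 ∨ j = 1) with rfl | rfl
          · rw [norm_iteratedFDeriv_zero]
            exact (hB x (ball_subset_closedBall hx)).trans (le_max_left _ _)
          · exact (hB' x (ball_subset_closedBall hx)).trans (le_max_right _ _)⟩
  have cl : Lg.Cl fun φ : EE n → ℝ => ∃ W, HO (1 / 2) W (ball x0 (4 * ρ)) φ :=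
    ⟨fun c => ⟨_, ho_const c⟩, fun ⟨_, a⟩ ⟨_, b⟩ => ⟨_, a.add b⟩, fun ⟨_, a⟩ ⟨_, b⟩ => ⟨_, ho_mul a b⟩⟩
  have spd : ∀ {φ : EE n → ℝ}, ContDiff ℝ ∞ φ → ∀ i, ContDiff ℝ ∞ (pderiv i φ) := fun h i =>
    (h.fderiv_right (m := ∞) (by simp)).clm_apply contDiff_const
  have eσ : ∀ x, Ell lo hi (σ x) := fun x => by
    by_cases hx : x ∈ ball x0 (4 * ρ)
    · exact ell_conv (a1 x hx) (a1 x0 m0) η.nonneg η.le_one
    · have : η x = 0 := η.zero_of_le_dist (by rw [mem_ball, not_lt] at hx; dsimp only [η]; linarith)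
      simpa [σ, this] using a1 x0 m0
  have hσ : ∀ i j, ∃ W, HO (1 / 2) W univ fun x => σ x i j := fun i j => by
    obtain ⟨W, hW⟩ := cl.mul (sm η.contDiff) (cl.sub ⟨_, (a2 i j).ho⟩ (cl.const (τ x0 i j)))
    refine ⟨_, ((ho_ext ρ0 (by linarith) hW fun x hx => ?_).add (ho_const (τ x0 i j))).congr
      fun x _ => ?_⟩
    · rw [η.zero_of_le_dist hx, zero_mul]
    · simp only [σ, Matrix.add_apply, Matrix.smul_apply, smul_eq_mul]; ring
  have w0 : ∀ x, ρ < dist x x0 → w =ᶠ[𝓝 x] fun _ => 0 := fun x hx =>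
    ((continuous_id.dist continuous_const).continuousAt.eventually (lt_mem_nhds hx)).mono
      fun y hy => by simp only [w]; rw [χ.zero_of_le_dist (x := y) hy.le, zero_mul]
  have w2 : ContDiff ℝ 2 w := contDiff_iff_contDiffAt.2 fun x => by
    by_cases hx : ρ < dist x x0
    · exact contDiffAt_const.congr_of_eventuallyEq (w0 x hx)
    · exact χ.contDiffAt.mul (a6 x (by rw [mem_closedBall]; linarith))
  have hg : ∃ W, HO (1 / 2) W univ fun x => P2 σ w x - w x := by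
    have u0 : ∃ W, HO (1 / 2) W (ball x0 (4 * ρ)) u := ⟨_, a4.ho⟩
    have u1 : ∀ i, ∃ W, HO (1 / 2) W (ball x0 (4 * ρ)) (pderiv i u) := fun i => ⟨_, (a4.pd i).ho⟩
    have c0 : ContDiff ℝ ∞ χ := χ.contDiff
    obtain ⟨W, hW⟩ := cl.sub (cl.add (cl.mul (sm c0) ⟨_, a3.ho⟩) (cl.sum Finset.univ fun i =>
      cl.sum Finset.univ fun j => cl.mul ((hσ i j).imp fun _ a => a.subset (subset_univ _))
        (cl.add (cl.add (cl.mul (sm (spd c0 i)) (u1 j)) (cl.mul (sm (spd c0 j)) (u1 i)))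
          (cl.mul (sm (spd (spd c0 j) i)) u0)))) (cl.mul (sm c0) u0)
    refine ⟨_, ho_ext ρ0 (by linarith) (hW.congr fun x hx => ?_) fun x hx => ?_⟩
    · have b := a6 x (ball_subset_closedBall hx)
      have : χ x * f x = ∑ i, ∑ j, σ x i j * (χ x * pderiv i (pderiv j u) x) := by
        by_cases c : ρ ≤ dist x x0
        · simp [χ.zero_of_le_dist c]
        · have : η x = 1 := η.one_of_mem_closedBall (by rw [mem_closedBall]; linarith)
          rw [← a5 x (ball_subset_closedBall hx), P2, Finset.mul_sum]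
          refine Finset.sum_congr rfl fun i _ => ?_
          rw [Finset.mul_sum]
          refine Finset.sum_congr rfl fun j _ => ?_
          simp only [σ, this, D2_pd b, one_smul, sub_self, zero_smul, add_zero]; ring
      simp only [P2, D2_pd w2.contDiffAt, this, w, pd2_mul χ.contDiffAt b, mul_add,
        Finset.sum_add_distrib]
    · have a := w0 x (by linarith)
      have b : ∀ i j, pderiv i (pderiv j w) x = 0 := fun i j => by
        rw [pd_congr i (pd_congr_ev j a)]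
        rw [show pderiv j (fun _ : EE n => (0 : ℝ)) = fun _ => 0 from funext fun _ => pd_const j 0]
        exact pd_const i 0
      simp only [P2, D2_pd w2.contDiffAt, b, a.eq_of_nhds, mul_zero, Finset.sum_const_zero,
        sub_self]
  obtain ⟨W, hW⟩ := hg
  choose S hS using hσ
  obtain ⟨z, z2, ⟨Z, zZ⟩, ze⟩ := solve_all n (1 / 2) lo hi (∑ i, ∑ j, |S i j|) (by norm_num)
    (by norm_num) l0 lh σ _ W eσ (fun i j => (hS i j).mono ((le_abs_self _).trans
      ((Finset.single_le_sum (f := fun j => |S i j|) (fun _ _ => abs_nonneg _)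
        (Finset.mem_univ j)).trans (Finset.single_le_sum (f := fun i => ∑ j, |S i j|)
          (fun _ _ => by positivity) (Finset.mem_univ i))))) hW
  have hb : ∃ B, ∀ x, |w x - z x| ≤ B := by
    refine ⟨|V| + Z, fun x => (abs_sub _ _).trans (add_le_add ?_ (zZ.h0.bdd x trivial))⟩
    by_cases c : ρ < dist x x0
    · rw [(w0 x c).eq_of_nhds, abs_zero]; exact abs_nonneg _
    · rw [abs_mul, abs_of_nonneg χ.nonneg]
      exact (mul_le_of_le_one_left (abs_nonneg _) χ.le_one).trans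
        ((a4.bdd (by rw [mem_ball]; linarith)).trans (le_abs_self _))
  have key := maxP n lo hi l0.le σ (fun x => w x - z x) 0 eσ (w2.sub z2) hb fun x => by
    have := ze x
    have e2 : P2 σ (fun x => w x - z x) x = P2 σ w x - P2 σ z x := by
      simp only [P2, D2_sub_on isOpen_univ w2.contDiffOn z2.contDiffOn (mem_univ x),
        sub_apply, mul_sub, Finset.sum_sub_distrib]
    rw [e2, show P2 σ w x - P2 σ z x - (w x - z x) = 0 by linarith, abs_zero]
  refine (lc_of one_pos ((CKA.of_c2a isOpen_univ z2.contDiffOn zZ).subset (subset_univ _))).congr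
    (χ.eventuallyEq_one.mono fun x hx => ?_)
  have := abs_nonpos_iff.1 (key x)
  simp only [w, hx, Pi.one_apply, one_mul] at this
  linarith

end Crest.Agent.N207.CB.Bt

end
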