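import Crest.Agent.N207.J.Gauge
import Crest.Agent.NLib.Ell.CKA2
import Crest.Agent.N250.H.Fix

/-!
# Row 207, core box (helper92): the Banach algebra of cell families

`Cel I k`: families `f i : ℝ⁴ → ℂ` (`i : I`) of `C^{k,1/2}` functions on the unit ball with a
uniform bound; a commutative Banach algebra with characters `ev i y`, partial derivatives `D a`.
-/

set_option autoImplicit false

open Metric Set Filter Topology
open Crest.Agent.NLib.Ell Crest.Agent.N207.J Crest.Agent.R273.SchA_152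

noncomputable section

namespace Crest.Agent.N207.CB

/-- the unit ball -/
abbrev B1 : Set (EE 4) := ball 0 1

/-- uniform `C^{k,1/2}` bound on the unit ball, zero outside -/
structure CR {I : Type} (k : ℕ) (M : ℝ) (f : I → EE 4 → ℂ) : Prop where
  nn : 0 ≤ M
  ck : ∀ i, CKA (1 / 2) B1 k M (f i)
  out : ∀ i y, y ∉ B1 → f i y = 0

variable {I : Type} {k : ℕ}

theorem cka_csmul {f : EE 4 → ℂ} {M : ℝ} (c : ℂ) (h : CKA (1 / 2) B1 k M f) :
    CKA (1 / 2) B1 k (‖c‖ * M) fun y => c * f y := by
  have := h.clm isOpen_ball (ContinuousLinearMap.mul ℝ ℂ c) (L := ‖c‖)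
    (ContinuousLinearMap.opNorm_mul_apply_le ℝ ℂ c)
  simpa using this

theorem cka_cmul {f g : EE 4 → ℂ} {M N : ℝ} (hf : CKA (1 / 2) B1 k M f)
    (hg : CKA (1 / 2) B1 k N g) :
    CKA (1 / 2) B1 k (2 ^ (k + 1) * (M * N)) fun y => f y * g y := by
  have := hf.bilin isOpen_ball (ContinuousLinearMap.mul ℝ ℂ) (L := 1)
    (ContinuousLinearMap.opNorm_mul_le ℝ ℂ) hg
  simpa using this

theorem CR.mono {M N : ℝ} {f : I → EE 4 → ℂ} (h : CR k M f) (hMN : M ≤ N) : CR k N f :=
  ⟨h.nn.trans hMN, fun i => (h.ck i).mono hMN, h.out⟩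

theorem CR.bd {M : ℝ} {f : I → EE 4 → ℂ} (h : CR k M f) (i : I) (y : EE 4) : ‖f i y‖ ≤ M := by
  by_cases hy : y ∈ B1
  · exact (h.ck i).bdd hy
  · rw [h.out i y hy, norm_zero]; exact h.nn

theorem two_pow_pos (k : ℕ) : (0 : ℝ) < 2 ^ (k + 1) := by positivity

/-- the gauge -/
def gauge (I : Type) (k : ℕ) : Gauge (I → EE 4 → ℂ) where
  R M f := CR k (M / 2 ^ (k + 1)) f
  nonneg h := by
    have := h.nn
    rwa [le_div_iff₀ (two_pow_pos k), zero_mul] at this
  mono h hM := h.mono (by gcongr)
  zero := ⟨by simp, fun _ => by rw [zero_div]; exact CKA.zero, fun _ _ _ => rfl⟩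
  add h h' := ⟨by have := h.nn; have := h'.nn; rw [add_div]; linarith, fun i => by
    rw [add_div]; exact (h.ck i).add isOpen_ball (h'.ck i), fun i y hy => by
    simp [h.out i y hy, h'.out i y hy]⟩
  smul c M v h := ⟨by have := h.nn; rw [mul_div_assoc]; positivity, fun i => by
    rw [mul_div_assoc]; exact cka_csmul c (h.ck i), fun i y hy => by simp [h.out i y hy]⟩
  sep {v} h := by
    funext i y
    refine norm_le_zero_iff.1 (le_of_forall_pos_le_add fun ε hε => ?_)
    have := (h (ε * 2 ^ (k + 1)) (by positivity)).bd i y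
    rw [mul_div_assoc, div_self (two_pow_pos k).ne', mul_one] at this
    simpa using this
  compl v M hM h := by
    have hb : ∀ n i y, ‖v n i y‖ ≤ M n / 2 ^ (k + 1) := fun n i y => (h n).bd i y
    have hs : ∀ i y, Summable fun n => v n i y := fun i y =>
      Summable.of_norm_bounded (hM.div_const _) fun n => hb n i y
    have hM0 : ∀ n, 0 ≤ M n := fun n => by
      have := (h n).nn
      rwa [le_div_iff₀ (two_pow_pos k), zero_mul] at this
    refine ⟨fun i y => ∑' n, v n i y, fun N => ?_⟩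
    have hMN : Summable fun n => M (n + N) := (summable_nat_add_iff N).2 hM
    have e : ∀ i y, ((fun i y => ∑' n, v n i y) - ∑ n ∈ Finset.range N, v n) i y =
        ∑' n, v (n + N) i y := fun i y => by
      have := (hs i y).sum_add_tsum_nat_add N
      simp only [Pi.sub_apply, Finset.sum_apply]
      rw [← this]; ring
    refine ⟨div_nonneg (tsum_nonneg fun n => hM0 (n + N)) (two_pow_pos k).le, fun i => ?_,
      fun i y hy => ?_⟩
    · refine CKA.limit (l := atTop) (u := fun m y => ∑ n ∈ Finset.range m, v (n + N) i y)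
        isOpen_ball (by norm_num) (Eventually.of_forall fun m => ?_) fun y _ => ?_
      · refine (CKA.sum isOpen_ball (Finset.range m) fun n _ => (h (n + N)).ck i).mono ?_
        rw [← Finset.sum_div]
        gcongr
        exact hMN.sum_le_tsum _ fun n _ => hM0 _
      · rw [e]
        exact ((summable_nat_add_iff N).2 (hs i y)).hasSum.tendsto_sum_nat
    · rw [e]; simp [(h _).out i y hy]

/-- the Banach algebra of cell families -/
def Cel (I : Type) (k : ℕ) : Type := (gauge I k).Sp

namespace Cel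

instance : NormedAddCommGroup (Cel I k) := inferInstanceAs (NormedAddCommGroup (gauge I k).Sp)
instance : NormedSpace ℂ (Cel I k) := inferInstanceAs (NormedSpace ℂ (gauge I k).Sp)
instance : CompleteSpace (Cel I k) := inferInstanceAs (CompleteSpace (gauge I k).Sp)

/-- the underlying family -/
def val (x : Cel I k) : I → EE 4 → ℂ := Gauge.Sp.val (Γ := gauge I k) x

@[simp] theorem val_add (x y : Cel I k) : (x + y).val = x.val + y.val := rfl
@[simp] theorem val_sub (x y : Cel I k) : (x - y).val = x.val - y.val := rfl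
@[simp] theorem val_neg (x : Cel I k) : (-x).val = -x.val := rfl
@[simp] theorem val_zero : (0 : Cel I k).val = 0 := rfl
@[simp] theorem val_smul (c : ℂ) (x : Cel I k) : (c • x).val = c • x.val := rfl

theorem cr_of_lt {x : Cel I k} {M : ℝ} (h : ‖x‖ < M) : CR k (M / 2 ^ (k + 1)) x.val :=
  Gauge.R_of_lt (Γ := gauge I k) h

theorem norm_le {x : Cel I k} {M : ℝ} (h : CR k M x.val) : ‖x‖ ≤ 2 ^ (k + 1) * M :=
  Gauge.norm_le (Γ := gauge I k) (by
    show CR k _ _
    rwa [mul_div_cancel_left₀ _ (two_pow_pos k).ne'])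

theorem out (x : Cel I k) (i : I) {y : EE 4} (hy : y ∉ B1) : x.val i y = 0 :=
  (cr_of_lt (lt_add_one ‖x‖)).out i y hy

theorem ext {x y : Cel I k} (h : ∀ i, ∀ z ∈ B1, x.val i z = y.val i z) : x = y :=
  Gauge.ext (Γ := gauge I k) (by
    funext i z
    by_cases hz : z ∈ B1
    · exact h i z hz
    · exact (x.out i hz).trans (y.out i hz).symm)

theorem cka_lt {x : Cel I k} {M : ℝ} (h : ‖x‖ < M) (i : I) :
    CKA (1 / 2) B1 k (M / 2 ^ (k + 1)) (x.val i) := (cr_of_lt h).ck i

/-- the bound of an element -/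
theorem cka' (x : Cel I k) (i : I) : CKA (1 / 2) B1 k (‖x‖ / 2 ^ (k + 1)) (x.val i) := by
  have key : ∀ (k : ℕ) (g : EE 4 → ℂ) (K : ℝ), (∀ ε > 0, CKA (1 / 2) B1 k (K + ε) g) →
      CKA (1 / 2) B1 k K g := by
    have h0 : ∀ (g : EE 4 → ℂ) (K : ℝ), (∀ ε > 0, HO (1 / 2) (K + ε) B1 g) → HO (1 / 2) K B1 g :=
      fun g K h => ⟨fun x hx => le_of_forall_pos_le_add fun ε hε => (h ε hε).bdd x hx,
        fun x hx y hy => by
          refine le_of_forall_pos_le_add fun ε hε => ?_
          have hp : 0 ≤ ‖x - y‖ ^ (1 / 2 : ℝ) := by positivity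
          have := (h (ε / (‖x - y‖ ^ (1 / 2 : ℝ) + 1)) (by positivity)).hol x hx y hy
          have h2 : ε / (‖x - y‖ ^ (1 / 2 : ℝ) + 1) * ‖x - y‖ ^ (1 / 2 : ℝ) ≤ ε := by
            rw [div_mul_eq_mul_div, div_le_iff₀ (by positivity)]; nlinarith
          nlinarith⟩
    intro k
    induction k with
    | zero => exact fun g K h => h0 g K h
    | succ k ih =>
      exact fun g K h => ⟨h0 g K fun ε hε => (h ε hε).ho, (h 1 one_pos).diff,
        fun a => ih _ _ fun ε hε => (h ε hε).pd a⟩
  refine key k _ _ fun ε hε => ?_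
  have := cka_lt (x := x) (M := ‖x‖ + ε * 2 ^ (k + 1)) (by have := two_pow_pos k; nlinarith) i
  rwa [add_div, mul_div_assoc, div_self (two_pow_pos k).ne', mul_one] at this

theorem cka (x : Cel I k) (i : I) : CKA (1 / 2) B1 k ‖x‖ (x.val i) :=
  (x.cka' i).mono (div_le_self (norm_nonneg _) (one_le_pow₀ (by norm_num)))

theorem cr (x : Cel I k) : CR k (‖x‖ / 2 ^ (k + 1)) x.val :=
  ⟨by positivity, x.cka', fun i _ hy => x.out i hy⟩

theorem norm_val_le (x : Cel I k) (i : I) (y : EE 4) : ‖x.val i y‖ ≤ ‖x‖ :=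
  (x.cr.bd i y).trans (div_le_self (norm_nonneg _) (one_le_pow₀ (by norm_num)))

theorem contDiffOn (x : Cel I k) (i : I) : ContDiffOn ℝ k (x.val i) B1 :=
  (x.cka i).contDiffOn isOpen_ball (by norm_num)

open Classical in
/-- cut-off outside the ball -/
def cut (f : I → EE 4 → ℂ) : I → EE 4 → ℂ := fun i y => if y ∈ B1 then f i y else 0

theorem cut_in (f : I → EE 4 → ℂ) (i : I) {y : EE 4} (hy : y ∈ B1) : cut f i y = f i y := if_pos hy

theorem cr_cut {f : I → EE 4 → ℂ} {M : ℝ} (h0 : 0 ≤ M) (h : ∀ i, CKA (1 / 2) B1 k M (f i)) :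
    CR k M (cut f) :=
  ⟨h0, fun i => (h i).congr isOpen_ball fun _ hy => cut_in f i hy, fun _ _ hy => if_neg hy⟩

/-- the element given by a uniformly bounded family -/
def mk (f : I → EE 4 → ℂ) (h : ∃ M, 0 ≤ M ∧ ∀ i, CKA (1 / 2) B1 k M (f i)) : Cel I k :=
  (gauge I k).mk' (cut f) (by
    obtain ⟨M, h0, h⟩ := h
    refine ⟨2 ^ (k + 1) * M, ?_⟩
    show CR k _ _
    rw [mul_div_cancel_left₀ _ (two_pow_pos k).ne']
    exact cr_cut h0 h)

theorem val_mk (f : I → EE 4 → ℂ) (h) (i : I) {y : EE 4} (hy : y ∈ B1) :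
    (mk f h : Cel I k).val i y = f i y := cut_in f i hy

theorem norm_mk_le {f : I → EE 4 → ℂ} (h) {M : ℝ} (h0 : 0 ≤ M)
    (hM : ∀ i, CKA (1 / 2) B1 k M (f i)) : ‖(mk f h : Cel I k)‖ ≤ 2 ^ (k + 1) * M :=
  norm_le (cr_cut h0 hM)

/-- norm bound from the values on the ball -/
theorem norm_le' {x : Cel I k} {M : ℝ} (h0 : 0 ≤ M) {f : I → EE 4 → ℂ}
    (hM : ∀ i, CKA (1 / 2) B1 k M (f i)) (e : ∀ i, ∀ y ∈ B1, x.val i y = f i y) :
    ‖x‖ ≤ 2 ^ (k + 1) * M :=
  norm_le ⟨h0, fun i => (hM i).congr isOpen_ball (e i), fun i _ hy => x.out i hy⟩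

instance : Mul (Cel I k) := ⟨fun x y => mk (fun i z => x.val i z * y.val i z)
  ⟨2 ^ (k + 1) * (‖x‖ * ‖y‖), by positivity, fun i => cka_cmul (x.cka i) (y.cka i)⟩⟩

instance : One (Cel I k) := ⟨mk (fun _ _ => 1) ⟨‖(1 : ℂ)‖, norm_nonneg _, fun _ => CKA.const 1⟩⟩

theorem val_mul (x y : Cel I k) (i : I) (z : EE 4) : (x * y).val i z = x.val i z * y.val i z := by
  by_cases hz : z ∈ B1
  · exact val_mk _ _ i hz
  · rw [out _ i hz, x.out i hz, zero_mul]

theorem val_one (i : I) {z : EE 4} (hz : z ∈ B1) : (1 : Cel I k).val i z = 1 := val_mk _ _ i hz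

instance : CommRing (Cel I k) :=
  { (inferInstance : AddCommGroup (Cel I k)) with
    mul := (· * ·)
    one := 1
    mul_assoc := fun x y z => ext fun i w _ => by simp only [val_mul, mul_assoc]
    mul_comm := fun x y => ext fun i w _ => by simp only [val_mul, mul_comm]
    one_mul := fun x => ext fun i w hw => by rw [val_mul, val_one i hw, one_mul]
    mul_one := fun x => ext fun i w hw => by rw [val_mul, val_one i hw, mul_one]
    zero_mul := fun x => ext fun i w _ => by rw [val_mul]; simp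
    mul_zero := fun x => ext fun i w _ => by rw [val_mul]; simp
    left_distrib := fun x y z => ext fun i w _ => by simp [val_mul, mul_add]
    right_distrib := fun x y z => ext fun i w _ => by simp [val_mul, add_mul] }

instance : NormedCommRing (Cel I k) :=
  { (inferInstance : NormedAddCommGroup (Cel I k)), (inferInstance : CommRing (Cel I k)) with
    norm_mul_le := fun x y => by
      have h := norm_le' (x := x * y) (by positivity)
        (fun i => cka_cmul (x.cka' i) (y.cka' i)) fun i z _ => val_mul x y i z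
      refine h.trans (le_of_eq ?_)
      have := (two_pow_pos k).ne'
      field_simp }

instance : NormedAlgebra ℂ (Cel I k) :=
  { Algebra.ofModule (R := ℂ) (A := Cel I k)
      (fun c x y => ext fun i w _ => by simp [val_mul, mul_assoc])
      (fun c x y => ext fun i w _ => by simp [val_mul, mul_left_comm]) with
    norm_smul_le := norm_smul_le }

theorem norm_one_le : ‖(1 : Cel I k)‖ ≤ 2 ^ (k + 1) := by
  have := norm_le' (x := (1 : Cel I k)) (norm_nonneg (1 : ℂ)) (fun _ => CKA.const 1)
    fun i z hz => val_one i hz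
  simpa using this

/-- evaluation -/
def evL (i : I) (y : EE 4) : Cel I k →L[ℂ] ℂ :=
  LinearMap.mkContinuous
    { toFun := fun x => x.val i y
      map_add' := fun _ _ => rfl
      map_smul' := fun _ _ => rfl } 1 fun x => by simpa using x.norm_val_le i y

@[simp] theorem evL_apply (i : I) (y : EE 4) (x : Cel I k) : evL i y x = x.val i y := rfl

/-- the characters -/
def ev (i : I) {y : EE 4} (hy : y ∈ B1) : Cel I k →ₐ[ℂ] ℂ :=
  AlgHom.ofLinearMap (evL (k := k) i y).toLinearMap (val_one (k := k) i hy)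
    fun x z => val_mul x z i y

@[simp] theorem ev_apply (i : I) {y : EE 4} (hy : y ∈ B1) (x : Cel I k) :
    ev i hy x = x.val i y := rfl

theorem val_sum {ι : Type*} (s : Finset ι) (x : ι → Cel I k) (i : I) (y : EE 4) :
    (∑ a ∈ s, x a).val i y = ∑ a ∈ s, (x a).val i y := map_sum (evL i y) x s

/-- partial derivative -/
def D (a : Fin 4) : Cel I (k + 1) →L[ℂ] Cel I k :=
  LinearMap.mkContinuous
    { toFun := fun x => mk (fun i y => fderiv ℝ (x.val i) y (ei a))
        ⟨_, norm_nonneg x, fun i => (x.cka i).pd a⟩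
      map_add' := fun x z => ext fun i y hy => by
        simp only [val_mk _ _ i hy, val_add, Pi.add_apply]
        rw [fderiv_add ((x.cka i).diffAt isOpen_ball hy) ((z.cka i).diffAt isOpen_ball hy)]
        rfl
      map_smul' := fun c x => ext fun i y hy => by
        simp only [val_mk _ _ i hy, val_smul, Pi.smul_apply, RingHom.id_apply]
        rw [fderiv_const_smul ((x.cka i).diffAt isOpen_ball hy)]
        rfl } 1 fun x => by
      have h := norm_mk_le (f := fun i y => fderiv ℝ (x.val i) y (ei a))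
        ⟨_, norm_nonneg x, fun i => (x.cka i).pd a⟩ (by positivity) fun i => (x.cka' i).pd a
      refine h.trans ?_
      rw [one_mul, pow_succ (2 : ℝ) (k + 1), mul_div_assoc', div_le_iff₀ (by positivity)]
      have := two_pow_pos k
      have := norm_nonneg x
      nlinarith

theorem val_D (a : Fin 4) (x : Cel I (k + 1)) (i : I) {y : EE 4} (hy : y ∈ B1) :
    (D a x).val i y = fderiv ℝ (x.val i) y (ei a) :=
  cut_in (fun i y => fderiv ℝ (x.val i) y (ei a)) i hy

theorem norm_D_le (a : Fin 4) : ‖(D a : Cel I (k + 1) →L[ℂ] Cel I k)‖ ≤ 1 :=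
  LinearMap.mkContinuous_norm_le _ zero_le_one _

/-- forgetting one derivative -/
def inc : Cel I (k + 1) →L[ℂ] Cel I k :=
  LinearMap.mkContinuous
    { toFun := fun x => mk x.val ⟨_, norm_nonneg x, fun i => (x.cka i).pred⟩
      map_add' := fun x z => ext fun i y hy => by
        simp only [val_mk _ _ i hy, val_add, Pi.add_apply]
      map_smul' := fun c x => ext fun i y hy => by
        simp only [val_mk _ _ i hy, val_smul, Pi.smul_apply, RingHom.id_apply] } 1 fun x => by
      have h := norm_mk_le (f := x.val) ⟨_, norm_nonneg x, fun i => (x.cka i).pred⟩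
        (by positivity) fun i => (x.cka' i).pred
      refine h.trans ?_
      rw [one_mul, pow_succ (2 : ℝ) (k + 1), mul_div_assoc', div_le_iff₀ (by positivity)]
      have := two_pow_pos k
      have := norm_nonneg x
      nlinarith

theorem val_inc (x : Cel I (k + 1)) (i : I) (y : EE 4) : (inc x).val i y = x.val i y := by
  by_cases hy : y ∈ B1
  · exact cut_in x.val i hy
  · rw [out _ i hy, out _ i hy]

theorem norm_inc_le : ‖(inc : Cel I (k + 1) →L[ℂ] Cel I k)‖ ≤ 1 :=
  LinearMap.mkContinuous_norm_le _ zero_le_one _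

end Cel

end Crest.Agent.N207.CB

end
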