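import Crest.Agent.N250.H.Fix

/-!
# Row 207, block L (helper92): abstract tools for the global fixed point
-/

set_option autoImplicit false

open Metric Set Filter Topology

noncomputable section

namespace Crest.Agent.N207.CB

open Crest.Agent.N250.H

variable {P X Y : Type*} [NormedAddCommGroup P] [NormedSpace ℂ P] [NormedAddCommGroup X]
  [NormedSpace ℂ X] [NormedAddCommGroup Y] [NormedSpace ℂ Y]

/-- holomorphy into a closed subspace -/
theorem diffOn_sub [CompleteSpace X] {S : Submodule ℂ X} (hS : IsClosed (S : Set X)) {f : P → S}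
    {U : Set P} (hU : IsOpen U) {M : ℝ} (hM : ∀ z ∈ U, ‖f z‖ ≤ M)
    (hd : DifferentiableOn ℂ (fun z => (f z : X)) U) : DifferentiableOn ℂ f U := by
  have : CompleteSpace S := hS.completeSpace_coe
  exact diffOn_of_norming (ι := Unit) (Y := fun _ => X) (fun _ => S.subtypeL) (fun _ _ => le_rfl)
    (fun v c _ h => h ()) hU hM fun _ => hd

/-- the fixed point on the unit ball -/
theorem fp0 [CompleteSpace X] {T : P → X → X} {U : Set P} (hU : IsOpen U)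
    (hd : DifferentiableOn ℂ (fun p : P × X => T p.1 p.2) (U ×ˢ ball 0 4))
    (hb : ∀ p ∈ U, ∀ x ∈ ball (0 : X) 4, ‖T p x‖ ≤ 1) :
    ∃ x : P → X, DifferentiableOn ℂ x U ∧ ∀ p ∈ U, ‖x p‖ ≤ 1 ∧ T p (x p) = x p ∧
      ∀ R : Set X, IsClosed R → 0 ∈ R → (∀ y ∈ R, ‖y‖ ≤ 1 → T p y ∈ R) → x p ∈ R := by
  have hc : ∀ p ∈ U, Ctr (T p) (closedBall 0 1) (2 * 1 / 3) := fun p hp => by
    refine ctr_of_small (by norm_num) ?_ ?_ le_rfl
    · rw [show (1 : ℝ) + 3 = 4 by norm_num]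
      exact hd.comp (f := fun x : X => (p, x)) (by fun_prop) fun x hx => ⟨hp, hx⟩
    · rw [show (1 : ℝ) + 3 = 4 by norm_num]
      intro x hx
      simpa using hb p hp x hx
  obtain ⟨x, h1, h2⟩ := exists_fix_hol (V := U ×ˢ ball 0 4) hU (by norm_num) (by norm_num)
    zero_le_one hc (fun z hz x hx => ⟨hz, closedBall_subset_ball (by norm_num) hx⟩) hd
  refine ⟨x, h1, fun p hp => ⟨by simpa using (h2 p hp).1, (h2 p hp).2, fun R hR h0 hT => ?_⟩⟩
  have hc' : Ctr (T p) (closedBall 0 1 ∩ R) (2 * 1 / 3) :=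
    ⟨fun y hy => ⟨(hc p hp).maps hy.1, hT y hy.2 (by simpa using hy.1)⟩,
      fun y hy z hz => (hc p hp).lip y hy.1 z hz.1⟩
  obtain ⟨y, hy, ey⟩ := hc'.exists_fix (isClosed_closedBall.inter hR) (by norm_num) (by norm_num)
    ⟨0, by simp, h0⟩
  rw [(hc p hp).uniq (by norm_num) (h2 p hp).1 hy.1 (h2 p hp).2 ey]
  exact hy.2

/-- the quadratic estimate for the source -/
theorem quad [CompleteSpace Y] {R : X × X → Y} {ε C : ℝ} (hε : 0 < ε)
    (hd : DifferentiableOn ℂ R (ball 0 ε)) (hb : ∀ p ∈ ball (0 : X × X) ε, ‖R p‖ ≤ C) :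
    ∃ K : ℝ, 0 < K ∧ (∀ b : X, ‖b‖ < ε / 2 → ‖fderiv ℂ R (b, 0)‖ ≤ K) ∧
      (∀ p : X × X, ‖p‖ < ε → ‖R p - R 0‖ ≤ K * ‖p‖) ∧
      ∀ b0 b h : X, ‖b0‖ < ε / 2 → ‖(b, h)‖ < ε →
        ‖R (b, h) - R (b, 0) - fderiv ℂ R (b0, 0) (0, h)‖ ≤ K * (‖(b, h)‖ ^ 2 + ‖b0‖ * ‖h‖) := by
  have C0 : 0 ≤ C := (norm_nonneg _).trans (hb 0 (mem_ball_self hε))
  have h2 : 0 < ε / 2 := by positivity
  have fb : ∀ p ∈ ball (0 : X × X) (ε / 2), ‖fderiv ℂ R p‖ ≤ 2 * C / (ε / 2) := fun p hp => by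
    have hs : ball p (ε / 2) ⊆ ball 0 ε := ball_subset_ball' (by
      have := mem_ball.1 hp; linarith)
    exact fd_le h2 (hd.mono hs) fun z hz => hb z (hs hz)
  have fd : DifferentiableOn ℂ (fderiv ℂ R) (ball 0 (ε / 2)) :=
    (diffOn_fderiv isOpen_ball hb hd).mono (ball_subset_ball (by linarith))
  set K := 2 * C / (ε / 2) + 2 * C / ε + 8 * C / ε ^ 2 + 2 * (2 * C / (ε / 2)) / (ε / 2) + 1
    with hK
  have a1 : 0 ≤ 2 * C / (ε / 2) := by positivity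
  have a2 : 0 ≤ 2 * C / ε := by positivity
  have a3 : 0 ≤ 8 * C / ε ^ 2 := by positivity
  have a4 : 0 ≤ 2 * (2 * C / (ε / 2)) / (ε / 2) := by positivity
  refine ⟨K, by positivity, fun b hb' => (fb _ (by simpa using hb')).trans (by linarith),
    fun p hp => ?_, fun b0 b h h0 hp => ?_⟩
  · have := lip_le hd hb (z := p) (by simpa using hp)
    rw [sub_zero] at this
    exact this.trans (mul_le_mul_of_nonneg_right (by linarith) (norm_nonneg _))
  · have n1 : ‖((b, 0) : X × X)‖ ≤ ‖(b, h)‖ := by simp [Prod.norm_def]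
    have t1 := tay2 hd hb (z := (b, h)) (by simpa using hp)
    have t2 := tay2 hd hb (z := (b, 0)) (mem_ball_zero_iff.2 (n1.trans_lt hp))
    have t3 := lip_le fd fb (z := (b0, 0)) (by simpa using h0)
    simp only [sub_zero] at t1 t2 t3
    have e : R (b, h) - R (b, 0) - fderiv ℂ R (b0, 0) (0, h) =
        (R (b, h) - R 0 - fderiv ℂ R 0 (b, h)) - (R (b, 0) - R 0 - fderiv ℂ R 0 (b, 0)) -
          (fderiv ℂ R (b0, 0) - fderiv ℂ R 0) (0, h) := by
      have : ((b, h) : X × X) = (b, 0) + (0, h) := by simp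
      rw [sub_apply]
      conv_rhs => rw [this, map_add, ← this]
      abel
    have t4 : ‖(fderiv ℂ R (b0, 0) - fderiv ℂ R 0) (0, h)‖ ≤
        2 * (2 * C / (ε / 2)) / (ε / 2) * (‖b0‖ * ‖h‖) := by
      refine ((ContinuousLinearMap.le_opNorm _ _).trans
        (mul_le_mul_of_nonneg_right t3 (norm_nonneg _))).trans (le_of_eq ?_)
      simp [Prod.norm_def, mul_assoc]
    have t5 : 4 * C * (‖((b, 0) : X × X)‖ / ε) ^ 2 ≤ 4 * C * (‖(b, h)‖ / ε) ^ 2 := by gcongr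
    have t6 : 4 * C * (‖(b, h)‖ / ε) ^ 2 + 4 * C * (‖(b, h)‖ / ε) ^ 2 =
        8 * C / ε ^ 2 * ‖(b, h)‖ ^ 2 := by field_simp; ring
    rw [e]
    refine (norm_sub_le _ _).trans ((add_le_add (norm_sub_le _ _) t4).trans ?_)
    have b1 : 8 * C / ε ^ 2 * ‖(b, h)‖ ^ 2 ≤ K * ‖(b, h)‖ ^ 2 := by gcongr; linarith
    have b2 : 2 * (2 * C / (ε / 2)) / (ε / 2) * (‖b0‖ * ‖h‖) ≤ K * (‖b0‖ * ‖h‖) := by
      gcongr; linarith
    linarith

end Crest.Agent.N207.CB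

end
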