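import Crest.Agent.N207.CB.St4
import Crest.Agent.N207.CB.Lf1

/-!
# Row 207 (helper17): `popl : POPL T`
-/

set_option autoImplicit false

open Metric Set Filter Topology
open Crest.GeometryTopology.CoordMetric
open Crest.Agent.NLib.Ell Crest.Agent.N207.I Crest.Agent.N207.Lg

noncomputable section

namespace Crest.Agent.N207.CB

variable {M : Type*} (T : TD M)

/-- a complex derivative of a real function is real -/
theorem deriv_real {F : ℝ → ℂ} {φ : ℝ → ℝ} {d : ℂ} (h : HasDerivAt F d 0)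
    (e : ∀ᶠ s in 𝓝 (0 : ℝ), F s = φ s) : d = (deriv φ 0 : ℝ) := by
  have h1 : HasDerivAt (fun s => (φ s : ℂ)) d 0 := h.congr_of_eventuallyEq (e.mono fun _ h => h.symm)
  have h2 : HasDerivAt φ d.re 0 := Complex.reCLM.hasFDerivAt.comp_hasDerivAt 0 h1
  rw [h2.deriv]
  exact h1.unique h2.ofReal_comp

/-- **POPL** -/
theorem popl : POPL T := by
  intro g v k Λ B hB i β η W hβ hη hs a b y hy
  have hm : ((B, 0) : MC T v (k + 2) × MC T v (k + 2)) ∈ ball 0 Λ.ε := by
    simpa [Prod.norm_def, Λ.ε_pos] using hB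
  have hd := (Λ.hR.differentiableAt (isOpen_ball.mem_nhds hm)).hasFDerivAt
  have hl : HasDerivAt (fun s : ℝ => ((B, (s : ℂ) • W) : MC T v (k + 2) × MC T v (k + 2)))
      (0, W) 0 := by
    have := (Complex.ofRealCLM.hasDerivAt (x := (0 : ℝ))).smul_const W
    simpa using (hasDerivAt_const (0 : ℝ) B).prodMk this
  have hd' : HasFDerivAt Λ.R ((fderiv ℂ Λ.R (B, 0)).restrictScalars ℝ)
      ((fun s : ℝ => ((B, (s : ℂ) • W) : MC T v (k + 2) × MC T v (k + 2))) 0) := by
    simpa using hd.restrictScalars ℝ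
  have h1 := hd'.comp_hasDerivAt (0 : ℝ) hl
  have h2 := (hasDerivAt_pi.1 (hasDerivAt_pi.1 h1 a) b)
  have h3 := ((Cel.evL (k := k) i y).restrictScalars ℝ).hasFDerivAt.comp_hasDerivAt (0 : ℝ) h2
  have he : ∀ᶠ s : ℝ in 𝓝 0, ((B, (s : ℂ) • W) : MC T v (k + 2) × MC T v (k + 2)) ∈ ball 0 Λ.ε :=
    hl.continuousAt.eventually (isOpen_ball.mem_nhds (by simpa using hm))
  have h4 := deriv_real h3 (φ := fun s => rad T i.1.1 i.1.2 ^ 2 *
    redT (g v i.1.1 + β) (fun z => (g v i.1.1 + β) z + s • η z) (cpt T i y) ![a, b])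
    (he.mono fun s hs' => (Λ.real _ hs' i β (s • η) hβ
      (fun p q z hz => by
        have := RpA.smul s (hη p q) z hz
        exact this.trans (congrArg _ (by simp [mul_left_comm])))
      (fun z hz => ⟨(hs z hz).1, (hs z hz).2.smul s⟩)).2.1 a b y hy)
  rw [deriv_const_mul_field] at h4
  show (2 : ℂ) * ((fderiv ℂ Λ.R (B, 0) (0, W)) a b).val i y = _
  rw [show ((fderiv ℂ Λ.R (B, 0) (0, W)) a b).val i y = _ from h4]
  simp only [Pop, Matrix.of_apply]
  push_cast
  ring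

end Crest.Agent.N207.CB

end
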