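import Crest.Agent.N207.CB.Co1
import Crest.Agent.N207.CB.Popl

/-!
# Row 207, block L (helper92): the data of the core step, the source, real meaning
-/

set_option autoImplicit false

open scoped ContDiff
open Metric Set Filter Topology MeasureTheory
open Crest.GeometryTopology.CoordMetric
open Crest.Agent.NLib.Ell Crest.Agent.N207.I Crest.Agent.N207.Lg Crest.Agent.N207.J

noncomputable section

namespace Crest.Agent.N207.CB

variable {M : Type*} (T : TD M)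

/-- the lifts needed for the core step -/
structure CD (g : T.V → Fam T) {κ : Type} [Fintype κ] (ψ : κ → Fam T) (v : T.V) (T0 : ℝ) where
  ok : T.Ok
  hT : Real.log (4 / T.r) ≤ T0
  met : (T.core v).IsMet (g v)
  ric : ∀ s, ∀ x ∈ (T.core v).U s, ∀ i j, ricci (g v s) x i j = 0
  sψ : ∀ j, Sec T v (ψ j)
  vψ : ∀ j, Van T v T0 0 (ψ j)
  Λ : Lift T g v 6
  β0 : MC T v 8
  hβ0 : Lf T 0 (gb T g T0 v - g v) β0
  sβ0 : Sec T v (gb T g T0 v - g v)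
  nβ0 : ‖β0‖ < Λ.ε / 4
  B₁ : T.V → MtC →L[ℂ] MC T v 8
  B₂ : T.V → MtC →L[ℂ] MtC →L[ℂ] MC T v 8
  hB : ∀ u (a : Mt), Lf T 0 (onE T u (pullM (PsiA (etC T v u T0) a) fl1 - fl1))
    (B₁ u (cm a) + B₂ u (cm a) (cm a))
  sB : ∀ u a, Adm T u a → Sec T v (onE T u (pullM (PsiA (etC T v u T0) a) fl1 - fl1))
  hsq : ∀ u (a : Mt), a.IsSymm → ∀ x : E4, x ≠ 0 → 4 / 5 ≤ tau T v u T0 x →
    pullM (PsiA (etC T v u T0) a) fl1 x = (1 + a) * (1 + a)
  hfl : ∀ (a : T.V → Mt) s, ∀ x ∈ (T.core v).U s, (gbA T g T0 a v s x).PosDef →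
    redM (gbA T g T0 a v s) (gbA T g T0 a v s) x = redM (gb T g T0 v s) (gb T g T0 v s) x
  ρ : Cel (CI T v) 6
  hρ : ∀ i : CI T v, LfS T i 0 (cutF T v T0 1 rho i.1.1) ρ
  χ : Cel (CI T v) 8
  hχ : ∀ i : CI T v, LfS T i 0
    (fun x => if i.1.1 = Sum.inr v then stp (17 / 20) (19 / 20) (tau T v v T0 x) else 0) χ
  ψh : κ → MC T v 6
  hψ : ∀ j, Lf T 2 (ψ j) (ψh j)

variable {T}

namespace CD

variable {g : T.V → Fam T} {κ : Type} [Fintype κ] {ψ : κ → Fam T} {v : T.V} {T0 : ℝ}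
  (D : CD T g ψ v T0)

/-- background minus `g` -/
def β (a : ∀ u, SC T u) : MC T v 8 := D.β0 + ∑ u, (D.B₁ u (a u).1 + D.B₂ u (a u).1 (a u).1)

/-- metric minus background -/
def h (z : Zc T v κ) : MC T v 8 := z.2.2.1.1 + z.1.1.1 - cstC D.χ (cAc (z.2.1 v).1)

def p (z : Zc T v κ) : MC T v 8 × MC T v 8 := (D.β z.2.1, D.h z)

/-- the lift of `Pop gb` -/
def P : MC T v 8 →L[ℂ] MC T v 6 :=
  (2 : ℂ) • (fderiv ℂ D.Λ.R (D.β0, 0)).comp (ContinuousLinearMap.inr ℂ _ _)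

def Ψ (j : κ) : MC T v 6 := D.Λ.Ps (D.β0, 0) (D.ψh j)

/-- the source -/
def src (z : Zc T v κ) : MC T v 6 :=
  mulC D.ρ (D.P z.1.1.1 - (2 : ℂ) • D.Λ.R (D.p z)) + ∑ j, z.1.2 j • (D.Λ.Ps (D.p z) (D.ψh j) - D.Ψ j)

omit [Fintype κ] in
theorem gbA_eq (a : T.V → Mt) : gbA T g T0 a v - g v =
    gb T g T0 v - g v + ∑ u, onE T u (pullM (PsiA (etC T v u T0) (a u)) fl1 - fl1) := by
  funext s x
  rcases s with s | s
  · simp [gbA, gb, onE, Finset.sum_apply]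
  · simp only [gbA, onE, Finset.sum_apply, Pi.add_apply, Pi.sub_apply, Sum.elim_inr,
      Sum.inr.injEq, Finset.sum_ite_eq, Finset.mem_univ, if_true]
    abel

theorem lf_β {a' : ∀ u, SC T u} {a : T.V → Mt} (ha : ∀ u, (a' u).1 = cm (a u)) :
    Lf T 0 (gbA T g T0 a v - g v) (D.β a') := fun i => by
  rw [gbA_eq, β, Pi.add_apply, Finset.sum_apply]
  exact (D.hβ0 i).add (LfAt.sum _ fun u _ => by rw [ha u]; exact D.hB u (a u) i)

include D in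
theorem sec_β {a : T.V → Mt} (ha : ∀ u, Adm T u (a u)) : Sec T v (gbA T g T0 a v - g v) := by
  rw [gbA_eq]
  exact D.sβ0.add (Sec.sum _ fun u _ => D.sB u _ (ha u))

include D in
theorem sec_gbA {a : T.V → Mt} (ha : ∀ u, Adm T u (a u)) : Sec T v (gbA T g T0 a v) := by
  simpa using (Sec.met D.met).add (D.sec_β ha)

include D in
theorem sec_gb : Sec T v (gb T g T0 v) := by simpa using (Sec.met D.met).add D.sβ0

theorem lf_cut (a : Mt) : Lf T 0 (cutA T v T0 a) (cstC D.χ (cAc (cm a))) := fun i => by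
  rw [cAc_cm]
  refine (LfAt.cstC (D.hχ i) (cA a)).congr fun y _ => ?_
  simp only [cutA, onE]
  split_ifs <;> simp

theorem lf_h {z : Zc T v κ} {a : Mt} (ha : (z.2.1 v).1 = cm a) {β w : Fam T}
    (hb : Lf T 0 β z.2.2.1.1) (hw : Lf T 0 w z.1.1.1) :
    Lf T 0 (β + w - cutA T v T0 a) (D.h z) := fun i => by
  rw [h, ha]
  exact ((hb i).add (hw i)).sub (D.lf_cut a i)

theorem mem0 : ((D.β0, 0) : MC T v 8 × MC T v 8) ∈ ball 0 D.Λ.ε := by
  have := D.nβ0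
  have := D.Λ.ε_pos
  simp only [mem_ball_zero_iff, Prod.norm_def, norm_zero, max_lt_iff]
  constructor <;> linarith

theorem real0 (i : CI T v) : (∀ y ∈ B1, (gb T g T0 v i.1.1 (cpt T i y)).PosDef) ∧
    LfAt T i 2 (redM (gb T g T0 v i.1.1) (gb T g T0 v i.1.1)) (D.Λ.R (D.β0, 0)) ∧
    ∀ j, LfAt T i 2 (PsT (gb T g T0 v i.1.1) (gb T g T0 v i.1.1) (ψ j i.1.1)) (D.Ψ j) := by
  have := D.Λ.real _ D.mem0 i _ 0 (D.hβ0 i) LfAt.zero fun y hy =>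
    ⟨D.sβ0.symm _ _ (cpt_mem i hy), Matrix.isSymm_zero⟩
  simp only [Pi.sub_apply, add_sub_cancel, add_zero] at this
  exact ⟨fun y hy => (this.1 y hy).1, this.2.1, fun j => this.2.2.2 _ _ (D.hψ j i)⟩

include D in
theorem met_gb : (T.core v).IsMet (gb T g T0 v) := D.sec_gb.isMet D.ok fun i => (D.real0 i).1

theorem lf_P {w : Fam T} {W : MC T v 8} (hs : ∀ s, ∀ x ∈ (T.core v).U s, (w s x).IsSymm)
    (hw : Lf T 0 w W) : Lf T 2 (fun s => Pop (gb T g T0 v s) (w s)) (D.P W) := fun i => by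
  have := popl T g v 6 D.Λ D.β0 (D.nβ0.trans (by linarith [D.Λ.ε_pos])) i _ _ W (D.hβ0 i) (hw i)
    fun y hy => ⟨D.sβ0.symm _ _ (cpt_mem i hy), hs _ _ (cpt_mem i hy)⟩
  simp only [Pi.sub_apply, add_sub_cancel] at this
  exact this

theorem psT_self {G φ : MetricField 4} {x : E4} (h : (G x).PosDef) :
    PsT G G φ x = TRg (G x) (φ x) := by
  have hd : IsUnit (G x).det := h.det_pos.ne'.isUnit
  have hs : sq G x ≠ 0 := (Real.sqrt_pos.2 h.det_pos).ne'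
  simp only [PsT, div_self hs, one_smul, Matrix.mul_nonsing_inv _ hd, one_mul,
    Matrix.nonsing_inv_mul_cancel_right _ _ hd]

omit [Fintype κ] in
theorem gb_of_le {u : T.V} {x : E4} (h : tau T v u T0 x ≤ 0) :
    gb T g T0 v (Sum.inr u) x = g v (Sum.inr u) x := by
  simp only [gb, Sum.elim_inr, Cu.stp_zero' (by norm_num : (0 : ℝ) < 1 / 10) h]
  simp

omit [Fintype κ] in
theorem gb_of_ge {u : T.V} {x : E4} (h : 1 / 10 ≤ tau T v u T0 x) :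
    gb T g T0 v (Sum.inr u) x = 1 := by
  simp only [gb, Sum.elim_inr, Cu.stp_one' (by norm_num : (0 : ℝ) < 1 / 10) h]
  simp

include D in
theorem trg_eq (j : κ) {s : T.S} {x : E4} (hx : x ∈ (T.core v).U s) :
    TRg (gb T g T0 v s x) (ψ j s x) = TRg (g v s x) (ψ j s x) := by
  rcases s with s | s
  · rfl
  · rcases le_total (tau T v s T0 x) 0 with h | h
    · rw [gb_of_le h]
    · simp [D.vψ j s x hx h, TRg, tr2]

theorem lf_Ψ (j : κ) : Lf T 2 (fun s x => TRg (g v s x) (ψ j s x)) (D.Ψ j) := fun i =>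
  ((D.real0 i).2.2 j).congr fun y hy => by
    rw [psT_self ((D.real0 i).1 y hy), D.trg_eq j (cpt_mem i hy)]

/-- the real meaning of the lifts at a real point -/
theorem realp {z : Zc T v κ} (hz : D.p z ∈ ball 0 D.Λ.ε) {a : T.V → Mt}
    (ha : ∀ u, Adm T u (a u) ∧ (z.2.1 u).1 = cm (a u)) {η : Fam T}
    (hs : ∀ s, ∀ x ∈ (T.core v).U s, (η s x).IsSymm) (hη : Lf T 0 η (D.h z)) (i : CI T v) :
    (∀ y ∈ B1, (gbA T g T0 a v i.1.1 (cpt T i y)).PosDef ∧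
      ((gbA T g T0 a v + η) i.1.1 (cpt T i y)).PosDef) ∧
    LfAt T i 2 (redM (gbA T g T0 a v i.1.1) ((gbA T g T0 a v + η) i.1.1)) (D.Λ.R (D.p z)) ∧
    LfS T i 2 (fgfF (gbA T g T0 a v i.1.1) ((gbA T g T0 a v + η) i.1.1)) (D.Λ.Lg (D.p z)) ∧
    ∀ j, LfAt T i 2 (PsT (gbA T g T0 a v i.1.1) ((gbA T g T0 a v + η) i.1.1) (ψ j i.1.1))
      (D.Λ.Ps (D.p z) (D.ψh j)) := by
  have := D.Λ.real _ hz i _ _ (D.lf_β (fun u => (ha u).2) i) (hη i) fun y hy =>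
    ⟨(D.sec_β fun u => (ha u).1).symm _ _ (cpt_mem i hy), hs _ _ (cpt_mem i hy)⟩
  simp only [Pi.sub_apply, add_sub_cancel] at this
  exact ⟨this.1, this.2.1, this.2.2.1, fun j => this.2.2.2 _ _ (D.hψ j i)⟩

end CD

variable (T) in
/-- **leaf FIXM**: the meaning of a real fixed point -/
def FIXM : Prop :=
  ∃ C : ℝ, 0 < C ∧ ∀ (g : T.V → Fam T) (κ : Type) [Fintype κ] (ψ : κ → Fam T) (v : T.V) (T0 : ℝ)
    (D : CD T g ψ v T0) (z : Zc T v κ) (μ : κ → ℝ) (a : T.V → Mt) (θ : κ → ℝ) (β w : Fam T)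
    (δ : ℝ), D.p z ∈ ball 0 D.Λ.ε → ZR T z μ a θ → Sec T v β → Lf T 0 β z.2.2.1.1 →
    (∀ s, ∀ x ∈ UR T v T0 (22 / 10) s, β s x = 0) → SecN T v 8 w → Lf T 0 w z.1.1.1 →
    (∀ (i : CI T v), ∀ y ∈ B1, (∀ u, i.1.1 = Sum.inr u → tau T v u T0 (cpt T i y) < 4) → ∀ p q,
      (D.P z.1.1.1 p q).val i y = (D.src z p q).val i y + ∑ j, μ j * (D.Ψ j p q).val i y) →
    (∀ j, pair T g v (ψ j) w = θ j) → (∀ p q k, pm (cf (unit T v v T0 w) p q) k 3 = 0) →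
    (∀ u, T.kid v u → ∀ p q k, qm (cf (unit T v u T0 w) p q) k (-3) = 0) →
    C * ‖D.β z.2.1 - D.β0 + D.h z‖ ≤ δ → ‖μ‖ ≤ δ →
    CoM T g T0 v ψ a δ θ μ β w (gbA T g T0 a v + (β + w - cutA T v T0 (a v)))

end Crest.Agent.N207.CB

end
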