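import Crest.Agent.N207.CB.Co2

/-!
# Row 207, block L (helper92): real structures
-/

set_option autoImplicit false

open scoped ContDiff
open Metric Set Filter Topology MeasureTheory
open Crest.GeometryTopology.CoordMetric
open Crest.Agent.NLib.Ell Crest.Agent.N207.I Crest.Agent.N207.Lg Crest.Agent.N207.J

noncomputable section

namespace Crest.Agent.N207.CB

variable {M : Type*} {T : TD M} {v u : T.V} {k j : ℕ} {T0 : ℝ}

/-- invariant fields on one end are sections -/
theorem sec_onE' (h : T.Ok) (hT : Real.log (4 / T.r) ≤ T0) {β : MetricField 4}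
    (hβ : Inv (T.Γ u) ∞ {x | x ≠ 0} β) (h0 : ∀ x, tau T v u T0 x < 0 → β x = 0) :
    Sec T v (onE T u β) := by
  refine ⟨⟨fun s I => ?_, fun a b x F t => ?_⟩, fun s x hx => ?_⟩
  · simp only [onE, matT]
    split_ifs with e
    · subst e
      exact (hβ.sm _ _).mono fun x hx => end_ne hx
    · exact contDiffOn_const
  · rcases (h.str_core v).rel t.mem t.mem' t.eq0.symm with ⟨v', rfl, h1, h2, -⟩ | ⟨rfl, γ, hγ, e⟩
    · have k : ∀ s z, TD.sc (T := T) (fun _ _ => 1) s v' • z ∈ (T.base v').U s →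
          onE T u β s z = 0 := by
        intro s z hz
        simp only [onE]
        split_ifs with e
        · subst e
          exact h0 _ (tau_neg h hT (by simpa [TD.sc] using hz))
        · rfl
      funext I
      simp [matT, pullT, evT, k _ _ h1, k _ _ h2]
    · have e' := t.uniq (h.core_ok v) ((h.core_ok v).tr_deck hγ t.mem) e.symm
      funext I
      simp only [onE]
      split_ifs with e1
      · subst e1
        have := hβ.eqv γ hγ x (end_ne t.mem)
        rw [pullT, e'.fderiv_eq, e'.eq_of_nhds]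
        simp only [matT]
        rw [this]
        simp only [pullM, Matrix.of_apply, pullT]
        congr 1
        funext s
        fin_cases s <;> rfl
      · simp [matT, pullT, evT]
  · simp only [onE]
    split_ifs with e
    · subst e
      exact hβ.symm x (end_ne hx)
    · exact Matrix.isSymm_zero

theorem Adm.add {a b : Mt} (ha : Adm T u a) (hb : Adm T u b) : Adm T u (a + b) :=
  ⟨ha.symm.add hb.symm, fun γ hγ y => by simp [ha.comm γ hγ, hb.comm γ hγ],
    fun e => by simp [ha.root e, hb.root e]⟩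

theorem Adm.smul (t : ℝ) {a : Mt} (ha : Adm T u a) : Adm T u (t • a) :=
  ⟨ha.symm.smul t, fun γ hγ y => by simp [ha.comm γ hγ], fun e => by simp [ha.root e]⟩

theorem Adm.zero : Adm T u 0 := ⟨Matrix.isSymm_zero, fun γ _ y => by simp, fun _ => rfl⟩

/-- the Jordan product -/
theorem Adm.jor {a b : Mt} (ha : Adm T u a) (hb : Adm T u b) : Adm T u (a * b + b * a) := by
  refine ⟨?_, fun γ hγ y => ?_, fun e => by simp [ha.root e]⟩
  · simp only [Matrix.IsSymm, Matrix.transpose_add, Matrix.transpose_mul, ha.symm.eq, hb.symm.eq]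
    exact add_comm _ _
  · simp only [map_add, Matrix.toLpLin_mul_same, LinearMap.add_apply, LinearMap.comp_apply,
      ha.comm γ hγ, hb.comm γ hγ]

theorem Adm.sq {a : Mt} (ha : Adm T u a) : Adm T u (a * a) := by
  have := (ha.jor ha).smul (1 / 2)
  rwa [← two_smul ℝ, smul_smul, show (1 / 2 * 2 : ℝ) = 1 by norm_num, one_smul] at this

theorem Adm.cA {a : Mt} (ha : Adm T u a) : Adm T u (cA a) := by
  have := (ha.add ha).add ha.sq
  rwa [← two_smul ℕ] at this

theorem Adm.pull {a : Mt} (ha : Adm T u a) {γ : Iso4} (hγ : γ ∈ T.Γ u) (p q : Fin 4) :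
    ∑ i, ∑ l, γ (EuclideanSpace.single p 1) i * γ (EuclideanSpace.single q 1) l * a i l = a p q := by
  have h1 : inner ℝ (γ (EuclideanSpace.single p 1))
      (Matrix.toEuclideanLin a (γ (EuclideanSpace.single q 1))) = a p q := by
    rw [ha.comm γ hγ, γ.inner_map_map]
    simp [EuclideanSpace.inner_single_left, Matrix.toLpLin_apply]
  rw [← h1]
  simp only [PiLp.inner_apply, Matrix.toLpLin_apply, Matrix.mulVec, dotProduct, conj_trivial,
    RCLike.inner_apply, Finset.sum_mul]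
  exact Finset.sum_congr rfl fun i _ => Finset.sum_congr rfl fun l _ => by ring

theorem sec_cutA (h : T.Ok) (hT : Real.log (4 / T.r) ≤ T0) {a : Mt} (ha : Adm T v a) :
    Sec T v (cutA T v T0 a) := by
  refine sec_onE' h hT ⟨fun p q x hx => ?_, fun x _ => ha.cA.symm.smul _, fun γ hγ x _ => ?_⟩
    fun x hx => by rw [Cu.stp_zero' (by norm_num) (by linarith), zero_smul]
  · exact (((Cu.stp_sm _ _).contDiffAt.comp x (tau_sm v v T0 hx)).mul
      contDiffAt_const).contDiffWithinAt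
  · ext p q
    simp only [pullM, Matrix.of_apply, pullT, AI.evT_two, matT, Matrix.smul_apply, smul_eq_mul]
    rw [← ha.cA.pull hγ p q, Finset.mul_sum]
    refine Finset.sum_congr rfl fun i _ => ?_
    rw [Finset.mul_sum]
    refine Finset.sum_congr rfl fun l _ => ?_
    have : fderiv ℝ γ x = γ.toContinuousLinearEquiv := γ.toContinuousLinearEquiv.fderiv
    simp [this, tau]
    ring

theorem cm_add (a b : Mt) : cm (a + b) = cm a + cm b := by ext p q; simp [cm]

theorem cm_smul (t : ℝ) (a : Mt) : cm (t • a) = (t : ℂ) • cm a := by ext p q; simp [cm]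

theorem cm_mem {a : Mt} (ha : Adm T u a) : cm a ∈ SC T u := Submodule.subset_span ⟨a, ha, rfl⟩

/-- real and imaginary parts of admissible complex matrices -/
theorem SC_re_im {a : MtC} (ha : a ∈ SC T u) :
    Adm T u (Matrix.of fun p q => (a p q).re) ∧ Adm T u (Matrix.of fun p q => (a p q).im) := by
  induction ha using Submodule.span_induction with
  | mem x hx =>
    obtain ⟨b, hb, rfl⟩ := hx
    refine ⟨hb, ?_⟩
    convert Adm.zero
    ext p q; simp [cm]
  | zero => constructor <;> (convert Adm.zero; ext p q; simp)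
  | add x y _ _ hx hy =>
    constructor
    · convert hx.1.add hy.1 using 1
      ext p q; simp
    · convert hx.2.add hy.2 using 1
      ext p q; simp
  | smul c x _ hx =>
    constructor
    · convert (hx.1.smul c.re).add (hx.2.smul (-c.im)) using 1
      ext p q; simp; ring
    · convert (hx.2.smul c.re).add (hx.1.smul c.im) using 1
      ext p q; simp

theorem norm_cm_le {a : MtC} {b : Mt} (h : ∀ p q, |b p q| ≤ ‖a p q‖) : ‖cm b‖ ≤ ‖a‖ :=
  (pi_norm_le_iff_of_nonneg (norm_nonneg _)).2 fun p =>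
    (pi_norm_le_iff_of_nonneg (norm_nonneg _)).2 fun q => by
      simpa [cm] using (h p q).trans ((norm_le_pi_norm (a p) q).trans (norm_le_pi_norm a p))

theorem norm_cv_le {κ : Type} [Fintype κ] {a : κ → ℂ} {b : κ → ℝ} (h : ∀ p, |b p| ≤ ‖a p‖) :
    ‖cv b‖ ≤ ‖a‖ := (pi_norm_le_iff_of_nonneg (norm_nonneg _)).2 fun p => by
  simpa [cv] using (h p).trans (norm_le_pi_norm a p)

theorem norm_cv {κ : Type} [Fintype κ] (b : κ → ℝ) : ‖cv b‖ = ‖b‖ := by
  simp [Pi.norm_def, cv]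

theorem XR_comb {a b : MC T v k} (ha : a ∈ XR T v k j) (hb : b ∈ XR T v k j) (t : ℝ) :
    a + (t : ℂ) • b ∈ XR T v k j := by
  refine map_mem_closure₂ (f := fun a b : MC T v k => a + (t : ℂ) • b) (by fun_prop) ha hb ?_
  rintro _ ⟨w, hw, e⟩ _ ⟨w', hw', e'⟩
  exact ⟨w + t • w', hw.add (hw'.smul t), fun i => (e i).add ((e' i).smul t)⟩

theorem XR_zero : (0 : MC T v k) ∈ XR T v k j :=
  subset_closure ⟨0, Sec.zero, fun _ => LfAt.zero⟩

theorem XR_sub {W : MC T v k} (h : W ∈ XR T v k j) : W ∈ XC T v k j := Submodule.subset_span h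

variable (T v) in
/-- the real points of `Zc` -/
def ZRs (κ : Type) : Set (Zc T v κ) := {z | ∃ μ a θ, ZR T z μ a θ}

theorem ZRs_comb {κ : Type} : ∀ a ∈ ZRs T v κ, ∀ b ∈ ZRs T v κ, ∀ t : ℝ,
    a + (t : ℂ) • b ∈ ZRs T v κ := by
  rintro z ⟨μ, a, θ, h⟩ z' ⟨μ', a', θ', h'⟩ t
  refine ⟨μ + t • μ', a + t • a', θ + t • θ', XR_comb h.hW h'.hW t, ?_, fun u => ⟨?_, ?_⟩,
    XR_comb h.hb h'.hb t, ?_⟩
  · show z.1.2 + (t : ℂ) • z'.1.2 = _
    rw [h.hμ, h'.hμ]; ext j; simp [cv]
  · exact (h.ha u).1.add ((h'.ha u).1.smul t)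
  · show (z.2.1 u).1 + (t : ℂ) • (z'.2.1 u).1 = _
    rw [(h.ha u).2, (h'.ha u).2, Pi.add_apply, cm_add, Pi.smul_apply, cm_smul]
  · show z.2.2.2 + (t : ℂ) • z'.2.2.2 = _
    rw [h.hθ, h'.hθ]; ext j; simp [cv]

theorem ZRs_dec {κ : Type} [Fintype κ]
    (hd : ∀ W ∈ XC T v 8 0, ∃ a ∈ XR T v 8 0, ∃ b ∈ XR T v 8 0,
      W = a + Complex.I • b ∧ ‖a‖ ≤ ‖W‖ ∧ ‖b‖ ≤ ‖W‖) (z : Zc T v κ) :
    ∃ a ∈ ZRs T v κ, ∃ b ∈ ZRs T v κ, z = a + Complex.I • b ∧ ‖a‖ ≤ 1 * ‖z‖ ∧ ‖b‖ ≤ 1 * ‖z‖ := by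
  obtain ⟨⟨W, μ⟩, a, b, θ⟩ := z
  obtain ⟨W1, h1, W2, h2, e1, n1, n2⟩ := hd W.1 W.2
  obtain ⟨b1, h3, b2, h4, e2, n3, n4⟩ := hd b.1 b.2
  refine ⟨((⟨W1, XR_sub h1⟩, cv fun j => (μ j).re), fun u => ⟨_, cm_mem (SC_re_im (a u).2).1⟩,
      ⟨b1, XR_sub h3⟩, cv fun j => (θ j).re),
    ⟨_, _, _, h1, rfl, fun u => ⟨(SC_re_im (a u).2).1, rfl⟩, h3, rfl⟩,
    ((⟨W2, XR_sub h2⟩, cv fun j => (μ j).im), fun u => ⟨_, cm_mem (SC_re_im (a u).2).2⟩,
      ⟨b2, XR_sub h4⟩, cv fun j => (θ j).im),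
    ⟨_, _, _, h2, rfl, fun u => ⟨(SC_re_im (a u).2).2, rfl⟩, h4, rfl⟩, ?_, ?_, ?_⟩
  · refine Prod.ext (Prod.ext (Subtype.ext e1) ?_) (Prod.ext ?_ (Prod.ext (Subtype.ext e2) ?_))
    · ext j; simp [cv, Complex.ext_iff]
    · ext u p q; simp [cm, Complex.ext_iff]
    · ext j; simp [cv, Complex.ext_iff]
  · rw [one_mul]
    refine max_le_max (max_le_max n1 (norm_cv_le fun j => Complex.abs_re_le_norm _))
      (max_le_max ?_ (max_le_max n3 (norm_cv_le fun j => Complex.abs_re_le_norm _)))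
    exact (pi_norm_le_iff_of_nonneg (norm_nonneg _)).2 fun u =>
      (norm_cm_le fun p q => Complex.abs_re_le_norm _).trans (norm_le_pi_norm a u)
  · rw [one_mul]
    refine max_le_max (max_le_max n2 (norm_cv_le fun j => Complex.abs_im_le_norm _))
      (max_le_max ?_ (max_le_max n4 (norm_cv_le fun j => Complex.abs_im_le_norm _)))
    exact (pi_norm_le_iff_of_nonneg (norm_nonneg _)).2 fun u =>
      (norm_cm_le fun p q => Complex.abs_im_le_norm _).trans (norm_le_pi_norm a u)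

end Crest.Agent.N207.CB

end
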