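import Crest.Agent.N207.CB.St

/-!
# Row 207, block L (helper22): the leaf `IDL`
-/

set_option autoImplicit false
open Set Filter Topology Metric

noncomputable section

namespace Crest.Agent.N207.CB

theorem zero_on_disc {E : Type*} [NormedAddCommGroup E] [NormedSpace ℂ E] [CompleteSpace E]
    {h : ℂ → E} {R : ℝ} (hd : DifferentiableOn ℂ h (ball 0 R))
    (hz : ∀ᶠ t : ℝ in 𝓝 0, h t = 0) : ∀ s ∈ ball (0 : ℂ) R, h s = 0 := fun s hs => by
  refine (hd.analyticOnNhd isOpen_ball).eqOn_zero_of_preconnected_of_frequently_eq_zero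
    (convex_ball _ _).isPreconnected (mem_ball_self (pos_of_mem_ball hs)) ?_ hs
  have h1 : Tendsto (fun t : ℝ => (t : ℂ)) (𝓝[≠] 0) (𝓝[≠] 0) := by
    refine tendsto_nhdsWithin_iff.2 ⟨?_, eventually_nhdsWithin_of_forall fun t ht => ?_⟩
    · simpa using (Complex.continuous_ofReal.tendsto 0).mono_left nhdsWithin_le_nhds
    · simpa using ht
  exact h1.frequently (hz.filter_mono nhdsWithin_le_nhds).frequently

theorem idl : IDL := by
  intro Z E _ _ _ _ _ ZR c h1 h2 f r Y hY hf h3 z hz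
  have r0 : 0 < r := pos_of_mem_ball hz
  let π : E →L[ℂ] E ⧸ Y := Y.mkQL
  have hπ : ∀ e, π e = 0 ↔ e ∈ Y := fun e => Submodule.Quotient.mk_eq_zero Y
  have line : ∀ (a b : Z) (R : ℝ), (∀ s ∈ ball (0 : ℂ) R, a + s • b ∈ ball (0 : Z) r) →
      DifferentiableOn ℂ (fun s : ℂ => π (f (a + s • b))) (ball 0 R) := fun a b R h =>
    π.differentiable.comp_differentiableOn (hf.comp (by fun_prop) h)
  have small : ∀ w : Z, ‖w‖ < r / (3 * |c| + 1) → π (f w) = 0 := fun w hw => by
    obtain ⟨a, ha, b, hb, rfl, a1, b1⟩ := h2 w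
    rw [lt_div_iff₀ (by positivity)] at hw
    have m : ∀ s ∈ ball (0 : ℂ) 2, a + s • b ∈ ball (0 : Z) r := fun s hs => by
      rw [mem_ball_zero_iff] at hs ⊢
      refine (norm_add_le _ _).trans_lt ?_
      rw [norm_smul]
      nlinarith [mul_le_mul_of_nonneg_right hs.le (norm_nonneg b), norm_nonneg (a + Complex.I • b),
        mul_le_mul_of_nonneg_right (le_abs_self c) (norm_nonneg (a + Complex.I • b))]
    refine zero_on_disc (line a b 2 m) ?_ Complex.I (by simp)
    filter_upwards [Ioo_mem_nhds (show (-2 : ℝ) < 0 by norm_num) (show (0 : ℝ) < 2 by norm_num)]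
      with t ht
    exact (hπ _).2 (h3 _ (m t (by simpa [abs_lt] using ht)) (h1 a ha b hb t))
  rcases eq_or_ne z 0 with rfl | hz0
  · exact (hπ _).1 (small 0 (by rw [norm_zero]; positivity))
  have n0 : 0 < ‖z‖ := norm_pos_iff.2 hz0
  have k := zero_on_disc (line 0 z (r / ‖z‖) fun s hs => by
    rw [mem_ball_zero_iff] at hs ⊢
    rwa [zero_add, norm_smul, ← lt_div_iff₀ n0]) ?_ 1
    (by simpa [lt_div_iff₀ n0] using hz)
  · exact (hπ _).1 (by simpa using k)
  have c1 : Continuous fun t : ℝ => ‖(0 : Z) + (t : ℂ) • z‖ := by fun_prop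
  filter_upwards [c1.continuousAt.eventually (gt_mem_nhds (show _ < r / (3 * |c| + 1) by
    simp only [Complex.ofReal_zero, zero_smul, add_zero, norm_zero]; positivity))] with t ht
  exact small _ ht

end Crest.Agent.N207.CB

end
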