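import Crest.Agent.N207.CB.Cut
import Crest.Agent.N207.CB.Lf3
import Crest.Agent.N207.I.Cal4

/-!
# Row 207, block L, core side (helper67): `reg : REG T`
-/

set_option autoImplicit false

open scoped ContDiff
open Metric Set Filter Topology MeasureTheory
open Crest.GeometryTopology.CoordMetric
open Crest.Agent.NLib.Ell Crest.Agent.N207.I

noncomputable section

namespace Crest.Agent.N207.CB

namespace Cu

section atl

variable {X : Type*} {α : Type} [Fintype α] {A : Atl X α} {χ : α → X → ℝ} {K : α → Set E4}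
  {a b : α} {x y : E4}

theorem cover (h : A.Ok) (hχ : A.PoU χ K) (hy : y ∈ A.U b) : ∃ a F, A.Tr b a y F ∧ F y ∈ K a := by
  obtain ⟨a, -, ha⟩ := Finset.exists_ne_zero_of_sum_ne_zero (s := Finset.univ)
    (f := fun a => χ a (A.c b y)) (by rw [hχ.sum b y hy]; exact one_ne_zero)
  obtain ⟨x, hx, e⟩ := hχ.supp a b y hy ha
  obtain ⟨F, t, rfl⟩ := h.loc b a y hy x (hχ.sub a hx) e.symm
  exact ⟨a, F, t, hx⟩

theorem tendsto_pullT {k : ℕ} {S : ℕ → Tn 4 k} {S0 : Tn 4 k} {F : E4 → E4}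
    (h : ∀ J, Tendsto (fun n => S n (F x) J) atTop (𝓝 (S0 (F x) J))) (I : Fin k → Fin 4) :
    Tendsto (fun n => pullT F (S n) x I) atTop (𝓝 (pullT F S0 x I)) :=
  tendsto_finsetSum _ fun J _ => (h J).const_mul _

/-- the pointwise limit -/
def lim (w : ℕ → α → MetricField 4) (a : α) : MetricField 4 := fun x =>
  Matrix.of fun p q => limUnder atTop fun n => w n a x p q

variable {w : ℕ → α → MetricField 4}

theorem lim_tendsto (h : A.Ok) (hχ : A.PoU χ K) (hw : ∀ n, A.Compat fun a => matT (w n a))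
    (hc : ∀ a, ∀ x ∈ K a, ∀ p q, ∃ c, Tendsto (fun n => w n a x p q) atTop (𝓝 c))
    (hy : y ∈ A.U b) (p q : Fin 4) :
    Tendsto (fun n => w n b y p q) atTop (𝓝 (lim w b y p q)) := by
  obtain ⟨a, F, t, hF⟩ := cover h hχ hy
  choose c hc using hc a _ hF
  refine tendsto_nhds_limUnder ⟨_, (tendsto_pullT (S := fun n => matT (w n a))
    (S0 := fun _ J => c (J 0) (J 1)) (F := F) (x := y) (fun J => hc _ _) ![p, q]).congr fun n => ?_⟩
  exact (congrFun (hw n b a y F t) ![p, q]).symm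

omit [Fintype α] in
theorem lim_compat (hw : ∀ n, A.Compat fun a => matT (w n a))
    (hl : ∀ b, ∀ y ∈ A.U b, ∀ p q, Tendsto (fun n => w n b y p q) atTop (𝓝 (lim w b y p q))) :
    A.Compat fun a => matT (lim w a) := fun a b x F t => funext fun I =>
  tendsto_nhds_unique (hl a x t.mem (I 0) (I 1)) ((tendsto_pullT (S := fun n => matT (w n b))
    (S0 := matT (lim w b)) (fun J => hl b _ t.mem' (J 0) (J 1)) I).congr fun n =>
      (congrFun (hw n a b x F t) I).symm)

/-- regularity is checked on the supports -/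
theorem cd_of_K (h : A.Ok) (hχ : A.PoU χ K) {u : α → MetricField 4} {m : ℕ}
    (hu : A.Compat fun a => matT (u a))
    (hs : ∀ a, ∀ x ∈ K a, ∀ p q, ContDiffAt ℝ m (fun z => u a z p q) x) (b : α) (p q : Fin 4) :
    ContDiffOn ℝ m (fun z => u b z p q) (A.U b) := by
  intro y hy
  obtain ⟨a, F, t, hF⟩ := cover h hχ hy
  have h1 : ContDiffAt ℝ m (fderiv ℝ F) y := t.cda.fderiv_right (by exact_mod_cast le_top)
  have h2 : ContDiffAt ℝ m (fun z => pullT F (matT (u a)) z ![p, q]) y := by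
    unfold pullT evT
    refine ContDiffAt.sum fun J _ => (contDiffAt_prod fun s _ => ?_).mul
      ((hs a _ hF (J 0) (J 1)).comp y (t.cda.of_le (by exact_mod_cast le_top)))
    exact (EuclideanSpace.proj (𝕜 := ℝ) (J s)).contDiff.contDiffAt.comp y
      (h1.clm_apply contDiffAt_const)
  refine (h2.congr_of_eventuallyEq ?_).contDiffWithinAt
  filter_upwards [t.ev h] with z hz using congrFun (hu b a z F hz) ![p, q]

end atl

variable {M : Type*} {T : TD M} {v : T.V} {k j : ℕ}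

theorem cpt_zero (i : CI T v) : cpt T i 0 = i.1.2 := by simp [cpt]

theorem tendsto_val {W : MC T v k} {Wn : ℕ → MC T v k} (h : Tendsto Wn atTop (𝓝 W)) (p q : Fin 4)
    (i : CI T v) (y : E4) : Tendsto (fun n => (Wn n p q).val i y) atTop (𝓝 ((W p q).val i y)) :=
  ((Cel.evL i y).continuous.tendsto _).comp (tendsto_pi_nhds.1 (tendsto_pi_nhds.1 h p) q)

/-- a lift controls the regularity at the centres -/
theorem cd_of_lf {w : Fam T} {W : MC T v k} (hW : Lf T j w W) {s : T.S} {x : E4}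
    (hx : x ∈ T.cK v s) (p q : Fin 4) : ContDiffAt ℝ k (fun z => w s z p q) x := by
  have hr := rad_pos' hx
  have h0 : (rad T s x)⁻¹ • (x - x) = 0 := by simp
  have h1 : ContDiffAt ℝ k (fun z : E4 => (rad T s x)⁻¹ • (z - x)) x := by fun_prop
  have h2 : ContDiffAt ℝ k ((W p q).val ⟨(s, x), hx⟩) ((rad T s x)⁻¹ • (x - x)) :=
    h0 ▸ ((W p q).contDiffOn _).contDiffAt (isOpen_ball.mem_nhds (mem_ball_self one_pos))
  refine ((contDiffAt_const (c := (rad T s x ^ j)⁻¹)).mul
    (Complex.reCLM.contDiff.contDiffAt.comp x (h2.comp x h1))).congr_of_eventuallyEq ?_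
  have h3 : ∀ᶠ z in 𝓝 x, (rad T s x)⁻¹ • (z - x) ∈ B1 :=
    h1.continuousAt (isOpen_ball.mem_nhds (by simp))
  filter_upwards [h3] with z hz
  have := hW ⟨(s, x), hx⟩ p q _ hz
  simp only [cpt, smul_smul, mul_inv_cancel₀ hr.ne', one_smul, add_sub_cancel] at this
  simp only [Function.comp, this, Complex.reCLM_apply, Complex.ofReal_re]
  field_simp

theorem abs_le_of_lf {w : Fam T} {W : MC T v k} (hW : Lf T 0 w W) {s : T.S} {x : E4}
    (hx : x ∈ T.cK v s) (p q : Fin 4) : |w s x p q| ≤ ‖W‖ := by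
  have := hW ⟨(s, x), hx⟩ p q 0 (mem_ball_self one_pos)
  have h1 := (W p q).norm_val_le ⟨(s, x), hx⟩ 0
  rw [this, cpt_zero, pow_zero, one_mul, Complex.norm_real, Real.norm_eq_abs] at h1
  exact h1.trans ((norm_le_pi_norm (W p) q).trans (norm_le_pi_norm W p))

/-- limits of lifts are lifts -/
theorem exists_lim (h : T.Ok) {W : MC T v k} {Wn : ℕ → MC T v k} {w : ℕ → Fam T}
    (hw : ∀ n, SecN T v 0 (w n)) (hl : ∀ n, Lf T j (w n) (Wn n)) (ht : Tendsto Wn atTop (𝓝 W)) :
    ∃ u, SecN T v k u ∧ Lf T j u W ∧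
      ∀ s, ∀ x ∈ (T.core v).U s, ∀ p q, Tendsto (fun n => w n s x p q) atTop (𝓝 (u s x p q)) := by
  have h1 : ∀ (i : CI T v), ∀ y ∈ B1, ∀ p q, Tendsto
      (fun n => ((rad T i.1.1 i.1.2 ^ j * w n i.1.1 (cpt T i y) p q : ℝ) : ℂ)) atTop
        (𝓝 ((W p q).val i y)) := fun i y hy p q =>
    (tendsto_val ht p q i y).congr fun n => hl n i p q y hy
  have h2 := fun b y => lim_tendsto (b := b) (y := y) (h.core_ok v) (h.core_pou v)
    (fun n => (hw n).compat) fun s x hx p q => by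
      have := ((Complex.continuous_re.tendsto _).comp
        (h1 ⟨(s, x), hx⟩ 0 (mem_ball_self one_pos) p q)).const_mul (rad T s x ^ j)⁻¹
      refine ⟨_, this.congr fun n => ?_⟩
      have := (rad_pos' hx).ne'
      simp only [Function.comp, cpt_zero, Complex.ofReal_re]
      field_simp
  have h3 : Lf T j (lim w) W := fun i p q y hy => tendsto_nhds_unique (h1 i y hy p q)
    ((Complex.continuous_ofReal.tendsto _).comp ((h2 _ _ (cpt_mem i hy) p q).const_mul _))
  have h4 := lim_compat (fun n => (hw n).compat) h2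
  exact ⟨lim w, ⟨cd_of_K (h.core_ok v) (h.core_pou v) h4 fun s x hx => cd_of_lf h3 hx, h4,
    fun s x hx => Matrix.IsSymm.ext fun p q => tendsto_nhds_unique (h2 s x hx q p)
      ((h2 s x hx p q).congr fun n => (((hw n).symm s x hx).apply p q).symm)⟩, h3, h2⟩

theorem Sec.secN {w : Fam T} (hw : Sec T v w) (m : ℕ) : SecN T v m w :=
  ⟨fun s a b => (hw.sec.sm s ![a, b]).of_le (by exact_mod_cast le_top), hw.sec.compat, hw.symm⟩

theorem reg1 (h : T.Ok) {W : MC T v k} (hW : W ∈ XR T v k j) : ∃ w, SecN T v k w ∧ Lf T j w W := by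
  obtain ⟨Wn, h1, h2⟩ := mem_closure_iff_seq_limit.1 hW
  choose w hw hl using h1
  obtain ⟨u, h3, h4, -⟩ := exists_lim h (fun n => Sec.secN (hw n) 0) hl h2
  exact ⟨u, h3, h4⟩

theorem cK_inv {s : T.S} {γ : Iso4} {x : E4} (hx : x ∈ T.cK v s) : γ x ∈ T.cK v s := by
  rcases s with a | u
  · rw [TD.mem_cK_inl] at hx ⊢; rwa [γ.norm_map]
  · by_cases hu : u = v
    · subst hu; rw [TD.mem_cK_out] at hx ⊢; rwa [γ.norm_map]
    · rw [TD.mem_cK_inn hu] at hx ⊢; rwa [γ.norm_map]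

theorem cK_of_den (h : T.Ok) {G : Fam T} {s : T.S} {x : E4} (hx : x ∈ (T.core v).U s)
    (h0 : (T.core v).den T.χ G s x ≠ 0) : x ∈ T.cK v s := by
  obtain ⟨x', h1, e⟩ := (h.core_pou v).supp s s x hx fun e => h0 (by simp [Atl.den, e])
  obtain ⟨γ, -, rfl⟩ := ((h.core_ok v).fib s x' ((h.core_pou v).sub s h1) x hx).1 e
  exact cK_inv h1

/-- the part of `cK` with `tau ≤ c` is relatively compact -/
theorem exists_cpt (T1 c : ℝ) (s : T.S) : ∃ D, IsCompact D ∧ D ⊆ T.cK v s ∧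
    ∀ x ∈ T.cK v s, (∀ u, s = Sum.inr u → tau T v u T1 x ≤ c) → x ∈ D := by
  rcases s with a | u
  · refine ⟨T.cK v (Sum.inl a), ?_, Subset.rfl, fun x hx _ => hx⟩
    by_cases e : T.vx a = v <;> simp [TD.cK, e, isCompact_closedBall]
  · by_cases hu : u = v
    · subst hu
      refine ⟨closedBall 0 (Real.exp (c + T1)) \ ball 0 (3 / 2),
        (isCompact_closedBall _ _).diff isOpen_ball, fun x hx => TD.mem_cK_out.2 (by simpa using hx.2),
        fun x hx ht => ⟨?_, by simpa using TD.mem_cK_out.1 hx⟩⟩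
      have := ht u rfl
      simp only [tau, if_true] at this
      exact mem_closedBall_zero_iff.2 ((Real.log_le_iff_le_exp (cK_pos hx)).1 (by linarith))
    · by_cases hk : T.kid v u
      · refine ⟨closedBall 0 (3 / 4 * T.r) \ ball 0 (Real.exp (-(c + T1))),
          (isCompact_closedBall _ _).diff isOpen_ball, fun x hx => (TD.mem_cK_inn hu).2 ⟨hk,
            (Real.exp_pos _).trans_le (by simpa using hx.2), by simpa using hx.1⟩,
          fun x hx ht => ⟨by simpa using ((TD.mem_cK_inn hu).1 hx).2.2, ?_⟩⟩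
        have := ht u rfl
        simp only [tau, hu, if_false] at this
        simpa using (Real.le_log_iff_exp_le (cK_pos hx)).1 (by linarith : -(c + T1) ≤ Real.log ‖x‖)
      · exact ⟨∅, isCompact_empty, empty_subset _, fun x hx _ => hk ((TD.mem_cK_inn hu).1 hx).1⟩

variable {g : T.V → Fam T} {ψ : Fam T} {T1 : ℝ}

theorem intg_van (h : T.Ok) (hg : (T.core v).IsMet (g v)) (hv : Van T v T1 0 ψ)
    {f : T.S → E4 → ℝ} (hf : (T.core v).Ct f) (h0 : ∀ s x, ψ s x = 0 → f s x = 0) :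
    (T.core v).Intg T.χ (g v) f := fun s => by
  obtain ⟨D, d1, d2, d3⟩ := exists_cpt (T := T) (v := v) T1 0 s
  refine Atl.integrableOn_of_cpt ((h.core_ok v).isOpen s) d1 (d2.trans ((h.core_pou v).sub s))
    ((Atl.sm_den hg (h.core_pou v) s).continuousOn.mul (hf s)) fun x hx hn => ?_
  by_contra k
  refine hn (d3 x (cK_of_den h hx (left_ne_zero_of_mul k)) ?_)
  rintro u rfl
  exact le_of_not_ge fun ht => right_ne_zero_of_mul k (h0 _ x (hv u x hx ht))

theorem ct_coef (hg : (T.core v).IsMet (g v)) (hψ : Sec T v ψ) (s : T.S) (I J : Fin 2 → Fin 4) :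
    ContinuousOn (fun x => (∏ r, (g v s x)⁻¹ (I r) (J r)) * matT (ψ s) x I) ((T.core v).U s) :=
  (continuousOn_finsetProd _ fun _ _ => (sm_inv (hg.riem s) _ _).continuousOn).mul
    (hψ.sec.sm s I).continuousOn

theorem intg_pair (h : T.Ok) (hg : (T.core v).IsMet (g v)) (hψ : Sec T v ψ) (hv : Van T v T1 0 ψ)
    {w : Fam T} (hw : SecN T v 0 w) :
    (T.core v).Intg T.χ (g v) fun s x => ip (g v s) (matT (ψ s)) (matT (w s)) x := by
  refine intg_van h hg hv (fun s => ?_) fun s x e => by simp [ip, ipA, matT, e]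
  simp only [ip, ipA, ← mul_assoc]
  exact continuousOn_finsetSum _ fun I _ => continuousOn_finsetSum _ fun J _ =>
    (ct_coef hg hψ s I J).mul (hw.sm s _ _).continuousOn

theorem pair_add (h : T.Ok) (hg : (T.core v).IsMet (g v)) (hψ : Sec T v ψ) (hv : Van T v T1 0 ψ)
    {w w' : Fam T} (hw : SecN T v 0 w) (hw' : SecN T v 0 w') :
    pair T g v ψ (w + w') = pair T g v ψ w + pair T g v ψ w' := by
  rw [pair, pair, pair, ← Atl.int_add (intg_pair h hg hψ hv hw) (intg_pair h hg hψ hv hw')]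
  congr 1
  funext s x
  simp [ip, ipA, matT, mul_add, Finset.sum_add_distrib]

theorem pair_smul (c : ℝ) (w : Fam T) : pair T g v ψ (c • w) = c * pair T g v ψ w := by
  rw [pair, pair, ← Atl.int_const_mul]
  congr 1
  funext s x
  simp [ip, ipA, matT, Finset.mul_sum, mul_left_comm c]

theorem pair_le (h : T.Ok) (hg : (T.core v).IsMet (g v)) (hψ : Sec T v ψ) (hv : Van T v T1 0 ψ) :
    ∃ C : ℝ, ∀ (w : Fam T) (N : ℝ), SecN T v 0 w →
      (∀ s, ∀ x ∈ T.cK v s, ψ s x ≠ 0 → ∀ p q, |w s x p q| ≤ N) → |pair T g v ψ w| ≤ C * N := by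
  let c : T.S → E4 → ℝ := fun s x => ∑ I : Fin 2 → Fin 4, ∑ J : Fin 2 → Fin 4,
    |(∏ r, (g v s x)⁻¹ (I r) (J r)) * matT (ψ s) x I|
  have hc : (T.core v).Intg T.χ (g v) c := intg_van h hg hv (fun s =>
    continuousOn_finsetSum _ fun I _ => continuousOn_finsetSum _ fun J _ =>
      (ct_coef hg hψ s I J).abs) fun s x e => by simp [c, matT, e]
  refine ⟨(T.core v).int T.χ (g v) c, fun w N hw hN => ?_⟩
  rw [mul_comm, ← Atl.int_const_mul]
  refine (Finset.abs_sum_le_sum_abs _ _).trans (Finset.sum_le_sum fun s _ => ?_)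
  refine abs_integral_le_integral_abs.trans (setIntegral_mono_on (intg_pair h hg hψ hv hw s).abs
    (hc.const_mul N s) ((h.core_ok v).isOpen s).measurableSet fun x hx => ?_)
  have hd := Atl.den_nonneg (G := g v) (h.core_pou v) s x
  rcases hd.eq_or_lt with e | e
  · simp [← e]
  rw [abs_mul, abs_of_nonneg hd]
  refine mul_le_mul_of_nonneg_left ?_ hd
  by_cases h0 : ψ s x = 0
  · simp [ip, ipA, matT, c, h0]
  simp only [ip, ipA, ← mul_assoc, c, Finset.mul_sum]
  refine (Finset.abs_sum_le_sum_abs _ _).trans (Finset.sum_le_sum fun I _ =>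
    (Finset.abs_sum_le_sum_abs _ _).trans (Finset.sum_le_sum fun J _ => ?_))
  rw [abs_mul, mul_comm]
  exact mul_le_mul_of_nonneg_right (hN s x (cK_of_den h hx e.ne') h0 _ _) (abs_nonneg _)

end Cu

open Cu in
/-- **REG** -/
theorem reg {M : Type*} {T : TD M} : REG T := by
  intro h v k
  refine ⟨fun W hW => reg1 h hW, fun g ψ T1 hg hψ hv => ?_⟩
  obtain ⟨C, hC⟩ := pair_le h hg hψ hv
  exact ⟨C, fun w W hw hW => ⟨hC w _ hw fun s x hx _ => abs_le_of_lf hW hx,
    fun w' hw' => pair_add h hg hψ hv hw hw'⟩⟩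

end Crest.Agent.N207.CB

end
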