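import Crest.Agent.N207.CB.St3
import Crest.Agent.N207.I.Cal1
import Crest.Agent.N207.Ph.Pb0
import Crest.Agent.R249.Bia3_104

/-!
# Row 207, block L (helper19): the leaf `SECR` (naturality of `redM` and `PsT`)
-/

set_option autoImplicit false

open scoped ContDiff Matrix
open Set Filter Topology
open Crest.GeometryTopology.CoordMetric
open Crest.Agent.N207.I Crest.Agent.N207.Lg Crest.Agent.R202.Tens

noncomputable section

namespace Crest.Agent.N207.CB

namespace Sr

section Red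

variable {n : ℕ} {gb gb' G G' : MetricField n} {Φ : En n → En n} {U V W : Set (En n)} {y : En n}

/-- tensor product of two 1-forms -/
def tp (B C : Tn n 1) : Tn n 2 := fun y I => B y ![I 0] * C y ![I 1]

theorem rel_tp {B B' C C' : Tn n 1} (hB : Rel Φ V B' B) (hC : Rel Φ V C' C) :
    Rel Φ V (tp B' C') (tp B C) := fun y hy => by
  funext I
  rw [tp, hB y hy, hC y hy, pullT, pullT, pullT, AI.evT_one, AI.evT_one, AI.evT_two,
    Finset.sum_mul_sum]
  refine Finset.sum_congr rfl fun a _ => Finset.sum_congr rfl fun b _ => ?_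
  simp only [tp, Matrix.cons_val_zero, Matrix.cons_val_one]
  ring

theorem smT_tp {B C : Tn n 1} (hB : SmT B U) (hC : SmT C U) : SmT (tp B C) U :=
  fun _ => (hB _).mul (hC _)

theorem smT_gauT (hb : IsRiemannianOn gb U) (hG : IsRiemannianOn G U) : SmT (gauT gb G) U :=
  ((((SmT.met hG).cov hb).trT hG).sub
    ((SmT.conT hG (SmT.met hG) ((SmT.met hG).cov hb)).smul (1 / 2))).congr
      fun _ hy => funext fun I => Ph.gauT_eq hG hy I

theorem two_eta (I : Fin 2 → Fin n) : ![I 0, I 1] = I := by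
  funext s; fin_cases s <;> rfl

theorem redT_split (gb G : MetricField n) : redT gb G =
    ricT G - (1 / 2 : ℝ) • (cov gb (gauT gb G) + prmT (Equiv.swap 0 1) (cov gb (gauT gb G))) +
      (1 / 2 : ℝ) • tp (gauT gb G) (gauT gb G) := by
  funext y I
  have e : I ∘ (Equiv.swap (0 : Fin 2) 1) = ![I 1, I 0] := by
    funext s; fin_cases s <;> rfl
  simp only [redT, Pi.add_apply, Pi.sub_apply, Pi.smul_apply, smul_eq_mul, prmT, tp, ricT, e,
    two_eta]

theorem smT_redT (hb : IsRiemannianOn gb U) (hG : IsRiemannianOn G U) : SmT (redT gb G) U := by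
  have h := (smT_gauT hb hG).cov hb
  rw [redT_split]
  exact ((SmT.ricT hG).sub ((h.add fun _ => h _).smul _)).add
    ((smT_tp (smT_gauT hb hG) (smT_gauT hb hG)).smul _)

/-- naturality of the reduced Ricci tensor -/
theorem redT_pull (p : Pull G' G Φ V W) (q : Pull gb' gb Φ V W) (hy : y ∈ V) :
    redT gb' G' y = pullT Φ (redT gb G) y := by
  have hB : Rel Φ V (gauT gb' G') (gauT gb G) := fun _ hz => Ph.gauT_pull p q hz
  have hC := hB.cov q (smT_gauT q.riem p.riem)
  rw [redT_split, redT_split]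
  exact (((Rel.ricT p).sub ((hC.add (hC.prmT _)).smul _)).add ((rel_tp hB hB).smul _)) y hy

theorem redT_symm (hG : IsRiemannianOn G U) (hy : y ∈ U) (a b : Fin n) :
    redT gb G y ![a, b] = redT gb G y ![b, a] := by
  simp only [redT, Matrix.cons_val_zero, Matrix.cons_val_one]
  rw [R249.Bia3_104.ricci_symm hG hy a b]
  ring

end Red

theorem matT_redM (gb G : MetricField 4) : matT (redM gb G) = redT gb G := by
  funext y I
  simp only [matT, redM, Matrix.of_apply, two_eta]

/-- the Jacobian matrix -/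
def jac (F : E4 → E4) (y : E4) : Mt :=
  Matrix.of fun a i => fderiv ℝ F y (EuclideanSpace.single i 1) a

theorem pullT_matT (F : E4 → E4) (B : MetricField 4) (y : E4) (I : Fin 2 → Fin 4) :
    pullT F (matT B) y I = ((jac F y)ᵀ * B (F y) * jac F y) (I 0) (I 1) := by
  rw [pullT, AI.evT_two]
  simp only [Matrix.mul_apply, Matrix.transpose_apply, jac, Matrix.of_apply, Finset.sum_mul, matT,
    Matrix.cons_val_zero, Matrix.cons_val_one]
  rw [Finset.sum_comm]
  exact Finset.sum_congr rfl fun a _ => Finset.sum_congr rfl fun b _ => by ring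

theorem pull_iff {F : E4 → E4} {A B : MetricField 4} {y : E4} :
    matT A y = pullT F (matT B) y ↔ A y = (jac F y)ᵀ * B (F y) * jac F y := by
  refine ⟨fun h => ?_, fun h => funext fun I => ?_⟩
  · ext i j
    exact (congrFun h ![i, j]).trans (pullT_matT F B y _)
  · rw [pullT_matT, ← h]; rfl

theorem tr2_eq (H X : Mt) : tr2 (fun a b => H a b) (fun a b => X a b) = (Hᵀ * X).trace := by
  simp only [tr2, Matrix.trace, Matrix.diag, Matrix.mul_apply, Matrix.transpose_apply]
  exact Finset.sum_comm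

theorem TRg_conj {J : Mt} (hJ : IsUnit J.det) (G X : Mt) :
    TRg (Jᵀ * G * J) (Jᵀ * X * J) = Jᵀ * TRg G X * J := by
  have hJ' : IsUnit Jᵀ.det := by rwa [Matrix.det_transpose]
  have e : (((Jᵀ * G * J)⁻¹)ᵀ * (Jᵀ * X * J)).trace = ((G⁻¹)ᵀ * X).trace := by
    rw [Matrix.mul_inv_rev, Matrix.mul_inv_rev, Matrix.transpose_mul, Matrix.transpose_mul,
      Matrix.transpose_nonsing_inv Jᵀ, Matrix.transpose_nonsing_inv J, Matrix.transpose_transpose]
    simp only [Matrix.mul_assoc, Matrix.nonsing_inv_mul_cancel_left _ _ hJ']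
    rw [Matrix.trace_mul_comm]
    simp only [Matrix.mul_assoc, Matrix.mul_nonsing_inv _ hJ, Matrix.mul_one]
  rw [TRg, TRg, tr2_eq, tr2_eq, e, Matrix.mul_sub, Matrix.sub_mul, Matrix.mul_smul,
    Matrix.smul_mul]

theorem sand_conj {J : Mt} (hJ : IsUnit J.det) (H G ψ : Mt) :
    Jᵀ * G * J * (Jᵀ * H * J)⁻¹ * (Jᵀ * ψ * J) * (Jᵀ * H * J)⁻¹ * (Jᵀ * G * J) =
      Jᵀ * (G * H⁻¹ * ψ * H⁻¹ * G) * J := by
  have hJ' : IsUnit Jᵀ.det := by rwa [Matrix.det_transpose]
  simp only [Matrix.mul_inv_rev, Matrix.mul_assoc, Matrix.nonsing_inv_mul_cancel_left _ _ hJ',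
    Matrix.mul_nonsing_inv_cancel_left _ _ hJ]

theorem det_conj (J G : Mt) : (Jᵀ * G * J).det = G.det * J.det ^ 2 := by
  rw [Matrix.det_mul, Matrix.det_mul, Matrix.det_transpose]; ring

/-- naturality of `PsT` at a point -/
theorem PsT_conj {H H' G G' ψ ψ' : MetricField 4} {x y : E4} {J : Mt} (hJ : J.det ≠ 0)
    (eH : H' x = Jᵀ * H y * J) (eG : G' x = Jᵀ * G y * J) (eψ : ψ' x = Jᵀ * ψ y * J) :
    PsT H' G' ψ' x = Jᵀ * PsT H G ψ y * J := by
  have hu : IsUnit J.det := hJ.isUnit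
  have e : sq H' x / sq G' x = sq H y / sq G y := by
    unfold Lg.sq
    rw [eH, eG, det_conj, det_conj, Real.sqrt_mul' _ (sq_nonneg _),
      Real.sqrt_mul' _ (sq_nonneg _),
      mul_div_mul_right _ _ (Real.sqrt_pos.2 (by positivity)).ne']
  rw [PsT, PsT, e, eH, eG, eψ, sand_conj hu, ← TRg_conj hu, Matrix.mul_smul, Matrix.smul_mul]

theorem TRg_symm {G X : Mt} (hG : G.IsSymm) (hX : X.IsSymm) : (TRg G X).IsSymm :=
  hX.sub (hG.smul _)

theorem PsT_symm {H G ψ : MetricField 4} {y : E4} (hH : (H y).IsSymm) (hG : (G y).IsSymm)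
    (hψ : (ψ y).IsSymm) : (PsT H G ψ y).IsSymm := by
  refine TRg_symm hG (Matrix.IsSymm.smul ?_ _)
  rw [Matrix.IsSymm]
  simp only [Matrix.transpose_mul, Matrix.transpose_nonsing_inv, hH.eq, hG.eq, hψ.eq,
    Matrix.mul_assoc]

theorem symm_of_pos {G : Mt} (h : G.PosDef) : G.IsSymm := by
  have := h.isHermitian
  rwa [Matrix.IsHermitian, Matrix.conjTranspose_eq_transpose_of_trivial] at this

/-- smooth entries -/
def SmM (A : MetricField 4) (U : Set E4) : Prop := ∀ i j, ContDiffOn ℝ ∞ (fun y => A y i j) U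

theorem SmM.mul {A B : MetricField 4} {U : Set E4} (hA : SmM A U) (hB : SmM B U) :
    SmM (fun y => A y * B y) U := fun i j => by
  simp only [Matrix.mul_apply]
  exact ContDiffOn.sum fun k _ => (hA i k).mul (hB k j)

theorem smM_TRg {G X : MetricField 4} {U : Set E4} (hG : IsRiemannianOn G U) (hX : SmM X U) :
    SmM (fun y => TRg (G y) (X y)) U := fun i j => by
  simp only [TRg, Matrix.sub_apply, Matrix.smul_apply, smul_eq_mul, tr2]
  exact (hX i j).sub ((contDiffOn_const.mul (ContDiffOn.sum fun a _ => ContDiffOn.sum fun b _ =>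
    (sm_inv hG a b).mul (hX a b))).mul (hG.contDiffOn i j))

theorem smM_PsT {H G ψ : MetricField 4} {U : Set E4} (hH : IsRiemannianOn H U)
    (hG : IsRiemannianOn G U) (hψ : SmM ψ U) : SmM (PsT H G ψ) U := by
  have h1 : SmM (fun y => (H y)⁻¹) U := sm_inv hH
  have h2 : SmM G U := hG.contDiffOn
  have h3 := (((h2.mul h1).mul hψ).mul h1).mul h2
  have h4 : ContDiffOn ℝ ∞ (fun y => sq H y / sq G y) U :=
    (sm_sqrt_det hH).div (sm_sqrt_det hG) fun y hy =>
      (Real.sqrt_pos.2 (hG.posDef y hy).det_pos).ne'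
  exact smM_TRg hG fun i j => h4.mul (h3 i j)

end Sr

open Sr in
/-- **leaf SECR** -/
theorem secr (X : Type*) : SECR X := by
  intro α A H G ψ h hH hG
  refine ⟨⟨⟨fun a => ?_, fun a b x F t => ?_⟩, fun s x hx => ?_⟩, fun hψ hs =>
    ⟨⟨fun a => SmT.matT (smM_PsT (hH.riem a) (hG.riem a) fun i j => hψ.sm a ![i, j]),
      fun a b x F t => ?_⟩, fun s x hx => PsT_symm (symm_of_pos ((hH.riem s).posDef x hx))
        (symm_of_pos ((hG.riem s).posDef x hx)) (hs s x hx)⟩⟩
  · rw [matT_redM]; exact smT_redT (hH.riem a) (hG.riem a)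
  · obtain ⟨V, h1, h2, h3, -⟩ := t.exists_nbhd h
    simp only [matT_redM]
    exact redT_pull (hG.pull h h1 h3) (hH.pull h h1 h3) h2
  · ext a b
    exact redT_symm (hG.riem s) hx b a
  · have eG := pull_iff.1 (hG.compat a b x F t)
    refine pull_iff.2 (PsT_conj (fun e => ?_) (pull_iff.1 (hH.compat a b x F t)) eG
      (pull_iff.1 (hψ.compat a b x F t)))
    have := ((hG.riem a).posDef x t.mem).det_pos
    rw [eG, det_conj, e] at this
    simp at this

end Crest.Agent.N207.CB

end
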