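import Crest.Agent.N207.CB.Co3
import Crest.Agent.N207.CB.Idl
import Crest.Agent.N207.CB.Secr
import Crest.Agent.N207.K.Pop2
import Crest.Agent.N207.Lg.Flat
import Crest.Agent.N207.CB.Reg

/-!
# Row 207, block L (helper92): the source: holomorphy, covariance, bound, membership
-/

set_option autoImplicit false

open scoped ContDiff
open Metric Set Filter Topology MeasureTheory
open Crest.GeometryTopology.CoordMetric
open Crest.Agent.NLib.Ell Crest.Agent.N207.I Crest.Agent.N207.Lg Crest.Agent.N207.J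

noncomputable section

namespace Crest.Agent.N207.CB

variable {M : Type*} {T : TD M}

namespace CD

variable {g : T.V → Fam T} {κ : Type} [Fintype κ] {ψ : κ → Fam T} {v : T.V} {T0 : ℝ}
  (D : CD T g ψ v T0)

theorem diff_a (u : T.V) : Differentiable ℂ fun z : Zc T v κ => (z.2.1 u).1 :=
  (SC T u).subtypeL.differentiable.comp (f := fun z : Zc T v κ => z.2.1 u) (by fun_prop)

theorem diff_W : Differentiable ℂ fun z : Zc T v κ => z.1.1.1 :=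
  (XC T v 8 0).subtypeL.differentiable.comp (f := fun z : Zc T v κ => z.1.1) (by fun_prop)

theorem diff_b : Differentiable ℂ fun z : Zc T v κ => z.2.2.1.1 :=
  (XC T v 8 0).subtypeL.differentiable.comp (f := fun z : Zc T v κ => z.2.2.1) (by fun_prop)

theorem diff_β : Differentiable ℂ fun z : Zc T v κ => D.β z.2.1 := by
  refine (differentiable_const _).add (Differentiable.fun_sum fun u _ => ?_)
  exact ((D.B₁ u).differentiable.comp (diff_a u)).add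
    (((D.B₂ u).differentiable.comp (diff_a u)).clm_apply (diff_a u))

theorem diff_h : Differentiable ℂ D.h :=
  (diff_b.add diff_W).sub ((cstC D.χ).differentiable.comp (diff_cAc.comp (diff_a v)))

theorem diff_p : Differentiable ℂ D.p := D.diff_β.prodMk D.diff_h

theorem diff_src {U : Set (Zc T v κ)} (hU : ∀ z ∈ U, D.p z ∈ ball 0 D.Λ.ε) :
    DifferentiableOn ℂ D.src U := by
  have h1 : DifferentiableOn ℂ (fun z => D.Λ.R (D.p z)) U :=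
    D.Λ.hR.comp D.diff_p.differentiableOn hU
  have h2 : DifferentiableOn ℂ (fun z => D.Λ.Ps (D.p z)) U :=
    D.Λ.hP.comp D.diff_p.differentiableOn hU
  refine ((mulC D.ρ).differentiable.comp_differentiableOn
    ((D.P.differentiable.comp diff_W).differentiableOn.sub (h1.const_smul (2 : ℂ)))).add
    (DifferentiableOn.fun_sum fun j _ => ?_)
  have h3 : Differentiable ℂ fun z : Zc T v κ => z.1.2 j := by fun_prop
  exact h3.differentiableOn.smul ((h2.clm_apply (differentiableOn_const _)).sub_const _)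

theorem mem_fst {z : Zc T v κ} (hz : D.p z ∈ ball 0 D.Λ.ε) :
    ((D.β z.2.1, 0) : MC T v 8 × MC T v 8) ∈ ball 0 D.Λ.ε := by
  rw [mem_ball_zero_iff] at hz ⊢
  refine lt_of_le_of_lt ?_ hz
  simp [p, Prod.norm_def]

theorem R_zero : D.Λ.R 0 = 0 := by
  refine Lf.uniq (w := 0) (j := 2) (fun i => ?_) fun _ => LfAt.zero
  have := D.Λ.real 0 (mem_ball_self D.Λ.ε_pos) i 0 0 LfAt.zero LfAt.zero fun y hy =>
    ⟨Matrix.isSymm_zero, Matrix.isSymm_zero⟩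
  simp only [add_zero] at this
  refine this.2.1.congr fun y hy => ?_
  ext a b
  simp [redM, (C2.of_riem (D.met.riem _) (cpt_mem i hy)).redT_self, ricT, D.ric _ _ (cpt_mem i hy)]

/-- covariance: the source of the background does not see `a` -/
theorem cov (hd : ∀ W ∈ XC T v 8 0, ∃ a ∈ XR T v 8 0, ∃ b ∈ XR T v 8 0,
      W = a + Complex.I • b ∧ ‖a‖ ≤ ‖W‖ ∧ ‖b‖ ≤ ‖W‖) {ε : ℝ}
    (hU : ∀ z ∈ ball (0 : Zc T v κ) ε, D.p z ∈ ball 0 D.Λ.ε) :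
    ∀ z ∈ ball (0 : Zc T v κ) ε, D.Λ.R (D.β z.2.1, 0) = D.Λ.R (D.β0, 0) := by
  intro z hz
  refine sub_eq_zero.1 ((Submodule.mem_bot ℂ).1 (idl _ _ (ZRs T v κ) 1 ZRs_comb (ZRs_dec hd)
    (fun z => D.Λ.R (D.β z.2.1, 0) - D.Λ.R (D.β0, 0)) ε ⊥ (by simp) ?_ ?_ z hz))
  · exact (D.Λ.hR.comp (D.diff_β.prodMk (differentiable_const _)).differentiableOn
      fun z hz => D.mem_fst (hU z hz)).sub_const _
  · rintro z hz ⟨μ, a, θ, h⟩
    rw [Submodule.mem_bot, sub_eq_zero]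
    refine Lf.uniq (j := 2) (w := fun s => redM (gb T g T0 v s) (gb T g T0 v s)) (fun i => ?_)
      fun i => (D.real0 i).2.1
    have := D.Λ.real _ (D.mem_fst (hU z hz)) i _ 0 (D.lf_β (fun u => (h.ha u).2) i) LfAt.zero
      fun y hy => ⟨(D.sec_β fun u => (h.ha u).1).symm _ _ (cpt_mem i hy), Matrix.isSymm_zero⟩
    simp only [Pi.sub_apply, add_sub_cancel, add_zero] at this
    exact this.2.1.congr fun y hy => (D.hfl a _ _ (cpt_mem i hy) (this.1 y hy).1).symm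

/-- the constants -/
structure Bd (c η : ℝ) : Prop where
  one : 1 ≤ c
  η0 : 0 ≤ η
  η1 : η ≤ 1
  β : ∀ a, ‖a‖ ≤ 1 → ‖D.β a - D.β0‖ ≤ c * ‖a‖
  χ : ‖D.χ‖ ≤ c
  ρ : ‖D.ρ‖ ≤ c
  ψ : ∑ j, ‖D.ψh j‖ ≤ c
  β0 : ‖D.β0‖ ≤ c * η
  fd : ‖fderiv ℂ D.Λ.R (D.β0, 0)‖ ≤ c
  lip : ∀ p : MC T v 8 × MC T v 8, ‖p‖ < D.Λ.ε → ‖D.Λ.R p - D.Λ.R 0‖ ≤ c * ‖p‖
  lipP : ∀ p : MC T v 8 × MC T v 8, ‖p‖ < D.Λ.ε → ‖D.Λ.Ps p - D.Λ.Ps 0‖ ≤ c * ‖p‖
  quad : ∀ b h : MC T v 8, ‖(b, h)‖ < D.Λ.ε → ‖D.Λ.R (b, h) - D.Λ.R (b, 0) -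
    fderiv ℂ D.Λ.R (D.β0, 0) (0, h)‖ ≤ c * (‖(b, h)‖ ^ 2 + ‖D.β0‖ * ‖h‖)

theorem nW (z : Zc T v κ) : ‖z.1.1.1‖ ≤ ‖z‖ := (norm_fst_le z.1).trans (norm_fst_le z)
theorem nμ (z : Zc T v κ) : ‖z.1.2‖ ≤ ‖z‖ := (norm_snd_le z.1).trans (norm_fst_le z)
theorem na (z : Zc T v κ) : ‖z.2.1‖ ≤ ‖z‖ := (norm_fst_le z.2).trans (norm_snd_le z)
theorem nb (z : Zc T v κ) : ‖z.2.2.1.1‖ ≤ ‖z‖ :=
  (norm_fst_le z.2.2).trans ((norm_snd_le z.2).trans (norm_snd_le z))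

variable {D} {c η : ℝ}

theorem Bd.cut (h : D.Bd c η) {z : Zc T v κ} (hz : ‖z‖ ≤ 1) :
    ‖cstC D.χ (cAc (z.2.1 v).1)‖ ≤ 6 * c * ‖z.2.1 v‖ := by
  have h1 := norm_cAc (a := (z.2.1 v).1) (((norm_le_pi_norm z.2.1 v).trans (na z)).trans hz)
  refine ((cstC D.χ).le_of_opNorm_le_of_le ((norm_cstC _).trans h.χ) h1).trans (le_of_eq ?_)
  rw [Submodule.coe_norm]
  ring

theorem Bd.nh (h : D.Bd c η) {z : Zc T v κ} (hz : ‖z‖ ≤ 1) : ‖D.h z‖ ≤ 8 * c * ‖z‖ := by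
  have h1 := h.cut hz
  have h2 := (norm_le_pi_norm z.2.1 v).trans (na z)
  have h3 : ‖D.h z‖ ≤ _ := (norm_sub_le _ _).trans (add_le_add (norm_add_le _ _) h1)
  have := h.one
  have h4 : 6 * c * ‖z.2.1 v‖ ≤ 6 * c * ‖z‖ := by gcongr
  nlinarith [nW z, nb z, norm_nonneg z]

theorem Bd.nβ (h : D.Bd c η) {z : Zc T v κ} (hz : ‖z‖ ≤ 1) : ‖D.β z.2.1 - D.β0‖ ≤ c * ‖z‖ :=
  (h.β _ ((na z).trans hz)).trans (mul_le_mul_of_nonneg_left (na z) (zero_le_one.trans h.one))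

theorem Bd.np (h : D.Bd c η) {z : Zc T v κ} (hz : ‖z‖ ≤ 1) : ‖D.p z‖ ≤ c * η + 8 * c * ‖z‖ := by
  have h1 := h.nβ hz
  have h2 := h.nh hz
  have h3 := norm_le_norm_add_norm_sub' (D.β z.2.1) D.β0
  have h4 : 0 ≤ c * η := mul_nonneg (zero_le_one.trans h.one) h.η0
  have h5 : 0 ≤ c * ‖z‖ := mul_nonneg (zero_le_one.trans h.one) (norm_nonneg _)
  have := h.β0
  refine max_le ?_ ?_
  · show ‖D.β z.2.1‖ ≤ _
    linarith
  · show ‖D.h z‖ ≤ _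
    linarith

theorem Bd.src_le (h : D.Bd c η) {z : Zc T v κ} (hz : ‖z‖ ≤ 1) (hp : D.p z ∈ ball 0 D.Λ.ε)
    (hc : D.Λ.R (D.β z.2.1, 0) = D.Λ.R (D.β0, 0)) :
    ‖D.src z‖ ≤ 400 * c ^ 4 * (η + ‖z.2.1 v‖ + ‖z.2.2.1‖ + ‖z‖ ^ 2) := by
  have c1 := h.one
  have e0 := h.η0
  have e1 := h.η1
  have z0 := norm_nonneg z
  have hp' := mem_ball_zero_iff.1 hp
  have h0 := mem_ball_zero_iff.1 D.mem0
  have n0 : ‖((D.β0, 0) : MC T v 8 × MC T v 8)‖ ≤ c * η := by simpa [Prod.norm_def] using h.β0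
  set S := η + ‖z.2.1 v‖ + ‖z.2.2.1‖ + ‖z‖ ^ 2 with hS
  have s1 : η + ‖z‖ ^ 2 ≤ S := by linarith [norm_nonneg (z.2.1 v), norm_nonneg z.2.2.1]
  have s2 : ‖z.2.1 v‖ + ‖z.2.2.1‖ ≤ S := by nlinarith
  have s3 : η ≤ S := by nlinarith
  have s0 : 0 ≤ S := e0.trans s3
  have a1 : ‖D.Λ.R (D.β0, 0)‖ ≤ c ^ 3 * S := by
    have := h.lip _ h0
    rw [D.R_zero, sub_zero] at this
    calc _ ≤ c * (c * η) := this.trans (by gcongr)
      _ = c ^ 2 * η := by ring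
      _ ≤ _ := by gcongr; norm_num
  have a2 : ‖D.p z‖ ^ 2 + ‖D.β0‖ * ‖D.h z‖ ≤ 136 * c ^ 2 * S := by
    have b1 : ‖D.p z‖ ^ 2 ≤ (c * η + 8 * c * ‖z‖) ^ 2 := by gcongr; exact h.np hz
    have b2 : ‖D.β0‖ * ‖D.h z‖ ≤ c * η * (8 * c * 1) := by
      gcongr
      · exact h.β0
      · exact (h.nh hz).trans (by gcongr)
    have b3 : (η + 8 * ‖z‖) ^ 2 + 8 * η ≤ 136 * (η + ‖z‖ ^ 2) := by nlinarith [sq_nonneg (η - 8 * ‖z‖)]
    have b4 : c ^ 2 * ((η + 8 * ‖z‖) ^ 2 + 8 * η) ≤ c ^ 2 * (136 * S) := by gcongr; linarith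
    nlinarith
  have a3 := (h.quad _ _ hp').trans (mul_le_mul_of_nonneg_left a2 (by linarith))
  have a4 : ‖fderiv ℂ D.Λ.R (D.β0, 0) (0, z.1.1.1 - D.h z)‖ ≤ 6 * c ^ 3 * S := by
    have b1 : ‖((0, z.1.1.1 - D.h z) : MC T v 8 × MC T v 8)‖ ≤ 6 * c * S := by
      have : z.1.1.1 - D.h z = cstC D.χ (cAc (z.2.1 v).1) - z.2.2.1.1 := by simp only [CD.h]; abel
      rw [this, Prod.norm_def, norm_zero, max_eq_right (norm_nonneg _)]
      refine (norm_sub_le _ _).trans ?_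
      have b2 := h.cut hz
      rw [← Submodule.coe_norm]
      have b3 : 6 * c * (‖z.2.1 v‖ + ‖z.2.2.1‖) ≤ 6 * c * S := by gcongr
      nlinarith [norm_nonneg z.2.2.1]
    calc _ ≤ c * (6 * c * S) := ContinuousLinearMap.le_of_opNorm_le_of_le _ h.fd b1
      _ = 6 * c ^ 2 * S := by ring
      _ ≤ _ := by gcongr; norm_num
  have a5 : ‖D.P z.1.1.1 - (2 : ℂ) • D.Λ.R (D.p z)‖ ≤ 300 * c ^ 3 * S := by
    have e : D.P z.1.1.1 - (2 : ℂ) • D.Λ.R (D.p z) = (2 : ℂ) •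
        (fderiv ℂ D.Λ.R (D.β0, 0) (0, z.1.1.1 - D.h z) - D.Λ.R (D.β0, 0) -
          (D.Λ.R (D.β z.2.1, D.h z) - D.Λ.R (D.β z.2.1, 0) -
            fderiv ℂ D.Λ.R (D.β0, 0) (0, D.h z))) := by
      have : ((0, z.1.1.1 - D.h z) : MC T v 8 × MC T v 8) = (0, z.1.1.1) - (0, D.h z) := by simp
      rw [this, map_sub, hc]
      simp only [P, p, smul_apply, ContinuousLinearMap.comp_apply,
        ContinuousLinearMap.inr_apply, ← smul_sub]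
      congr 1
      abel
    rw [e, norm_smul]
    have b := (norm_sub_le _ _).trans (add_le_add ((norm_sub_le _ _).trans (add_le_add a4 a1)) a3)
    have : 0 ≤ c ^ 3 * S := by positivity
    simp only [Complex.norm_ofNat]
    nlinarith
  have a6 : ‖∑ j, z.1.2 j • (D.Λ.Ps (D.p z) (D.ψh j) - D.Ψ j)‖ ≤ 8 * c ^ 3 * S := by
    have b1 : ‖D.Λ.Ps (D.p z) - D.Λ.Ps (D.β0, 0)‖ ≤ c * (2 * c * η + 8 * c * ‖z‖) := by
      have := norm_sub_le_norm_sub_add_norm_sub (D.Λ.Ps (D.p z)) (D.Λ.Ps 0) (D.Λ.Ps (D.β0, 0))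
      rw [norm_sub_rev (D.Λ.Ps 0)] at this
      have b2 := (h.lipP _ hp').trans (mul_le_mul_of_nonneg_left (h.np hz) (by linarith))
      have b3 := (h.lipP _ h0).trans (mul_le_mul_of_nonneg_left n0 (by linarith))
      linarith
    refine (norm_sum_le_of_le _ (n := fun j => ‖z‖ * (c * (2 * c * η + 8 * c * ‖z‖)) * ‖D.ψh j‖)
      fun j _ => ?_).trans ?_
    · rw [norm_smul, mul_assoc]
      gcongr
      · exact (norm_le_pi_norm _ j).trans (nμ z)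
      · exact (D.Λ.Ps (D.p z) - D.Λ.Ps (D.β0, 0)).le_of_opNorm_le b1 _
    · rw [← Finset.mul_sum]
      have b4 : ‖z‖ * (2 * η + 8 * ‖z‖) ≤ 8 * S := by nlinarith
      calc _ ≤ ‖z‖ * (c * (2 * c * η + 8 * c * ‖z‖)) * c := by gcongr; exact h.ψ
        _ = c ^ 3 * (‖z‖ * (2 * η + 8 * ‖z‖)) := by ring
        _ ≤ c ^ 3 * (8 * S) := by gcongr
        _ = _ := by ring
  have a7 := (mulC D.ρ).le_of_opNorm_le_of_le ((norm_mulC _).trans h.ρ) a5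
  have a8 : c ^ 3 * S ≤ c ^ 4 * S := by gcongr; norm_num
  have : 0 ≤ c ^ 3 * S := by positivity
  refine (norm_add_le _ _).trans ?_
  nlinarith

variable (D)

/-- the source as a function of `(W, b)` -/
def src' (μ : κ → ℂ) (a : ∀ u, SC T u) (q : MC T v 8 × MC T v 8) : MC T v 6 :=
  mulC D.ρ (D.P q.1 - (2 : ℂ) • D.Λ.R (D.β a, q.2 + q.1 - cstC D.χ (cAc (a v).1))) +
    ∑ j, μ j • (D.Λ.Ps (D.β a, q.2 + q.1 - cstC D.χ (cAc (a v).1)) (D.ψh j) - D.Ψ j)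

theorem src_smooth {z : Zc T v κ} (hz : D.p z ∈ ball 0 D.Λ.ε) {μ θ : κ → ℝ} {a : T.V → Mt}
    (h : ZR T z μ a θ) {β w : Fam T} (sβ : Sec T v β) (hb : Lf T 0 β z.2.2.1.1) (sw : Sec T v w)
    (hw : Lf T 0 w z.1.1.1) :
    ∃ F, Sec T v F ∧ Van T v T0 (29 / 10) F ∧ Lf T 2 F (D.src z) := by
  have sη := (sβ.add sw).sub (sec_cutA D.ok D.hT (h.ha v).1)
  have hr := D.realp hz h.ha sη.symm (D.lf_h (h.ha v).2 hb hw)
  set η := β + w - cutA T v T0 (a v)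
  have sA := D.sec_gbA fun u => (h.ha u).1
  have mA := sA.isMet D.ok fun i y hy => ((hr i).1 y hy).1
  have mG := (sA.add sη).isMet D.ok fun i y hy => ((hr i).1 y hy).2
  have co := D.ok.core_ok v
  have s1 : Sec T v fun s => Pop (gb T g T0 v s) (w s) :=
    let k := K.pops _ _ _ _ _ co D.met_gb sw.sec sw.symm; ⟨k.1, k.2⟩
  have s2 : Sec T v fun s => redM (gbA T g T0 a v s) ((gbA T g T0 a v + η) s) :=
    let k := (secr _ _ _ _ _ 0 co mA mG).1; ⟨k.1, k.2⟩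
  have s3 : ∀ j, Sec T v fun s => PsT (gbA T g T0 a v s) ((gbA T g T0 a v + η) s) (ψ j s) :=
    fun j => let k := (secr _ _ _ _ _ (ψ j) co mA mG).2 (D.sψ j).sec (D.sψ j).symm; ⟨k.1, k.2⟩
  have s4 : ∀ j, Sec T v fun s => PsT (gb T g T0 v s) (gb T g T0 v s) (ψ j s) :=
    fun j => let k := (secr _ _ _ _ _ (ψ j) co D.met_gb D.met_gb).2 (D.sψ j).sec (D.sψ j).symm
      ⟨k.1, k.2⟩
  have s5 := Sec.tau D.ok D.hT 1 (fun _ => rho)
    (fun _ τ hτ => by rw [rho, Cu.stp_zero' (by norm_num) (by linarith), sub_zero])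
    (fun _ => contDiff_const.sub (Cu.stp_sm _ _)) (s1.sub (s2.smul 2))
  refine ⟨_, s5.add (Sec.sum Finset.univ fun j _ => ((s3 j).sub (s4 j)).smul (μ j)),
    fun u x hx hτ => ?_, fun i => ?_⟩
  · have e : rho (tau T v u T0 x) = 0 := by
      rw [rho, Cu.stp_one' (by norm_num) (by linarith), sub_self]
    simp [e, Finset.sum_apply, PsT, D.vψ _ u x hx (by linarith), TRg, tr2]
  · rw [src, h.hμ, Pi.add_apply, Finset.sum_apply]
    exact (LfAt.mulC (D.hρ i) ((D.lf_P sw.symm hw i).sub ((hr i).2.1.smul 2))).add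
      (LfAt.sum _ fun j _ => (((hr i).2.2.2 j).sub ((D.real0 i).2.2 j)).smul (μ j))

theorem src_real {z : Zc T v κ} (hz : D.p z ∈ ball 0 D.Λ.ε) (h : z ∈ ZRs T v κ) :
    D.src z ∈ YR T v 6 T0 := by
  obtain ⟨μ, a, θ, h⟩ := h
  set S : Set (MC T v 8) := {W | ∃ w, Sec T v w ∧ Lf T 0 w W}
  have c1 : Continuous fun q : MC T v 8 × MC T v 8 =>
      ((D.β z.2.1, q.2 + q.1 - cstC D.χ (cAc (z.2.1 v).1)) : MC T v 8 × MC T v 8) := by fun_prop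
  set O := (fun q : MC T v 8 × MC T v 8 =>
    ((D.β z.2.1, q.2 + q.1 - cstC D.χ (cAc (z.2.1 v).1)) : MC T v 8 × MC T v 8)) ⁻¹' ball 0 D.Λ.ε
  have hO : IsOpen O := isOpen_ball.preimage c1
  have m : ((z.1.1.1, z.2.2.1.1) : MC T v 8 × MC T v 8) ∈ closure (O ∩ S ×ˢ S) :=
    hO.inter_closure ⟨hz, by rw [closure_prod_eq]; exact ⟨h.hW, h.hb⟩⟩
  have c2 : ContinuousAt (D.src' z.1.2 z.2.1) (z.1.1.1, z.2.2.1.1) := by
    have h1 := (D.Λ.hR.continuousOn.continuousAt (isOpen_ball.mem_nhds hz)).comp_of_eq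
      (c1.continuousAt (x := (z.1.1.1, z.2.2.1.1))) rfl
    have h2 := (D.Λ.hP.continuousOn.continuousAt (isOpen_ball.mem_nhds hz)).comp_of_eq
      (c1.continuousAt (x := (z.1.1.1, z.2.2.1.1))) rfl
    refine ((mulC D.ρ).continuous.continuousAt.comp
      ((D.P.continuous.comp continuous_fst).continuousAt.sub (h1.const_smul (2 : ℂ)))).add
      (tendsto_finsetSum _ fun j _ => ?_)
    exact ((h2.clm_apply continuousAt_const).sub continuousAt_const).const_smul (z.1.2 j)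
  have m' := mem_closure_image c2 m
  refine closure_mono ?_ m'
  rintro _ ⟨⟨W, b⟩, ⟨hq, ⟨w, sw, hw⟩, ⟨β, sβ, hb⟩⟩, rfl⟩
  have hW : W ∈ XR T v 8 0 := subset_closure ⟨w, sw, hw⟩
  have hb' : b ∈ XR T v 8 0 := subset_closure ⟨β, sβ, hb⟩
  exact D.src_smooth (z := ((⟨W, XR_sub hW⟩, z.1.2), z.2.1, ⟨b, XR_sub hb'⟩, z.2.2.2)) hq
    ⟨hW, h.hμ, h.ha, hb', h.hθ⟩ sβ hb sw hw

/-- the lift of the density at a real point -/
theorem lg_real {z : Zc T v κ} (hz : D.p z ∈ ball 0 D.Λ.ε) {μ θ : κ → ℝ} {a : T.V → Mt}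
    (h : ZR T z μ a θ) {β w : Fam T} (sβ : SecN T v 8 β) (hb : Lf T 0 β z.2.2.1.1)
    (sw : SecN T v 8 w) (hw : Lf T 0 w z.1.1.1) (i : CI T v) :
    LfS T i 2 (fgfF (gbA T g T0 a v i.1.1)
      ((gbA T g T0 a v + (β + w - cutA T v T0 (a v))) i.1.1)) (D.Λ.Lg (D.p z)) :=
  (D.realp hz h.ha ((sβ.add sw).sub ((sec_cutA D.ok D.hT (h.ha v).1).secN 8)).symm
    (D.lf_h (h.ha v).2 hb hw) i).2.2.1

end CD

end Crest.Agent.N207.CB

end
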