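import Crest.Agent.N207.CB.Ext1
import Crest.Agent.N207.CB.Reg
import Crest.Agent.N207.CB.Co1
import Crest.Agent.N207.CB.Bg0
import Crest.Agent.N207.K.Pop1
import Crest.Agent.N207.K.Grn

/-!
# Row 207, block L, core side (helper67): `ext : EXT' T`
-/

set_option autoImplicit false

open scoped ContDiff ComplexConjugate
open Metric Set Filter Topology MeasureTheory
open Crest.GeometryTopology.CoordMetric
open Crest.Agent.NLib.Ell Crest.Agent.N207.I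

noncomputable section

namespace Crest.Agent.N207.CB

/-- **leaf EXT** with the hypotheses making `Pop` and `pair` linear -/
def EXT' {M : Type*} (T : TD M) : Prop :=
  T.Ok → ∀ k : ℕ, ∃ C T1 : ℝ, 0 < C ∧ ∀ (v : T.V), (∀ k j, IsClosed (XC T v k j : Set (MC T v k))) ∧
    (∀ k j, ∀ W ∈ XC T v k j, ∃ a ∈ XR T v k j, ∃ b ∈ XR T v k j,
      W = a + Complex.I • b ∧ ‖a‖ ≤ ‖W‖ ∧ ‖b‖ ≤ ‖W‖) ∧ ∀ T0, T1 ≤ T0 →
    IsClosed (YC T v k T0 : Set (MC T v k)) ∧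
    ∀ (g : T.V → Fam T) (κ : Type) [Fintype κ] (ψ : κ → Fam T) (σ K : ℝ) (En : Fam T → Prop),
      0 ≤ K → (T.core v).IsMet (g v) → (T.core v).IsMet (gb T g T0 v) →
      (∃ T2, ∀ j, Sec T v (ψ j) ∧ Van T v T2 0 (ψ j)) → KAt T g ψ v T0 σ k K En →
      ∃ 𝒢 : (YC T v k T0 × (κ → ℂ)) →L[ℂ] (XC T v (k + 2) 0 × (κ → ℂ)), ‖𝒢‖ ≤ C * K ∧
        ∀ (F : YC T v k T0) (θ : κ → ℝ), F.1 ∈ YR T v k T0 →
          ((F.1, cv θ), ((𝒢 (F, cv θ)).1.1, (𝒢 (F, cv θ)).2)) ∈ closure (GR T g ψ v T0 σ k)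

namespace Cx

theorem zero_of_lc {E : Type*} [NormedAddCommGroup E] [NormedSpace ℂ E] {R : Set E} {z : E}
    (hz : z ∈ R) (h : ∀ a ∈ R, ∀ b ∈ R, ∀ t : ℝ, a + (t : ℂ) • b ∈ R) : (0 : E) ∈ R := by
  simpa using h z hz z hz (-1)

theorem pop_lc {G w w' : MetricField 4} {U : Set E4} (hG : IsRiemannianOn G U)
    (hw : SmT (matT w) U) (hs : ∀ y ∈ U, (w y).IsSymm) (hw' : SmT (matT w') U)
    (hs' : ∀ y ∈ U, (w' y).IsSymm) (t : ℝ) {y : E4} (hy : y ∈ U) :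
    Pop G (w + t • w') y = Pop G w y + t • Pop G w' y := by
  obtain ⟨B, C, -, h⟩ := K.pop G U hG
  ext a b
  have h1 := h (w + t • w') (fun I => (hw I).add (contDiffOn_const.mul (hw' I)))
    (fun z hz => (hs z hz).add ((hs' z hz).smul t)) ![a, b] y hy
  have h2 := K.opc_lc hG.isOpen (fun y => (G y)⁻¹) B C hw hw' 1 t ![a, b] hy
  rw [← h w hw hs _ y hy, ← h w' hw' hs' _ y hy] at h2
  simp only [one_mul] at h2
  exact h1.trans h2

variable {M : Type*} {T : TD M} {v : T.V} {k j : ℕ} {T0 σ : ℝ}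

/-- the conjugation of `MC` -/
def cjM (W : MC T v k) : MC T v k := fun a b => cjC (W a b)

theorem cj_M : Cj (cjM : MC T v k → MC T v k) := cj_cel.pi.pi

theorem lf_fix {w : Fam T} {W : MC T v k} (h : Lf T j w W) : cjM W = W := by
  funext a b
  exact Cel.ext fun i y hy => by rw [cjM, val_cjC _ i hy, h i a b y hy, Complex.conj_ofReal]

theorem lf_lc {w w' : Fam T} {W W' : MC T v k} (h : Lf T j w W) (h' : Lf T j w' W') (t : ℝ) :
    Lf T j (w + t • w') (W + (t : ℂ) • W') := fun i => (h i).add ((h' i).smul t)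

theorem van_lc {c : ℝ} {w w' : Fam T} (h : Van T v T0 c w) (h' : Van T v T0 c w') (t : ℝ) :
    Van T v T0 c (w + t • w') := fun u x hx ht => by simp [h u x hx ht, h' u x hx ht]

theorem rl_XR : RL (XR T v k j) := RL.closure ⟨⟨0, Sec.zero, fun _ => LfAt.zero⟩, by
  rintro _ ⟨w, h1, h2⟩ _ ⟨w', h1', h2'⟩ t
  exact ⟨_, h1.add (h1'.smul t), lf_lc h2 h2' t⟩⟩

theorem rl_YR : RL (YR T v k T0) :=
  RL.closure ⟨⟨0, Sec.zero, fun _ _ _ _ => rfl, fun _ => LfAt.zero⟩, by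
    rintro _ ⟨w, h1, h3, h2⟩ _ ⟨w', h1', h3', h2'⟩ t
    exact ⟨_, h1.add (h1'.smul t), van_lc h3 h3' t, lf_lc h2 h2' t⟩⟩

theorem fix_XR : ∀ W ∈ XR T v k j, cjM W = W := cj_M.fix_closure fun _ ⟨_, _, h⟩ => lf_fix h

theorem fix_YR : ∀ W ∈ YR T v k T0, cjM W = W := cj_M.fix_closure fun _ ⟨_, _, _, h⟩ => lf_fix h

theorem mem_XC {W : MC T v k} : W ∈ XC T v k j ↔ re cjM W ∈ XR T v k j ∧ im cjM W ∈ XR T v k j :=
  cj_M.mem_span rl_XR fix_XR

theorem mem_YC {W : MC T v k} :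
    W ∈ YC T v k T0 ↔ re cjM W ∈ YR T v k T0 ∧ im cjM W ∈ YR T v k T0 :=
  cj_M.mem_span rl_YR fix_YR

theorem closed_XC : IsClosed (XC T v k j : Set (MC T v k)) :=
  cj_M.closed_span rl_XR fix_XR isClosed_closure

theorem closed_YC : IsClosed (YC T v k T0 : Set (MC T v k)) :=
  cj_M.closed_span rl_YR fix_YR isClosed_closure

/-- a real element of `XC` is in `XR` -/
theorem XR_of_fix {W : MC T v k} (h : W ∈ XC T v k j) (e : cjM W = W) : W ∈ XR T v k j :=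
  re_fix e ▸ (mem_XC.1 h).1

theorem YR_of_fix {W : MC T v k} (h : W ∈ YC T v k T0) (e : cjM W = W) : W ∈ YR T v k T0 :=
  re_fix e ▸ (mem_YC.1 h).1

theorem grw_lc {w w' : Fam T} (h : Grw T v σ w) (h' : Grw T v σ w') (t : ℝ) :
    Grw T v σ (w + t • w') := by
  obtain ⟨C, h⟩ := h
  obtain ⟨C', h'⟩ := h'
  refine ⟨C + |t| * C', fun u x hx a b => (abs_add_le _ _).trans ?_⟩
  rw [add_mul, mul_assoc]
  refine add_le_add (h u x hx a b) ?_
  simp only [Pi.smul_apply, Matrix.smul_apply, smul_eq_mul, abs_mul]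
  exact mul_le_mul_of_nonneg_left (h' u x hx a b) (abs_nonneg t)

theorem zero_of_lf (h : T.Ok) {w : Fam T} (hw : (T.core v).Compat fun s => matT (w s))
    (h0 : Lf T j w (0 : MC T v k)) {s : T.S} {x : E4} (hx : x ∈ (T.core v).U s) : w s x = 0 := by
  obtain ⟨a, F, t, hF⟩ := Cu.cover (h.core_ok v) (h.core_pou v) hx
  have h1 : w a (F x) = 0 := by
    simpa [cpt_zero] using (h0 ⟨(a, F x), hF⟩).eq LfAt.zero zero_B1
  ext p q
  have := congrFun (hw s a x F t) ![p, q]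
  simpa [pullT, evT, matT, h1] using this

theorem norm_cv {κ : Type} [Fintype κ] (θ : κ → ℝ) : ‖cv θ‖ = ‖θ‖ := by
  simp only [Pi.norm_def, cv, Complex.nnnorm_real]

theorem exists_zt (k : ℕ) : ∃ C, 0 ≤ C ∧ ∀ (v : T.V) (T0 : ℝ) (s : T.S), ∀ x ∈ T.cK v s,
    CKA (1 / 2) B1 k C fun y => zt T v T0 s (x + rad T s x • y) := by
  obtain ⟨C, h0, hC⟩ := Cu.exists_cka_stp (T := T) (show (4 : ℝ) < 9 / 2 by norm_num) k
  refine ⟨‖(1 : ℝ)‖ + C, by positivity, fun v T0 s x hx => ?_⟩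
  rcases s with a | u
  · exact (CKA.const 1).mono (le_add_of_nonneg_right h0)
  · exact (CKA.const 1).sub isOpen_ball (hC v u T0 x (Cu.cK_pos hx))

theorem zt_far {s : T.S} {x y : E4} (hx : x ∈ T.cK v s) (hR : (s, x) ∉ Reg T v T0 5)
    (hy : y ∈ B1) : zt T v T0 s (x + rad T s x • y) = 0 := by
  simp only [Reg, mem_ofPred_eq, not_forall, not_le] at hR
  obtain ⟨u, rfl, hu⟩ := hR
  have := (abs_le.1 (Cu.tau_cell_le (T := T) (v := v) u T0 (Cu.cK_pos hx) hy)).1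
  exact sub_eq_zero.2 (Cu.stp_one' (by norm_num) (by
    change _ ≤ tau T v u T0 (x + (‖x‖ / 8) • y); linarith)).symm

theorem sec_zt (h : T.Ok) (hT : Real.log (4 / T.r) ≤ T0) {w : Fam T} (hw : Sec T v w) :
    Sec T v fun s x => zt T v T0 s x • w s x :=
  Sec.tau h hT 1 (fun _ τ => 1 - stp 4 (9 / 2) τ)
    (fun _ τ hτ => by rw [Cu.stp_zero' (by norm_num) (by linarith), sub_zero])
    (fun _ => contDiff_const.sub (Cu.stp_sm _ _)) hw

variable {κ : Type} [Fintype κ] {g : T.V → Fam T} {ψ : κ → Fam T} {K : ℝ} {En : Fam T → Prop}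

variable (T g ψ v T0 σ k En) in
/-- the graph in the class of uniqueness -/
def Gm : Set ((MC T v k × (κ → ℂ)) × (XC T v (k + 2) 0 × (κ → ℂ))) :=
  {z | ∃ (F w : Fam T) (θ μ : κ → ℝ), En w ∧ Sec T v F ∧ Van T v T0 (29 / 10) F ∧ Sec T v w ∧
    Grw T v σ w ∧ (∀ s, ∀ x ∈ (T.core v).U s,
      Pop (gb T g T0 v s) (w s) x = F s x + ∑ j, μ j • TRg (g v s x) (ψ j s x)) ∧
    (∀ j, pair T g v (ψ j) w = θ j) ∧ Lf T 2 F z.1.1 ∧ z.1.2 = cv θ ∧
    Lf T 0 (fun s x => zt T v T0 s x • w s x) z.2.1.1 ∧ z.2.2 = cv μ}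

theorem gm_ex (h : T.Ok) (hT : Real.log (4 / T.r) ≤ T0) (hK : 0 ≤ K)
    (hA : KAt T g ψ v T0 σ k K En) {C : ℝ} (h0 : 0 ≤ C) (hC : ∀ s : T.S, ∀ x ∈ T.cK v s,
      CKA (1 / 2) B1 (k + 2) C fun y => zt T v T0 s (x + rad T s x • y))
    {F : Fam T} {W : MC T v k} (hF : Sec T v F) (hv : Van T v T0 (29 / 10) F) (hW : Lf T 2 F W)
    (θ : κ → ℝ) : ∃ z, ((W, cv θ), z) ∈ Gm T v k T0 σ g ψ En ∧
      ‖z‖ ≤ (2 ^ (k + 3) * (2 ^ (k + 3) * C) + 1) * K * ‖(W, cv θ)‖ := by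
  have hN : 0 ≤ K * ‖(W, cv θ)‖ := by positivity
  obtain ⟨w, μ, h1, h2, h3, h4, h5, h6, h7⟩ := hA.ex F θ ‖(W, cv θ)‖ hF
    (fun u x hx ht => hv u x hx (by linarith))
    (fun s x hx _ a b => (RpA.cka (hW ⟨(s, x), hx⟩ a b)).mono (((norm_le_pi_norm (W a) b).trans
      (norm_le_pi_norm W a)).trans (norm_fst_le (W, cv θ))))
    ((norm_cv θ).ge.trans (norm_snd_le (W, cv θ)))
  obtain ⟨W', h8, h9⟩ := lift_of_cka (k := k + 2) (j := 0)
    (w := fun s x => zt T v T0 s x • w s x) (N := 2 ^ (k + 3) * (C * (K * ‖(W, cv θ)‖)))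
    (by positivity) fun i a b => by
      by_cases hR : i.1 ∈ Reg T v T0 5
      · refine ((hC _ _ i.2).mul isOpen_ball (h6 _ _ i.2 hR a b)).congr isOpen_ball fun y _ => ?_
        simp [cpt]
      · refine (CKA.zero.mono (by positivity)).congr isOpen_ball fun y hy => ?_
        simp [cpt, zt_far i.2 hR hy]
  refine ⟨(⟨W', Submodule.subset_span (subset_closure ⟨_, sec_zt h hT h1, h8⟩)⟩, cv μ),
    ⟨F, w, θ, μ, h2, hF, hv, h1, h3, h4, h5, hW, rfl, h8, rfl⟩, max_le ?_ ?_⟩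
  · refine h9.trans ?_
    rw [add_mul, add_mul, one_mul]
    exact (le_of_eq (by ring)).trans (le_add_of_nonneg_right hN)
  · rw [norm_cv, add_mul, add_mul, one_mul]
    exact h7.trans (le_add_of_nonneg_left (by positivity))

theorem gm_lc (h : T.Ok) (hg : (T.core v).IsMet (g v)) (hb : (T.core v).IsMet (gb T g T0 v))
    {T2 : ℝ} (hψ : ∀ j, Sec T v (ψ j) ∧ Van T v T2 0 (ψ j)) (hA : KAt T g ψ v T0 σ k K En) :
    ∀ a ∈ Gm T v k T0 σ g ψ En, ∀ b ∈ Gm T v k T0 σ g ψ En, ∀ t : ℝ,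
      a + (t : ℂ) • b ∈ Gm T v k T0 σ g ψ En := by
  rintro a ⟨F, w, θ, μ, h1, h2, h3, h4, h5, h6, h7, h8, h9, h10, h11⟩ b
    ⟨F', w', θ', μ', k1, k2, k3, k4, k5, k6, k7, k8, k9, k10, k11⟩ t
  refine ⟨F + t • F', w + t • w', θ + t • θ', μ + t • μ', hA.add _ _ h1 (hA.smul t _ k1),
    h2.add (k2.smul t), van_lc h3 k3 t, h4.add (k4.smul t), grw_lc h5 k5 t, fun s x hx => ?_,
    fun j => ?_, lf_lc h8 k8 t, ?_, (lf_lc h10 k10 t).congr fun s x _ => ?_, ?_⟩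
  · rw [show (w + t • w') s = w s + t • w' s from rfl, pop_lc (hb.riem s) (h4.sec.sm s) (h4.symm s)
      (k4.sec.sm s) (k4.symm s) t hx, h6 s x hx, k6 s x hx]
    simp only [Pi.add_apply, Pi.smul_apply, smul_eq_mul, add_smul, mul_smul, Finset.sum_add_distrib,
      smul_add, Finset.smul_sum]
    abel
  · rw [Cu.pair_add h hg (hψ j).1 (hψ j).2 (h4.secN 0) ((k4.smul t).secN 0), Cu.pair_smul, h7, k7]
    rfl
  · funext j; simp [h9, k9, cv]
  · simp [smul_add, smul_comm t]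
  · funext j; simp [h11, k11, cv]

theorem gm_zero (h : T.Ok) (hA : KAt T g ψ v T0 σ k K En) {z : XC T v (k + 2) 0 × (κ → ℂ)}
    (hz : (0, z) ∈ Gm T v k T0 σ g ψ En) : z = 0 := by
  obtain ⟨F, w, θ, μ, h1, h2, -, h4, -, h6, h7, h8, h9, h10, h11⟩ := hz
  obtain ⟨e1, rfl⟩ := hA.uniq w μ h4 h1
    (fun s x hx => by rw [h6 s x hx, zero_of_lf h h2.sec.compat h8 hx, zero_add])
    fun j => (h7 j).trans (Complex.ofReal_eq_zero.1 (congrFun h9 j).symm)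
  refine Prod.ext (Subtype.ext (h10.uniq (Lf.congr (w := 0) (fun _ => LfAt.zero)
    fun s x hx => by simp [e1 s x hx]))) (h11.trans (funext fun j => by simp [cv]))

end Cx

open Cx in
/-- **EXT** -/
theorem ext {M : Type*} {T : TD M} : EXT' T := by
  intro h k
  obtain ⟨C, h0, hC⟩ := exists_zt (T := T) (k + 2)
  refine ⟨2 * (2 ^ (k + 3) * (2 ^ (k + 3) * C) + 1), Real.log (4 / T.r), by positivity,
    fun v => ⟨fun _ _ => closed_XC, fun k j W hW => ⟨_, (mem_XC.1 hW).1, _, (mem_XC.1 hW).2,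
      re_add_im _ W, cj_M.re_le W, cj_M.im_le W⟩, fun T0 hT => ⟨closed_YC, ?_⟩⟩⟩
  rintro g κ _ ψ σ K En hK hg hb ⟨T2, hψ⟩ hA
  have : CompleteSpace (XC T v (k + 2) 0) := closed_XC.completeSpace_coe
  have h1 := fun F W => gm_ex (F := F) (W := W) h hT hK hA h0 (hC v T0)
  have h2 := gm_lc h hg hb hψ hA
  have h3 : RL (Gm T v k T0 σ g ψ En) := ⟨by
    obtain ⟨z, hz, -⟩ := h1 0 0 Sec.zero (fun _ _ _ _ => rfl) (fun _ => LfAt.zero) 0
    exact zero_of_lc hz h2, h2⟩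
  have h4 : ∀ W ∈ YR T v k T0, ∀ θ, (W, cv θ) ∈ closure (Prod.fst '' Gm T v k T0 σ g ψ En) :=
    fun W hW θ => map_mem_closure (f := fun W => (W, cv θ)) (by fun_prop) hW fun W ⟨F, a, b, c⟩ =>
      let ⟨_, hz, _⟩ := h1 F W a b c θ; ⟨_, hz, rfl⟩
  obtain ⟨𝒢, h5, h6⟩ := exists_clm (cj_M.prod cj_conj.pi) h3
    (K := (2 ^ (k + 3) * (2 ^ (k + 3) * C) + 1) * K) (by positivity) (fun z hz => by
      obtain ⟨F, w, θ, μ, -, a, b, -, -, -, -, c, d, -⟩ := id hz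
      obtain ⟨z', hz', e⟩ := h1 F _ a b c θ
      rw [← d] at hz' e
      have := gm_zero h hA (z := z.2 - z') (by
        have := h3.sub hz hz'
        rwa [show z - (z.1, z') = (0, z.2 - z') from Prod.ext (sub_self _) rfl] at this)
      rwa [sub_eq_zero.1 this])
    ((YC T v k T0).subtype.prodMap LinearMap.id) (fun _ => le_rfl) fun x => by
      have e1 := h4 _ (mem_YC.1 x.1.2).1 fun j => (x.2 j).re
      have e2 := h4 _ (mem_YC.1 x.1.2).2 fun j => (x.2 j).im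
      have a1 : re (Prod.map cjM fun (x : κ → ℂ) i => conj (x i)) (x.1.1, x.2) =
          (re cjM x.1.1, cv fun j => (x.2 j).re) := Prod.ext rfl (funext fun j => by
        apply Complex.ext <;> simp [cv, re]; ring)
      have a2 : im (Prod.map cjM fun (x : κ → ℂ) i => conj (x i)) (x.1.1, x.2) =
          (im cjM x.1.1, cv fun j => (x.2 j).im) := Prod.ext rfl (funext fun j => by
        apply Complex.ext <;> simp [cv, im]; ring)
      exact ⟨a1 ▸ e1, a2 ▸ e2⟩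
  refine ⟨𝒢, h5.trans_eq (by ring), fun F θ hF => ?_⟩
  refine map_mem_closure (f := fun z : (MC T v k × (κ → ℂ)) × (XC T v (k + 2) 0 × (κ → ℂ)) =>
    (z.1, (z.2.1.1, z.2.2))) (by fun_prop) (h6 (F, cv θ)
      (Prod.ext (fix_YR _ hF) (funext fun j => Complex.conj_ofReal _))) ?_
  rintro z ⟨F, w, θ, μ, -, h⟩
  exact ⟨F, w, θ, μ, h⟩

end Crest.Agent.N207.CB

end
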