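import Crest.Agent.N207.CB.Fixm1

/-!
# Row 207, block L (helper62): leaf `FIXM`, the meaning of a real fixed point
-/

set_option autoImplicit false

open scoped ContDiff
open Metric Set Filter Topology MeasureTheory
open Crest.GeometryTopology.CoordMetric
open Crest.Agent.NLib.Ell Crest.Agent.N207.I Crest.Agent.N207.Lg Crest.Agent.N207.J

noncomputable section

namespace Crest.Agent.N207.CB

namespace Fx

variable {M : Type*} {T : TD M} {g : T.V → Fam T} {κ : Type} [Fintype κ] {ψ : κ → Fam T}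
  {v : T.V} {T0 : ℝ}

/-- the hypotheses of `FIXM` -/
structure Hy (D : CD T g ψ v T0) (z : Zc T v κ) (μ : κ → ℝ) (a : T.V → Mt) (θ : κ → ℝ)
    (β w : Fam T) : Prop where
  hz : D.p z ∈ ball 0 D.Λ.ε
  zr : ZR T z μ a θ
  sβ : Sec T v β
  lβ : Lf T 0 β z.2.2.1.1
  vβ : ∀ s, ∀ x ∈ UR T v T0 (22 / 10) s, β s x = 0
  sw : SecN T v 8 w
  lw : Lf T 0 w z.1.1.1
  eq : ∀ (i : CI T v), ∀ y ∈ B1, (∀ u, i.1.1 = Sum.inr u → tau T v u T0 (cpt T i y) < 4) → ∀ p q,
    (D.P z.1.1.1 p q).val i y = (D.src z p q).val i y + ∑ j, μ j * (D.Ψ j p q).val i y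

/-- the metric -/
abbrev GG (g : T.V → Fam T) (T0 : ℝ) (a : T.V → Mt) (v : T.V) (β w : Fam T) : Fam T :=
  gbA T g T0 a v + (β + w - cutA T v T0 (a v))

variable {D : CD T g ψ v T0} {z : Zc T v κ} {μ : κ → ℝ} {a : T.V → Mt} {θ : κ → ℝ} {β w : Fam T}
  (h : Hy D z μ a θ β w)
include h

theorem Hy.sη : SecN T v 8 (β + w - cutA T v T0 (a v)) :=
  ((h.sβ.secN 8).add h.sw).sub ((sec_cutA D.ok D.hT (h.zr.ha v).1).secN 8)

theorem Hy.lη : Lf T 0 (β + w - cutA T v T0 (a v)) (D.h z) := D.lf_h (h.zr.ha v).2 h.lβ h.lw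

theorem Hy.sH : Sec T v (gbA T g T0 a v) := D.sec_gbA fun u => (h.zr.ha u).1

theorem Hy.sG : SecN T v 8 (GG g T0 a v β w) := (h.sH.secN 8).add h.sη

theorem Hy.mH : (T.core v).IsMet (gbA T g T0 a v) :=
  h.sH.isMet D.ok fun i y hy => ((D.realp h.hz h.zr.ha h.sη.symm h.lη i).1 y hy).1

/-- the equation on the cells -/
theorem Hy.cell (i : CI T v) {y : E4} (hy : y ∈ B1) {s : T.S} {x : E4} (hs : i.1.1 = s)
    (hx : cpt T i y = x) (hτ : ∀ u, s = Sum.inr u → tau T v u T0 x < 4) :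
    (1 - cutF T v T0 1 rho s x) • Pop (gb T g T0 v s) (w s) x +
      (2 * cutF T v T0 1 rho s x) • redM (gbA T g T0 a v s) (GG g T0 a v β w s) x =
      ∑ j, μ j • PsT (gbA T g T0 a v s) (GG g T0 a v β w s) (ψ j s) x := by
  subst hs hx
  obtain ⟨-, hR, -, hP⟩ := D.realp h.hz h.zr.ha h.sη.symm h.lη i
  have h1 := D.lf_P h.sw.symm h.lw i
  have h2 := (LfAt.mulC (D.hρ i) (h1.sub (hR.smul 2))).add
    (LfAt.sum Finset.univ fun j _ => ((hP j).sub (D.lf_Ψ j i)).smul (μ j))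
  ext p q
  have e := h.eq i y hy hτ p q
  rw [CD.src, h.zr.hμ] at e
  replace e := e.trans (congrArg (· + _) (h2 p q y hy))
  rw [h1 p q y hy] at e
  simp only [fun j => D.lf_Ψ j i p q y hy] at e
  norm_cast at e
  apply mul_left_cancel₀ (pow_pos (rad_pos i) 2).ne'
  simp only [Pi.add_apply, Pi.sub_apply, Pi.smul_apply, Finset.sum_apply, Matrix.add_apply,
    Matrix.sub_apply, Matrix.smul_apply, Matrix.sum_apply, smul_eq_mul, mul_sub,
    Finset.sum_sub_distrib, mul_left_comm (μ _), ← Finset.mul_sum] at e ⊢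
  linear_combination e

theorem Hy.cell1 (i : CI T v) {x : E4}
    (hx : x ∈ ball i.1.2 (rad T i.1.1 i.1.2) ∩ UR T v T0 (26 / 10) i.1.1) :
    redM (gbA T g T0 a v i.1.1) (GG g T0 a v β w i.1.1) x =
      ∑ j, (μ j / 2) • PsT (gbA T g T0 a v i.1.1) (GG g T0 a v β w i.1.1) (ψ j i.1.1) x := by
  obtain ⟨y, hy, rfl⟩ := exists_cpt i hx.1
  have e := h.cell i hy rfl rfl fun u e => (hx.2.2 u e).trans (by norm_num)
  have e1 : cutF T v T0 1 rho i.1.1 (cpt T i y) = 1 := by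
    have := hx.2.2
    generalize cpt T i y = x, i.1.1 = s at this ⊢
    rcases s with s | s
    · rfl
    · simp [cutF, rho, Cu.stp_zero' (by norm_num : (26 / 10 : ℝ) < 28 / 10) (this s rfl).le]
  rw [e1, sub_self, zero_smul, zero_add, mul_one] at e
  refine (inv_smul_smul₀ (two_ne_zero' ℝ) _).symm.trans ?_
  rw [e, Finset.smul_sum]
  exact Finset.sum_congr rfl fun j _ => by rw [smul_smul, div_eq_inv_mul]

theorem Hy.riem (i : CI T v) : IsRiemannianOn (GG g T0 a v β w i.1.1)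
    (ball i.1.2 (rad T i.1.1 i.1.2) ∩ UR T v T0 (26 / 10) i.1.1) := by
  have ho := (isOpen_ball (x := i.1.2) (ε := rad T i.1.1 i.1.2)).inter
    (UR_open (v := v) D.ok T0 (26 / 10) i.1.1)
  have hp : ∀ x ∈ ball i.1.2 (rad T i.1.1 i.1.2) ∩ UR T v T0 (26 / 10) i.1.1,
      (GG g T0 a v β w i.1.1 x).PosDef := fun x hx => by
    obtain ⟨y, hy, rfl⟩ := exists_cpt i hx.1
    exact ((D.realp h.hz h.zr.ha h.sη.symm h.lη i).1 y hy).2
  have hU : ball i.1.2 (rad T i.1.1 i.1.2) ∩ UR T v T0 (26 / 10) i.1.1 ⊆ (T.core v).U i.1.1 :=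
    fun x hx => hx.2.1
  exact ⟨ho, boot _ _ _ κ (fun j => μ j / 2) (fun j => ψ j i.1.1) ho
    ⟨ho, fun p q => ((h.mH.riem _).contDiffOn p q).mono hU,
      fun x hx => (h.mH.riem _).posDef x (hU hx)⟩
    (fun j p q => ((D.sψ j).sec.sm _ ![p, q]).mono hU)
    (fun p q => ((h.sG.sm _ p q).of_le (by norm_num)).mono hU) hp fun x hx => h.cell1 i hx, hp⟩

omit h in
theorem cov (D : CD T g ψ v T0) {s : T.S} {x : E4} (hx : x ∈ UR T v T0 2 s) :
    ∃ (i : CI T v) (F : E4 → E4), (Ga.res (T.core v) (UR T v T0 2)).Tr s i.1.1 x F ∧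
      F x ∈ ball i.1.2 (rad T i.1.1 i.1.2) ∩ UR T v T0 (26 / 10) i.1.1 := by
  obtain ⟨b, F, t, hF⟩ := Ga.pou_cover (D.ok.core_ok v) (D.ok.core_pou v) hx.1
  have := tr_UR D.ok D.hT (by norm_num) t hx
  exact ⟨⟨(b, F x), hF⟩, F, Ga.tr_res t hx this, mem_ball_self (Cu.rad_pos' hF),
    UR_mono (by norm_num) _ this⟩

theorem Hy.mG : (Ga.res (T.core v) (UR T v T0 2)).IsMet (GG g T0 a v β w) :=
  isMet_of_loc (UR_ok D.ok T0 2) (Ga.res_compat (fun _ _ hx => hx.1) h.sG.compat) fun s x hx => by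
    obtain ⟨i, F, t, hF⟩ := cov D hx
    exact ⟨_, F, _, t, hF, h.riem i⟩

theorem Hy.eq2 {s : T.S} {x : E4} (hx : x ∈ UR T v T0 2 s) :
    redM (gbA T g T0 a v s) (GG g T0 a v β w s) x =
      ∑ j, (μ j / 2) • PsT (gbA T g T0 a v s) (GG g T0 a v β w s) (ψ j s) x := by
  have hU : ∀ s, UR T v T0 2 s ⊆ (T.core v).U s := fun _ _ hx => hx.1
  have hH : (Ga.res (T.core v) (UR T v T0 2)).IsMet (gbA T g T0 a v) :=
    ⟨fun s => ⟨UR_open D.ok T0 2 s, fun p q => ((h.mH.riem s).contDiffOn p q).mono (hU s),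
      fun x hx => (h.mH.riem s).posDef x (hU s hx)⟩, Ga.res_compat hU h.mH.compat⟩
  have hS := fun j => secr _ _ _ _ _ j (UR_ok D.ok T0 2) hH h.mG
  have hc := (hS 0).1.1.compat.sub (Atl.Compat.sum Finset.univ fun j _ =>
    ((hS (ψ j)).2 (Ga.res_sec hU (D.sψ j).sec)
      fun s x hx => (D.sψ j).symm s x (hU s hx)).1.compat.smul (μ j / 2))
  obtain ⟨i, F, t, hF⟩ := cov D hx
  have e := hc.eq_zero (UR_ok D.ok T0 2) t.mem t.mem' t.eq0.symm (by
    funext I
    simp only [matT, h.cell1 i hF, Finset.sum_apply, Matrix.sum_apply, Pi.sub_apply,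
      Pi.smul_apply, Matrix.smul_apply, sub_self, Pi.zero_apply])
  ext p q
  simpa [matT, Finset.sum_apply, Matrix.sum_apply, sub_eq_zero] using congrFun e ![p, q]

theorem Hy.con (j : κ) : pair T g v (ψ j) (GG g T0 a v β w - gbA T g T0 a v) = pair T g v (ψ j) w := by
  refine Finset.sum_congr rfl fun s _ =>
    setIntegral_congr_fun ((D.ok.core_ok v).isOpen s).measurableSet fun x hx => ?_
  by_cases e : ψ j s x = 0
  · simp [ip, ipA, matT, e]
  have h1 : ∀ u, s = Sum.inr u → tau T v u T0 x < 0 := by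
    rintro u rfl
    exact lt_of_not_ge fun h2 => e (D.vψ j u x hx h2)
  have h2 : cutA T v T0 (a v) s x = 0 := by
    unfold cutA onE
    split_ifs with e
    · simp only [Cu.stp_zero' (by norm_num : (17 / 20 : ℝ) < 19 / 20)
        (show tau T v v T0 x ≤ _ by linarith [h1 v e]), zero_smul]
    · rfl
  have h3 : (GG g T0 a v β w - gbA T g T0 a v) s x = w s x := by
    simp [h2, h.vβ s x ⟨hx, fun u e => by linarith [h1 u e]⟩]
  have h4 : matT ((GG g T0 a v β w - gbA T g T0 a v) s) x = matT (w s) x := by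
    funext I; simp only [matT, h3]
  simp only [ip, h4]

theorem Hy.small (i : CI T v) {y : E4} (hy : y ∈ ball i.1.2 (rad T i.1.1 i.1.2))
    {k : ℕ} (hk : k ≤ 2) (p q : Fin 4) : scl T i.1.1 i.1.2 ^ k *
      ‖iteratedFDeriv ℝ k (fun y => (GG g T0 a v β w i.1.1 y - gb T g T0 v i.1.1 y) p q) y‖ ≤
        1024 * ‖D.β z.2.1 - D.β0 + D.h z‖ := by
  have h1 : LfAt T i 0 (fun y => GG g T0 a v β w i.1.1 y - gb T g T0 v i.1.1 y)
      (D.β z.2.1 - D.β0 + D.h z) :=
    (((D.lf_β (fun u => (h.zr.ha u).2) i).sub (D.hβ0 i)).add (h.lη i)).congr fun y _ => by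
      simp only [Pi.add_apply, Pi.sub_apply, sub_sub_sub_cancel_right, add_sub_right_comm]
  exact lf_small h1 hk (by norm_num) hy p q

theorem Hy.H_far {u : T.V} {x : E4} (hx : x ≠ 0) (hτ : 19 / 20 < tau T v u T0 x) :
    gbA T g T0 a v (Sum.inr u) x = 1 + cA (a u) := by
  simp only [gbA, Sum.elim_inr]
  rw [CD.gb_of_ge (by linarith), D.hsq u _ (h.zr.ha u).1.symm x hx (by linarith), cA_eq]
  abel

theorem Hy.G_far {u : T.V} {x : E4} (hx : x ≠ 0) (hτ : 19 / 20 < tau T v u T0 x) :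
    GG g T0 a v β w (Sum.inr u) x =
      1 + β (Sum.inr u) x + (w (Sum.inr u) x + if u = v then 0 else cA (a u)) := by
  simp only [Pi.add_apply, Pi.sub_apply, h.H_far hx hτ, cutA, onE, Sum.inr.injEq]
  split_ifs with e
  · subst e
    simp only [Cu.stp_one' (by norm_num : (17 / 20 : ℝ) < 19 / 20) hτ.le, one_smul]
    abel
  · simp only [Pi.zero_apply]; abel

/-- the collar equation in the unit scale -/
theorem Hy.col {u : T.V} (hu : u = v ∨ T.kid v u) {x : E4} (hx : x ≠ 0)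
    (h1 : 1 < sgn T v u * Real.log ‖x‖) (h3 : sgn T v u * Real.log ‖x‖ < 3) :
    (1 - rho (sgn T v u * Real.log ‖x‖)) •
        Pop fl1 (fun x => unit T v u T0 w x + if u = v then 0 else cA (a u)) x +
      (2 * rho (sgn T v u * Real.log ‖x‖)) • redM fl1 (fl1 + unit T v u T0 β +
        fun x => unit T v u T0 w x + if u = v then 0 else cA (a u)) x = 0 := by
  have ht := tau_unit (T0 := T0) (v := v) u hx
  rw [← ht] at h1 h3 ⊢
  have h0 := smul_ne_zero (Real.exp_pos (sgn T v u * T0)).ne' hx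
  have hK := mem_cK D.ok D.hT hu h0 (by linarith)
  have hU := (D.ok.core_pou v).sub _ hK
  have hn := ((D.ok.core_ok v).isOpen _).mem_nhds hU
  have e := h.cell ⟨(_, _), hK⟩ zero_B1 (s := Sum.inr u) (x := Real.exp (sgn T v u * T0) • x) rfl
    (cpt_zero _) fun u' e => by cases e; linarith
  have hv := ev_tau h0 (show 19 / 20 < tau T v u T0 _ by linarith)
  simp only [cutF, Sum.elim_inr,
    fun j gb G => psT_zero (gb := gb) (G := G) (D.vψ j u _ hU (by linarith)), smul_zero, Finset.sum_const_zero] at e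
  rw [pop_congr (gb' := fl1) (hv.mono fun z hz => CD.gb_of_ge (by linarith [hz.2])) EventuallyEq.rfl,
    redM_congr (hv.mono fun z hz => h.H_far hz.1 hz.2) (hv.mono fun z hz => h.G_far hz.1 hz.2),
    redM_cst, ← pop_cst (A := if u = v then 0 else cA (a u))
      (fun p q => ((h.sw.sm _ p q).contDiffAt hn).of_le (by norm_num))
      (mem_of_superset hn (h.sw.symm _))
      (by split_ifs; exacts [Matrix.isSymm_zero, (h.zr.ha u).1.cA.symm])] at e
  have e1 := pop_dil (fun x => w (Sum.inr u) x + if u = v then 0 else cA (a u))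
    (Real.exp (sgn T v u * T0)) x
  have e2 := redM_dil (fun x => 1 + β (Sum.inr u) x +
    (w (Sum.inr u) x + if u = v then 0 else cA (a u))) (Real.exp (sgn T v u * T0)) x
  refine (congrArg₂ (· + ·) (congrArg _ e1) (congrArg _ e2)).trans ?_
  rw [smul_comm, smul_comm (2 * _), ← smul_add, e, smul_zero]

theorem Hy.colG {u : T.V} (hu : u = v ∨ T.kid v u) {x : E4} (hx : x ≠ 0)
    (h1 : 1 < sgn T v u * Real.log ‖x‖) (h2 : sgn T v u * Real.log ‖x‖ < 2) :
    GG g T0 a v β w (Sum.inr u) (Real.exp (sgn T v u * T0) • x) =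
      1 + (unit T v u T0 w x + if u = v then 0 else cA (a u)) := by
  rw [← tau_unit (T0 := T0) u hx] at h1 h2
  have h0 := smul_ne_zero (Real.exp_pos (sgn T v u * T0)).ne' hx
  have hU := (D.ok.core_pou v).sub _ (mem_cK D.ok D.hT hu h0 (by linarith))
  rw [h.G_far h0 (by linarith), h.vβ _ _ ⟨hU, fun u' e => by cases e; linarith⟩, add_zero, unit]

end Fx

open Fx in
/-- **leaf FIXM** -/
theorem fixm {M : Type*} (T : TD M) : FIXM T := by
  refine ⟨1024, by norm_num, fun g κ _ ψ v T0 D z μ a θ β w δ h1 h2 h3 h4 h5 h6 h7 h8 hc hP hQ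
    hδ hμ => ?_⟩
  have h : Hy D z μ a θ β w := ⟨h1, h2, h3, h4, h5, h6, h7, h8⟩
  have s1 : sgn T v v = 1 := if_pos rfl
  have s2 : ∀ u, T.kid v u → sgn T v u = -1 := fun u hu => if_neg (D.ok.kid_ne hu)
  refine ⟨⟨fun s => (h.mG.riem s).contDiffOn, fun s => (h.mG.riem s).posDef, h.sG.compat,
    fun s x hx => ?_, fun j => (h.con j).trans (hc j),
    fun s x hx y hy k hk p q => (h.small ⟨(s, x), hx⟩ hy hk p q).trans hδ, ?_⟩, hP, fun x hx => ?_,
    fun x hx => ?_, hQ, fun u hu x hx => ?_, fun u hu x hx => ?_⟩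
  · rw [h.eq2 hx, ← Finset.sum_neg_distrib]
    simp only [neg_smul, neg_neg]
  · refine (pi_norm_le_iff_of_nonneg ((norm_nonneg _).trans hμ)).2 fun j => ?_
    have := norm_le_pi_norm μ j
    rw [norm_neg, norm_div, Real.norm_two]
    linarith [norm_nonneg (μ j)]
  · simpa only [s1, one_mul, if_true, add_zero] using h.col (Or.inl rfl) hx.1
      (by simpa [s1] using hx.2.1) (by simpa [s1] using hx.2.2)
  · simpa only [s1, one_mul, if_true, add_zero] using h.colG (Or.inl rfl) hx.1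
      (by simpa [s1] using hx.2.1) (by simpa [s1] using hx.2.2)
  · simpa only [s2 u hu, neg_one_mul, D.ok.kid_ne hu, if_false] using h.col (Or.inr hu) hx.1
      (by rw [s2 u hu]; linarith [hx.2.2]) (by rw [s2 u hu]; linarith [hx.2.1])
  · simpa only [s2 u hu, neg_one_mul, D.ok.kid_ne hu, if_false] using h.colG (Or.inr hu) hx.1
      (by rw [s2 u hu]; linarith [hx.2.2]) (by rw [s2 u hu]; linarith [hx.2.1])

end Crest.Agent.N207.CB

end
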