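import Crest.Agent.N207.CB.St3
import Crest.Agent.N207.CB.Lf3

/-!
# Row 207, block L (helper19): the leaf `INT` (the action integral as a bounded functional)
-/

set_option autoImplicit false

open scoped ContDiff
open Metric Set Filter Topology MeasureTheory
open Crest.Agent.NLib.Ell Crest.Agent.N207.I

noncomputable section

namespace Crest.Agent.N207.CB

namespace Ig

variable {M : Type*} {T : TD M} {v : T.V} {k : ℕ} {s : T.S} {x : E4}

theorem cK_norm {y : E4} (e : ‖x‖ = ‖y‖) (hx : x ∈ T.cK v s) : y ∈ T.cK v s := by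
  rcases s with a | w
  · rw [TD.mem_cK_inl] at hx ⊢; rwa [← e]
  · by_cases hw : w = v
    · subst hw; rw [TD.mem_cK_out] at hx ⊢; rwa [← e]
    · rw [TD.mem_cK_inn hw] at hx ⊢; rwa [← e]

theorem chi_zero (h : T.Ok) (hx : x ∈ (T.core v).U s) (hK : x ∉ T.cK v s) :
    T.χ s ((T.core v).c s x) = 0 := by
  by_contra h0
  obtain ⟨y, hy, e⟩ := (h.core_pou v).supp s s x hx h0
  obtain ⟨γ, -, rfl⟩ := ((h.core_ok v).fib s y ((h.core_pou v).sub s hy) x hx).1 e
  exact hK (cK_norm (γ.norm_map y).symm hy)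

theorem chi_le (h : T.Ok) (hx : x ∈ (T.core v).U s) : T.χ s ((T.core v).c s x) ≤ 1 := by
  rw [← (h.core_pou v).sum s x hx]
  exact Finset.single_le_sum (f := fun a => T.χ a ((T.core v).c s x))
    (fun a _ => TD.χ_nonneg _ _) (Finset.mem_univ s)

theorem meas_cK (v : T.V) (s : T.S) : MeasurableSet (T.cK v s) := by
  rcases s with a | w <;> simp only [TD.cK, Sum.elim_inl, Sum.elim_inr] <;> split_ifs
  · exact measurableSet_closedBall
  · exact MeasurableSet.empty
  · exact measurableSet_le measurable_const measurable_norm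
  · exact (measurableSet_lt measurable_const measurable_norm).inter
      (measurableSet_le measurable_norm measurable_const)
  · exact MeasurableSet.empty

theorem meas_tau (v w : T.V) (T0 : ℝ) : Measurable (tau T v w T0) := by
  have h : Measurable fun x : E4 => Real.log ‖x‖ := Real.measurable_log.comp measurable_norm
  unfold tau
  split_ifs
  · exact h.sub_const _
  · exact h.neg.sub_const _

theorem meas_UR (h : T.Ok) (v : T.V) (T0 c : ℝ) (s : T.S) : MeasurableSet (UR T v T0 c s) := by
  have e : UR T v T0 c s =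
      (T.core v).U s ∩ ⋂ u, {x | s = Sum.inr u → tau T v u T0 x < c} := by
    ext x; simp [UR]
  rw [e]
  refine ((h.core_ok v).isOpen s).measurableSet.inter (MeasurableSet.iInter fun u => ?_)
  by_cases hs : s = Sum.inr u
  · simp only [hs, forall_const]
    exact measurableSet_lt (meas_tau v u T0) measurable_const
  · simp [hs]

variable (T) in
/-- the effective domain of integration -/
def D (v : T.V) (T0 c : ℝ) (s : T.S) : Set E4 := UR T v T0 c s ∩ T.cK v s

theorem meas_D (h : T.Ok) (v : T.V) (T0 c : ℝ) (s : T.S) : MeasurableSet (D T v T0 c s) :=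
  (meas_UR h v T0 c s).inter (meas_cK v s)

theorem D_bd (v : T.V) (T0 c : ℝ) (s : T.S) :
    ∃ ρ R : ℝ, 0 < ρ ∧ ∀ x ∈ D T v T0 c s, ρ ≤ rad T s x ∧ ‖x‖ ≤ R := by
  rcases s with a | w
  · exact ⟨1 / 8, 3 / 2, by norm_num, fun x hx => ⟨le_rfl, (TD.mem_cK_inl.1 hx.2).2⟩⟩
  · by_cases hw : w = v
    · subst hw
      refine ⟨3 / 16, Real.exp (c + T0), by norm_num, fun x hx => ?_⟩
      have h1 := TD.mem_cK_out.1 hx.2
      have h2 := hx.1.2 w rfl
      simp only [tau, if_true] at h2
      exact ⟨show 3 / 16 ≤ ‖x‖ / 8 by linarith,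
        ((Real.log_lt_iff_lt_exp (by linarith)).1 (by linarith)).le⟩
    · refine ⟨Real.exp (-(c + T0)) / 8, 3 / 4 * T.r, by positivity, fun x hx => ?_⟩
      obtain ⟨-, h1, h3⟩ := (TD.mem_cK_inn hw).1 hx.2
      have h2 := hx.1.2 w rfl
      simp only [tau, if_neg hw] at h2
      have := (Real.lt_log_iff_exp_lt h1).1 (show -(c + T0) < Real.log ‖x‖ by linarith)
      exact ⟨show _ ≤ ‖x‖ / 8 by linarith, h3⟩

theorem cont_rad (s : T.S) : Continuous (rad T s) := by
  rcases s with a | w
  · exact continuous_const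
  · exact continuous_norm.div_const _

variable (T) in
/-- the weight -/
def wt (v : T.V) (s : T.S) (x : E4) : ℂ := ((T.χ s ((T.core v).c s x) / rad T s x ^ 2 : ℝ) : ℂ)

theorem wt_int (h : T.Ok) (v : T.V) (T0 c : ℝ) (s : T.S) :
    IntegrableOn (wt T v s) (D T v T0 c s) := by
  obtain ⟨ρ, R, hρ, hb⟩ := D_bd v T0 c s
  have hD := meas_D h v T0 c s
  refine IntegrableOn.of_bound ((measure_mono (t := closedBall 0 R) fun x hx =>
    mem_closedBall_zero_iff.2 (hb x hx).2).trans_lt measure_closedBall_lt_top) ?_ (1 / ρ ^ 2) ?_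
  · refine ContinuousOn.aestronglyMeasurable ?_ hD
    exact Complex.continuous_ofReal.comp_continuousOn
      ((((h.core_pou v).sm s s).continuousOn.mono fun x hx => hx.1.1).div
        ((cont_rad s).pow 2).continuousOn fun x hx => (pow_pos (rad_pos1 hx.2) 2).ne')
  · filter_upwards [ae_restrict_mem hD] with x hx
    have h0 := TD.χ_nonneg s ((T.core v).c s x)
    have h1 := chi_le h hx.1.1
    have h2 := (hb x hx).1
    rw [wt, Complex.norm_real, Real.norm_of_nonneg (by positivity)]
    gcongr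

open Classical in
variable (T) in
/-- the value at the centre of a cell -/
def evc (v : T.V) (k : ℕ) (s : T.S) (x : E4) : Cel (CI T v) k →L[ℂ] ℂ :=
  if h : x ∈ T.cK v s then Cel.evL (I := CI T v) ⟨(s, x), h⟩ 0 else 0

theorem evc_in (hx : x ∈ T.cK v s) (W : Cel (CI T v) k) :
    evc T v k s x W = W.val ⟨(s, x), hx⟩ 0 := by rw [evc, dif_pos hx]; rfl

theorem evc_le (W : Cel (CI T v) k) : ‖evc T v k s x W‖ ≤ ‖W‖ := by
  by_cases hx : x ∈ T.cK v s
  · rw [evc_in hx]; exact W.norm_val_le _ _
  · rw [evc, dif_neg hx]; simp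

variable (T) in
/-- families whose central values are measurable -/
def Sub (v : T.V) (k : ℕ) (T0 c : ℝ) : Submodule ℂ (Cel (CI T v) k) where
  carrier := {W | ∀ s, AEStronglyMeasurable (fun x => evc T v k s x W)
    (volume.restrict (D T v T0 c s))}
  add_mem' ha hb s := by simp only [map_add]; exact (ha s).add (hb s)
  zero_mem' s := by simpa only [map_zero] using aestronglyMeasurable_const
  smul_mem' a W hW s := by simp only [map_smul]; exact (hW s).const_smul a

theorem sub_closed (v : T.V) (k : ℕ) (T0 c : ℝ) :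
    IsClosed (Sub T v k T0 c : Set (Cel (CI T v) k)) :=
  IsSeqClosed.isClosed fun _ _ hu hW s => aestronglyMeasurable_of_tendsto_ae atTop
    (fun n => hu n s) (Eventually.of_forall fun x =>
      ((evc T v k s x).continuous.tendsto _).comp hW)

theorem int_sub (h : T.Ok) {T0 c : ℝ} (W : Sub T v k T0 c) (s : T.S) :
    IntegrableOn (fun x => wt T v s x * evc T v k s x W.1) (D T v T0 c s) :=
  (wt_int h v T0 c s).mul_bdd (W.2 s) (Eventually.of_forall fun _ => evc_le W.1)

/-- the integral over one chart -/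
def one (h : T.Ok) (v : T.V) (k : ℕ) (T0 c : ℝ) (s : T.S) : Sub T v k T0 c →L[ℂ] ℂ :=
  LinearMap.mkContinuous
    { toFun := fun W => ∫ x in D T v T0 c s, wt T v s x * evc T v k s x W.1
      map_add' := fun W W' => by
        simp only [Submodule.coe_add, map_add, mul_add]
        exact integral_add (int_sub h W s) (int_sub h W' s)
      map_smul' := fun a W => by
        simp only [Submodule.coe_smul, map_smul, smul_eq_mul, RingHom.id_apply, mul_left_comm _ a,
          integral_const_mul] }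
    (∫ x in D T v T0 c s, ‖wt T v s x‖) fun W => by
      rw [← integral_mul_const]
      refine norm_integral_le_of_norm_le ((wt_int h v T0 c s).norm.mul_const _)
        (Eventually.of_forall fun x => ?_)
      rw [norm_mul]
      exact mul_le_mul_of_nonneg_left (evc_le W.1) (norm_nonneg _)

variable {f : T.S → E4 → ℝ} {W : Cel (CI T v) k}

theorem evc_lf (hW : ∀ i : CI T v, LfS T i 2 (f i.1.1) W) (hx : x ∈ T.cK v s) :
    evc T v k s x W = ((rad T s x ^ 2 * f s x : ℝ) : ℂ) := by
  have := hW ⟨(s, x), hx⟩ 0 (mem_ball_self one_pos)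
  simp only [cpt, smul_zero, add_zero] at this
  rw [evc_in hx, this]

theorem cont_lf (hW : ∀ i : CI T v, LfS T i 2 (f i.1.1) W) (hx : x ∈ T.cK v s) :
    ContinuousAt (f s) x := by
  have hr := rad_pos1 hx
  have h0 : (rad T s x)⁻¹ • (x - x) ∈ B1 := by simp
  have hφ : ContinuousAt (fun z : E4 => (rad T s x)⁻¹ • (z - x)) x := by fun_prop
  have h1 : ContinuousAt (W.val ⟨(s, x), hx⟩) ((rad T s x)⁻¹ • (x - x)) :=
    (W.contDiffOn _).continuousOn.continuousAt (isOpen_ball.mem_nhds h0)
  have h2 : ContinuousAt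
      (fun z : E4 => (W.val ⟨(s, x), hx⟩ ((rad T s x)⁻¹ • (z - x))).re / rad T s x ^ 2) x :=
    (Complex.continuous_re.continuousAt.comp
      (ContinuousAt.comp (f := fun z : E4 => (rad T s x)⁻¹ • (z - x)) h1 hφ)).div_const _
  refine h2.congr ?_
  filter_upwards [hφ (isOpen_ball.mem_nhds h0)] with z hz
  have := hW ⟨(s, x), hx⟩ _ hz
  simp only [cpt, smul_inv_smul₀ hr.ne', add_sub_cancel] at this
  rw [this, Complex.ofReal_re, mul_div_cancel_left₀ _ (pow_pos hr 2).ne']

theorem lf_mem (h : T.Ok) (T0 c : ℝ) (hW : ∀ i : CI T v, LfS T i 2 (f i.1.1) W) :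
    W ∈ Sub T v k T0 c := fun s => by
  have hD := meas_D h v T0 c s
  refine (ContinuousOn.aestronglyMeasurable
    (f := fun x => ((rad T s x ^ 2 * f s x : ℝ) : ℂ)) (fun x hx => ?_) hD).congr ?_
  · exact (Complex.continuous_ofReal.continuousAt.comp
      (((cont_rad s).pow 2).continuousAt.mul (cont_lf hW hx.2))).continuousWithinAt
  · filter_upwards [ae_restrict_mem hD] with x hx using (evc_lf hW hx.2).symm

theorem one_lf (h : T.Ok) (T0 c : ℝ) (hW : ∀ i : CI T v, LfS T i 2 (f i.1.1) W) (s : T.S) :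
    one h v k T0 c s ⟨W, lf_mem h T0 c hW⟩ =
      ((∫ x in UR T v T0 c s, T.χ s ((T.core v).c s x) * f s x : ℝ) : ℂ) := by
  rw [setIntegral_eq_of_subset_of_forall_sdiff_eq_zero (meas_UR h v T0 c s)
    (inter_subset_left (t := T.cK v s)) fun x hx => by
      rw [chi_zero h hx.1.1 fun hK => hx.2 ⟨hx.1, hK⟩, zero_mul], ← integral_complex_ofReal]
  refine setIntegral_congr_fun (meas_D h v T0 c s) fun x hx => ?_
  have hr := (rad_pos1 hx.2).ne'
  show wt T v s x * evc T v k s x W = ((T.χ s ((T.core v).c s x) * f s x : ℝ) : ℂ)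
  rw [evc_lf hW hx.2, wt, ← Complex.ofReal_mul]
  congr 1
  field_simp

end Ig

open Ig in
/-- **leaf INT** -/
theorem int {M : Type*} (T : TD M) : INT T := fun h v k T0 =>
  ⟨Sub T v k T0 1, ∑ s, (((Nat.card (T.grp s) : ℝ)⁻¹ : ℝ) : ℂ) • one h v k T0 1 s,
    sub_closed v k T0 1, fun f W hW => ⟨lf_mem h T0 1 hW, by
      simp only [sum_apply, smul_apply, one_lf h T0 1 hW,
        smul_eq_mul, actC, Complex.ofReal_sum, Complex.ofReal_mul]⟩⟩

end Crest.Agent.N207.CB

end
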