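import Crest.Agent.N207.CB.Co4
import Crest.Agent.N207.CB.Ext2
import Crest.Agent.N207.CB.Bga
import Crest.Agent.N207.CB.Bg0
import Crest.Agent.N207.CB.Int
import Crest.Agent.N207.CB.Fixm
import Crest.Agent.N207.K.Trf

/-!
# Row 207, block L (helper92): `core : GRC T → CORE T`
-/

set_option autoImplicit false

open scoped ContDiff
open Metric Set Filter Topology MeasureTheory
open Crest.GeometryTopology.CoordMetric
open Crest.Agent.NLib.Ell Crest.Agent.N207.I Crest.Agent.N207.Lg Crest.Agent.N207.J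

noncomputable section

namespace Crest.Agent.N207.CB

variable {M : Type*} {T : TD M} {g : T.V → Fam T} {κ : Type} [Fintype κ] {ψ : κ → Fam T} {v : T.V}
  {T0 : ℝ}

omit [Fintype κ] in
theorem Van.mono {F : Fam T} {T1 : ℝ} (h : Van T v T1 0 F) (hT : T1 ≤ T0) : Van T v T0 0 F :=
  fun u x hx hτ => h u x hx (by unfold tau at hτ ⊢; linarith)

theorem exists_rho (h : T.Ok) : ∃ C : ℝ, ∀ (v : T.V) (T0 : ℝ), ∃ ρ : Cel (CI T v) 6, ‖ρ‖ ≤ C ∧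
    ∀ i : CI T v, LfS T i 0 (cutF T v T0 1 rho i.1.1) ρ := by
  obtain ⟨C, hC⟩ := cut h (26 / 10) (28 / 10) 6 (by norm_num)
  refine ⟨2 ^ 7 + Fintype.card T.V * C, fun v T0 => ?_⟩
  choose W h1 h2 using fun u => hC v u T0
  refine ⟨1 - ∑ u, W u, (norm_sub_le _ _).trans (add_le_add Cel.norm_one_le ?_), fun i y hy => ?_⟩
  · exact (norm_sum_le _ _).trans ((Finset.sum_le_card_nsmul _ _ C fun u _ => h1 u).trans (by simp))
  · rw [Cel.val_sub, Pi.sub_apply, Pi.sub_apply, Cel.val_one i hy, Cel.val_sum]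
    simp only [h2 _ i y hy]
    obtain ⟨⟨s | s, x⟩, hx⟩ := i
    · simp [cutF]
    · simp [cutF, rho, apply_ite]

theorem exists_CD {γ T1 : ℝ} (hγ : 0 < γ) (h : T.Ok) (hg : T.Lim g γ)
    (hψ : ∀ j, Sec T v (ψ j) ∧ Van T v T1 0 (ψ j)) : ∃ c ε T2 : ℝ, 0 < ε ∧ ∀ T0, T2 ≤ T0 →
      ∃ D : CD T g ψ v T0, D.Bd c (Real.exp (-(γ * T0))) ∧ D.Λ.ε = ε ∧
        c * Real.exp (-(γ * T0)) < ε / 4 := by
  obtain ⟨Λ⟩ := lift T g γ hγ h hg v 6
  obtain ⟨C0, Ta, h0⟩ := bg0 T g γ hγ h hg 8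
  obtain ⟨C1, Tb, c1, h1⟩ := bga T h 8
  obtain ⟨C2, h2⟩ := exists_rho h
  obtain ⟨C3, h3⟩ := cut h (17 / 20) (19 / 20) 8 (by norm_num)
  have h4 : ∀ j, ∃ W : MC T v 6, Lf T 2 (ψ j) W := fun j => by
    obtain ⟨N, n0, hN⟩ := K.psb T h 6 2 v T1 _ (hψ j).1 (hψ j).2
    exact exists_lf n0 hN
  choose ψh h4 using h4
  obtain ⟨K1, k1, q1, q2, q3⟩ := quad Λ.ε_pos Λ.hR fun p hp => (Λ.bd p hp).1
  obtain ⟨K2, k2, -, q4, -⟩ := quad Λ.ε_pos Λ.hP fun p hp => (Λ.bd p hp).2.2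
  set c := 1 + |C0| + Fintype.card T.V * (2 * C1) + |C2| + |C3| + ∑ j, ‖ψh j‖ + K1 + K2 with hc
  have p0 := abs_nonneg C0
  have p1 : 0 ≤ Fintype.card T.V * (2 * C1) := by positivity
  have p2 := abs_nonneg C2
  have p3 := abs_nonneg C3
  have p4 : 0 ≤ ∑ j, ‖ψh j‖ := by positivity
  have ev : ∀ᶠ t in atTop, c * Real.exp (-(γ * t)) < Λ.ε / 4 := by
    have := (Real.tendsto_exp_neg_atTop_nhds_zero.comp
      (tendsto_id.const_mul_atTop hγ)).const_mul c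
    exact this.eventually_lt_const (by have := Λ.ε_pos; simpa using this)
  obtain ⟨Tc, hTc⟩ := eventually_atTop.1 ev
  refine ⟨c, Λ.ε, max (max (max Ta Tb) (max Tc T1)) (max (Real.log (4 / T.r)) 0), Λ.ε_pos,
    fun T0 hT => ?_⟩
  simp only [max_le_iff] at hT
  obtain ⟨⟨⟨ta, tb⟩, tc, t1⟩, tl, t0⟩ := hT
  obtain ⟨s0, β0, l0, n0⟩ := h0 v T0 ta
  obtain ⟨b1, b2, b3, b4⟩ := h1 v T0 tb
  choose B₁ B₂ m1 m2 m3 using b1
  obtain ⟨ρ, r1, r2⟩ := h2 v T0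
  obtain ⟨χ, x1, x2⟩ := h3 v v T0
  have e0 := (Real.exp_pos (-(γ * T0))).le
  have n1 : ‖β0‖ ≤ c * Real.exp (-(γ * T0)) :=
    n0.trans (mul_le_mul_of_nonneg_right (by linarith [le_abs_self C0]) e0)
  have n2 : ‖β0‖ < Λ.ε / 2 := by linarith [hTc T0 tc, Λ.ε_pos]
  refine ⟨⟨h, tl, hg.met v, hg.ric v, fun j => (hψ j).1, fun j => (hψ j).2.mono t1, Λ, β0, l0, s0,
    n1.trans_lt (hTc T0 tc), B₁, B₂, m3, b2, b3, b4 g, ρ, r2, χ, x2, ψh, h4⟩,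
    ⟨by linarith, e0, Real.exp_le_one_iff.2 (by nlinarith), fun a ha => ?_,
      x1.trans (by linarith [le_abs_self C3]), r1.trans (by linarith [le_abs_self C2]),
      by dsimp only; linarith, n1, (q1 _ n2).trans (by linarith),
      fun p hp => (q2 p hp).trans (by gcongr; linarith),
      fun p hp => (q4 p hp).trans (by gcongr; linarith),
      fun b h' hp => (q3 _ b h' n2 hp).trans (by gcongr; linarith)⟩, rfl, hTc T0 tc⟩
  simp only [CD.β, add_sub_cancel_left]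
  refine (norm_sum_le _ _).trans ((Finset.sum_le_card_nsmul _ _ (2 * C1 * ‖a‖) fun u _ => ?_).trans ?_)
  · have a1 : ‖(a u).1‖ ≤ ‖a‖ := norm_le_pi_norm a u
    have a2 := (B₁ u).le_of_opNorm_le_of_le (m1 u) a1
    have a3 := (B₂ u (a u).1).le_of_opNorm_le_of_le
      ((B₂ u).le_of_opNorm_le_of_le (m2 u) (a1.trans ha)) a1
    linarith [norm_add_le (B₁ u (a u).1) (B₂ u (a u).1 (a u).1)]
  · rw [nsmul_eq_mul, Finset.card_univ, ← mul_assoc]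
    gcongr
    linarith

theorem CoM.mono {a : T.V → Mt} {δ δ' : ℝ} {θ μ : κ → ℝ} {β w G : Fam T}
    (h : CoM T g T0 v ψ a δ θ μ β w G) (hδ : δ ≤ δ') : CoM T g T0 v ψ a δ' θ μ β w G :=
  { h with cos := { h.cos with
      small := fun s x hx y hy k hk p q => (h.cos.small s x hx y hy k hk p q).trans hδ
      mu := h.cos.mu.trans hδ } }

/-- smaller ball, larger constant -/
def CoreStep.mono {ε ε' K K' η : ℝ} (C : CoreStep T g ψ v T0 ε K η) (hε : ε' ≤ ε) (hK : K ≤ K')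
    (hη : 0 ≤ η) : CoreStep T g ψ v T0 ε' K' η where
  Φ := C.Φ
  S := C.S
  B := C.B
  hΦ := C.hΦ.mono (ball_subset_ball hε)
  hS := C.hS.mono (ball_subset_ball hε)
  bΦ z hz := (C.bΦ z (ball_subset_ball hε hz)).trans (by gcongr)
  bS z hz := C.bS z (ball_subset_ball hε hz)
  real z hz := C.real z (ball_subset_ball hε hz)
  fix z hz μ a θ h1 h2 β w h3 h4 h5 h6 h7 :=
    let ⟨G, k1, k2⟩ := C.fix z (ball_subset_ball hε hz) μ a θ h1 h2 β w h3 h4 h5 h6 h7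
    ⟨G, k1.mono (by gcongr), k2⟩

omit [Fintype κ] in
theorem cv_inj {a b : κ → ℝ} (h : cv a = cv b) : a = b :=
  funext fun j => Complex.ofReal_injective (congrFun h j)

theorem core_v (hG : GRC T) {γ σ T1 Ck : ℝ} (hγ : 0 < γ) (hσ : 0 < σ) (hσ1 : σ < 1) (h : T.Ok)
    (hg : T.Lim g γ) (hψ : ∀ j, Sec T v (ψ j) ∧ Van T v T1 0 (ψ j)) (ck : 0 < Ck)
    (hK : ∀ T0, T1 ≤ T0 → ∃ En, KAt T g ψ v T0 σ 6 (Ck * Real.exp (2 * σ * T0)) En) :
    ∃ ε C T2 : ℝ, 0 < ε ∧ ∀ T0, T2 ≤ T0 →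
      Nonempty (CoreStep T g ψ v T0 ε (C * Real.exp (2 * σ * T0)) (Real.exp (-(γ * T0)))) := by
  classical
  obtain ⟨c, ε0, Ta, e0, hD⟩ := exists_CD hγ h hg hψ
  obtain ⟨Ce, Tb, ce, hE⟩ := ext h 6
  obtain ⟨cl, dec, hE⟩ := hE v
  obtain ⟨Tc, hG⟩ := hG h g κ ψ v T1 σ hσ (by linarith) (hg.met v) hψ
  obtain ⟨Cf, cf0, hF⟩ := fixm T
  refine ⟨min 1 (ε0 / (16 * |c| + 1)), Ce * Ck * (400 * c ^ 4) + 9 * |c| * Cf + 1,
    max (max (max Ta Tb) (max Tc T1)) 0, by positivity, fun T0 hT => ?_⟩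
  simp only [max_le_iff] at hT
  obtain ⟨⟨⟨ta, tb⟩, tc, t1⟩, t0⟩ := hT
  obtain ⟨D, hB, rfl, hc⟩ := hD T0 ta
  have c1 := hB.one
  rw [abs_of_nonneg (zero_le_one.trans c1)]
  obtain ⟨En, hK⟩ := hK T0 t1
  obtain ⟨clY, hE⟩ := hE T0 tb
  obtain ⟨𝒢, nG, hE⟩ := hE g κ ψ σ _ En (by positivity) D.met D.met_gb ⟨T1, hψ⟩ hK
  obtain ⟨S, I, clS, hI⟩ := int T h v 6 T0
  set ε := min 1 (D.Λ.ε / (16 * c + 1))
  set η := Real.exp (-(γ * T0))
  have x1 : 1 ≤ Real.exp (2 * σ * T0) := Real.one_le_exp (by positivity)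
  set X := Real.exp (2 * σ * T0)
  have z1 : ∀ z ∈ ball (0 : Zc T v κ) ε, ‖z‖ ≤ 1 := fun z hz =>
    (mem_ball_zero_iff.1 hz).le.trans (min_le_left _ _)
  have hp : ∀ z ∈ ball (0 : Zc T v κ) ε, D.p z ∈ ball 0 D.Λ.ε := fun z hz => by
    have a1 := hB.np (z1 z hz)
    have a2 := (mem_ball_zero_iff.1 hz).le.trans (min_le_right _ _)
    rw [le_div_iff₀ (by positivity)] at a2
    rw [mem_ball_zero_iff]
    nlinarith [norm_nonneg z]
  have hY := idl _ _ (ZRs T v κ) 1 ZRs_comb (ZRs_dec (dec 8 0)) D.src ε _ clY (D.diff_src hp)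
    fun z hz hr => Submodule.subset_span (D.src_real (hp z hz) hr)
  have dL : DifferentiableOn ℂ (fun z => D.Λ.Lg (D.p z)) (ball 0 ε) :=
    D.Λ.hL.comp D.diff_p.differentiableOn hp
  have hS := idl _ _ (ZRs T v κ) 1 ZRs_comb (ZRs_dec (dec 8 0)) _ ε _ clS dL <| by
    rintro z hz ⟨μ, a, θ, r⟩
    obtain ⟨w, sw, hw⟩ := (reg h v 8).1 _ r.hW
    obtain ⟨β, sβ, hβ⟩ := (reg h v 8).1 _ r.hb
    exact (hI (fun s => fgfF _ _) _ (D.lg_real (hp z hz) r sβ hβ sw hw)).1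
  set sY : Zc T v κ → YC T v 6 T0 := fun z => if h : D.src z ∈ YC T v 6 T0 then ⟨_, h⟩ else 0
  set sS : Zc T v κ → S := fun z => if h : D.Λ.Lg (D.p z) ∈ S then ⟨_, h⟩ else 0
  have eY : ∀ z ∈ ball (0 : Zc T v κ) ε, (sY z).1 = D.src z := fun z hz => by
    simp only [sY, dif_pos (hY z hz)]
  have eS : ∀ z ∈ ball (0 : Zc T v κ) ε, (sS z).1 = D.Λ.Lg (D.p z) := fun z hz => by
    simp only [sS, dif_pos (hS z hz)]
  have bY : ∀ z ∈ ball (0 : Zc T v κ) ε,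
      ‖sY z‖ ≤ 400 * c ^ 4 * (η + ‖z.2.1 v‖ + ‖z.2.2.1‖ + ‖z‖ ^ 2) := fun z hz => by
    rw [Submodule.coe_norm, eY z hz]
    exact hB.src_le (z1 z hz) (hp z hz) (D.cov (dec 8 0) hp z hz)
  have bS : ∀ z ∈ ball (0 : Zc T v κ) ε, ‖sS z‖ ≤ D.Λ.C := fun z hz => by
    rw [Submodule.coe_norm, eS z hz]
    exact (D.Λ.bd _ (hp z hz)).2.1
  have dY : DifferentiableOn ℂ sY (ball 0 ε) := by
    refine diffOn_sub clY isOpen_ball (M := 400 * c ^ 4 * (1 + 1 + 1 + 1 ^ 2))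
      (fun z hz => (bY z hz).trans ?_) ((D.diff_src hp).congr eY)
    gcongr
    · exact hB.η1
    · exact ((norm_le_pi_norm _ v).trans (CD.na z)).trans (z1 z hz)
    · exact (CD.nb z).trans (z1 z hz)
    · exact z1 z hz
  have dS := diffOn_sub clS isOpen_ball bS (dL.congr eS)
  have key : ∀ z ∈ ball (0 : Zc T v κ) ε, ∀ μ a θ, ZR T z μ a θ → _ := fun z hz μ a θ r =>
    hG T0 tc D.P D.Ψ (fun w W sw hw => D.lf_P sw.symm hw) D.lf_Ψ _
      (hE (sY z) θ (by rw [eY z hz]; exact D.src_real (hp z hz) ⟨μ, a, θ, r⟩))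
  have c4 : 1 ≤ 400 * c ^ 4 := by nlinarith [one_le_pow₀ (n := 4) c1]
  refine ⟨⟨fun z => 𝒢 (sY z, z.2.2.2), fun z => I (sS z), ‖I‖ * D.Λ.C,
    𝒢.differentiable.comp_differentiableOn (dY.prodMk (by fun_prop)),
    I.differentiable.comp_differentiableOn dS, fun z hz => ?_,
    fun z hz => I.le_of_opNorm_le_of_le le_rfl (bS z hz), fun z hz μ a θ r => ?_,
    fun z hz μ a θ r e β w sβ hβ h0 sw hw => ?_⟩⟩
  · have e0 := hB.η0
    have a1 : ‖(sY z, z.2.2.2)‖ ≤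
        400 * c ^ 4 * (η + ‖z.2.2.2‖ + ‖z.2.1 v‖ + ‖z.2.2.1‖ + ‖z‖ ^ 2) := by
      refine max_le ((bY z hz).trans ?_) ?_
      · gcongr
        linarith [norm_nonneg z.2.2.2]
      · refine le_trans ?_ (le_mul_of_one_le_left (by positivity) c4)
        nlinarith [norm_nonneg (z.2.1 v), norm_nonneg z.2.2.1]
    refine (𝒢.le_of_opNorm_le_of_le nG a1).trans ?_
    rw [← mul_assoc]
    refine mul_le_mul_of_nonneg_right ?_ (by positivity)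
    have : 0 ≤ (9 * c * Cf + 1) * X := by positivity
    nlinarith
  · obtain ⟨k1, μ', k2, -⟩ := key z hz μ a θ r
    rw [r.hθ]
    exact ⟨k1, μ', k2⟩
  · obtain ⟨-, μ', k2, k3, k4⟩ := key z hz μ a θ r
    rw [← r.hθ, e] at k2 k3 k4
    obtain rfl := cv_inj (k2.symm.trans r.hμ)
    rw [eY z hz] at k3
    obtain ⟨k5, k6, k7⟩ := k4 w sw hw
    have a0 : 9 * c * Cf + 1 ≤ (Ce * Ck * (400 * c ^ 4) + 9 * c * Cf + 1) * X := by
      have : 0 ≤ Ce * Ck * (400 * c ^ 4) := by positivity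
      have : 0 ≤ 9 * c * Cf := by positivity
      nlinarith
    have a1 : (9 * c * Cf + 1) * ‖z‖ ≤
        (Ce * Ck * (400 * c ^ 4) + 9 * c * Cf + 1) * X * (η + ‖z‖) := by
      gcongr
      linarith [hB.η0]
    have a2 : ‖D.β z.2.1 - D.β0 + D.h z‖ ≤ 9 * c * ‖z‖ := by
      linarith [norm_add_le (D.β z.2.1 - D.β0) (D.h z), hB.nβ (z1 z hz), hB.nh (z1 z hz)]
    have a3 : ‖μ'‖ ≤ ‖z‖ := by rw [← norm_cv, ← r.hμ]; exact CD.nμ z
    have a4 : 0 ≤ 9 * c * Cf * ‖z‖ := by positivity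
    refine ⟨_, hF g κ ψ v T0 D z μ' a θ β w _ (hp z hz) r sβ hβ h0 sw hw k3
      (fun j => ?_) k6 k7 ?_ (by linarith), ?_⟩
    · have := k5 j
      rw [r.hθ] at this
      exact Complex.ofReal_injective this
    · nlinarith [mul_le_mul_of_nonneg_left a2 cf0.le, norm_nonneg z]
    · obtain ⟨m, e'⟩ := hI (fun s => fgfF _ _) _ (D.lg_real (hp z hz) r (sβ.secN 8) hβ sw hw)
      rw [← e']
      simp only [sS, dif_pos m]

/-- **CORE** -/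
theorem core (hG : GRC T) : CORE T := by
  intro g γ σ hγ hσ hσ1 h hg κ _ ψ hK
  obtain ⟨Ck, T1, ck, hψ, hK⟩ := hK 6
  choose ε C T2 e0 H using fun v => core_v hG hγ hσ hσ1 h hg
    (fun j => ⟨hψ.sec v j, hψ.supp v j⟩) ck (hK v)
  have : Nonempty T.V := ⟨T.root⟩
  obtain ⟨v1, h1⟩ := Finite.exists_min ε
  obtain ⟨v2, h2⟩ := Finite.exists_max C
  obtain ⟨v3, h3⟩ := Finite.exists_max T2
  refine ⟨ε v1, max 1 (C v2), max T1 (T2 v3), e0 _, le_max_left _ _, ⟨hψ.sec, fun v j =>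
    Van.mono (hψ.supp v j) (le_max_left _ _)⟩, fun T0 hT v => ?_⟩
  obtain ⟨S⟩ := H v T0 ((h3 v).trans ((le_max_right _ _).trans hT))
  exact ⟨S.mono (h1 v) (by gcongr; exact (h2 v).trans (le_max_right _ _)) (Real.exp_pos _).le⟩

end Crest.Agent.N207.CB

end
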