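import Crest.Agent.N207.CB.Cell
import Crest.Agent.N207.I.Defs
import Crest.Agent.N207.Lg.Defs
import Crest.Agent.N207.J.Dul

/-!
# Row 207, blocks K/L/N interface (helper92): reference metric, cells, `KLin`, `FAM`

`tau v w T0` is the collar coordinate on the end chart `w` of the core `v` (increasing towards the
neck).  Layout: `gb = g` on `tau ≤ 0`, flat on `1/10 ≤ tau`; `A`-transition in `[1/5, 4/5]`;
collar piece `[1, 4]`.
-/

set_option autoImplicit false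

open scoped ContDiff
open Metric Set Filter Topology MeasureTheory
open Crest.GeometryTopology.CoordMetric
open Crest.Agent.NLib.Ell Crest.Agent.N207.I Crest.Agent.N207.Lg

noncomputable section

namespace Crest.Agent.N207.CB

/-- `0` on `τ ≤ a`, `1` on `b ≤ τ` -/
def stp (a b τ : ℝ) : ℝ := Real.smoothTransition ((τ - a) / (b - a))

/-- trace reversal -/
def TRg (G X : Matrix (Fin 4) (Fin 4) ℝ) : Matrix (Fin 4) (Fin 4) ℝ :=
  X - ((1 / 2 : ℝ) * tr2 (fun a b => G⁻¹ a b) (fun a b => X a b)) • G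

/-- the linearisation `P = 2 D𝓡(gb)` of the reduced Ricci operator -/
def Pop (gb w : MetricField 4) : MetricField 4 := fun y => Matrix.of fun a b =>
  2 * deriv (fun s : ℝ => redT gb (fun z => gb z + s • w z) y ![a, b]) 0

variable {M : Type*} (T : TD M)

/-- matrix fields in all charts -/
abbrev Fam : Type := T.S → MetricField 4

/-- collar coordinate -/
def tau (v w : T.V) (T0 : ℝ) (x : E4) : ℝ :=
  (if w = v then Real.log ‖x‖ else -Real.log ‖x‖) - T0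

/-- the reference metric on `core v` -/
def gb (g : T.V → Fam T) (T0 : ℝ) (v : T.V) : Fam T :=
  Sum.elim (fun a => g v (Sum.inl a)) fun w x =>
    1 + (1 - stp 0 (1 / 10) (tau T v w T0 x)) • (g v (Sum.inr w) x - 1)

/-- the reference metric on `glob L`, every chart in the units of its vertex -/
def gbL (g : T.V → Fam T) (T0 : ℝ) (L : T.V → ℝ) : Fam T :=
  Sum.elim (fun a => g (T.vx a) (Sum.inl a)) fun w x =>
    gb T g T0 w (Sum.inr w) x +
      if w = T.root then 0 else gb T g T0 (T.par w) (Sum.inr w) (Real.exp (-L w) • x) - 1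

/-- a family on `core v` vanishing near the ends, read on `glob L` -/
def toL (L : T.V → ℝ) (v : T.V) (ψ : Fam T) : Fam T :=
  Sum.elim (fun a => if T.vx a = v then ψ (Sum.inl a) else 0) fun w x =>
    if w = v then ψ (Sum.inr w) x
    else if T.kid v w ∧ ‖Real.exp (-L w) • x‖ < T.r then ψ (Sum.inr w) (Real.exp (-L w) • x) else 0

/-- a family on `glob L` (vertex units), read in the charts of `core v` -/
def loc (L : T.V → ℝ) (v : T.V) (G : Fam T) : Fam T :=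
  Sum.elim (fun a => G (Sum.inl a)) fun w x =>
    if w = v then G (Sum.inr w) x else G (Sum.inr w) (Real.exp (L w) • x)

/-- smooth symmetric compatible sections on `core v` -/
structure Sec (v : T.V) (w : Fam T) : Prop where
  sec : (T.core v).Sec fun s => matT (w s)
  symm : ∀ s, ∀ x ∈ (T.core v).U s, (w s x).IsSymm

/-- radius of the cell with centre `x` -/
def rad : T.S → E4 → ℝ := Sum.elim (fun _ _ => 1 / 8) fun _ x => ‖x‖ / 8

/-- the cells of `core v` -/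
def CI (v : T.V) : Type := {p : T.S × E4 // p.2 ∈ T.cK v p.1}

/-- centres with collar coordinate at most `c` -/
def Reg (v : T.V) (T0 c : ℝ) : Set (T.S × E4) :=
  {p | ∀ w, p.1 = Sum.inr w → tau T v w T0 p.2 ≤ c}

/-- scale invariant `C^{k,1/2}` bound of `r^j w` on the cells with centre in `J` -/
def CBd (v : T.V) (J : Set (T.S × E4)) (k j : ℕ) (N : ℝ) (w : Fam T) : Prop :=
  ∀ s, ∀ x ∈ T.cK v s, (s, x) ∈ J → ∀ a b,
    CKA (1 / 2) B1 k N fun y => rad T s x ^ j * w s (x + rad T s x • y) a b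

/-- the `L²` pairing on `core v` -/
def pair (g : T.V → Fam T) (v : T.V) (ψ w : Fam T) : ℝ :=
  (T.core v).int T.χ (g v) fun s x => ip (g v s) (matT (ψ s)) (matT (w s)) x

/-- growth at most `|x|^{-σ}` on the ends -/
def Grw (v : T.V) (σ : ℝ) (w : Fam T) : Prop :=
  ∃ C : ℝ, ∀ u, ∀ x ∈ T.cK v (Sum.inr u), ∀ a b, |w (Sum.inr u) x a b| ≤ C * ‖x‖ ^ (-σ)

/-- the constraints: smooth sections vanishing beyond `tau = 0` at depth `T1` -/
structure Psi (κ : T.V → Type) (ψ : ∀ v, κ v → Fam T) (T1 : ℝ) : Prop where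
  sec : ∀ v j, Sec T v (ψ v j)
  supp : ∀ v j w, ∀ x ∈ (T.core v).U (Sum.inr w), 0 ≤ tau T v w T1 x → ψ v j (Sum.inr w) x = 0

/-- the linear problem on `core v` at depth `T0` with constant `K`; `En` is the class of uniqueness -/
structure KAt (g : T.V → Fam T) {κ : Type} [Fintype κ] (ψ : κ → Fam T) (v : T.V) (T0 σ : ℝ)
    (k : ℕ) (K : ℝ) (En : Fam T → Prop) : Prop where
  add : ∀ w w', En w → En w' → En (w + w')
  smul : ∀ (c : ℝ) w, En w → En (c • w)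
  ex : ∀ (F : Fam T) (θ : κ → ℝ) (N : ℝ), Sec T v F →
    (∀ u, ∀ x ∈ (T.core v).U (Sum.inr u), 4 ≤ tau T v u T0 x → F (Sum.inr u) x = 0) →
    CBd T v univ k 2 N F → ‖θ‖ ≤ N → ∃ (w : Fam T) (μ : κ → ℝ), Sec T v w ∧ En w ∧ Grw T v σ w ∧
      (∀ s, ∀ x ∈ (T.core v).U s,
        Pop (gb T g T0 v s) (w s) x = F s x + ∑ j, μ j • TRg (g v s x) (ψ j s x)) ∧
      (∀ j, pair T g v (ψ j) w = θ j) ∧ CBd T v (Reg T v T0 5) (k + 2) 0 (K * N) w ∧ ‖μ‖ ≤ K * N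
  uniq : ∀ (w : Fam T) (μ : κ → ℝ), Sec T v w → En w →
    (∀ s, ∀ x ∈ (T.core v).U s,
      Pop (gb T g T0 v s) (w s) x = ∑ j, μ j • TRg (g v s x) (ψ j s x)) →
    (∀ j, pair T g v (ψ j) w = 0) → (∀ s, ∀ x ∈ (T.core v).U s, w s x = 0) ∧ μ = 0

/-- **what block K delivers to L** (the loss `e^{2 σ T0}` comes from the weight `|x|^{σ-1}`) -/
def KLin (g : T.V → Fam T) (κ : T.V → Type) [∀ v, Fintype (κ v)] (ψ : ∀ v, κ v → Fam T)
    (σ : ℝ) : Prop :=
  ∀ k : ℕ, ∃ C T1 : ℝ, 0 < C ∧ Psi T κ ψ T1 ∧ ∀ v T0, T1 ≤ T0 →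
    ∃ En, KAt T g (ψ v) v T0 σ k (C * Real.exp (2 * σ * T0)) En

/-- the gauge-fixed action on `glob L` (charts in vertex units, result in root units) -/
def actL (L : T.V → ℝ) (H G : Fam T) : ℝ :=
  ∑ s, T.eps L (T.un s) ^ 2 * ((Nat.card (T.grp s) : ℝ)⁻¹ *
    ∫ x in (T.glob L).U s, T.χ s ((T.glob L).c s x) * fgfF (H s) (G s) x)

/-- the scale of the point `x` of the chart `s` -/
def scl : T.S → E4 → ℝ := Sum.elim (fun _ _ => 1) fun _ x => ‖x‖

/-- the Lyapunov-Schmidt solution `G` (vertex units) with parameters `θ`, multipliers `μ` -/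
structure LS (g : T.V → Fam T) (T0 : ℝ) (κ : T.V → Type) [∀ v, Fintype (κ v)]
    (ψ : ∀ v, κ v → Fam T) (δ : ℝ) (L : T.V → ℝ) (θ μ : (Σ v, κ v) → ℝ) (G : Fam T) : Prop where
  met : (T.glob L).IsMet fun s x => T.eps L (T.un s) ^ 2 • G s x
  el : ∀ s, ∀ x ∈ (T.glob L).U s, ∀ k : M2 (Fin 4) ℝ, (∀ a b, k a b = k b a) →
    tr2 (vG (sq (G s) x) (iv (G s) x) k) (a2 (redT (gbL T g T0 L s) (G s) x)) =
      ∑ j : Σ v, κ v, μ j * ((T.eps L (T.un s) / T.eps L j.1) ^ 2 * (sq (gbL T g T0 L s) x *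
        tr2 (up (iv (gbL T g T0 L s) x) fun a b => toL T L j.1 (ψ j.1 j.2) s x a b) k))
  con : ∀ j : Σ v, κ v, pair T g j.1 (ψ j.1 j.2) (loc T L j.1 (G - gbL T g T0 L)) = θ j
  small : ∀ s, ∀ x ∈ T.gK L s, ∀ y ∈ ball x (rad T s x), ∀ k ≤ 2, ∀ a b,
    scl T s x ^ k * ‖iteratedFDeriv ℝ k (fun y => (G s y - gbL T g T0 L s y) a b) y‖ ≤ δ
  mu : ‖μ‖ ≤ δ
  dec : ∀ x : E4, Real.exp (T0 + 4) ≤ ‖x‖ → ∀ k ≤ 2, ∀ a b,
    ‖x‖ ^ k * ‖iteratedFDeriv ℝ k (TD.dv (G (Sum.inr T.root)) a b) x‖ ≤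
      δ * (Real.exp (T0 + 4) / ‖x‖) ^ (3 / 2 : ℝ)
  int : ∀ s, IntegrableOn
    (fun x => T.χ s ((T.glob L).c s x) * fgfF (gbL T g T0 L s) (G s) x) ((T.glob L).U s)

/-- the data received by block O: `f θ L = F (θ, N_w (L w))` -/
structure OD (Θ V : Type) [Fintype Θ] [Fintype V] where
  E : Type
  [nE : NormedAddCommGroup E]
  [sE : NormedSpace ℂ E]
  [cE : CompleteSpace E]
  C : ℝ
  N : V → ℂ → E
  co : V → ℕ → ℕ → E
  dul : ∀ w, J.Dul C (N w) (co w)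
  F : (Θ → ℂ) × (V → E) → ℂ
  ρ : ℝ
  ρ_pos : 0 < ρ
  hol : DifferentiableOn ℂ F (ball (0, fun w => co w 0 0) ρ)
  B : ℝ
  bd : ∀ z ∈ ball ((0 : Θ → ℂ), fun w => co w 0 0) ρ, ‖F z‖ ≤ B

attribute [instance] OD.nE OD.sE OD.cE

/-- the reduced function -/
def OD.f {Θ V : Type} [Fintype Θ] [Fintype V] (D : OD Θ V) (θ : Θ → ℂ) (L : V → ℂ) : ℂ :=
  D.F (θ, fun w => D.N w (L w))

/-- **what block L delivers** -/
def FAM (g : T.V → Fam T) (κ : T.V → Type) [∀ v, Fintype (κ v)] (ψ : ∀ v, κ v → Fam T)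
    (γ : ℝ) : Prop :=
  ∀ δ : ℝ, 0 < δ → ∃ T1 : ℝ, ∀ T0, T1 ≤ T0 → ∃ (D : OD (Σ v, κ v) T.V) (r l0 : ℝ),
    Real.exp (-(3 / 4 * min γ 1 * T0)) ≤ r ∧ r < D.ρ ∧
    ∀ (θ : (Σ v, κ v) → ℝ) (L : T.V → ℝ), ‖θ‖ ≤ r → (∀ w, l0 ≤ L w) →
      ∃ (μ : (Σ v, κ v) → ℝ) (G : Fam T), LS T g T0 κ ψ δ L θ μ G ∧
        D.f (fun j => θ j) (fun w => L w) = (actL T L (gbL T g T0 L) G : ℝ)

/-- the weight exponent at which block K is used (the loss is iterated along the tree) -/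
def sig (γ : ℝ) : ℝ := min γ 1 / (16 * Fintype.card T.V)

/-- block L -/
def LStmt : Prop :=
  ∀ (g : T.V → Fam T) (γ : ℝ), 0 < γ → T.Ok → T.Lim g γ →
    ∀ (κ : T.V → Type) [∀ v, Fintype (κ v)] (ψ : ∀ v, κ v → Fam T),
      KLin T g κ ψ (sig T γ) → FAM T g κ ψ γ

end Crest.Agent.N207.CB

end
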