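import Crest.Agent.N207.CB.St2
import Crest.Agent.N207.J.Dul2

/-!
# Row 207, block L (helper77): the leaf `DSH`
-/

set_option autoImplicit false

open Set Filter
open scoped Topology

noncomputable section

namespace Crest.Agent.N207.J

variable {E : Type*} [NormedAddCommGroup E] [NormedSpace ℂ E]

theorem sub_mem_Om {C : ℝ} (hC : 0 ≤ C) (s : ℝ) {L : ℂ} (hL : L ∈ Om (C + (C + 1) * |s|)) :
    L - s ∈ Om C := by
  have h : (C + (C + 1) * |s|) * (1 + Real.log (1 + ‖L‖)) < L.re := hL
  have h0 := log_one_add_nonneg L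
  have h1 : Real.log (1 + ‖L - s‖) ≤ Real.log (1 + ‖L‖) + |s| := by
    have h2 : 1 + ‖L - s‖ ≤ (1 + ‖L‖) * (1 + |s|) := by
      have := norm_sub_le L s
      rw [Complex.norm_real, Real.norm_eq_abs] at this
      nlinarith [norm_nonneg L, abs_nonneg s]
    refine (Real.log_le_log (by positivity) h2).trans ?_
    rw [Real.log_mul (by positivity) (by positivity)]
    linarith [Real.log_le_sub_one_of_pos (show 0 < 1 + |s| by positivity)]
  show C * (1 + Real.log (1 + ‖L - s‖)) < (L - s).re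
  rw [Complex.sub_re, Complex.ofReal_re]
  nlinarith [le_abs_self s, mul_le_mul_of_nonneg_left h1 hC,
    mul_nonneg (mul_nonneg (add_nonneg hC zero_le_one) (abs_nonneg s)) h0]

theorem Dul.bdd {C : ℝ} {N : ℂ → E} {c : ℕ → ℕ → E} (h : Dul C N c) (hC : 0 ≤ C) :
    ∃ A : ℝ, ∀ L ∈ Om C, ‖N L‖ ≤ A := by
  obtain ⟨B, hB⟩ := h.lim
  refine ⟨|B| + ‖c 0 0‖, fun L hL => ?_⟩
  have h1 : Real.exp (-L.re / 4) ≤ 1 :=
    Real.exp_le_one_iff.2 (by linarith [lt_re_of_mem_Om hC hL])
  have h2 := (hB L hL).trans (mul_le_mul_of_nonneg_right (le_abs_self B) (Real.exp_pos _).le)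
  have h3 := norm_le_norm_sub_add (N L) (c 0 0)
  nlinarith [abs_nonneg B]

end Crest.Agent.N207.J

namespace Crest.Agent.N207.CB

open Crest.Agent.N207.J

theorem dsh : DSH := by
  intro E _ _ _ C N co h s _
  have h0 := le_max_right C 0
  have h' := h.mono (le_max_left C 0)
  obtain ⟨A, hA⟩ := h'.bdd h0
  have hx : ∀ κ : ℝ, ExK κ fun x : ℝ => (N ((x : ℂ) - s), Complex.exp (-2 * (x : ℂ))) := fun κ => by
    refine (((h.exK κ).shift (-s)).prod
      (ExK.pol (IsPol.single (q := 4) (j := 0) (by norm_num) (1 : ℂ)))).congr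
      (Eventually.of_forall fun x => Prod.ext (by simp [sub_eq_add_neg]) ?_)
    simp only [mon, pow_zero, mul_one, smul_eq_mul]
    congr 1; push_cast; ring
  obtain ⟨c, hc⟩ := dul_of_exK (C := max C 0 + (max C 0 + 1) * |s|) (A := max A 1)
    (N := fun L => (N (L - s), Complex.exp (-2 * L)))
    ((h'.diff.comp (by fun_prop) fun L hL => sub_mem_Om h0 s hL).prodMk (by fun_prop))
    (fun L hL => max_le_max (hA _ (sub_mem_Om h0 s hL)) (by
      have := lt_re_of_mem_Om (by positivity) hL
      have h2 : 0 ≤ max C 0 + (max C 0 + 1) * |s| := by positivity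
      rw [Complex.norm_exp, Real.exp_le_one_iff]
      simp only [neg_mul, Complex.neg_re, Complex.mul_re, Complex.re_ofNat, Complex.im_ofNat]
      linarith)) hx
  refine ⟨_, c, hc, tendsto_nhds_unique hc.tendsto (Tendsto.prodMk_nhds ?_ ?_), h.tendsto⟩
  · simpa [Function.comp_def, sub_eq_add_neg] using
      h.tendsto.comp (tendsto_atTop_add_const_right atTop (-s) tendsto_id)
  · simpa [Function.comp_def] using (Complex.continuous_ofReal.tendsto 0).comp
      (tendsto_exp_neg (κ := 2) two_pos)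

end Crest.Agent.N207.CB

end
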