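import Crest.Agent.N207.CB.Cell

/-! # N207/CB/E2a (helper71): bounded and pointwise holomorphic maps into `Cel` are holomorphic -/

set_option autoImplicit false

open Metric Set Filter Topology
open Crest.Agent.NLib.Ell Crest.Agent.R273.SchA_152

noncomputable section

namespace Crest.Agent.N207.CB.Cel

variable {I : Type} {k : ℕ} {Z : Type*} [NormedAddCommGroup Z] [NormedSpace ℂ Z]

/-- Hölder quotient -/
def hq (i : I) (y y' : EE 4) : Cel I k →L[ℂ] ℂ :=
  ((‖y - y'‖ ^ (1 / 2 : ℝ) : ℝ) : ℂ)⁻¹ • (evL i y - evL i y')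

theorem norm_hq (i : I) (y y' : EE 4) (x : Cel I k) :
    ‖hq i y y' x‖ = (‖y - y'‖ ^ (1 / 2 : ℝ))⁻¹ * ‖x.val i y - x.val i y'‖ := by
  simp only [hq, smul_apply, sub_apply, evL_apply, norm_smul, norm_inv, Complex.norm_real]
  rw [Real.norm_of_nonneg (by positivity)]

theorem norm_hq_le (i : I) {y y' : EE 4} (hy : y ∈ B1) (hy' : y' ∈ B1) (x : Cel I k) :
    ‖hq i y y' x‖ ≤ ‖x‖ / 2 ^ (k + 1) := by
  rw [norm_hq]
  have h := (x.cka' i).ho.hol y hy y' hy'
  rcases eq_or_lt_of_le (show (0 : ℝ) ≤ ‖y - y'‖ ^ (1 / 2 : ℝ) by positivity) with h0 | h0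
  · rw [← h0]; simp; positivity
  · rw [inv_mul_le_iff₀ h0]; linarith

theorem ho_of_hq {x : Cel I k} {i : I} {c : ℝ} (h0 : ∀ y ∈ B1, ‖x.val i y‖ ≤ c)
    (h1 : ∀ y ∈ B1, ∀ y' ∈ B1, ‖hq i y y' x‖ ≤ c) : HO (1 / 2) c B1 (x.val i) := by
  refine ⟨h0, fun y hy y' hy' => ?_⟩
  by_cases e : y = y'
  · subst e; simp
  · have hp : (0 : ℝ) < ‖y - y'‖ ^ (1 / 2 : ℝ) :=
      Real.rpow_pos_of_pos (norm_pos_iff.2 (sub_ne_zero.2 e)) _
    have := h1 y hy y' hy'
    rw [norm_hq, inv_mul_le_iff₀ hp] at this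
    linarith

/-- the functionals controlling the Hölder norm of order zero -/
def F0 (k : ℕ) : (I × B1) ⊕ (I × B1 × B1) → (Cel I k →L[ℂ] ℂ)
  | .inl p => (2 ^ (k + 1) : ℂ) • evL p.1 p.2
  | .inr p => (2 ^ (k + 1) : ℂ) • hq p.1 p.2.1 p.2.2

theorem norm_two_pow (k : ℕ) : ‖(2 ^ (k + 1) : ℂ)‖ = 2 ^ (k + 1) := by simp

theorem F0_le (j : (I × B1) ⊕ (I × B1 × B1)) (x : Cel I k) : ‖F0 k j x‖ ≤ ‖x‖ := by
  have hp := two_pow_pos k
  rcases j with p | p
  · simp only [F0, smul_apply, norm_smul, norm_two_pow, evL_apply]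
    have := (x.cka' p.1).bdd p.2.2
    rwa [le_div_iff₀' hp] at this
  · simp only [F0, smul_apply, norm_smul, norm_two_pow]
    have := norm_hq_le p.1 p.2.1.2 p.2.2.2 x
    rwa [le_div_iff₀' hp] at this

theorem ho_of_F0 {x : Cel I k} {c : ℝ} (h : ∀ j, ‖F0 k j x‖ ≤ c) (i : I) :
    HO (1 / 2) (c / 2 ^ (k + 1)) B1 (x.val i) := by
  have hp := two_pow_pos k
  refine ho_of_hq (fun y hy => ?_) fun y hy y' hy' => ?_
  · have := h (.inl (i, ⟨y, hy⟩))
    simp only [F0, smul_apply, norm_smul, norm_two_pow, evL_apply] at this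
    rwa [le_div_iff₀' hp]
  · have := h (.inr (i, ⟨y, hy⟩, ⟨y', hy'⟩))
    simp only [F0, smul_apply, norm_smul, norm_two_pow] at this
    rwa [le_div_iff₀' hp]

theorem diffOn_F0 {f : Z → Cel I k} {U : Set Z}
    (hd : ∀ i, ∀ y ∈ B1, DifferentiableOn ℂ (fun z => (f z).val i y) U)
    (j : (I × B1) ⊕ (I × B1 × B1)) : DifferentiableOn ℂ (fun z => F0 k j (f z)) U := by
  rcases j with p | p
  · exact (hd p.1 p.2 p.2.2).const_smul (2 ^ (k + 1) : ℂ)
  · exact (((hd p.1 _ p.2.1.2).sub (hd p.1 _ p.2.2.2)).const_smul _).const_smul (2 ^ (k + 1) : ℂ)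

theorem norm_D_two (a : Fin 4) (x : Cel I (k + 1)) : 2 * ‖D a x‖ ≤ ‖x‖ := by
  have h := norm_le' (x := D a x) (by positivity) (fun i => (x.cka' i).pd a)
    fun i y hy => val_D a x i hy
  have e : (2 : ℝ) ^ (k + 1) * (‖x‖ / 2 ^ (k + 1 + 1)) = ‖x‖ / 2 := by
    rw [pow_succ (2 : ℝ) (k + 1)]; field_simp
  rw [e] at h; linarith

/-- partial derivatives of a bounded pointwise holomorphic family are pointwise holomorphic -/
theorem diffOn_val_D {f : Z → Cel I (k + 1)} {U : Set Z} (hU : IsOpen U) {M : ℝ}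
    (hM : ∀ z ∈ U, ‖f z‖ ≤ M)
    (hd : ∀ i, ∀ y ∈ B1, DifferentiableOn ℂ (fun z => (f z).val i y) U) (a : Fin 4) (i : I)
    {y : EE 4} (hy : y ∈ B1) : DifferentiableOn ℂ (fun z => (D a (f z)).val i y) U := by
  obtain ⟨η, hη, hb⟩ := Metric.isOpen_iff.1 (isOpen_ball : IsOpen B1) y hy
  have key : ∀ z ∈ U, ∀ t : ℝ, 0 < t → t < η → ‖(t : ℂ)⁻¹ * ((f z).val i (y + t • ei a) -
      (f z).val i y) - (D a (f z)).val i y‖ ≤ 4 * M * t ^ (1 / 2 : ℝ) := fun z hz t ht ht' => by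
    have hn : ‖t • (ei a : EE 4)‖ = t := by rw [norm_smul, norm_ei, Real.norm_of_nonneg ht.le]; simp
    have h1 := (((f z).cka i).of_le (j := 1) (by omega)).taylor isOpen_ball (by norm_num) hb
      (v := t • ei a) (by rwa [hn])
    rw [hn, map_smul] at h1
    have ht0 : (t : ℂ) ≠ 0 := by exact_mod_cast ht.ne'
    rw [val_D a _ i hy, show (t : ℂ)⁻¹ * ((f z).val i (y + t • ei a) - (f z).val i y) -
      fderiv ℝ ((f z).val i) y (ei a) = (t : ℂ)⁻¹ * ((f z).val i (y + t • ei a) - (f z).val i y -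
      t • fderiv ℝ ((f z).val i) y (ei a)) by rw [Complex.real_smul]; field_simp, norm_mul,
      norm_inv, Complex.norm_real, Real.norm_of_nonneg ht.le, inv_mul_le_iff₀ ht]
    have := hM z hz
    have hp : 0 ≤ t ^ (1 / 2 : ℝ) := by positivity
    calc _ ≤ _ := h1
      _ ≤ ((4 : ℕ) : ℝ) * M * t ^ (1 / 2 : ℝ) * t := by gcongr
      _ = _ := by push_cast; ring
  refine N250.H.diffOn_of_lim (l := 𝓝[>] (0 : ℝ)) (M := M + 4 * M)
    (F := fun (t : ℝ) z => (t : ℂ)⁻¹ * ((f z).val i (y + t • ei a) - (f z).val i y)) hU ?_ ?_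
  · filter_upwards [Ioo_mem_nhdsGT (lt_min hη one_pos)] with t ht
    have ht1 := (lt_min_iff.1 ht.2)
    have hy' : y + t • ei a ∈ B1 := hb (by
      rw [mem_ball, dist_eq_norm, add_sub_cancel_left, norm_smul, norm_ei,
        Real.norm_of_nonneg ht.1.le]; linarith [ht1.1])
    refine ⟨((hd i _ hy').sub (hd i y hy)).const_mul _, fun z hz => ?_⟩
    have h1 := key z hz t ht.1 ht1.1
    have h2 : ‖(D a (f z)).val i y‖ ≤ M := by
      have := norm_D_two a (f z)
      have := (D a (f z)).norm_val_le i y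
      have := hM z hz
      have := norm_nonneg (D a (f z))
      linarith
    have h3 : t ^ (1 / 2 : ℝ) ≤ 1 := Real.rpow_le_one ht.1.le ht1.2.le (by norm_num)
    have hM0 : 0 ≤ M := (norm_nonneg _).trans (hM z hz)
    have := norm_le_insert' ((t : ℂ)⁻¹ * ((f z).val i (y + t • ei a) - (f z).val i y))
      ((D a (f z)).val i y)
    nlinarith
  · rw [Metric.tendstoUniformlyOn_iff]
    intro ε hε
    have hc : Tendsto (fun t : ℝ => 4 * M * t ^ (1 / 2 : ℝ)) (𝓝[>] 0) (𝓝 0) := by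
      have : Tendsto (fun t : ℝ => 4 * M * t ^ (1 / 2 : ℝ)) (𝓝 0)
          (𝓝 (4 * M * (0 : ℝ) ^ (1 / 2 : ℝ))) :=
        ((Real.continuousAt_rpow_const 0 _ (Or.inr (by norm_num))).tendsto).const_mul _
      rw [Real.zero_rpow (by norm_num), mul_zero] at this
      exact this.mono_left nhdsWithin_le_nhds
    filter_upwards [Ioo_mem_nhdsGT hη, hc.eventually (gt_mem_nhds hε)] with t ht h2 z hz
    rw [dist_comm, dist_eq_norm]
    exact (key z hz t ht.1 ht.2).trans_lt h2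

/-- **bounded + pointwise holomorphic ⇒ holomorphic** -/
theorem diffOn {f : Z → Cel I k} {U : Set Z} (hU : IsOpen U) {M : ℝ} (hM : ∀ z ∈ U, ‖f z‖ ≤ M)
    (hd : ∀ i, ∀ y ∈ B1, DifferentiableOn ℂ (fun z => (f z).val i y) U) :
    DifferentiableOn ℂ f U := by
  induction k with
  | zero =>
    refine N250.H.diffOn_of_norming (Y := fun _ => ℂ) (F0 0) F0_le (fun x c hc h => ?_) hU hM
      (diffOn_F0 hd)
    have := norm_le' (x := x) (M := c / 2 ^ (0 + 1)) (by positivity) (fun i => ho_of_F0 h i)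
      fun _ _ _ => rfl
    rwa [mul_div_cancel₀ _ (two_pow_pos 0).ne'] at this
  | succ k ih =>
    let Φ : ((I × B1) ⊕ (I × B1 × B1)) ⊕ Fin 4 → Cel I (k + 1) →L[ℂ] ℂ × Cel I k :=
      fun j => match j with
      | .inl j => (F0 (k + 1) j).prod 0
      | .inr a => (0 : Cel I (k + 1) →L[ℂ] ℂ).prod ((2 : ℂ) • D a)
    have e1 : ∀ j x, ‖Φ (.inl j) x‖ = ‖F0 (k + 1) j x‖ := fun j x => by
      simp [Φ, Prod.norm_def]
    have e2 : ∀ a x, ‖Φ (.inr a) x‖ = 2 * ‖D a x‖ := fun a x => by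
      simp [Φ, Prod.norm_def, norm_smul]
    refine N250.H.diffOn_of_norming (Y := fun _ => ℂ × Cel I k) Φ (fun j x => ?_) (fun x c hc h => ?_) hU hM
      fun j => ?_
    · rcases j with j | a
      · rw [e1]; exact F0_le j x
      · rw [e2]; exact norm_D_two a x
    · have := norm_le' (x := x) (M := c / 2 ^ (k + 1 + 1)) (by positivity) (f := x.val)
        (fun i => ⟨ho_of_F0 (fun j => (e1 j x) ▸ h (.inl j)) i, (x.cka i).diff, fun a => ?_⟩)
        fun _ _ _ => rfl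
      · rwa [mul_div_cancel₀ _ (two_pow_pos _).ne'] at this
      · have h2 := h (.inr a)
        rw [e2] at h2
        refine (((D a x).cka' i).congr isOpen_ball fun y hy => (val_D a x i hy).symm).mono ?_
        rw [pow_succ (2 : ℝ) (k + 1), div_le_div_iff₀ (two_pow_pos k) (by positivity)]
        have := two_pow_pos k
        nlinarith
    · rcases j with j | a
      · exact (diffOn_F0 hd j).prodMk (differentiableOn_const 0)
      · refine (differentiableOn_const 0).prodMk (DifferentiableOn.const_smul (c := (2 : ℂ)) ?_)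
        refine ih (f := fun z => D a (f z)) (fun z hz => ?_) fun i y hy => diffOn_val_D hU hM hd a i hy
        have := norm_D_two a (f z)
        have := hM z hz
        have := norm_nonneg (D a (f z))
        linarith

end Crest.Agent.N207.CB.Cel
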