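import Crest.Agent.N207.L.Br1
import Crest.Agent.NLib.Ell.CKA2

/-! # N207/CB/E2b (helper71): smooth mode families with analytic weight; cell bounds -/

set_option autoImplicit false

open Metric Set Filter Topology
open Crest.Agent.NLib.Ell Crest.Agent.N207.J Crest.Agent.N207.L

noncomputable section

namespace Crest.Agent.N207.CB

section OneVar
variable {V : Type} [NormedAddCommGroup V] [NormedSpace ℝ V]

theorem hasDerivAt_iter {f : ℝ → V} {t : ℝ} {N j : ℕ} (h : ContDiffAt ℝ N f t) (hj : j < N) :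
    HasDerivAt (iteratedDeriv j f) (iteratedDeriv (j + 1) f t) t := by
  rw [iteratedDeriv_succ]
  exact ((h.differentiableAt_iteratedFDeriv (by exact_mod_cast hj)).continuousMultilinear_apply_const
    fun _ => 1).hasDerivAt

theorem continuousAt_iter {f : ℝ → V} {t : ℝ} {N j : ℕ} (h : ContDiffAt ℝ N f t) (hj : j ≤ N) :
    ContinuousAt (iteratedDeriv j f) t :=
  (continuous_eval_const (fun _ : Fin j => (1 : ℝ))).continuousAt.comp
    (h.continuousAt_iteratedFDeriv (by exact_mod_cast hj))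

theorem norm_iter_smul {β : ℝ → ℝ} {f : ℝ → V} {t B M : ℝ} {n : ℕ} (hβ : ContDiffAt ℝ n β t)
    (hf : ContDiffAt ℝ n f t) (hB : ∀ i ≤ n, |iteratedDeriv i β t| ≤ B)
    (hM : ∀ i ≤ n, ‖iteratedDeriv i f t‖ ≤ M) :
    ‖iteratedDeriv n (fun s => β s • f s) t‖ ≤ 2 ^ n * (B * M) := by
  have h := iteratedDerivWithin_smul (mem_univ t) uniqueDiffOn_univ hβ.contDiffWithinAt
    hf.contDiffWithinAt
  simp only [iteratedDerivWithin_univ] at h
  have hB0 : 0 ≤ B := (abs_nonneg _).trans (hB 0 (Nat.zero_le _))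
  calc _ = ‖iteratedDeriv n (β • f) t‖ := rfl
    _ ≤ ∑ i ∈ Finset.range (n + 1), (n.choose i : ℝ) * (B * M) := by
        rw [h]
        refine (norm_sum_le _ _).trans (Finset.sum_le_sum fun i hi => ?_)
        rw [← Nat.cast_smul_eq_nsmul ℝ, norm_smul, norm_smul, Real.norm_natCast, Real.norm_eq_abs]
        have hi' : i ≤ n := Nat.lt_succ_iff.1 (Finset.mem_range.1 hi)
        gcongr
        exacts [hB i hi', hM _ (Nat.sub_le _ _)]
    _ = _ := by rw [← Finset.sum_mul, ← Nat.cast_sum, Nat.sum_range_choose]; push_cast; ring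

end OneVar

section Hol
variable {V : Type} [NormedAddCommGroup V] [NormedSpace ℂ V] [CompleteSpace V]

theorem iter_hol {G : ℂ → V} {W : Set ℂ} (hW : IsOpen W) (hG : DifferentiableOn ℂ G W) (c : ℂ)
    (j : ℕ) {t : ℝ} (ht : c + t ∈ W) :
    iteratedDeriv j (fun s : ℝ => G (c + s)) t = iteratedDeriv j G (c + t) := by
  induction j generalizing t with
  | zero => simp
  | succ j ih =>
    have hc : Continuous fun s : ℝ => c + s := by fun_prop
    have e : iteratedDeriv j (fun s : ℝ => G (c + s)) =ᶠ[𝓝 t]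
        fun s : ℝ => iteratedDeriv j G (c + s) := by
      filter_upwards [hc.continuousAt.preimage_mem_nhds (hW.mem_nhds ht)] with s hs using ih hs
    have hd : HasDerivAt (iteratedDeriv j G) (iteratedDeriv (j + 1) G (c + t)) (c + t) := by
      rw [iteratedDeriv_succ]
      have h1 : ContDiffAt ℂ (j + 1 : ℕ) G (c + t) :=
        ((hG.analyticAt (hW.mem_nhds ht)).contDiffAt (n := (j + 1 : ℕ)))
      exact ((h1.differentiableAt_iteratedFDeriv (by exact_mod_cast Nat.lt_succ_self j)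
        ).continuousMultilinear_apply_const fun _ => 1).hasDerivAt
    have h2 : HasDerivAt (fun s : ℝ => c + s) 1 t := Complex.ofRealCLM.hasDerivAt.const_add c
    have h3 := (hd.hasFDerivAt.restrictScalars ℝ).comp_hasDerivAt t h2
    rw [iteratedDeriv_succ, e.deriv_eq]
    exact h3.deriv.trans (by simp)

/-- Cauchy estimates for a real function with a bounded holomorphic extension -/
theorem cauchy_real {G : ℂ → V} {z0 : ℂ} {r M : ℝ} (hr : 0 < r)
    (hG : DifferentiableOn ℂ G (ball z0 (2 * r))) (hM : ∀ z ∈ ball z0 (2 * r), ‖G z‖ ≤ M)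
    {f : ℝ → V} {t : ℝ} (e : f =ᶠ[𝓝 t] fun s : ℝ => G (z0 - t + s)) (N : ℕ) :
    ContDiffAt ℝ N f t ∧ ∀ j, ‖iteratedDeriv j f t‖ ≤ j.factorial * M / r ^ j := by
  have hz : z0 - t + t ∈ ball z0 (2 * r) := by simp; positivity
  refine ⟨ContDiffAt.congr_of_eventuallyEq ?_ e, fun j => ?_⟩
  · have h1 : ContDiffAt ℂ N G (z0 - t + t) :=
      (hG.analyticAt (isOpen_ball.mem_nhds hz)).contDiffAt
    exact (h1.restrict_scalars ℝ).comp t
      (contDiffAt_const.add Complex.ofRealCLM.contDiff.contDiffAt)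
  · rw [e.iteratedDeriv_eq, iter_hol isOpen_ball hG _ j hz, sub_add_cancel]
    have hs : closedBall z0 r ⊆ ball z0 (2 * r) := closedBall_subset_ball (by linarith)
    exact Complex.norm_iteratedDeriv_le_of_forall_mem_sphere_norm_le j hr
      (hG.diffContOnCl_ball hs) fun z hz => hM z (hs (sphere_subset_closedBall hz))

end Hol

/-- `C^N` mode families with the analytic weight `o ^ k` -/
structure Sm (I : Set ℝ) (N : ℕ) (o M : ℝ) (f : Md) : Prop where
  mode : ∀ k x, P k (f k x) = f k x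
  cd : ∀ k, ∀ t ∈ I, ContDiffAt ℝ N (f k) t
  bd : ∀ k, ∀ j ≤ N, ∀ t ∈ I, ‖iteratedDeriv j (f k) t‖ ≤ M * o ^ k

variable {I : Set ℝ} {N : ℕ} {o M : ℝ} {f : Md}

/-- multiplication by a cut-off supported in `I` -/
theorem Sm.cut (h : Sm I N o M f) (ho : 0 ≤ o) (hM : 0 ≤ M) {β : ℝ → ℝ} {B : ℝ}
    (hβ : ContDiff ℝ N β) (hB : ∀ i ≤ N, ∀ t, |iteratedDeriv i β t| ≤ B) (hs : tsupport β ⊆ I) :
    Sm univ N o (2 ^ N * (B * M)) fun k t => β t • f k t := by
  have hB0 : 0 ≤ B := (abs_nonneg _).trans (hB 0 (Nat.zero_le _) 0)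
  have e0 : ∀ k t, t ∉ I → (fun t => β t • f k t) =ᶠ[𝓝 t] fun _ => 0 := fun k t ht => by
    filter_upwards [notMem_tsupport_iff_eventuallyEq.1 fun h' => ht (hs h')] with s hs
    rw [hs]; simp
  refine ⟨fun k x => by rw [ContinuousLinearMap.map_smul_of_tower, h.mode], fun k t _ => ?_,
    fun k j hj t _ => ?_⟩
  · by_cases ht : t ∈ I
    · exact hβ.contDiffAt.smul (h.cd k t ht)
    · exact contDiffAt_const.congr_of_eventuallyEq (e0 k t ht)
  · by_cases ht : t ∈ I
    · have hj' : (j : WithTop ℕ∞) ≤ N := by exact_mod_cast hj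
      refine (norm_iter_smul (hβ.contDiffAt.of_le hj') ((h.cd k t ht).of_le hj')
        (fun i hi => hB i (hi.trans hj) t) fun i hi => h.bd k i (hi.trans hj) t ht).trans ?_
      calc _ = 2 ^ j * (B * M) * o ^ k := by ring
        _ ≤ _ := by gcongr; norm_num
    · rw [(e0 k t ht).iteratedDeriv_eq, iteratedDeriv_const]
      split_ifs <;> simp <;> positivity

theorem Sm.shift (h : Sm I N o M f) (c : ℝ) :
    Sm ((· - c) ⁻¹' I) N o M fun k t => f k (t - c) :=
  ⟨fun k x => h.mode k _, fun k t ht => (h.cd k _ ht).comp t (contDiffAt_id.sub contDiffAt_const),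
    fun k j hj t ht => by rw [iteratedDeriv_comp_sub_const]; exact h.bd k j hj _ ht⟩

theorem Sm.P_iter (h : Sm I N o M f) (hI : IsOpen I) (k : ℕ) {j : ℕ} (hj : j ≤ N) {t : ℝ}
    (ht : t ∈ I) : P k (iteratedDeriv j (f k) t) = iteratedDeriv j (f k) t := by
  induction j generalizing t with
  | zero => simpa using h.mode k t
  | succ j ih =>
    have h1 := hasDerivAt_iter (h.cd k t ht) (Nat.lt_of_succ_le hj)
    have h2 := ((P k).restrictScalars ℝ).hasFDerivAt.comp_hasDerivAt t h1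
    refine (h2.congr_of_eventuallyEq ?_).unique h1
    filter_upwards [hI.mem_nhds ht] with s hs
    exact (ih (Nat.le_of_succ_le hj) hs).symm

/-- `∑ (k+1)^n o^k` -/
def cS (n : ℕ) (o : ℝ) : ℝ := ∑' k : ℕ, ((k : ℝ) + 1) ^ n * o ^ k

theorem summable_cS (n : ℕ) (h0 : 0 < o) (h1 : o < 1) :
    Summable fun k : ℕ => ((k : ℝ) + 1) ^ n * o ^ k := by
  have := (summable_nat_add_iff 1).2
    (summable_pow_mul_geometric_of_norm_lt_one n (r := o) (by rwa [Real.norm_of_nonneg h0.le]))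
  refine (this.mul_left o⁻¹).congr fun k => ?_
  push_cast
  field_simp
  ring

theorem cS_nonneg (n : ℕ) (h0 : 0 ≤ o) : 0 ≤ cS n o := tsum_nonneg fun k => by positivity

theorem Sm.mb (h : Sm I N o M f) (hI : IsOpen I) (h0 : 0 < o) (h1 : o < 1) (hM : 0 ≤ M) {j : ℕ}
    (hj : j ≤ N) (n : ℕ) : Mb I n (cS n o * M) fun k => iteratedDeriv j (f k) :=
  ⟨fun k _ hx => h.P_iter hI k hj hx, fun k => ((k : ℝ) + 1) ^ n * o ^ k * M,
    (summable_cS n h0 h1).mul_right M, by rw [tsum_mul_right]; rfl, fun k => by positivity,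
    fun k x hx => by
      calc _ ≤ ((k : ℝ) + 1) ^ n * (M * o ^ k) := by gcongr; exact h.bd k j hj x hx
        _ = _ := by ring⟩

theorem Sm.ch (h : Sm I N o M f) (hI : IsOpen I) (h0 : 0 < o) (h1 : o < 1) (hM : 0 ≤ M) :
    Ch I N (cS (N + 2) o * M) fun j => val fun k => iteratedDeriv j (f k) := by
  have hv : ∀ j ≤ N, ∀ k, ∀ t ∈ I, P k (toH (val (fun k => iteratedDeriv j (f k)) t)) =
      iteratedDeriv j (f k) t := fun j hj k t ht => (h.mb hI h0 h1 hM hj (0 + 2)).P_val ht k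
  refine Ch.of_modes hI (fun j hj => (h.mb hI h0 h1 hM hj (N + 2)).ub.le (by omega))
    (fun k => ContinuousOn.congr (fun t ht =>
      (continuousAt_iter (h.cd k t ht) le_rfl).continuousWithinAt) fun t ht => hv N le_rfl k t ht)
    fun j hj k t ht => ?_
  rw [hv (j + 1) hj k t ht]
  refine (hasDerivAt_iter (h.cd k t ht) hj).congr_of_eventuallyEq ?_
  filter_upwards [hI.mem_nhds ht] with s hs using hv j hj.le k s hs

/-- `∑_{j ≤ n} cB j 0` -/
def cB' (n : ℕ) : ℝ := ∑ j ∈ Finset.range (n + 1), cB j 0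

theorem cB_le {j n : ℕ} (h : j ≤ n) : cB j 0 ≤ cB' n :=
  Finset.single_le_sum (f := fun j => cB j 0) (fun i _ => (cB_pos i 0).le)
    (Finset.mem_range.2 (Nat.lt_succ_of_le h))

theorem cB'_pos (n : ℕ) : 0 < cB' n := (cB_pos 0 0).trans_le (cB_le (Nat.zero_le n))

/-- scale invariant derivative bounds give bounds on the cells `B(c, ρ)`, `2ρ ≤ ‖c‖` -/
theorem cka_cell {U : E4 → ℂ} {k : ℕ} {M : ℝ}
    (hU : ContDiffOn ℝ (k + 1 : ℕ) U {x | x ≠ 0})
    (hb : ∀ j ≤ k + 1, ∀ x : E4, x ≠ 0 → ‖x‖ ^ j * ‖iteratedFDeriv ℝ j U x‖ ≤ M)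
    {c : E4} {ρ : ℝ} (h0 : 0 < ρ) (hρ : 2 * ρ ≤ ‖c‖) :
    CKA (1 / 2) (ball 0 1) k (2 * M) fun y => U (c + ρ • y) := by
  have hn : ∀ y ∈ ball (0 : E4) 1, ρ ≤ ‖c + ρ • y‖ := fun y hy => by
    have h1 : ‖ρ • y‖ ≤ ρ := by
      rw [norm_smul, Real.norm_of_nonneg h0.le]
      exact mul_le_of_le_one_right h0.le (mem_ball_zero_iff.1 hy).le
    have := norm_sub_norm_le c (-(ρ • y))
    rw [sub_neg_eq_add, norm_neg] at this
    linarith
  have hne : ∀ y ∈ ball (0 : E4) 1, c + ρ • y ≠ 0 := fun y hy =>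
    norm_pos_iff.1 (h0.trans_le (hn y hy))
  have hA : ContDiff ℝ (k + 1 : ℕ) fun y : E4 => c + ρ • y := by fun_prop
  refine CKA.of_bounds isOpen_ball (convex_ball _ _) (by norm_num) (by norm_num)
    (hU.comp hA.contDiffOn hne) fun j hj y hy => ?_
  have hat : ContDiffAt ℝ (k + 1 : ℕ) U (c + ρ • y) :=
    hU.contDiffAt (isOpen_ne.mem_nhds (hne y hy))
  let L : E4 →L[ℝ] E4 := ρ • ContinuousLinearMap.id ℝ E4
  have hL : ‖L‖ ≤ ρ := by
    refine ContinuousLinearMap.opNorm_le_bound _ h0.le fun y => ?_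
    simp [L, norm_smul, abs_of_pos h0]
  have e : (fun y => U (c + ρ • y)) = (fun z => U (c + z)) ∘ L := rfl
  have h1 : ContDiffAt ℝ (k + 1 : ℕ) (fun z => U (c + z)) (L y) :=
    hat.comp (L y) (contDiffAt_const.add contDiffAt_id)
  have h2 : iteratedFDeriv ℝ j ((fun z => U (c + z)) ∘ L) y =
      (iteratedFDeriv ℝ j (fun z => U (c + z)) (L y)).compContinuousLinearMap fun _ => L := by
    obtain ⟨s, hs, hs'⟩ := h1.contDiffOn (m := j) (by exact_mod_cast hj) (by simp)
    obtain ⟨t, hts, ht, hy'⟩ := _root_.mem_nhds_iff.1 hs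
    have ht' : IsOpen (L ⁻¹' t) := ht.preimage L.continuous
    rw [← iteratedFDerivWithin_of_isOpen j ht' hy', ← iteratedFDerivWithin_of_isOpen j ht hy']
    exact L.iteratedFDerivWithin_comp_right (hs'.mono hts) ht.uniqueDiffOn ht'.uniqueDiffOn hy'
      le_rfl
  rw [e, h2, iteratedFDeriv_comp_add_left]
  refine (ContinuousMultilinearMap.norm_compContinuousLinearMap_le _ _).trans ?_
  rw [Finset.prod_const, Finset.card_univ, Fintype.card_fin, mul_comm]
  refine le_trans ?_ (hb j hj _ (hne y hy))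
  exact mul_le_mul (pow_le_pow_left₀ (norm_nonneg _) (hL.trans (hn y hy)) j) le_rfl
    (norm_nonneg _) (by positivity)

/-- the cell bound of the function of a smooth family on the whole line -/
theorem Sm.cka {k : ℕ} (h : Sm univ (k + 1) o M f) (h0 : 0 < o) (h1 : o < 1) (hM : 0 ≤ M)
    {c : E4} {ρ : ℝ} (hρ0 : 0 < ρ) (hρ : 2 * ρ ≤ ‖c‖) :
    CKA (1 / 2) (ball 0 1) k (2 * (cB' (k + 1) * (cS (k + 3) o * M)))
      fun y => ann (val f) (c + ρ • y) := by
  have hc := h.ch isOpen_univ h0 h1 hM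
  have e : An univ = {x : E4 | x ≠ 0} := by ext x; simp [An]
  have h2 := hc.contDiffOn isOpen_univ
  rw [e] at h2
  simp only [iteratedDeriv_zero] at h2
  refine cka_cell h2 (fun j hj x hx => ?_) hρ0 hρ
  have h3 := hc.bound isOpen_univ hj (x := x) (by rw [e]; exact hx)
  simp only [iteratedDeriv_zero] at h3
  have := cS_nonneg (k + 3) h0.le
  exact h3.trans (mul_le_mul_of_nonneg_right (cB_le hj) (by positivity))

end Crest.Agent.N207.CB
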