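import Crest.Agent.N207.L.Pc3
import Crest.Agent.N207.L.Inst2
import Crest.Agent.N207.L.Nk0

/-! # N207/CB/E2c (helper71): the collar family for real `z` is a reparametrisation -/

set_option autoImplicit false
set_option linter.unusedSectionVars false

open Metric Set Filter Topology
open Crest.Agent.N207.J

noncomputable section

namespace Crest.Agent.N207.L

/-! ### explicit free solutions -/

namespace Pth.Ok
variable {γ : Pth} {C o : ℝ}

theorem tw_AA (h : γ.Ok C o) (ho : 0 < o) (m : ℂ) (k : ℕ) (x y : ℝ) :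
    γ.tw 1 k x * (γ.Aw m k x / γ.Aw m k y) = Complex.exp (m * (γ.t x - γ.t y)) * γ.tw 1 k y := by
  have h1 := h.tw_ne ho 1 k x
  have h2 := h.tw_ne ho 1 k y
  have h3 := Complex.exp_ne_zero (m * γ.t y)
  rw [mul_sub, Complex.exp_sub, Aw, Aw]
  field_simp

theorem tru_EM (h : γ.Ok C o) (ho : 0 < o) (A : D) (k : ℕ) (x : ℝ) :
    tru 6 γ.w γ.om (γ.EM A) k x = Complex.exp (-(k + 2) * (γ.t x - γ.t γ.a)) •
      ((γ.w γ.a : ℂ) • trD (γ.om γ.a) A k) := by
  rw [smul_trD, tru_sol, h.EM_apply ho, h.em_apply ho, map_smul, smul_comm (γ.tw 1 k x),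
    smul_smul (γ.tw 1 k x), h.tw_AA ho, smul_smul, smul_smul, smul_smul]
  congr 1; ring

theorem tru_EP (h : γ.Ok C o) (ho : 0 < o) (hf : γ.fin = true) (B : D) (k : ℕ) (x : ℝ) :
    tru 6 γ.w γ.om (γ.EP B) k x = Complex.exp (k * (γ.t x - γ.t (γ.pt k))) •
      ((γ.w (γ.pt k) : ℂ) • trD (γ.om (γ.pt k)) B k) := by
  rw [smul_trD, tru_sol, h.EP_apply ho, h.ep_apply ho hf, map_smul, smul_comm (γ.tw 1 k x),
    smul_smul (γ.tw 1 k x), h.tw_AA ho, smul_smul, smul_smul, smul_smul]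
  congr 1; ring

end Pth.Ok

/-! ### the real reparametrisation -/

def cφ (a z x : ℝ) : ℝ :=
  cl a (a + 3) x + z * ((cl a (a + 1) x - a) - (cl (a + 2) (a + 3) x - (a + 2)))

def cφ' (a z x : ℝ) : ℝ := ind a (a + 3) x + z * (ind a (a + 1) x - ind (a + 2) (a + 3) x)

variable {a z : ℝ}

lemma colt_real (a z x : ℝ) : colt a z x = cφ a z x := by simp [colt, cφ]

lemma colτ_real (a z x : ℝ) : colτ a z x = cφ' a z x := by simp [colτ, cφ']

lemma cφ_cont (a z : ℝ) : Continuous (cφ a z) := by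
  have := cl_cont a (a + 3)
  have := cl_cont a (a + 1)
  have := cl_cont (a + 2) (a + 3)
  unfold cφ; fun_prop

lemma cφ_der (a z x : ℝ) : HasDerivWithinAt (cφ a z) (cφ' a z x) (Ici x) x :=
  (cl_der' (by linarith) x).add ((((cl_der' (by linarith) x).sub_const a).sub
    ((cl_der' (by linarith) x).sub_const (a + 2))).const_mul z)

lemma cφ_inc (hz : |z| ≤ 1 / 2) {r s : ℝ} (h : r ≤ s) :
    1 / 2 * (cl a (a + 3) s - cl a (a + 3) r) ≤ cφ a z s - cφ a z r := by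
  have := colt_inc (a := a) (z := z) (by simpa using hz) h
  rwa [colt_real, colt_real, ← Complex.ofReal_sub, Complex.ofReal_re] at this

lemma cφ_mono (hz : |z| ≤ 1 / 2) : Monotone (cφ a z) := fun r s h => by
  have := cφ_inc (a := a) hz h
  have := cl_mono a (a + 3) h
  linarith

lemma cφ_left (a z : ℝ) : cφ a z a = a := by
  have := colt_left a z
  rw [colt_real] at this; exact_mod_cast this

lemma cφ_right (a z : ℝ) : cφ a z (a + 3) = a + 3 := by
  have := colt_right a z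
  rw [colt_real] at this; exact_mod_cast this

lemma cφ_mid {x : ℝ} (z : ℝ) (h1 : a + 1 ≤ x) (h2 : x ≤ a + 2) : cφ a z x = x + z := by
  have := colt_mid (z : ℂ) h1 h2
  rw [colt_real] at this; exact_mod_cast this

lemma cφ_cl (a z x : ℝ) : cφ a z (cl a (a + 3) x) = cφ a z x := by
  rw [cφ, cφ, cl_cl le_rfl (by linarith) le_rfl, cl_cl le_rfl (by linarith) (by linarith),
    cl_cl (by linarith) (by linarith) le_rfl]

lemma cφ_mem (hz : |z| ≤ 1 / 2) (x : ℝ) : a ≤ cφ a z x ∧ cφ a z x ≤ a + 3 := by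
  rw [← cφ_cl]
  exact ⟨(cφ_left a z).symm.trans_le (cφ_mono hz (le_cl _ _ _)),
    (cφ_mono hz (cl_le (by linarith) _)).trans_eq (cφ_right a z)⟩

lemma cφ_ind (hz : |z| ≤ 1 / 2) (x : ℝ) :
    colτ a z x = (cφ' a z x : ℂ) * (ind a (a + 3) (cφ a z x) : ℝ) := by
  rcases ind_cases a (a + 3) x with ⟨h1, h2, _⟩ | ⟨_, h⟩
  · have h3 := cφ_inc (a := a) hz h2.le
    rw [cφ_right, cl_of_mem h1 h2.le, cl_of_ge (by linarith) le_rfl] at h3
    rw [ind_of_mem (cφ_mem hz x).1 (by linarith), colτ_real]; simp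
  · rcases colτ_cases a z x with ⟨_, h'⟩ | ⟨h', _⟩
    · rw [← colτ_real, h']; simp
    · rw [h] at h'; norm_num at h'

lemma omL_cφ {κ : ℝ} (hκ : 0 ≤ κ) (h0 : 0 ≤ z) (hz : z ≤ 1 / 2) (x : ℝ) :
    omL a κ (cφ a z x) ≤ omL a κ x := by
  have hz' : |z| ≤ 1 / 2 := by rwa [abs_of_nonneg h0]
  have h1 : cl a (a + 1) x ≤ cφ a z x := by
    rcases le_total x (a + 1) with h | h
    · have e : cl a (a + 3) x = cl a (a + 1) x := by
        unfold cl; rw [min_eq_left h, min_eq_left (by linarith)]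
      rw [cφ, e, cl_of_le (show x ≤ a + 2 by linarith)]
      have := le_cl a (a + 1) x
      nlinarith
    · have := cφ_mono (a := a) hz' h
      rw [cφ_mid z le_rfl (by linarith)] at this
      rw [cl_of_ge (by linarith) h]; linarith
  have h2 := cl_mono a (a + 1) h1
  rw [cl_cl le_rfl (by linarith) le_rfl] at h2
  exact Real.exp_le_exp.2 (by nlinarith)

lemma omR_cφ {κ : ℝ} (hκ : 0 ≤ κ) (h0 : z ≤ 0) (hz : -(1 / 2) ≤ z) (x : ℝ) :
    omR (a + 3) κ (cφ a z x) ≤ omR (a + 3) κ x := by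
  have hz' : |z| ≤ 1 / 2 := abs_le.2 ⟨hz, by linarith⟩
  have h1 : cφ a z x ≤ cl (a + 2) (a + 3) x := by
    rcases le_total (a + 2) x with h | h
    · have e : cl a (a + 3) x = cl (a + 2) (a + 3) x := by
        unfold cl
        rw [max_eq_right (le_min (by linarith) (by linarith)), max_eq_right (le_min h (by linarith))]
      rw [cφ, e, cl_of_ge (show a ≤ a + 1 by linarith) (by linarith)]
      have := cl_le (show a + 2 ≤ a + 3 by linarith) x
      nlinarith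
    · have := cφ_mono (a := a) hz' h
      rw [cφ_mid (x := a + 2) z (by linarith) le_rfl] at this
      rw [cl_of_le h]; linarith
  have h2 := cl_mono (a + 2) (a + 3) h1
  rw [cl_cl le_rfl (by linarith) le_rfl] at h2
  unfold omR
  rw [show a + 3 - 1 = a + 2 by ring]
  exact Real.exp_le_exp.2 (by nlinarith)

/-- a collar with analytic weight `o1` in the middle; `s = ± 1/8` is the admissible direction -/
structure Col (a xs : ℝ) (om : ℝ → ℝ) (C o o1 s : ℝ) : Prop where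
  fam : (str a (a + 3) xs 1 0 om).Fam (colt a) (colτ a) (ball 0 (1 / 2)) C o
  op : 0 < o
  xs : xs = a ∨ xs = a + 3
  hs : |s| = 1 / 8
  mid : ∀ x, a + 1 ≤ x → x ≤ a + 2 → om x = o1
  lt : o1 < 1
  le : ∀ z : ℝ, |z - s| < 1 / 8 → ∀ x, om (cφ a z x) ≤ om x

theorem col_L (a : ℝ) {κ C : ℝ} (h0 : 0 < κ) (h1 : κ ≤ 1 / 8) (hC : 9 ≤ C) :
    Col a (a + 3) (omL a κ) C (Real.exp (-κ)) (Real.exp (-κ)) (1 / 8) := by
  obtain ⟨p1, p2, p3, p4, p5⟩ := omL_props (a := a) (b := a + 3) (by linarith) h0.le h1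
  refine ⟨fam_col (by linarith) le_rfl one_pos le_rfl (Or.inl (by norm_num)) (by simp) (by simp) hC
    p1 p2 p3 (Real.exp_pos _).le p4 p5, Real.exp_pos _, Or.inr rfl, by norm_num,
    fun x h2 _ => ?_, Real.exp_lt_one_iff.2 (by linarith), fun z hz x => ?_⟩
  · rw [omL, cl_of_ge (by linarith) h2]; congr 1; ring
  · have := abs_lt.1 hz
    exact omL_cφ h0.le (by linarith) (by linarith) x

theorem col_R (a : ℝ) {κ C : ℝ} (h0 : 0 < κ) (h1 : κ ≤ 1 / 8) (hC : 9 ≤ C) :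
    Col a a (omR (a + 3) κ) C (Real.exp (-κ)) (Real.exp (-κ)) (-(1 / 8)) := by
  obtain ⟨p1, p2, p3, p4, p5⟩ := omR_props (a := a) (b := a + 3) (by linarith) h0.le h1
  refine ⟨fam_col le_rfl (by linarith) one_pos le_rfl (Or.inl (by norm_num)) (by simp) (by simp) hC
    p1 p2 p3 (Real.exp_pos _).le p4 p5, Real.exp_pos _, Or.inl rfl, by norm_num,
    fun x _ h2 => ?_, Real.exp_lt_one_iff.2 (by linarith), fun z hz x => ?_⟩
  · rw [omR, cl_of_le (by linarith)]; congr 1; ring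
  · have := abs_lt.1 hz
    exact omR_cφ h0.le (by linarith) (by linarith) x

variable {ι : Type} [Fintype ι]

/-- the solution minus the free solution with data `v0` -/
def dS (N : NL ι) (C o : ℝ) (γ : Pth) (v v0 : DD ι) : Tr ι := N.sol C o γ v - γ.L0 v0

/-- `p + q` -/
def uu (i : ι) : Tr ι →L[ℂ] CL :=
  ContinuousLinearMap.proj i ∘L ContinuousLinearMap.fst ℂ _ _ +
    ContinuousLinearMap.proj i ∘L ContinuousLinearMap.fst ℂ _ _ ∘L ContinuousLinearMap.snd ℂ _ _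

theorem uu_apply (i : ι) (S : Tr ι) : uu i S = S.1 i + S.2.1 i := rfl

theorem norm_uu (i : ι) (S : Tr ι) : ‖uu i S‖ ≤ 2 * ‖S‖ :=
  (norm_add_le (S.1 i) (S.2.1 i)).trans (by linarith [S.norm_p i, S.norm_q i])

theorem norm_dS {N : NL ι} {γ : Pth} {C o : ℝ} (h : γ.Ok C o) (ho : 0 < o) {v : DD ι}
    (hv : ‖v‖ ≤ N.eta C o) (v0 : DD ι) :
    ‖dS N C o γ v v0‖ ≤ ‖v - v0‖ + (8 * C + 1) * (N.K2 o * ‖v‖ ^ 2) := by
  rw [show dS N C o γ v v0 = γ.L0 (v - v0) + (N.sol C o γ v - γ.L0 v) by rw [dS, map_sub]; abel]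
  exact (norm_add_le _ _).trans (add_le_add (h.norm_L0 ho _) (NL.norm_sol_sub h ho hv))

theorem tru_uu_dS (N : NL ι) (C o : ℝ) (γ : Pth) (v v0 : DD ι) (i : ι) (k : ℕ) (x : ℝ) :
    tru 6 γ.w γ.om (uu i (dS N C o γ v v0)) k x =
      ((N.sol C o γ v).p γ i k x + (N.sol C o γ v).q γ i k x) -
        ((γ.L0 v0).p γ i k x + (γ.L0 v0).q γ i k x) := by
  rw [dS, map_sub, tru_sub]
  simp only [uu_apply, tru_add]
  rfl

namespace Col
variable {xs C o o1 s : ℝ} {om : ℝ → ℝ}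

theorem abs_le (h : Col a xs om C o o1 s) (hz : |z - s| < 1 / 8) : |z| < 1 / 2 := by
  have := abs_sub_abs_le_abs_sub z s
  rw [h.hs] at this; linarith

theorem pt (h : Col a xs om C o o1 s) (z : ℝ) (k : ℕ) :
    cφ a z ((str a (a + 3) xs 1 0 om).pt k) = (str a (a + 3) xs 1 0 om).pt k := by
  unfold Pth.pt
  split_ifs
  · rcases h.xs with e | e <;> simp only [str, e, cφ_left, cφ_right]
  · exact cφ_right a z

theorem reparam_sol (h : Col a xs om C o o1 s) (hz : |z - s| < 1 / 8) (N : NL ι) {v : DD ι}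
    (hv : 2 * ‖v‖ ≤ N.eta C o) {γ γ' : Pth} (hγ : γ = str a (a + 3) xs 1 0 om)
    (hγ' : γ' = γ.re (colt a z) (colτ a z)) :
    cmpV ((N.sol C o γ v).p γ) (cφ a z) = (N.sol C o γ' v).p γ' ∧
      cmpV ((N.sol C o γ v).q γ) (cφ a z) = (N.sol C o γ' v).q γ' := by
  have hz2 := h.abs_le hz
  have h0 : γ.Ok C o := hγ ▸ h.fam.base
  have h1 : γ'.Ok C o := by rw [hγ', hγ]; exact h.fam.ok z (by simpa using hz2)
  have hv' : ‖v‖ ≤ N.eta C o := by linarith [norm_nonneg v]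
  have hw : ∀ x, γ.w x = 1 := fun x => by simp [hγ, str]
  have hw' : γ'.w = γ.w := by rw [hγ']; rfl
  have ho' : γ'.om = γ.om := by rw [hγ']; rfl
  have hτ : ∀ x, γ'.τ x = cφ' a z x * γ.τ (cφ a z x) := fun x => by
    rw [hγ', hγ]; exact cφ_ind hz2.le x
  have hs := (NL.sol_sol h0 h.op hv').cmp (τ' := γ'.τ) (w' := γ'.w) (om' := γ'.om) (κ := 1)
    (η' := N.eta C o) (cφ_cont a z) (cφ_mono hz2.le) (cφ_der a z) hτ le_rfl
    (by linarith) (fun x => (h0.w0 x).le) (fun x => (h0.om0 h.op x).le)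
    (fun x => by rw [hw', hw, hw]; norm_num) (fun x => by rw [ho', hγ]; exact h.le z hz x)
  have hd := N.sol_dat h0 h.op v
  have ea : γ'.a = γ.a := by rw [hγ']; rfl
  have eb : γ'.b = γ.b := by rw [hγ']; rfl
  have ep : γ'.pt = γ.pt := by rw [hγ']; rfl
  have ea' : cφ a z γ.a = γ.a := by rw [hγ]; exact cφ_left a z
  have ep' : ∀ k, cφ a z (γ.pt k) = γ.pt k := by rw [hγ]; exact h.pt z
  have hf : γ.fin = true := by rw [hγ]; rfl
  obtain ⟨e1, e2, -⟩ := Sol.eq_sol h1 h.op hs le_rfl (v := v)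
    ⟨fun i k => by rw [ea, hw', ho', cmpV, cmpM, ea']; exact hd.hq i k,
    fun _ i k => by rw [ep, eb, hw', ho', cmpV, cmpM, ep']; exact hd.hp hf i k⟩ hv'
  exact ⟨e1, e2⟩

theorem reparam_lin (h : Col a xs om C o o1 s) (hz : |z - s| < 1 / 8) (v0 : DD ι)
    {γ γ' : Pth} (hγ : γ = str a (a + 3) xs 1 0 om) (hγ' : γ' = γ.re (colt a z) (colτ a z))
    (i : ι) (k : ℕ) (x : ℝ) : (γ'.L0 v0).p γ' i k x = (γ.L0 v0).p γ i k (cφ a z x) ∧
      (γ'.L0 v0).q γ' i k x = (γ.L0 v0).q γ i k (cφ a z x) := by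
  have hz2 := h.abs_le hz
  have h0 : γ.Ok C o := hγ ▸ h.fam.base
  have h1 : γ'.Ok C o := by rw [hγ', hγ]; exact h.fam.ok z (by simpa using hz2)
  have hw' : γ'.w = γ.w := by rw [hγ']; rfl
  have ho' : γ'.om = γ.om := by rw [hγ']; rfl
  have ea : γ'.a = γ.a := by rw [hγ']; rfl
  have ep : γ'.pt = γ.pt := by rw [hγ']; rfl
  have ea' : cφ a z γ.a = γ.a := by rw [hγ]; exact cφ_left a z
  have ep' : ∀ k, cφ a z (γ.pt k) = γ.pt k := by rw [hγ]; exact h.pt z
  have hf : γ.fin = true := by rw [hγ]; rfl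
  have hf' : γ'.fin = true := by rw [hγ']; exact hf
  have et : ∀ y, γ'.t y = γ.t (cφ a z y) := fun y => by
    rw [hγ', hγ]
    show colt a z y = (cl a (a + 3) (cφ a z y) : ℝ)
    rw [colt_real, cl_of_mem (cφ_mem hz2.le y).1 (cφ_mem hz2.le y).2]
  constructor
  · refine (h1.tru_EP h.op hf' (v0.2 i) k x).trans
      (Eq.trans ?_ (h0.tru_EP h.op hf (v0.2 i) k _).symm)
    rw [et, et, ep, ep', hw', ho']
  · refine (h1.tru_EM h.op (v0.1 i) k x).trans (Eq.trans ?_ (h0.tru_EM h.op (v0.1 i) k _).symm)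
    rw [et, et, ea, ea', hw', ho']

/-- for real admissible `z` the family is the reparametrised straight solution -/
theorem reparam (h : Col a xs om C o o1 s) (hz : |z - s| < 1 / 8) (N : NL ι) {v : DD ι}
    (hv : 2 * ‖v‖ ≤ N.eta C o) (v0 : DD ι) {γ γ' : Pth} (hγ : γ = str a (a + 3) xs 1 0 om)
    (hγ' : γ' = γ.re (colt a z) (colτ a z)) (i : ι) (k : ℕ) (x : ℝ) :
    tru 6 γ'.w γ'.om (uu i (dS N C o γ' v v0)) k x =
      tru 6 γ.w γ.om (uu i (dS N C o γ v v0)) k (cφ a z x) := by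
  obtain ⟨e1, e2⟩ := h.reparam_sol hz N hv hγ hγ'
  obtain ⟨e3, e4⟩ := h.reparam_lin hz v0 hγ hγ' i k x
  rw [tru_uu_dS, tru_uu_dS]
  exact congrArg₂ (· - ·) (congrArg₂ (· + ·) (congrFun (congrFun (congrFun e1.symm i) k) x)
    (congrFun (congrFun (congrFun e2.symm i) k) x)) (congrArg₂ (· + ·) e3 e4)

end Col

end Crest.Agent.N207.L
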