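import Crest.Agent.N207.CB.E2a
import Crest.Agent.N207.CB.E2b
import Crest.Agent.N207.CB.E2c
import Crest.Agent.N207.CB.St2

/-! # N207/CB/E2d (helper71): leaf E2, the collar input as a holomorphic map into cells -/

set_option autoImplicit false
set_option linter.unusedSectionVars false

open scoped ContDiff
open Metric Set Filter Topology
open Crest.Agent.NLib.Ell Crest.Agent.N207.J Crest.Agent.N207.CB
open Crest.GeometryTopology.CoordMetric

noncomputable section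

namespace Crest.Agent.N207.L

variable {ι : Type} [Fintype ι]

/-- the cut-off difference `β (log |x|) (u - lin v0)` -/
def EF (N : NL ι) (C o : ℝ) (γ : Pth) (β : ℝ → ℝ) (v v0 : DD ι) (i : ι) (x : E4) : ℂ :=
  β (Real.log ‖x‖) * (fn 0 ((N.sol C o γ v).p γ i) ((N.sol C o γ v).q γ i) x -
    fn 0 ((γ.L0 v0).p γ i) ((γ.L0 v0).q γ i) x)

theorem EF_zero (N : NL ι) (C o : ℝ) (γ : Pth) {β : ℝ → ℝ} (v v0 : DD ι) (i : ι) {x : E4}
    (h : β (Real.log ‖x‖) = 0) : EF N C o γ β v v0 i x = 0 := by simp [EF, h]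

theorem fn_eq_syn {γ : Pth} {o : ℝ} (hw : Wts γ.w γ.om o) (S : Tr ι) (i : ι) (c : ℝ) (x : E4) :
    fn c (S.p γ i) (S.q γ i) x = hw.bcf.syn1 6 (Real.log ‖x‖ - c) (uu i S) (prj x) := by
  rw [← hw.val_tru1 (by norm_num), fn, ann]
  congr 2
  funext k t
  rw [uu_apply, tru_add]; rfl

theorem EF_eq {γ : Pth} {o : ℝ} (hw : Wts γ.w γ.om o) (N : NL ι) (C : ℝ) (β : ℝ → ℝ)
    (v v0 : DD ι) (i : ι) (x : E4) : EF N C o γ β v v0 i x =
      β (Real.log ‖x‖) * hw.bcf.syn1 6 (Real.log ‖x‖) (uu i (dS N C o γ v v0)) (prj x) := by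
  rw [EF, fn_eq_syn hw, fn_eq_syn hw, sub_zero]
  simp only [dS, map_sub, ContinuousMap.sub_apply]

theorem EF_eq_ann {γ : Pth} {o : ℝ} (hw : Wts γ.w γ.om o) (N : NL ι) (C : ℝ) (β : ℝ → ℝ)
    (v v0 : DD ι) (i : ι) : EF N C o γ β v v0 i =
      ann (val fun k t => β t • tru 6 γ.w γ.om (uu i (dS N C o γ v v0)) k t) := by
  funext x
  rw [EF_eq hw, ← hw.val_tru1 (by norm_num), ann, val, val]
  simp only [ContinuousLinearMap.map_smul_of_tower]
  rw [tsum_const_smul'' (β (Real.log ‖x‖))]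
  simp

theorem exists_iter_bd {β : ℝ → ℝ} (hβ : ContDiff ℝ ∞ β) (hc : HasCompactSupport β) (n : ℕ) :
    ∃ B, 0 < B ∧ ∀ i ≤ n, ∀ t, |iteratedDeriv i β t| ≤ B := by
  have h : ∀ i : ℕ, ∃ B, ∀ t, |iteratedDeriv i β t| ≤ B := fun i => by
    obtain ⟨B, hB⟩ := (hβ.continuous_iteratedFDeriv (m := i) (by exact_mod_cast le_top)
      ).bounded_above_of_compact_support (hc.iteratedFDeriv i)
    exact ⟨B, fun t => by
      rw [← Real.norm_eq_abs, ← norm_iteratedFDeriv_eq_norm_iteratedDeriv]; exact hB t⟩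
  choose B hB using h
  have h0 : ∀ i, 0 ≤ B i := fun i => (abs_nonneg _).trans (hB i 0)
  refine ⟨∑ i ∈ Finset.range (n + 1), B i + 1, by
    have := Finset.sum_nonneg fun i (_ : i ∈ Finset.range (n + 1)) => h0 i
    linarith, fun i hi t => (hB i t).trans ?_⟩
  have := Finset.single_le_sum (f := B) (fun i _ => h0 i)
    (Finset.mem_range.2 (Nat.lt_succ_of_le hi))
  linarith

theorem exists_cel {Z I : Type} [NormedAddCommGroup Z] [NormedSpace ℂ Z] {U : Set Z}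
    (hU : IsOpen U) {k : ℕ} (E : Z → I → EE 4 → ℂ) (b : Z → ℝ) {M : ℝ} (hb : ∀ v ∈ U, 0 ≤ b v)
    (hM : ∀ v ∈ U, b v ≤ M) (ck : ∀ v ∈ U, ∀ i, CKA (1 / 2) B1 k (b v) (E v i))
    (hol : ∀ i, ∀ y ∈ B1, DifferentiableOn ℂ (fun v => E v i y) U) :
    ∃ Φ : Z → Cel I k, DifferentiableOn ℂ Φ U ∧ ∀ v ∈ U, ‖Φ v‖ ≤ 2 ^ (k + 1) * b v ∧
      ∀ i, ∀ y ∈ B1, (Φ v).val i y = E v i y := by
  classical
  let Φ : Z → Cel I k := fun v => if hv : v ∈ U then Cel.mk (E v) ⟨_, hb v hv, ck v hv⟩ else 0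
  have hval : ∀ v ∈ U, ∀ i, ∀ y ∈ B1, (Φ v).val i y = E v i y := fun v hv i y hy => by
    simp only [Φ, dif_pos hv]; exact Cel.val_mk _ _ i hy
  have hbd : ∀ v ∈ U, ‖Φ v‖ ≤ 2 ^ (k + 1) * b v := fun v hv =>
    Cel.norm_le' (hb v hv) (ck v hv) (hval v hv)
  exact ⟨Φ, Cel.diffOn hU (M := 2 ^ (k + 1) * M) (fun v hv => (hbd v hv).trans (by
    gcongr; exact hM v hv)) fun i y hy => (hol i y hy).congr fun v hv => hval v hv i y hy,
    fun v hv => ⟨hbd v hv, hval v hv⟩⟩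

/-- `X ↦ tru 6 g om X k x` -/
def truL (g om : ℝ → ℝ) (k : ℕ) (x : ℝ) : CL →L[ℂ] H :=
  ((g x * om x ^ k / wt (6 : ℕ) k : ℝ) : ℂ) • (P k ∘L BoundedContinuousFunction.evalCLM ℂ x ∘L
    lp.evalCLM ℂ (fun _ : ℕ => BH) 2 k)

theorem truL_apply (g om : ℝ → ℝ) (k : ℕ) (x : ℝ) (X : CL) : truL g om k x X = tru 6 g om X k x :=
  rfl

namespace Col
variable {a xs C o o1 s : ℝ} {om : ℝ → ℝ}

theorem o1_pos (h : Col a xs om C o o1 s) : 0 < o1 :=
  (h.fam.base.om0 h.op (a + 1)).trans_eq (h.mid _ le_rfl (by linarith))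

theorem hol (h : Col a xs om C o o1 s) (N : NL ι) {v : DD ι} (hv : ‖v‖ < N.eta C o)
    (v0 : DD ι) {γ : Pth} (hγ : γ = str a (a + 3) xs 1 0 om) :
    DifferentiableOn ℂ (fun z => dS N C o (γ.re (colt a z) (colτ a z)) v v0) (ball 0 (1 / 2)) := by
  have hf : γ.Fam (colt a) (colτ a) (ball 0 (1 / 2)) C o := hγ ▸ h.fam
  have h1 : DifferentiableOn ℂ (fun z => N.sol C o (γ.re (colt a z) (colτ a z)) v)
      (ball 0 (1 / 2)) := (hf.diff_sol h.op N).comp (f := fun z : ℂ => (z, v))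
    (differentiableOn_id.prodMk (differentiableOn_const v))
    fun z hz => ⟨hz, mem_ball_zero_iff.2 hv⟩
  have h2 : DifferentiableOn ℂ (fun z => (γ.re (colt a z) (colτ a z)).L0 v0) (ball 0 (1 / 2)) :=
    (hf.diff_L0 h.op).clm_apply (differentiableOn_const v0)
  exact h1.sub h2

theorem bd (h : Col a xs om C o o1 s) (N : NL ι) {v : DD ι} (hv : ‖v‖ < N.eta C o)
    (v0 : DD ι) {γ : Pth} (hγ : γ = str a (a + 3) xs 1 0 om) (i : ι) (k : ℕ) {x : ℝ}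
    (x1 : a + 1 ≤ x) (x2 : x ≤ a + 2) {z : ℂ} (hz : z ∈ ball (0 : ℂ) (1 / 2)) :
    ‖truL γ.w γ.om k x (uu i (dS N C o (γ.re (colt a z) (colτ a z)) v v0))‖ ≤
      2 * (‖v - v0‖ + (8 * C + 1) * (N.K2 o * ‖v‖ ^ 2)) * o1 ^ k := by
  have hf : γ.Fam (colt a) (colτ a) (ball 0 (1 / 2)) C o := hγ ▸ h.fam
  have hw : ∀ x, γ.w x = 1 := fun x => by simp [hγ, str]
  have hom : γ.om = om := by rw [hγ]; rfl
  have h0 := hf.base
  have h3 := norm_dS (hf.ok z hz) h.op hv.le v0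
  generalize dS N C o (γ.re (colt a z) (colτ a z)) v v0 = S at h3 ⊢
  have h2 := (h0.bd6 h.op (uu i S)).mode_le (fun x => (h0.w0 x).le)
    (fun x => (h0.om0 h.op x).le) k x
  rw [truL_apply]
  refine h2.trans ?_
  rw [hw, hom, h.mid _ x1 x2, one_mul]
  have := h.o1_pos
  have := norm_uu i S
  gcongr
  linarith

theorem loc (h : Col a xs om C o o1 s) (N : NL ι) {v : DD ι} (hv : 2 * ‖v‖ < N.eta C o)
    (v0 : DD ι) {γ : Pth} (hγ : γ = str a (a + 3) xs 1 0 om) (i : ι) (k : ℕ) {t r : ℝ}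
    (x1 : a + 1 ≤ t - s) (x2 : t - s ≤ a + 2) (hr : |r - t| < 1 / 8) :
    tru 6 γ.w γ.om (uu i (dS N C o γ v v0)) k r = truL γ.w γ.om k (t - s)
      (uu i (dS N C o (γ.re (colt a (s - t + r)) (colτ a (s - t + r))) v v0)) := by
  have h3 := h.reparam (z := s - t + r) (by rwa [show s - t + r - s = r - t by ring]) N hv.le v0
    hγ rfl i k (t - s)
  rw [cφ_mid _ x1 x2, show t - s + (s - t + r) = r by ring] at h3
  rw [show (s : ℂ) - t + r = ((s - t + r : ℝ) : ℂ) by push_cast; ring, truL_apply, ← h3]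
  rfl

/-- smoothness with analytic weight in the middle of the collar -/
theorem sm (h : Col a xs om C o o1 s) (N : NL ι) {v : DD ι} (hv : 2 * ‖v‖ < N.eta C o)
    (v0 : DD ι) {γ : Pth} (hγ : γ = str a (a + 3) xs 1 0 om) (i : ι) (n : ℕ) :
    Sm (Ioo (a + 1 + s) (a + 2 + s)) n o1 (n.factorial * 8 ^ n *
      (2 * (‖v - v0‖ + (8 * C + 1) * (N.K2 o * ‖v‖ ^ 2))))
      (tru 6 γ.w γ.om (uu i (dS N C o γ v v0))) := by
  have hv' : ‖v‖ < N.eta C o := by linarith [norm_nonneg v]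
  have ho1 := h.o1_pos
  have hM0 : 0 ≤ 2 * (‖v - v0‖ + (8 * C + 1) * (N.K2 o * ‖v‖ ^ 2)) := by
    have := h.fam.base.C0
    have := N.K2_pos (h.fam.base.wts h.op)
    positivity
  have hb : ball (s : ℂ) (2 * (1 / 8)) ⊆ ball 0 (1 / 2) := ball_subset_ball' (by
    rw [dist_zero_right, Complex.norm_real, Real.norm_eq_abs, h.hs]; norm_num)
  have key := fun (k : ℕ) (t : ℝ) (ht : t ∈ Ioo (a + 1 + s) (a + 2 + s)) =>
    cauchy_real (z0 := s) (r := 1 / 8) (G := fun z => truL γ.w γ.om k (t - s)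
      (uu i (dS N C o (γ.re (colt a z) (colτ a z)) v v0))) (by norm_num)
      (((truL γ.w γ.om k (t - s) ∘L uu i).differentiable.comp_differentiableOn
        (h.hol N hv' v0 hγ)).mono hb)
      (fun z hz => h.bd N hv' v0 hγ i k (by linarith [ht.1]) (by linarith [ht.2]) (hb hz))
      (f := tru 6 γ.w γ.om (uu i (dS N C o γ v v0)) k) (t := t) (by
        filter_upwards [ball_mem_nhds t (show (0 : ℝ) < 1 / 8 by norm_num)] with r hr
        exact h.loc N hv v0 hγ i k (by linarith [ht.1]) (by linarith [ht.2]) hr) n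
  generalize 2 * (‖v - v0‖ + (8 * C + 1) * (N.K2 o * ‖v‖ ^ 2)) = M at hM0 key ⊢
  generalize uu i (dS N C o γ v v0) = X at key ⊢
  refine ⟨fun k x => L.P_tru X k x, fun k t ht => (key k t ht).1, fun k j hj t ht =>
    ((key k t ht).2 j).trans ?_⟩
  rw [one_div, inv_pow, div_inv_eq_mul]
  have a1 : (j.factorial : ℝ) ≤ n.factorial := by exact_mod_cast Nat.factorial_le hj
  have a2 : (8 : ℝ) ^ j ≤ 8 ^ n := pow_le_pow_right₀ (by norm_num) hj
  calc _ = j.factorial * 8 ^ j * M * o1 ^ k := by ring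
    _ ≤ _ := by gcongr

theorem sm_cut (h : Col a xs om C o o1 s) {β : ℝ → ℝ} (hβ : ContDiff ℝ ∞ β)
    (hs : tsupport β ⊆ Ioo (a + 1 + s) (a + 2 + s)) (N : NL ι) {γ : Pth}
    (hγ : γ = str a (a + 3) xs 1 0 om) (n : ℕ) : ∃ K, 0 < K ∧ ∀ v v0 : DD ι,
      2 * ‖v‖ < N.eta C o → ∀ i, Sm univ n o1 (K * (‖v - v0‖ + ‖v‖ ^ 2))
        fun k t => β t • tru 6 γ.w γ.om (uu i (dS N C o γ v v0)) k t := by
  have hc : HasCompactSupport β := (isCompact_Icc (a := a + 1 + s) (b := a + 2 + s)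
    ).of_isClosed_subset (isClosed_tsupport β) (hs.trans Ioo_subset_Icc_self)
  have hC := h.fam.base.C0
  have hK2 := N.K2_pos (h.fam.base.wts h.op)
  have ho1 := h.o1_pos
  obtain ⟨B, hB0, hB⟩ := exists_iter_bd hβ hc n
  refine ⟨2 ^ n * (B * (n.factorial * 8 ^ n * (2 * (1 + (8 * C + 1) * N.K2 o)))),
    by positivity, fun v v0 hv i => ?_⟩
  have h1 := (h.sm N hv v0 hγ i n).cut ho1.le (by positivity)
    (hβ.of_le (by exact_mod_cast le_top)) hB hs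
  generalize uu i (dS N C o γ v v0) = X at h1 ⊢
  refine ⟨h1.mode, h1.cd, fun k j hj t ht => (h1.bd k j hj t ht).trans ?_⟩
  have e : ‖v - v0‖ + (8 * C + 1) * (N.K2 o * ‖v‖ ^ 2) ≤
      (1 + (8 * C + 1) * N.K2 o) * (‖v - v0‖ + ‖v‖ ^ 2) := by
    have : 0 ≤ (8 * C + 1) * N.K2 o * ‖v - v0‖ := by positivity
    nlinarith [sq_nonneg ‖v‖]
  calc _ ≤ 2 ^ n * (B * (n.factorial * 8 ^ n *
        (2 * ((1 + (8 * C + 1) * N.K2 o) * (‖v - v0‖ + ‖v‖ ^ 2))))) * o1 ^ k := by gcongr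
    _ = _ := by ring

theorem EF_smooth (h : Col a xs om C o o1 s) {β : ℝ → ℝ} (hβ : ContDiff ℝ ∞ β)
    (hs : tsupport β ⊆ Ioo (a + 1 + s) (a + 2 + s)) (N : NL ι) {γ : Pth}
    (hγ : γ = str a (a + 3) xs 1 0 om) {v : DD ι} (hv : 2 * ‖v‖ < N.eta C o) (v0 : DD ι) (i : ι) :
    ContDiffOn ℝ ∞ (EF N C o γ β v v0 i) {x | x ≠ 0} := contDiffOn_infty.2 fun n => by
  have h0 : γ.Ok C o := hγ ▸ h.fam.base
  obtain ⟨K1, hK1, h1⟩ := h.sm_cut hβ hs N hγ n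
  have h2 := ((h1 v v0 hv i).ch isOpen_univ h.o1_pos h.lt (by positivity)).contDiffOn isOpen_univ
  rw [show An univ = {x : E4 | x ≠ 0} by ext x; simp [An]] at h2
  rw [EF_eq_ann (h0.wts h.op)]
  simpa only [iteratedDeriv_zero] using h2

theorem EF_cka (h : Col a xs om C o o1 s) {β : ℝ → ℝ} (hβ : ContDiff ℝ ∞ β)
    (hs : tsupport β ⊆ Ioo (a + 1 + s) (a + 2 + s)) (N : NL ι) {γ : Pth}
    (hγ : γ = str a (a + 3) xs 1 0 om) (k : ℕ) : ∃ K, 0 ≤ K ∧ ∀ v v0 : DD ι,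
      2 * ‖v‖ < N.eta C o → ∀ i (x : J0), CKA (1 / 2) B1 k (K * (‖v - v0‖ + ‖v‖ ^ 2))
        fun y => EF N C o γ β v v0 i (x.1 + (‖x.1‖ / 8) • y) := by
  have h0 : γ.Ok C o := hγ ▸ h.fam.base
  obtain ⟨K, hK, hk⟩ := h.sm_cut hβ hs N hγ (k + 1)
  have hcS := cS_nonneg (k + 3) h.o1_pos.le
  have hcB := cB'_pos (k + 1)
  refine ⟨2 * (cB' (k + 1) * (cS (k + 3) o1 * K)), by positivity, fun v v0 hv i x => ?_⟩
  have hx := norm_pos_iff.2 x.2
  rw [EF_eq_ann (h0.wts h.op)]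
  exact ((hk v v0 hv i).cka h.o1_pos h.lt (by positivity) (by positivity) (by linarith)).mono
    (le_of_eq (by ring))

theorem EF_hol (h : Col a xs om C o o1 s) (β : ℝ → ℝ) (N : NL ι) (Q : DD ι →L[ℂ] DD ι) {γ : Pth}
    (hγ : γ = str a (a + 3) xs 1 0 om) (i : ι) (x : E4) :
    DifferentiableOn ℂ (fun v => EF N C o γ β v (Q v) i x) (ball 0 (N.eta C o)) := by
  have h0 : γ.Ok C o := hγ ▸ h.fam.base
  have hw := h0.wts h.op
  have h1 : DifferentiableOn ℂ (fun v => dS N C o γ v (Q v)) (ball 0 (N.eta C o)) :=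
    (h0.diff_sol h.op N).sub (γ.L0 ∘L Q).differentiable.differentiableOn
  simp only [EF_eq hw]
  exact ((ContinuousMap.evalCLM ℂ (prj x) ∘L hw.bcf.syn1 6 (Real.log ‖x‖) ∘L uu i
    ).differentiable.comp_differentiableOn h1).const_mul _

/-- **E2** -/
theorem e2 (h : Col a xs om C o o1 s) {β : ℝ → ℝ} (hβ : ContDiff ℝ ∞ β)
    (hs : tsupport β ⊆ Ioo (a + 1 + s) (a + 2 + s)) (k : ℕ) (N : NL ι) (Q : DD ι →L[ℂ] DD ι)
    {γ : Pth} (hγ : γ = str a (a + 3) xs 1 0 om) :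
    ∃ (K : ℝ) (Φ : DD ι → ι → Cel J0 k), 0 < K ∧
      DifferentiableOn ℂ Φ (ball 0 (N.eta C o / 2)) ∧ ∀ v ∈ ball (0 : DD ι) (N.eta C o / 2),
        ‖Φ v‖ ≤ K * (‖v - Q v‖ + ‖v‖ ^ 2) ∧ ∀ i,
          ContDiffOn ℝ ∞ (EF N C o γ β v (Q v) i) {x | x ≠ 0} ∧ ∀ (x : J0), ∀ y ∈ B1,
            (Φ v i).val x y = EF N C o γ β v (Q v) i (x.1 + (‖x.1‖ / 8) • y) := by
  have hv2 : ∀ v ∈ ball (0 : DD ι) (N.eta C o / 2), 2 * ‖v‖ < N.eta C o := fun v hv => by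
    linarith [mem_ball_zero_iff.1 hv]
  obtain ⟨K, hK, ck⟩ := h.EF_cka hβ hs N hγ k
  have hη := N.eta_pos h.fam.base h.op
  have key := fun i => exists_cel (U := ball (0 : DD ι) (N.eta C o / 2)) isOpen_ball (k := k)
    (fun v (x : J0) y => EF N C o γ β v (Q v) i (x.1 + (‖x.1‖ / 8) • y))
    (fun v => K * (‖v - Q v‖ + ‖v‖ ^ 2)) (M := K * ((1 + ‖Q‖) * N.eta C o + N.eta C o ^ 2))
    (fun v _ => by positivity) (fun v hv => by
      have h1 : ‖v‖ ≤ N.eta C o := by linarith [hv2 v hv, norm_nonneg v]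
      have h2 : ‖v - Q v‖ ≤ (1 + ‖Q‖) * ‖v‖ :=
        (norm_sub_le _ _).trans (by linarith [Q.le_opNorm v])
      have h3 : ‖v - Q v‖ ≤ (1 + ‖Q‖) * N.eta C o := h2.trans (by gcongr)
      gcongr)
    (fun v hv x => ck v (Q v) (hv2 v hv) i x)
    fun x y _ => (h.EF_hol β N Q hγ i _).mono (ball_subset_ball (by linarith))
  choose Φ h1 h2 using key
  refine ⟨2 ^ (k + 1) * K + 1, fun v i => Φ i v, by positivity, differentiableOn_pi.2 h1,
    fun v hv => ⟨(pi_norm_le_iff_of_nonneg (by positivity)).2 fun i => (h2 i v hv).1.trans ?_,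
      fun i => ⟨h.EF_smooth hβ hs N hγ (hv2 v hv) (Q v) i, (h2 i v hv).2⟩⟩⟩
  have : 0 ≤ ‖v - Q v‖ + ‖v‖ ^ 2 := by positivity
  nlinarith

end Col

/-! ### the cut-off of `XN` -/

/-- `stp 2.2 2.4 * (1 - stp 2.85 2.9)` in the collar coordinate `e * t` -/
def bcut (e t : ℝ) : ℝ := stp (22 / 10) (24 / 10) (e * t) * (1 - stp (285 / 100) (29 / 10) (e * t))

theorem contDiff_stp (a b : ℝ) : ContDiff ℝ ∞ (stp a b) :=
  Real.smoothTransition.contDiff.comp ((contDiff_id.sub contDiff_const).div_const _)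

theorem stp_zero {a b τ : ℝ} (h : a < b) (hτ : τ ≤ a) : stp a b τ = 0 :=
  Real.smoothTransition.zero_of_nonpos (div_nonpos_of_nonpos_of_nonneg (by linarith) (by linarith))

theorem stp_one {a b τ : ℝ} (h : a < b) (hτ : b ≤ τ) : stp a b τ = 1 :=
  Real.smoothTransition.one_of_one_le ((one_le_div (by linarith)).2 (by linarith))

theorem contDiff_bcut (e : ℝ) : ContDiff ℝ ∞ (bcut e) :=
  ((contDiff_stp _ _).comp (contDiff_const.mul contDiff_id)).mul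
    (contDiff_const.sub ((contDiff_stp _ _).comp (contDiff_const.mul contDiff_id)))

theorem bcut_zero {e t : ℝ} (h : e * t ≤ 22 / 10 ∨ 29 / 10 ≤ e * t) : bcut e t = 0 := by
  rcases h with h | h
  · rw [bcut, stp_zero (by norm_num) h, zero_mul]
  · rw [bcut, stp_one (a := 285 / 100) (by norm_num) h, sub_self, mul_zero]

theorem bcut_eq {e t : ℝ} (h : e * t ≤ 285 / 100) : bcut e t = stp (22 / 10) (24 / 10) (e * t) := by
  rw [bcut, stp_zero (a := 285 / 100) (by norm_num) h, sub_zero, mul_one]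

theorem tsupport_bcut (e : ℝ) : tsupport (bcut e) ⊆ {t | 22 / 10 ≤ e * t ∧ e * t ≤ 29 / 10} := by
  have hc : Continuous fun t : ℝ => e * t := by fun_prop
  refine closure_minimal (fun t ht => ?_) (isClosed_Icc.preimage hc)
  by_contra hn
  refine ht (bcut_zero ?_)
  simp only [mem_ofPred_eq, not_and_or, not_le] at hn
  exact hn.imp le_of_lt le_of_lt

theorem supp_bcut_L : tsupport (bcut 1) ⊆ Ioo ((1 : ℝ) + 1 + 1 / 8) (1 + 2 + 1 / 8) :=
  fun t ht => by have := tsupport_bcut 1 ht; constructor <;> linarith [this.1, this.2]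

theorem supp_bcut_R : tsupport (bcut (-1)) ⊆ Ioo ((-4 : ℝ) + 1 + -(1 / 8)) (-4 + 2 + -(1 / 8)) :=
  fun t ht => by have := tsupport_bcut (-1) ht; constructor <;> linarith [this.1, this.2]

/-- a smooth complex field supported in the window -/
theorem cpx_of {k : ℕ} {e : ℝ} {W : MJ k} (f : Fin 4 → Fin 4 → E4 → ℂ)
    (h1 : ∀ a b, ContDiffOn ℝ ∞ (f a b) {x | x ≠ 0})
    (h2 : ∀ x : E4, e * Real.log ‖x‖ ≤ 22 / 10 ∨ 29 / 10 ≤ e * Real.log ‖x‖ → ∀ a b, f a b x = 0)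
    (h3 : ∀ (x : J0) a b, ∀ y ∈ B1, (W a b).val x y = f a b (x.1 + (‖x.1‖ / 8) • y)) : Cpx e W := by
  refine ⟨fun x => Matrix.of fun a b => (f a b x).re, fun x => Matrix.of fun a b => (f a b x).im,
    fun a b => ⟨Complex.reCLM.contDiff.comp_contDiffOn (h1 a b),
      Complex.imCLM.contDiff.comp_contDiffOn (h1 a b)⟩, fun x hx => ?_, fun x a b y hy => ?_⟩
  · constructor <;> ext a b <;> simp [h2 x hx]
  · rw [h3 x a b y hy]
    simp [cf, mul_comm Complex.I]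

end Crest.Agent.N207.L
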