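import Crest.Agent.N207.CB.E2d

/-! # N207/CB/E2e (helper71): E2 in matrix form -/

set_option autoImplicit false

open scoped ContDiff
open Metric Set Filter Topology
open Crest.Agent.NLib.Ell Crest.Agent.N207.J Crest.Agent.N207.CB

noncomputable section

namespace Crest.Agent.N207.L

variable {ι : Type} [Fintype ι] {a xs C o o1 s : ℝ} {om : ℝ → ℝ}

/-- **E2**, matrix form; `j` = the matrix components -/
theorem Col.e2M (h : Col a xs om C o o1 s) {e : ℝ}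
    (hs : tsupport (bcut e) ⊆ Ioo (a + 1 + s) (a + 2 + s)) (k : ℕ) (N : NL ι)
    (j : Fin 4 × Fin 4 → ι) (Q : DD ι →L[ℂ] DD ι) {γ : Pth} (hγ : γ = str a (a + 3) xs 1 0 om) :
    ∃ (K : ℝ) (B : DD ι → MJ k), 0 < K ∧ DifferentiableOn ℂ B (ball 0 (N.eta C o / 2)) ∧
      ∀ v ∈ ball (0 : DD ι) (N.eta C o / 2), ‖B v‖ ≤ K * (‖v - Q v‖ + ‖v‖ ^ 2) ∧ Cpx e (B v) ∧
        (∀ i, ContDiffOn ℝ ∞ (EF N C o γ (bcut e) v (Q v) i) {x | x ≠ 0}) ∧
        ∀ (x : J0) p q, ∀ y ∈ B1, (B v p q).val x y =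
          EF N C o γ (bcut e) v (Q v) (j (p, q)) (x.1 + (‖x.1‖ / 8) • y) := by
  obtain ⟨K, Φ, hK, hd, hΦ⟩ := h.e2 (contDiff_bcut e) hs k N Q hγ
  refine ⟨K, fun v p q => Φ v (j (p, q)), hK, differentiableOn_pi.2 fun p => differentiableOn_pi.2
    fun q => differentiableOn_pi.1 hd (j (p, q)), fun v hv => ?_⟩
  obtain ⟨h1, h2⟩ := hΦ v hv
  have h0 : 0 ≤ K * (‖v - Q v‖ + ‖v‖ ^ 2) := by positivity
  exact ⟨(pi_norm_le_iff_of_nonneg h0).2 fun p => (pi_norm_le_iff_of_nonneg h0).2 fun q =>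
    (norm_le_pi_norm _ _).trans h1,
    cpx_of (fun p q => EF N C o γ (bcut e) v (Q v) (j (p, q))) (fun p q => (h2 _).1)
      (fun x hx p q => EF_zero _ _ _ _ _ _ _ (bcut_zero hx)) fun x p q y hy => (h2 _).2 x y hy,
    fun i => (h2 i).1, fun x p q y hy => (h2 _).2 x y hy⟩

/-- `v ↦ (v.1, 0)` -/
def QO : DD ι →L[ℂ] DD ι := (ContinuousLinearMap.fst ℂ _ _).prod 0
/-- `v ↦ (0, kill v.2)` -/
def QI : DD ι →L[ℂ] DD ι :=
  (0 : DD ι →L[ℂ] (ι → D)).prod ((piL kill).comp (ContinuousLinearMap.snd ℂ _ _))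

theorem QO_apply (v : DD ι) : QO v = (v.1, 0) := rfl
theorem QI_apply (v : DD ι) : QI v = (0, piL kill v.2) := rfl

theorem norm_sub_QO (v : DD ι) : ‖v - QO v‖ = ‖v.2‖ := by
  rw [QO_apply, Prod.norm_def]; simp

theorem sub_kill (A : D) : A - kill A = keep A := CL.ext fun k => by
  rw [lp.coeFn_sub, Pi.sub_apply, kill_apply, keep_apply]; split_ifs <;> simp

theorem norm_sub_QI (v : DD ι) : ‖v - QI v‖ = max ‖v.1‖ ‖piL keep v.2‖ := by
  rw [QI_apply, Prod.norm_def, Prod.fst_sub, Prod.snd_sub, sub_zero]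
  congr 2
  funext i
  exact sub_kill _

end Crest.Agent.N207.L
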