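import Crest.Agent.N207.CB.Cell

/-!
# Row 207, block L, core side (helper67): real forms and complexification (abstract part of `EXT`)
-/

set_option autoImplicit false

open Set Filter Topology Complex
open scoped ComplexConjugate

noncomputable section

namespace Crest.Agent.N207.CB.Cx

variable {E F : Type*} [NormedAddCommGroup E] [NormedSpace ℂ E] [NormedAddCommGroup F]
  [NormedSpace ℂ F]

/-- a conjugation -/
structure Cj (c : E → E) : Prop where
  add : ∀ x y, c (x + y) = c x + c y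
  smul : ∀ (t : ℂ) x, c (t • x) = conj t • c x
  le : ∀ x, ‖c x‖ ≤ ‖x‖

/-- real part -/
def re (c : E → E) (x : E) : E := (1 / 2 : ℂ) • (x + c x)

/-- imaginary part -/
def im (c : E → E) (x : E) : E := (-I / 2 : ℂ) • (x - c x)

/-- real subspaces -/
structure RL (R : Set E) : Prop where
  zero : (0 : E) ∈ R
  lc : ∀ a ∈ R, ∀ b ∈ R, ∀ t : ℝ, a + (t : ℂ) • b ∈ R

variable {c : E → E} {R : Set E}

theorem RL.add (h : RL R) {a b : E} (ha : a ∈ R) (hb : b ∈ R) : a + b ∈ R := by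
  simpa using h.lc a ha b hb 1

theorem RL.smul (h : RL R) (t : ℝ) {a : E} (ha : a ∈ R) : (t : ℂ) • a ∈ R := by
  simpa using h.lc 0 h.zero a ha t

theorem RL.sub (h : RL R) {a b : E} (ha : a ∈ R) (hb : b ∈ R) : a - b ∈ R := by
  simpa [sub_eq_add_neg] using h.lc a ha b hb (-1)

theorem RL.closure (h : RL R) : RL (closure R) :=
  ⟨subset_closure h.zero, fun _ ha _ hb t => map_mem_closure₂' (f := fun a b => a + (t : ℂ) • b)
    (fun _ => by fun_prop) (fun _ => by fun_prop) ha hb fun a ha b hb => h.lc a ha b hb t⟩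

theorem re_add_im (c : E → E) (x : E) : x = re c x + I • im c x := by
  rw [re, im, smul_smul, show I * (-I / 2) = 1 / 2 by
    rw [← mul_div_assoc, mul_neg, I_mul_I, neg_neg], ← smul_add]
  module

theorem Cj.cont (h : Cj c) : Continuous c := by
  refine (LipschitzWith.mk_one fun x y => ?_).continuous
  have : c x - c y = c (x - y) := by
    rw [sub_eq_add_neg x, h.add, ← neg_one_smul ℂ y, h.smul]; simp [sub_eq_add_neg]
  rw [dist_eq_norm, dist_eq_norm, this]; exact h.le _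

theorem Cj.cont_re (h : Cj c) : Continuous (re c) := by
  have := h.cont; unfold re; fun_prop

theorem Cj.cont_im (h : Cj c) : Continuous (im c) := by
  have := h.cont; unfold im; fun_prop

theorem Cj.re_le (h : Cj c) (x : E) : ‖re c x‖ ≤ ‖x‖ := by
  have := norm_add_le x (c x)
  have := h.le x
  rw [re, norm_smul]; simp; linarith

theorem Cj.im_le (h : Cj c) (x : E) : ‖im c x‖ ≤ ‖x‖ := by
  have := norm_sub_le x (c x)
  have := h.le x
  rw [im, norm_smul]; simp; linarith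

theorem re_fix {a : E} (e : c a = a) : re c a = a := by rw [re, e]; module

theorem im_fix {a : E} (e : c a = a) : im c a = 0 := by rw [im, e, sub_self, smul_zero]

theorem Cj.re_add (h : Cj c) (x y : E) : re c (x + y) = re c x + re c y := by
  rw [re, re, re, h.add]; module

theorem Cj.im_add (h : Cj c) (x y : E) : im c (x + y) = im c x + im c y := by
  rw [im, im, im, h.add]; module

theorem Cj.re_smul (h : Cj c) (t : ℂ) (x : E) :
    re c (t • x) = (t.re : ℂ) • re c x + ((-t.im : ℝ) : ℂ) • im c x := by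
  rw [re, re, im, h.smul]
  match_scalars <;> apply Complex.ext <;> simp <;> ring

theorem Cj.im_smul (h : Cj c) (t : ℂ) (x : E) :
    im c (t • x) = (t.re : ℂ) • im c x + (t.im : ℂ) • re c x := by
  rw [re, im, im, h.smul]
  match_scalars <;> apply Complex.ext <;> simp <;> ring

theorem Cj.fix_closure (h : Cj c) (hf : ∀ a ∈ R, c a = a) : ∀ a ∈ closure R, c a = a :=
  closure_minimal (s := R) (t := {a | c a = a}) hf (isClosed_eq h.cont continuous_id)

theorem Cj.mem_span (h : Cj c) (hR : RL R) (hf : ∀ a ∈ R, c a = a) {x : E} :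
    x ∈ Submodule.span ℂ R ↔ re c x ∈ R ∧ im c x ∈ R := by
  constructor
  · intro hx
    induction hx using Submodule.span_induction with
    | mem a ha => rw [re_fix (hf a ha), im_fix (hf a ha)]; exact ⟨ha, hR.zero⟩
    | zero => rw [re_fix (hf 0 hR.zero), im_fix (hf 0 hR.zero)]; exact ⟨hR.zero, hR.zero⟩
    | add x y _ _ h1 h2 => rw [h.re_add, h.im_add]; exact ⟨hR.add h1.1 h2.1, hR.add h1.2 h2.2⟩
    | smul t x _ h1 =>
      rw [h.re_smul, h.im_smul]
      exact ⟨hR.lc _ (hR.smul _ h1.1) _ h1.2 _, hR.lc _ (hR.smul _ h1.2) _ h1.1 _⟩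
  · rintro ⟨h1, h2⟩
    rw [re_add_im c x]
    exact add_mem (Submodule.subset_span h1) (Submodule.smul_mem _ _ (Submodule.subset_span h2))

theorem Cj.closed_span (h : Cj c) (hR : RL R) (hf : ∀ a ∈ R, c a = a) (hc : IsClosed R) :
    IsClosed (Submodule.span ℂ R : Set E) := by
  have : (Submodule.span ℂ R : Set E) = re c ⁻¹' R ∩ im c ⁻¹' R := Set.ext fun _ => h.mem_span hR hf
  rw [this]; exact (hc.preimage h.cont_re).inter (hc.preimage h.cont_im)

theorem Cj.prod {d : F → F} (h : Cj c) (h' : Cj d) : Cj (Prod.map c d) :=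
  ⟨fun _ _ => Prod.ext (h.add _ _) (h'.add _ _), fun _ _ => Prod.ext (h.smul _ _) (h'.smul _ _),
    fun x => max_le_max (h.le x.1) (h'.le x.2)⟩

theorem Cj.pi {ι : Type*} [Fintype ι] (h : Cj c) : Cj fun (x : ι → E) i => c (x i) :=
  ⟨fun _ _ => funext fun _ => h.add _ _, fun _ _ => funext fun _ => h.smul _ _, fun x =>
    (pi_norm_le_iff_of_nonneg (norm_nonneg x)).2 fun i => (h.le _).trans (norm_le_pi_norm x i)⟩

theorem cj_conj : Cj (fun z : ℂ => conj z) :=
  ⟨fun x y => map_add _ x y, fun t x => map_mul _ t x, fun x => (norm_conj x).le⟩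

/-- the closure of a bounded real graph is the graph of a map on the closure of the domain -/
theorem exists_graph [CompleteSpace F] {Γ : Set (E × F)} (hΓ : RL Γ) {K : ℝ} (hK : 0 ≤ K)
    (hb : ∀ z ∈ Γ, ‖z.2‖ ≤ K * ‖z.1‖) : ∃ g : E → F,
      (∀ a ∈ closure (Prod.fst '' Γ), (a, g a) ∈ closure Γ ∧ ‖g a‖ ≤ K * ‖a‖) ∧
      ∀ a ∈ closure (Prod.fst '' Γ), ∀ b ∈ closure (Prod.fst '' Γ), ∀ t : ℝ,
        g (a + (t : ℂ) • b) = g a + (t : ℂ) • g b := by
  have hb' : ∀ z ∈ closure Γ, ‖z.2‖ ≤ K * ‖z.1‖ :=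
    closure_minimal (s := Γ) (t := {z | ‖z.2‖ ≤ K * ‖z.1‖}) hb
      (isClosed_le (by fun_prop) (by fun_prop))
  have hu : ∀ a f f', (a, f) ∈ closure Γ → (a, f') ∈ closure Γ → f = f' := fun a f f' h1 h2 => by
    have := hb' _ (hΓ.closure.sub h1 h2)
    simpa [sub_eq_zero] using this
  have he : ∀ a ∈ closure (Prod.fst '' Γ), ∃ f, (a, f) ∈ closure Γ := fun a ha => by
    obtain ⟨u, h1, h2⟩ := mem_closure_iff_seq_limit.1 ha
    choose z hz e using h1
    have h3 : CauchySeq fun n => (z n).2 := by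
      have h4 := h2.cauchySeq
      rw [Metric.cauchySeq_iff] at h4 ⊢
      intro ε hε
      obtain ⟨N, hN⟩ := h4 (ε / (K + 1)) (by positivity)
      refine ⟨N, fun m hm n hn => ?_⟩
      have h5 := hb _ (hΓ.sub (hz m) (hz n))
      have h6 := hN m hm n hn
      rw [dist_eq_norm, ← e, ← e, lt_div_iff₀ (by positivity)] at h6
      rw [dist_eq_norm]
      simp only [Prod.fst_sub, Prod.snd_sub] at h5
      nlinarith [norm_nonneg ((z m).1 - (z n).1)]
    obtain ⟨f, hf⟩ := cauchySeq_tendsto_of_complete h3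
    exact ⟨f, mem_closure_of_tendsto ((h2.congr fun n => (e n).symm).prodMk_nhds hf)
      (Eventually.of_forall hz)⟩
  choose! g hg using he
  have hD : RL (Prod.fst '' Γ) := ⟨⟨0, hΓ.zero, rfl⟩, by
    rintro _ ⟨a, ha, rfl⟩ _ ⟨b, hb, rfl⟩ t; exact ⟨_, hΓ.lc a ha b hb t, rfl⟩⟩
  exact ⟨g, fun a ha => ⟨hg a ha, hb' _ (hg a ha)⟩, fun a ha b hb t =>
    hu _ _ _ (hg _ (hD.closure.lc a ha b hb t)) (hΓ.closure.lc _ (hg a ha) _ (hg b hb) t)⟩

/-- **complexification of a bounded real graph** -/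
theorem exists_clm [CompleteSpace F] {E' : Type*} [NormedAddCommGroup E'] [NormedSpace ℂ E']
    (h : Cj c) {Γ : Set (E × F)} (hΓ : RL Γ) {K : ℝ} (hK : 0 ≤ K)
    (hb : ∀ z ∈ Γ, ‖z.2‖ ≤ K * ‖z.1‖) (ι : E' →ₗ[ℂ] E) (hι : ∀ x, ‖ι x‖ ≤ ‖x‖)
    (hm : ∀ x, re c (ι x) ∈ closure (Prod.fst '' Γ) ∧ im c (ι x) ∈ closure (Prod.fst '' Γ)) :
    ∃ 𝒢 : E' →L[ℂ] F, ‖𝒢‖ ≤ 2 * K ∧ ∀ x, c (ι x) = ι x → (ι x, 𝒢 x) ∈ closure Γ := by
  obtain ⟨g, h1, h2⟩ := exists_graph hΓ hK hb
  have hD : RL (closure (Prod.fst '' Γ)) := RL.closure ⟨⟨0, hΓ.zero, rfl⟩, by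
    rintro _ ⟨a, ha, rfl⟩ _ ⟨b, hb, rfl⟩ t; exact ⟨_, hΓ.lc a ha b hb t, rfl⟩⟩
  have h0 : g 0 = 0 := by simpa using (h1 0 hD.zero).2
  have h3 : ∀ a ∈ closure (Prod.fst '' Γ), ∀ b ∈ closure (Prod.fst '' Γ), g (a + b) = g a + g b :=
    fun a ha b hb => by simpa using h2 a ha b hb 1
  have h4 : ∀ (t : ℝ), ∀ a ∈ closure (Prod.fst '' Γ), g ((t : ℂ) • a) = (t : ℂ) • g a :=
    fun t a ha => by simpa [h0] using h2 0 hD.zero a ha t
  refine ⟨LinearMap.mkContinuous
    { toFun := fun x => g (re c (ι x)) + I • g (im c (ι x))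
      map_add' := fun x y => ?_
      map_smul' := fun t x => ?_ } (2 * K) fun x => ?_,
    LinearMap.mkContinuous_norm_le _ (by positivity) _, fun x hx => ?_⟩
  · rw [map_add, h.re_add, h.im_add, h3 _ (hm x).1 _ (hm y).1, h3 _ (hm x).2 _ (hm y).2]
    module
  · rw [map_smul, h.re_smul, h.im_smul, h2 _ (hD.smul _ (hm x).1) _ (hm x).2,
      h2 _ (hD.smul _ (hm x).2) _ (hm x).1, h4 _ _ (hm x).1, h4 _ _ (hm x).2, RingHom.id_apply]
    match_scalars <;> apply Complex.ext <;> simp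
  · refine (norm_add_le _ _).trans ?_
    rw [norm_smul, norm_I, one_mul]
    have a1 := (h1 _ (hm x).1).2.trans
      (mul_le_mul_of_nonneg_left ((h.re_le _).trans (hι x)) hK)
    have a2 := (h1 _ (hm x).2).2.trans
      (mul_le_mul_of_nonneg_left ((h.im_le _).trans (hι x)) hK)
    linarith
  · have := (h1 _ (hm x).1).1
    simpa [re_fix hx, im_fix hx, h0] using this

/-! ### the conjugation of `Cel` -/

open Metric Crest.Agent.NLib.Ell

variable {J : Type} {k : ℕ}

theorem cka_conj (x : Cel J k) (i : J) :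
    CKA (1 / 2) B1 k (‖x‖ / 2 ^ (k + 1)) fun y => conj (x.val i y) :=
  (x.cka' i).clm1 isOpen_ball (conjCLE : ℂ →L[ℝ] ℂ) conjCLE_norm.le

/-- complex conjugation of cell families -/
def cjC (x : Cel J k) : Cel J k :=
  Cel.mk (fun i y => conj (x.val i y)) ⟨_, by positivity, cka_conj x⟩

theorem val_cjC (x : Cel J k) (i : J) {y : EE 4} (hy : y ∈ B1) :
    (cjC x).val i y = conj (x.val i y) := Cel.val_mk _ _ i hy

theorem cj_cel : Cj (cjC : Cel J k → Cel J k) :=
  ⟨fun x y => Cel.ext fun i z hz => by simp [val_cjC _ i hz],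
    fun t x => Cel.ext fun i z hz => by simp [val_cjC _ i hz], fun x =>
      (Cel.norm_mk_le _ (by positivity) (cka_conj x)).trans_eq
        (mul_div_cancel₀ _ (two_pow_pos k).ne')⟩

end Crest.Agent.N207.CB.Cx

end
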