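import Crest.Agent.N207.CB.Co3
import Crest.Agent.N207.CB.Glu1
import Crest.Agent.N207.CB.Secr
import Crest.Agent.N207.CB.Boot
import Crest.Agent.N207.Lg.Pop

/-!
# Row 207, block L (helper62): leaf `FIXM`, pointwise tools
-/

set_option autoImplicit false

open scoped ContDiff
open Metric Set Filter Topology MeasureTheory
open Crest.GeometryTopology.CoordMetric
open Crest.Agent.NLib.Ell Crest.Agent.N207.I Crest.Agent.N207.Lg Crest.Agent.N207.J

noncomputable section

namespace Crest.Agent.N207.CB.Fx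

section Pt

variable {gb gb' G G' w w' : MetricField 4} {y : E4}

theorem redM_congr (hb : gb =ᶠ[𝓝 y] gb') (h : G =ᶠ[𝓝 y] G') : redM gb G y = redM gb' G' y := by
  simp only [redM, (redT_congr hb h).self_of_nhds]

theorem pop_congr (hb : gb =ᶠ[𝓝 y] gb') (h : w =ᶠ[𝓝 y] w') : Pop gb w y = Pop gb' w' y := by
  have : ∀ s : ℝ, redT gb (fun z => gb z + s • w z) y = redT gb' (fun z => gb' z + s • w' z) y :=
    fun s => (redT_congr hb (by filter_upwards [hb, h] with z h1 h2; rw [h1, h2])).self_of_nhds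
  simp only [Pop, this]

theorem redM_dil (G : MetricField 4) (t : ℝ) (y : E4) :
    redM fl1 (fun z => G (t • z)) y = t ^ 2 • redM fl1 G (t • y) := by
  ext a b
  exact congrFun (Gl.redT_dil fl1 G t y) ![a, b]

theorem pop_dil (w : MetricField 4) (t : ℝ) (y : E4) :
    Pop fl1 (fun z => w (t • z)) y = t ^ 2 • Pop fl1 w (t • y) := by
  ext a b
  have : ∀ s : ℝ, redT fl1 (fun z => fl1 z + s • w (t • z)) y ![a, b] =
      t ^ 2 * redT fl1 (fun z => fl1 z + s • w z) (t • y) ![a, b] := fun s =>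
    congrFun (Gl.redT_dil fl1 (fun z => fl1 z + s • w z) t y) ![a, b]
  simp only [Pop, Matrix.of_apply, this, deriv_const_mul_field', Matrix.smul_apply, smul_eq_mul]
  ring

theorem redM_cst (A : Mt) (G : MetricField 4) (y : E4) : redM (fun _ => A) G y = redM fl1 G y := by
  simp only [redM, Gl.redT_cst]

theorem pop_cst (hw : ∀ a b, ContDiffAt ℝ 2 (fun z => w z a b) y) (hs : ∀ᶠ z in 𝓝 y, (w z).IsSymm)
    {A : Mt} (hA : A.IsSymm) : Pop fl1 (fun x => w x + A) y = Pop fl1 w y := by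
  ext a b
  have e : jet2 (fun x => w x + A) y = jet2 w y := by
    have : jet (fun x => w x + A) = jet w := by
      funext z c p q
      simp only [jet, pderiv, Matrix.add_apply, fderiv_add_const]
    unfold jet2
    rw [this]
  have h1 := (c2_one y).pop_eq hw (hs.mono fun z hz p q => hz.apply q p) a b
  have h2 := (c2_one y).pop_eq (w := fun x => w x + A)
    (fun p q => (hw p q).add contDiffAt_const) (hs.mono fun z hz p q => (hz.add hA).apply q p) a b
  rw [← lapJ_TTG, TTG_const, popV_const] at h1 h2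
  rw [e] at h2
  exact h2.trans h1.symm

theorem psT_zero {ψ : MetricField 4} (h : ψ y = 0) : PsT gb G ψ y = 0 := by
  simp [PsT, TRg, tr2, h]

end Pt

variable {M : Type*} {T : TD M} {v : T.V} {T0 : ℝ}

theorem scl_eq (s : T.S) (x : E4) : scl T s x = 8 * rad T s x := by
  rcases s with s | s <;> simp only [scl, rad, Sum.elim_inl, Sum.elim_inr] <;> ring

/-- jets from a lift -/
theorem lf_jet {k j : ℕ} {i : CI T v} {w : MetricField 4} {W : MC T v k} (h : LfAt T i 0 w W)
    (hj : j ≤ k) {y : E4} (hy : y ∈ B1) (p q : Fin 4) :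
    rad T i.1.1 i.1.2 ^ j * ‖iteratedFDeriv ℝ j (fun x => w x p q) (cpt T i y)‖ ≤ 4 ^ j * ‖W‖ := by
  have hr := rad_pos i
  have h1 : CKA (1 / 2) B1 k (1 * ‖W p q‖) fun z => w (cpt T i z) p q :=
    (((W p q).cka i).clm isOpen_ball Complex.reCLM Complex.reCLM_norm.le).congr isOpen_ball
      fun z hz => by simp [h p q z hz]
  have h2 := ((h1.of_le hj).ho_iter isOpen_ball).bdd y hy
  have h3 := norm_iter_smul (fun z => w (cpt T i z) p q) (inv_pos.2 hr) j (rad T i.1.1 i.1.2 • y)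
  simp only [cpt, smul_inv_smul₀ hr.ne', inv_smul_smul₀ hr.ne'] at h2 h3
  rw [iteratedFDeriv_comp_add_left (f := fun x => w x p q)] at h3
  have h4 : ‖W p q‖ ≤ ‖W‖ := (norm_le_pi_norm (W p) q).trans (norm_le_pi_norm W p)
  refine (mul_le_mul_of_nonneg_left h3 (by positivity)).trans ?_
  rw [← mul_assoc, ← mul_pow, mul_inv_cancel₀ hr.ne', one_pow, one_mul]
  refine h2.trans ?_
  rw [one_mul]
  push_cast
  gcongr

theorem lf_small {k j : ℕ} {i : CI T v} {w : MetricField 4} {W : MC T v k} (h : LfAt T i 0 w W)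
    (hj : j ≤ 2) (hk : 2 ≤ k) {x : E4} (hx : x ∈ ball i.1.2 (rad T i.1.1 i.1.2)) (p q : Fin 4) :
    scl T i.1.1 i.1.2 ^ j * ‖iteratedFDeriv ℝ j (fun x => w x p q) x‖ ≤ 1024 * ‖W‖ := by
  obtain ⟨y, hy, rfl⟩ := exists_cpt i hx
  rw [scl_eq, mul_pow, mul_assoc]
  refine (mul_le_mul_of_nonneg_left (lf_jet h (hj.trans hk) hy p q) (by positivity)).trans ?_
  rw [← mul_assoc, ← mul_pow]
  exact mul_le_mul_of_nonneg_right ((pow_le_pow_right₀ (by norm_num) hj).trans (by norm_num))
    (norm_nonneg _)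

theorem UR_mono {c c' : ℝ} (h : c ≤ c') (s : T.S) : UR T v T0 c s ⊆ UR T v T0 c' s :=
  fun _ hx => ⟨hx.1, fun u e => (hx.2 u e).trans_le h⟩

/-- the far part of an end consists of centres -/
theorem mem_cK (h : T.Ok) (hT : Real.log (4 / T.r) ≤ T0) {u : T.V} (hu : u = v ∨ T.kid v u)
    {x : E4} (hx : x ≠ 0) (hτ : 0 ≤ tau T v u T0 x) : x ∈ T.cK v (Sum.inr u) := by
  have hr := h.r_pos
  have hr1 := h.r_lt
  have h0 := norm_pos_iff.2 hx
  rcases hu with rfl | hu
  · have : 4 / T.r ≤ ‖x‖ := (Real.log_le_log_iff (by positivity) h0).1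
      (by simp only [tau, if_true] at hτ; linarith)
    rw [div_le_iff₀ hr] at this
    exact TD.mem_cK_out.2 (by nlinarith)
  · have e := h.kid_ne hu
    have : ‖x‖ ≤ T.r / 4 := (Real.log_le_log_iff h0 (by positivity)).1 (by
      rw [← inv_div, Real.log_inv]; simp only [tau, e, if_false] at hτ; linarith)
    exact (TD.mem_cK_inn e).2 ⟨hu, h0, by linarith⟩

theorem tau_unit (u : T.V) {x : E4} (hx : x ≠ 0) :
    tau T v u T0 (Real.exp (sgn T v u * T0) • x) = sgn T v u * Real.log ‖x‖ := by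
  rw [tau, norm_smul, Real.norm_of_nonneg (Real.exp_pos _).le,
    Real.log_mul (Real.exp_pos _).ne' (norm_ne_zero_iff.2 hx), Real.log_exp, sgn]
  split_ifs <;> ring

theorem ev_tau {u : T.V} {x : E4} {c : ℝ} (hx : x ≠ 0) (h : c < tau T v u T0 x) :
    ∀ᶠ z in 𝓝 x, z ≠ 0 ∧ c < tau T v u T0 z :=
  (isOpen_ne.eventually_mem hx).and
    (continuousAt_const.eventually_lt (tau_sm v u T0 hx).continuousAt h)

theorem cA_eq (a : Mt) : (1 + a) * (1 + a) = 1 + cA a := by
  rw [cA, two_smul]; noncomm_ring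

end Crest.Agent.N207.CB.Fx

end
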