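import Crest.Agent.N207.CB.Co3

/-!
# Row 207, block L (helper77): `GLB`, tools
-/

set_option autoImplicit false
set_option linter.unusedSectionVars false

open scoped ContDiff
open Metric Set Filter Topology MeasureTheory
open Crest.GeometryTopology.CoordMetric
open Crest.Agent.NLib.Ell Crest.Agent.N207.I Crest.Agent.N207.Lg Crest.Agent.N207.J

noncomputable section

namespace Crest.Agent.N207.CB.Gl

section fp

variable {V : Type} [Fintype V] {A B : V → Type} [∀ v, NormedAddCommGroup (A v)]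
  [∀ v, NormedSpace ℂ (A v)] [∀ v, NormedAddCommGroup (B v)] [∀ v, NormedSpace ℂ (B v)]
  {P : Type} [NormedAddCommGroup P] [NormedSpace ℂ P]

/-- componentwise scaling -/
def scl2 (R r : V → ℝ) (x : (∀ v, A v) × ∀ v, B v) : (∀ v, A v) × ∀ v, B v :=
  (fun v => (R v : ℂ) • x.1 v, fun v => (r v : ℂ) • x.2 v)

theorem diff_scl2 (R r : V → ℝ) : Differentiable ℂ (scl2 (A := A) (B := B) R r) := by
  unfold scl2; fun_prop

omit [Fintype V] in
theorem scl2_inv {R r R' r' : V → ℝ} (hR : ∀ v, R v * R' v = 1) (hr : ∀ v, r v * r' v = 1)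
    (x : (∀ v, A v) × ∀ v, B v) : scl2 R r (scl2 R' r' x) = x := by
  refine Prod.ext (funext fun v => ?_) (funext fun v => ?_) <;>
    simp only [scl2, smul_smul, ← Complex.ofReal_mul, hR, hr, Complex.ofReal_one, one_smul]

/-- closed and open boxes -/
def Bx (R r : V → ℝ) (c : ℝ) : Set ((∀ v, A v) × ∀ v, B v) :=
  {x | ∀ v, ‖x.1 v‖ ≤ c * R v ∧ ‖x.2 v‖ ≤ c * r v}

theorem scl2_mem {R r : V → ℝ} (hR : ∀ v, 0 < R v) (hr : ∀ v, 0 < r v) {c : ℝ}
    {x : (∀ v, A v) × ∀ v, B v} (hx : ‖x‖ ≤ c) : scl2 R r x ∈ Bx R r c := fun v => by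
  have h1 := ((norm_le_pi_norm x.1 v).trans (norm_fst_le x)).trans hx
  have h2 := ((norm_le_pi_norm x.2 v).trans (norm_snd_le x)).trans hx
  have := hR v; have := hr v
  simp only [scl2, norm_smul, Complex.norm_real, Real.norm_of_nonneg (hR v).le,
    Real.norm_of_nonneg (hr v).le, mul_comm c]
  constructor <;> gcongr

theorem norm_scl2 {R r : V → ℝ} (hR : ∀ v, 0 < R v) (hr : ∀ v, 0 < r v)
    {x : (∀ v, A v) × ∀ v, B v} (hx : x ∈ Bx R r 1) :
    ‖scl2 (fun v => (R v)⁻¹) (fun v => (r v)⁻¹) x‖ ≤ 1 := by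
  refine max_le ((pi_norm_le_iff_of_nonneg zero_le_one).2 fun v => ?_)
    ((pi_norm_le_iff_of_nonneg zero_le_one).2 fun v => ?_)
  · simp only [scl2, norm_smul, Complex.norm_real, Real.norm_of_nonneg (inv_pos.2 (hR v)).le]
    rw [inv_mul_le_iff₀ (hR v)]; linarith [(hx v).1]
  · simp only [scl2, norm_smul, Complex.norm_real, Real.norm_of_nonneg (inv_pos.2 (hr v)).le]
    rw [inv_mul_le_iff₀ (hr v)]; linarith [(hx v).2]

/-- the fixed point in a box -/
theorem fpw [∀ v, CompleteSpace (A v)] [∀ v, CompleteSpace (B v)] {R r : V → ℝ}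
    (hR : ∀ v, 0 < R v) (hr : ∀ v, 0 < r v)
    {T : P → ((∀ v, A v) × ∀ v, B v) → (∀ v, A v) × ∀ v, B v} {U : Set P} (hU : IsOpen U)
    (hd : DifferentiableOn ℂ (fun p : P × _ => T p.1 p.2) (U ×ˢ Bx R r 4))
    (hb : ∀ p ∈ U, ∀ x ∈ Bx R r 4, T p x ∈ Bx R r 1) :
    ∃ x : P → (∀ v, A v) × ∀ v, B v, DifferentiableOn ℂ x U ∧ ∀ p ∈ U, x p ∈ Bx R r 1 ∧
      T p (x p) = x p ∧ ∀ S : Set _, IsClosed S → 0 ∈ S →
        (∀ y ∈ S, y ∈ Bx R r 1 → T p y ∈ S) → x p ∈ S := by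
  have i1 := scl2_inv (A := A) (B := B) (fun v => mul_inv_cancel₀ (hR v).ne')
    fun v => mul_inv_cancel₀ (hr v).ne'
  have d1 := diff_scl2 (A := A) (B := B) R r
  have d2 := diff_scl2 (A := A) (B := B) (fun v => (R v)⁻¹) fun v => (r v)⁻¹
  have d3 : DifferentiableOn ℂ (fun p : P × ((∀ v, A v) × ∀ v, B v) => T p.1 (scl2 R r p.2))
      (U ×ˢ ball 0 4) := hd.comp (f := fun p : P × _ => (p.1, scl2 R r p.2)) (by fun_prop)
    fun p hp => ⟨hp.1, scl2_mem hR hr (mem_ball_zero_iff.1 hp.2).le⟩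
  obtain ⟨x, h1, h2⟩ := fp0 (T := fun p x => scl2 (fun v => (R v)⁻¹) (fun v => (r v)⁻¹)
    (T p (scl2 R r x))) hU (d2.comp_differentiableOn d3)
    fun p hp x hx => norm_scl2 hR hr (hb p hp _ (scl2_mem hR hr (mem_ball_zero_iff.1 hx).le))
  refine ⟨fun p => scl2 R r (x p), d1.comp_differentiableOn h1, fun p hp =>
    ⟨scl2_mem hR hr (h2 p hp).1, ?_, fun S hS h0 hT => (h2 p hp).2.2 (scl2 R r ⁻¹' S)
      (hS.preimage d1.continuous) ?_ fun y hy h3 => ?_⟩⟩
  · have := congrArg (scl2 R r) (h2 p hp).2.1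
    rwa [i1] at this
  · rwa [mem_preimage, show scl2 R r (0 : (∀ v, A v) × ∀ v, B v) = 0 by ext <;> simp [scl2]]
  · rw [mem_preimage, i1]
    exact hT _ hy (scl2_mem hR hr h3)

theorem Bx_norm {R r : V → ℝ} {c m : ℝ} (hm : 0 < m) (h : ∀ v, c * R v < m ∧ c * r v < m)
    {x : (∀ v, A v) × ∀ v, B v} (hx : x ∈ Bx R r c) : ‖x‖ < m :=
  max_lt ((pi_norm_lt_iff hm).2 fun v => (hx v).1.trans_lt (h v).1)
    ((pi_norm_lt_iff hm).2 fun v => (hx v).2.trans_lt (h v).2)

end fp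

open Classical in
/-- corestriction -/
def toS {X : Type} [NormedAddCommGroup X] [NormedSpace ℂ X] (S : Submodule ℂ X) (m : X) : S :=
  if h : m ∈ S then ⟨m, h⟩ else 0

theorem toS_val {X : Type} [NormedAddCommGroup X] [NormedSpace ℂ X] {S : Submodule ℂ X} {m : X}
    (h : m ∈ S) : (toS S m).1 = m := by rw [toS, dif_pos h]

variable {M : Type*} {T : TD M} {u v : T.V}

/-- the square of a complex matrix -/
def sqC (a : MtC) : MtC := fun p q => ∑ r, a p r * a r q

theorem sqC_cm (a : Mt) : sqC (cm a) = cm (a * a) := by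
  ext p q; simp [sqC, cm, Matrix.mul_apply]

theorem cm_inj {a b : Mt} (h : cm a = cm b) : a = b := by
  ext p q; exact Complex.ofReal_injective (congrFun (congrFun h p) q)

theorem norm_entry (a : MtC) (p q : Fin 4) : ‖a p q‖ ≤ ‖a‖ :=
  (norm_le_pi_norm (a p) q).trans (norm_le_pi_norm a p)

theorem norm_sqC (a : MtC) : ‖sqC a‖ ≤ 4 * ‖a‖ ^ 2 := by
  refine (pi_norm_le_iff_of_nonneg (by positivity)).2 fun p =>
    (pi_norm_le_iff_of_nonneg (by positivity)).2 fun q => (norm_sum_le _ _).trans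
      ((Finset.sum_le_card_nsmul _ _ (‖a‖ ^ 2) fun r _ => ?_).trans (by simp))
  rw [norm_mul, pow_two]
  exact mul_le_mul (norm_entry a p r) (norm_entry a r q) (norm_nonneg _) (norm_nonneg _)

theorem sqC_mem {a : MtC} (ha : a ∈ SC T u) : sqC a ∈ SC T u := by
  obtain ⟨h1, h2⟩ := SC_re_im ha
  convert add_mem (sub_mem (cm_mem h1.sq) (cm_mem h2.sq))
    (Submodule.smul_mem _ Complex.I (cm_mem (h1.jor h2))) using 1
  ext p q
  simp only [sqC, cm, Matrix.mul_apply, Matrix.add_apply, Matrix.of_apply, Pi.add_apply,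
    Pi.sub_apply, Pi.smul_apply, smul_eq_mul, Fin.sum_univ_four]
  apply Complex.ext <;> simp <;> ring

theorem SC_closed (u : T.V) : IsClosed (SC T u : Set MtC) := (SC T u).closed_of_finiteDimensional

theorem SC_root (a : SC T T.root) : a = 0 := by
  obtain ⟨h1, h2⟩ := SC_re_im a.2
  ext p q
  exact Complex.ext (congrFun (congrFun (h1.root rfl) p) q) (congrFun (congrFun (h2.root rfl) p) q)

theorem real_SC {a : SC T u} (h : ∀ p q, (a.1 p q).im = 0) : ∃ b, Adm T u b ∧ a.1 = cm b :=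
  ⟨_, (SC_re_im a.2).1, by ext p q; apply Complex.ext <;> simp [cm, h]⟩

theorem real_cv {κ : Type} {a : κ → ℂ} (h : ∀ j, (a j).im = 0) : ∃ b, a = cv b :=
  ⟨fun j => (a j).re, by ext j; apply Complex.ext <;> simp [cv, h]⟩

/-! ### the tree -/

theorem kid_ne (h : T.Ok) (hk : T.kid v u) : u ≠ v := by
  rintro rfl
  have := h.dep_par u hk.1
  rw [hk.2] at this
  omega

theorem dep_iter (h : T.Ok) (v : T.V) : ∀ j ≤ T.dep v, T.dep (T.par^[j] v) + j = T.dep v
  | 0, _ => rfl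
  | j + 1, hj => by
    have h1 := dep_iter h v j (by omega)
    have h2 := h.dep_par (T.par^[j] v) fun e => by rw [e, h.dep_root] at h1; omega
    rw [Function.iterate_succ_apply']
    omega

theorem dep_lt (h : T.Ok) (v : T.V) : T.dep v < Fintype.card T.V := by
  have := Fintype.card_le_of_injective (fun j : Fin (T.dep v + 1) => T.par^[j] v) fun i j e => by
    have h1 := dep_iter h v i (Nat.lt_succ_iff.1 i.2)
    have h2 := dep_iter h v j (Nat.lt_succ_iff.1 j.2)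
    simp only at e
    rw [e] at h1
    exact Fin.ext (by omega)
  simpa using this

theorem eps_par (h : T.Ok) (L : T.V → ℝ) (hu : u ≠ T.root) :
    T.eps L u = T.eps L (T.par u) * Real.exp (-L u) := by
  rw [TD.eps, TD.eps, h.dep_par u hu, Finset.sum_range_succ', ← Real.exp_add]
  simp only [Function.iterate_succ_apply, Function.iterate_zero_apply, neg_add]

/-! ### monotonicity -/

variable {Γ : Subgroup Iso4} {S S' : Set E4} {w : MetricField 4} {η η' : ℝ} {m : WithTop ℕ∞}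

theorem inv_mono (h : Inv Γ m S w) (hS : S' ⊆ S) : Inv Γ m S' w :=
  ⟨fun a b => (h.sm a b).mono hS, fun x hx => h.symm x (hS hx), fun γ hγ x hx => h.eqv γ hγ x (hS hx)⟩

theorem inv_bot (h : Inv Γ m S w) {c : Mt} (hc : c.IsSymm) : Inv ⊥ m S fun x => w x + c :=
  ⟨fun a b => (h.sm a b).add contDiffOn_const, fun x hx => (h.symm x hx).add hc, fun γ hγ x _ => by
    rw [Subgroup.mem_bot.1 hγ]
    ext p q
    exact (congrFun (congrFun (AI.pullT_id (matT fun x => w x + c)) x) ![p, q]).symm⟩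

theorem b2_mono (h : B2 S η w) (h' : η ≤ η') : B2 S η' w :=
  fun x hx j hj a b => (h x hx j hj a b).trans h'

theorem b2_add (h : B2 S η w) {c : Mt} (h0 : 0 ≤ η') (hc : ∀ p q, |c p q| ≤ η') :
    B2 S (η + η') fun x => w x + c := fun x hx j hj a b => by
  have := h x hx j hj a b
  rcases j with _ | j
  · simp only [pow_zero, one_mul, norm_iteratedFDeriv_zero, Matrix.add_apply] at this ⊢
    exact (norm_add_le _ _).trans (add_le_add this (hc a b))
  · simp only [← norm_iteratedFDeriv_fderiv, Matrix.add_apply] at this ⊢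
    rw [show (fderiv ℝ fun y => w y a b + c a b) = fderiv ℝ fun y => w y a b from
      funext fun y => fderiv_add_const _]
    linarith

theorem An_mono {I I' : Set ℝ} (h : I ⊆ I') : An I ⊆ An I' := fun _ hx => ⟨hx.1, h hx.2⟩

theorem asol_mono {I : Set ℝ} {en : ℝ} (h : ASol Γ I η en w) (h' : η ≤ η') : ASol Γ I η' en w :=
  ⟨h.inv, h.pos, h.eq, b2_mono h.bd h', h.int, h.en⟩

theorem cos_mono {g : T.V → Fam T} {T0 : ℝ} {κ : Type} [Fintype κ] {ψ : κ → Fam T} {a : T.V → Mt}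
    {θ μ : κ → ℝ} {G : Fam T} (h : CoS T g T0 v ψ a η θ μ G) (h' : η ≤ η') :
    CoS T g T0 v ψ a η' θ μ G :=
  ⟨h.sm, h.pos, h.compat, h.eq, h.con,
    fun s x hx y hy k hk p q => (h.small s x hx y hy k hk p q).trans h', h.mu.trans h'⟩

end Crest.Agent.N207.CB.Gl

end
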