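import Crest.Agent.N207.CB.Gl1

/-!
# Row 207, block L (helper77): `GLB`, the global map
-/

set_option autoImplicit false
set_option linter.unusedSectionVars false

open scoped ContDiff
open Metric Set Filter Topology MeasureTheory
open Crest.GeometryTopology.CoordMetric
open Crest.Agent.NLib.Ell Crest.Agent.N207.I Crest.Agent.N207.Lg Crest.Agent.N207.J

noncomputable section

namespace Crest.Agent.N207.CB.Gl

variable {M : Type*} (T : TD M)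

/-- the unknowns -/
abbrev GX (κ : T.V → Type) : Type := (∀ v, XC T v 8 0 × (κ v → ℂ)) × ∀ v, SC T v

/-- the parameters -/
abbrev GP (κ : T.V → Type) (E : Type) : Type := ((Σ v, κ v) → ℂ) × (T.V → E × ℂ)

/-- the chosen pieces -/
structure GD (g : T.V → Fam T) (κ : T.V → Type) [∀ v, Fintype (κ v)] (ψ : ∀ v, κ v → Fam T)
    (T0 ε K η C : ℝ) where
  ok : T.Ok
  cl : ∀ v, IsClosed (XC T v 8 0 : Set (MC T v 8))
  K0 : 0 ≤ K
  C1 : 1 ≤ C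
  X : XN 8
  Y : XH 8
  cX : X.C ≤ C
  cY : Y.C ≤ C
  st : ∀ v, CoreStep T g (ψ v) v T0 ε K η
  A : ∀ v, XC T v 8 0 →L[ℂ] DD
  Ai : ∀ u, XC T (T.par u) 8 0 →L[ℂ] DD
  c : ∀ u, XC T (T.par u) 8 0 →L[ℂ] SC T u
  Θ : ∀ v, T.V → MJ 8 →L[ℂ] MC T v 8
  nA : ∀ v, ‖A v‖ ≤ C
  nAi : ∀ v, ‖Ai v‖ ≤ C
  nc : ∀ v, ‖c v‖ ≤ C
  nΘ : ∀ v u, ‖Θ v u‖ ≤ C
  hA : ∀ v (W : XC T v 8 0) (w : Fam T), SecN T v 8 w → Lf T 0 w W.1 →
    DatQ (unit T v v T0 w) 1 (A v W) ∧ Inv (T.Γ v) 2 (An (Ioo (1 / 2) (7 / 2))) (unit T v v T0 w) ∧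
      B2 (An (Ioo (1 / 2) (7 / 2))) (C * ‖W‖) (unit T v v T0 w)
  hAi : ∀ u, u ≠ T.root → ∀ (W : XC T (T.par u) 8 0) (w : Fam T), SecN T (T.par u) 8 w →
    Lf T 0 w W.1 → Inv (T.Γ u) 2 (An (Ioo (-(7 / 2)) (-(1 / 2)))) (unit T (T.par u) u T0 w) ∧
      B2 (An (Ioo (-(7 / 2)) (-(1 / 2)))) (C * ‖W‖) (unit T (T.par u) u T0 w) ∧
      ∃ c' : Mt, Adm T u c' ∧ (c u W).1 = cm c' ∧
        (∀ a b, pm (cf (fun x => unit T (T.par u) u T0 w x - c') a b) 0 (-3) = 0) ∧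
        ∀ c'' : Mt, DatP (fun x => unit T (T.par u) u T0 w x + c'') (-1) (Ai u W) ∧ ∀ a b k,
          qm (cf (fun x => unit T (T.par u) u T0 w x + c'') a b) k (-3) =
            qm (cf (unit T (T.par u) u T0 w) a b) k (-3)
  hΘ : ∀ v u W, Cpx (sgn T v u) W → Θ v u W ∈ XC T v 8 0
  hΘ' : ∀ v u (β : MetricField 4) (W : MJ 8), LfJ β W → Inv (T.Γ u) ∞ {x | x ≠ 0} β →
    (∀ x : E4, sgn T v u * Real.log ‖x‖ ≤ 22 / 10 → β x = 0) →
    Sec T v (endF T v u T0 β) ∧ Lf T 0 (endF T v u T0 β) (Θ v u W)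
  reg : ∀ v, ∀ W ∈ XR T v 8 0, ∃ w, SecN T v 8 w ∧ Lf T 0 w W

variable {T}

namespace GD

variable {g : T.V → Fam T} {κ : T.V → Type} [∀ v, Fintype (κ v)] {ψ : ∀ v, κ v → Fam T}
  {T0 ε K η C : ℝ} (D : GD T g κ ψ T0 ε K η C)

/-- parameters and unknowns -/
abbrev Q : Type := GP T κ D.X.E × GX T κ

def yc (x : GX T κ) (v : T.V) : DD := D.A v (x.1 v).1

def yp (x : GX T κ) (u : T.V) : DD := D.Ai u (x.1 (T.par u)).1

/-- the outputs of the neck `w` -/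
def nk (q : D.Q) (w : T.V) : MJ 8 × MJ 8 × ℂ :=
  if w = T.root then ((D.Y.X (D.yc q.2 w)).1, 0, (D.Y.X (D.yc q.2 w)).2)
  else D.X.X ((q.1.2 w).1, D.yc q.2 w, D.yp q.2 w)

/-- the collar inputs of the core `v` -/
def bM (q : D.Q) (v : T.V) : MC T v 8 :=
  D.Θ v v (D.nk q v).1 + ∑ w, if T.kid v w then D.Θ v w (D.nk q w).2.1 else 0

def z (q : D.Q) (v : T.V) : Zc T v (κ v) :=
  (q.2.1 v, q.2.2, toS _ (D.bM q v), fun j => q.1.1 ⟨v, j⟩)

/-- the global map -/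
def Tm (q : D.Q) : GX T κ :=
  (fun v => (D.st v).Φ (D.z q v), fun u => (-(1 / 2) : ℂ) •
    (D.c u ((D.st (T.par u)).Φ (D.z q (T.par u))).1 + ⟨sqC (q.2.2 u).1, sqC_mem (q.2.2 u).2⟩))

def Ep (q : D.Q) (v : T.V) : ℂ := ∏ j ∈ Finset.range (T.dep v), (q.1.2 (T.par^[j] v)).2

/-- the action -/
def F (q : D.Q) : ℂ :=
  ∑ v, (D.Ep q v * (D.st v).S (D.z q v) + ((Nat.card (T.Γ v) : ℂ)⁻¹ * (D.nk q v).2.2) *
    if v = T.root then (Real.exp (2 * T0) : ℂ) else D.Ep q (T.par v) * Real.exp (-(2 * T0)))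

/-- the centre -/
def p0 : GP T κ D.X.E := (0, fun _ => (D.X.co 0 0, 0))

/-- size of the collar inputs -/
def bb (_ : GD T g κ ψ T0 ε K η C) (ρ m : ℝ) : ℝ :=
  (Fintype.card T.V + 1) * (C * (C * ((C * m) ^ 2 + ρ)))

/-- smallness -/
structure Sm (ρ m : ℝ) : Prop where
  ρ0 : 0 < ρ
  ρ1 : ρ ≤ 1
  m0 : 0 < m
  hρ : ρ ≤ D.X.ε
  hX : (C + 6) * m ≤ D.X.ε
  hY : C * m ≤ D.Y.ε
  hε : m + D.bb ρ m + ρ < ε

/-- the domain -/
def Ω (ρ m : ℝ) : Set D.Q := ball D.p0 ρ ×ˢ ball 0 m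

variable {D} {ρ m : ℝ} {q : D.Q}

include D in
theorem C0 : 0 < C := one_pos.trans_le D.C1

theorem nW (hq : q ∈ D.Ω ρ m) (v : T.V) : ‖q.2.1 v‖ < m :=
  ((norm_le_pi_norm q.2.1 v).trans (norm_fst_le q.2)).trans_lt (mem_ball_zero_iff.1 hq.2)

theorem na (hq : q ∈ D.Ω ρ m) : ‖q.2.2‖ < m :=
  (norm_snd_le q.2).trans_lt (mem_ball_zero_iff.1 hq.2)

theorem nθ (hq : q ∈ D.Ω ρ m) : ‖q.1.1‖ < ρ := by
  have := (norm_fst_le _).trans_lt (mem_ball_iff_norm.1 hq.1)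
  simpa [p0] using this

theorem nn (hq : q ∈ D.Ω ρ m) (w : T.V) : ‖(q.1.2 w).1 - D.X.co 0 0‖ < ρ ∧ ‖(q.1.2 w).2‖ < ρ := by
  have := ((norm_le_pi_norm _ w).trans (norm_snd_le _)).trans_lt (mem_ball_iff_norm.1 hq.1)
  simpa [p0, Prod.norm_def] using this

theorem nyc (hq : q ∈ D.Ω ρ m) (v : T.V) : ‖D.yc q.2 v‖ < C * m :=
  ((D.A v).le_of_opNorm_le (D.nA v) _).trans_lt
    (mul_lt_mul_of_pos_left ((norm_fst_le _).trans_lt (nW hq v)) D.C0)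

theorem nyp (hq : q ∈ D.Ω ρ m) (v : T.V) : ‖D.yp q.2 v‖ < C * m :=
  ((D.Ai v).le_of_opNorm_le (D.nAi v) _).trans_lt
    (mul_lt_mul_of_pos_left ((norm_fst_le _).trans_lt (nW hq _)) D.C0)

theorem memY (h : D.Sm ρ m) (hq : q ∈ D.Ω ρ m) (v : T.V) : D.yc q.2 v ∈ ball (0 : DD) D.Y.ε :=
  mem_ball_zero_iff.2 ((nyc hq v).trans_le h.hY)

theorem memX (h : D.Sm ρ m) (hq : q ∈ D.Ω ρ m) (w : T.V) :
    ((q.1.2 w).1, D.yc q.2 w, D.yp q.2 w) ∈ ball ((D.X.co 0 0, 0) : D.X.E × DD × DD) D.X.ε := by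
  have h1 : C * m ≤ D.X.ε := by nlinarith [h.hX, h.m0]
  rw [mem_ball_iff_norm, Prod.mk_sub_mk, sub_zero]
  exact max_lt ((nn hq w).1.trans_le h.hρ)
    (max_lt ((nyc hq w).trans_le h1) ((nyp hq w).trans_le h1))

theorem nnk (h : D.Sm ρ m) (hq : q ∈ D.Ω ρ m) (w : T.V) :
    ‖(D.nk q w).1‖ ≤ C * ((C * m) ^ 2 + ρ) ∧ ‖(D.nk q w).2.1‖ ≤ C * ((C * m) ^ 2 + ρ) ∧
      ‖(D.nk q w).2.2‖ ≤ C := by
  have := D.C0
  have := h.ρ0
  unfold nk
  split_ifs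
  · obtain ⟨h1, h2⟩ := D.Y.bd _ (memY h hq w)
    refine ⟨h1.trans (mul_le_mul D.cY ?_ (by positivity) (by positivity)),
      by rw [norm_zero]; positivity, h2.trans D.cY⟩
    linarith [pow_le_pow_left₀ (norm_nonneg _) (nyc hq w).le 2]
  · obtain ⟨h1, h2, h3⟩ := D.X.bd _ (memX h hq w)
    have h4 := mul_le_mul D.cX (add_le_add (pow_le_pow_left₀ (norm_nonneg (D.yc q.2 w, D.yp q.2 w))
      (max_le (nyc hq w).le (nyp hq w).le) 2) (nn hq w).1.le) (by positivity) (by positivity)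
    exact ⟨h1.trans h4, h2.trans h4, h3.trans D.cX⟩

theorem sgn_self (v : T.V) : sgn T v v = 1 := if_pos rfl

include D in
theorem sgn_kid {v w : T.V} (hk : T.kid v w) : sgn T v w = -1 := if_neg (kid_ne D.ok hk)

theorem bM_mem (h : D.Sm ρ m) (hq : q ∈ D.Ω ρ m) (v : T.V) : D.bM q v ∈ XC T v 8 0 := by
  refine add_mem (D.hΘ v v _ ?_) (Submodule.sum_mem _ fun w _ => ?_)
  · rw [sgn_self, nk]
    split_ifs
    exacts [D.Y.cpx _ (memY h hq v), (D.X.cpx _ (memX h hq v)).1]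
  · split_ifs with hk
    · refine D.hΘ v w _ ?_
      rw [D.sgn_kid hk, nk, if_neg hk.1]
      exact (D.X.cpx _ (memX h hq w)).2
    · exact zero_mem _

theorem nbM (h : D.Sm ρ m) (hq : q ∈ D.Ω ρ m) (v : T.V) : ‖D.bM q v‖ ≤ D.bb ρ m := by
  have := D.C0
  have := h.ρ0
  have h1 : ∀ u (W : MJ 8), ‖W‖ ≤ C * ((C * m) ^ 2 + ρ) →
      ‖D.Θ v u W‖ ≤ C * (C * ((C * m) ^ 2 + ρ)) := fun u W hW =>
    ((D.Θ v u).le_of_opNorm_le (D.nΘ v u) W).trans (by gcongr)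
  refine (norm_add_le _ _).trans ((add_le_add (h1 _ _ (nnk h hq v).1) ((norm_sum_le _ _).trans
    (Finset.sum_le_card_nsmul _ _ (C * (C * ((C * m) ^ 2 + ρ))) fun w _ => ?_))).trans ?_)
  · split_ifs
    · exact h1 _ _ (nnk h hq w).2.1
    · rw [norm_zero]; positivity
  · rw [bb, Finset.card_univ, nsmul_eq_mul]; linarith

theorem nb (h : D.Sm ρ m) (hq : q ∈ D.Ω ρ m) (v : T.V) : ‖(D.z q v).2.2.1‖ ≤ D.bb ρ m :=
  (congrArg norm (toS_val (bM_mem h hq v))).trans_le (nbM h hq v)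

theorem nzθ (hq : q ∈ D.Ω ρ m) (v : T.V) : ‖(D.z q v).2.2.2‖ ≤ ρ :=
  ((pi_norm_le_iff_of_nonneg (norm_nonneg _)).2 fun j => norm_le_pi_norm q.1.1 ⟨v, j⟩).trans
    (nθ hq).le

theorem nz (h : D.Sm ρ m) (hq : q ∈ D.Ω ρ m) (v : T.V) : ‖D.z q v‖ ≤ m + D.bb ρ m + ρ := by
  have h1 := (norm_nonneg _).trans (nb h hq v)
  have := h.ρ0
  have := h.m0
  exact max_le ((nW hq v).le.trans (by linarith)) (max_le ((na hq).le.trans (by linarith))
    (max_le ((nb h hq v).trans (by linarith)) ((nzθ hq v).trans (by linarith))))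

theorem memz (h : D.Sm ρ m) (hq : q ∈ D.Ω ρ m) (v : T.V) : D.z q v ∈ ball (0 : Zc T v (κ v)) ε :=
  mem_ball_zero_iff.2 ((nz h hq v).trans_lt h.hε)

theorem nΦ (h : D.Sm ρ m) (hq : q ∈ D.Ω ρ m) (v : T.V) : ‖(D.Tm q).1 v‖ ≤
    K * (η + ρ + ‖q.2.2 v‖ + D.bb ρ m + (m + D.bb ρ m + ρ) ^ 2) := by
  refine ((D.st v).bΦ _ (memz h hq v)).trans (mul_le_mul_of_nonneg_left ?_ D.K0)
  have := pow_le_pow_left₀ (norm_nonneg _) (nz h hq v) 2
  have h2 : ‖(D.z q v).2.1 v‖ = ‖q.2.2 v‖ := rfl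
  linarith [nb h hq v, nzθ hq v]

theorem nT2 (q : D.Q) (u : T.V) :
    ‖(D.Tm q).2 u‖ ≤ (C * ‖(D.Tm q).1 (T.par u)‖ + 4 * ‖q.2.2 u‖ ^ 2) / 2 := by
  have h1 := ((D.c u).le_of_opNorm_le (D.nc u) ((D.Tm q).1 (T.par u)).1).trans
    (mul_le_mul_of_nonneg_left (norm_fst_le _) D.C0.le)
  have h2 := (norm_add_le _ (⟨sqC (q.2.2 u).1, sqC_mem (q.2.2 u).2⟩ : SC T u)).trans
    (add_le_add h1 (norm_sqC (q.2.2 u).1))
  refine (norm_smul_le _ _).trans ((mul_le_mul_of_nonneg_left h2 (norm_nonneg _)).trans_eq ?_)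
  simp [div_eq_inv_mul]

/-! ### holomorphy -/

theorem isOpen_Ω : IsOpen (D.Ω ρ m) := isOpen_ball.prod isOpen_ball

theorem diff_nk (h : D.Sm ρ m) (w : T.V) : DifferentiableOn ℂ (fun q => D.nk q w) (D.Ω ρ m) := by
  unfold nk
  split_ifs
  · have : DifferentiableOn ℂ (fun q : D.Q => D.Y.X (D.yc q.2 w)) (D.Ω ρ m) :=
      D.Y.hol.comp (by unfold yc; fun_prop) fun q hq => memY h hq w
    exact this.fst.prodMk ((differentiableOn_const _).prodMk this.snd)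
  · exact D.X.hol.comp (by unfold yc yp; fun_prop) fun q hq => memX h hq w

theorem diff_z (h : D.Sm ρ m) (v : T.V) : DifferentiableOn ℂ (fun q => D.z q v) (D.Ω ρ m) := by
  have h1 : DifferentiableOn ℂ (fun q => D.bM q v) (D.Ω ρ m) := by
    refine ((D.Θ v v).differentiable.comp_differentiableOn (diff_nk h v).fst).add
      (DifferentiableOn.fun_sum fun w _ => ?_)
    split_ifs
    · exact (D.Θ v w).differentiable.comp_differentiableOn (diff_nk h w).snd.fst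
    · exact differentiableOn_const _
  have h2 : DifferentiableOn ℂ (fun q => toS (XC T v 8 0) (D.bM q v)) (D.Ω ρ m) :=
    diffOn_sub (D.cl v) isOpen_Ω (fun q hq => nb h hq v)
      (h1.congr fun q hq => toS_val (bM_mem h hq v))
  unfold z
  fun_prop

theorem diff_Tm (h : D.Sm ρ m) : DifferentiableOn ℂ D.Tm (D.Ω ρ m) := by
  have h1 : ∀ v, DifferentiableOn ℂ (fun q => (D.st v).Φ (D.z q v)) (D.Ω ρ m) := fun v =>
    (D.st v).hΦ.comp (diff_z h v) fun q hq => memz h hq v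
  refine (differentiableOn_pi.2 h1).prodMk (differentiableOn_pi.2 fun u => ?_)
  refine DifferentiableOn.const_smul (DifferentiableOn.add
    ((D.c u).differentiable.comp_differentiableOn (h1 _).fst) ?_) (-(1 / 2) : ℂ)
  refine diffOn_sub (SC_closed u) isOpen_Ω (M := 4 * m ^ 2) (fun q hq => (norm_sqC _).trans ?_) ?_
  · have : ‖(q.2.2 u).1‖ ≤ m := (norm_le_pi_norm q.2.2 u).trans (na hq).le
    gcongr
  · have : Differentiable ℂ fun q : D.Q => (q.2.2 u).1 :=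
      (SC T u).subtypeL.differentiable.comp (by fun_prop)
    exact ((show Differentiable ℂ sqC by unfold sqC; fun_prop).comp this).differentiableOn

theorem diff_F (h : D.Sm ρ m) : DifferentiableOn ℂ D.F (D.Ω ρ m) := by
  have h1 : ∀ v, DifferentiableOn ℂ (fun q => D.Ep q v) (D.Ω ρ m) := fun v => by
    unfold Ep
    induction T.dep v with
    | zero => simp
    | succ n ih =>
      simp only [Finset.prod_range_succ]
      exact ih.mul (by fun_prop)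
  refine DifferentiableOn.fun_sum fun v _ => ((h1 v).mul ((D.st v).hS.comp (diff_z h v)
    fun q hq => memz h hq v)).add (((diff_nk h v).snd.snd.const_mul _).mul ?_)
  split_ifs
  exacts [differentiableOn_const _, (h1 _).mul_const _]

theorem bd_F (h : D.Sm ρ m) : ∃ B, ∀ q ∈ D.Ω ρ m, ‖D.F q‖ ≤ B := by
  refine ⟨∑ v, ((D.st v).B + ‖(Nat.card (T.Γ v) : ℂ)⁻¹‖ * C *
    (Real.exp (2 * T0) + Real.exp (-(2 * T0)))), fun q hq => ?_⟩
  have h1 : ∀ v, ‖D.Ep q v‖ ≤ 1 := fun v => (Finset.norm_prod_le _ _).trans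
    (Finset.prod_le_one (fun _ _ => norm_nonneg _) fun j _ => (nn hq _).2.le.trans h.ρ1)
  have := D.C0
  refine norm_sum_le_of_le _ fun v _ => norm_add_le_of_le ?_ ?_
  · rw [norm_mul]
    exact (mul_le_of_le_one_left (norm_nonneg _) (h1 v)).trans ((D.st v).bS _ (memz h hq v))
  · rw [norm_mul, norm_mul]
    refine mul_le_mul (mul_le_mul_of_nonneg_left (nnk h hq v).2.2 (norm_nonneg _)) ?_
      (norm_nonneg _) (by positivity)
    split_ifs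
    · rw [Complex.norm_real, Real.norm_of_nonneg (Real.exp_pos _).le]
      linarith [Real.exp_pos (-(2 * T0))]
    · rw [norm_mul, Complex.norm_real, Real.norm_of_nonneg (Real.exp_pos _).le]
      nlinarith [Real.exp_pos (-(2 * T0)), Real.exp_pos (2 * T0), h1 (T.par v)]

end GD

end Crest.Agent.N207.CB.Gl

end
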