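import Crest.Agent.N207.CB.Co3

/-!
# Row 207, block L (helper82): the linear maps of the global system, the collar inputs at a real
point
-/

set_option autoImplicit false

open scoped ContDiff
open Metric Set Filter Topology MeasureTheory
open Crest.GeometryTopology.CoordMetric
open Crest.Agent.NLib.Ell Crest.Agent.N207.I Crest.Agent.N207.Lg Crest.Agent.N207.J

noncomputable section

namespace Crest.Agent.N207.CB

variable {M : Type*} (T : TD M)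

/-- the maps of `ANX` and `TRN` at depth `T0` -/
structure Maps (T0 C : ℝ) where
  A : ∀ v, XC T v 8 0 →L[ℂ] DD
  A' : ∀ u, XC T (T.par u) 8 0 →L[ℂ] DD
  c : ∀ u, XC T (T.par u) 8 0 →L[ℂ] SC T u
  Θ : ∀ v : T.V, T.V → MJ 8 →L[ℂ] MC T v 8
  nA : ∀ v, ‖A v‖ ≤ C
  nA' : ∀ u, ‖A' u‖ ≤ C
  nc : ∀ u, ‖c u‖ ≤ C
  nΘ : ∀ v u, ‖Θ v u‖ ≤ C
  root : c T.root = 0
  hA : ∀ v (W : XC T v 8 0) (w : Fam T), SecN T v 8 w → Lf T 0 w W.1 →
    DatQ (unit T v v T0 w) 1 (A v W) ∧ Inv (T.Γ v) 2 (An (Ioo (1 / 2) (7 / 2))) (unit T v v T0 w) ∧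
      B2 (An (Ioo (1 / 2) (7 / 2))) (C * ‖W‖) (unit T v v T0 w)
  hA' : ∀ u, u ≠ T.root → ∀ (W : XC T (T.par u) 8 0) (w : Fam T), SecN T (T.par u) 8 w →
    Lf T 0 w W.1 → Inv (T.Γ u) 2 (An (Ioo (-(7 / 2)) (-(1 / 2)))) (unit T (T.par u) u T0 w) ∧
      B2 (An (Ioo (-(7 / 2)) (-(1 / 2)))) (C * ‖W‖) (unit T (T.par u) u T0 w) ∧
      ∃ c' : Mt, Adm T u c' ∧ (c u W).1 = cm c' ∧
        (∀ a b, pm (cf (fun x => unit T (T.par u) u T0 w x - c') a b) 0 (-3) = 0) ∧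
        ∀ c'' : Mt, DatP (fun x => unit T (T.par u) u T0 w x + c'') (-1) (A' u W) ∧ ∀ a b k,
          qm (cf (fun x => unit T (T.par u) u T0 w x + c'') a b) k (-3) =
            qm (cf (unit T (T.par u) u T0 w) a b) k (-3)
  cpx : ∀ v u W, Cpx (sgn T v u) W → Θ v u W ∈ XC T v 8 0
  hΘ : ∀ v u (β : MetricField 4) (W : MJ 8), LfJ β W → Inv (T.Γ u) ∞ {x | x ≠ 0} β →
    (∀ x : E4, sgn T v u * Real.log ‖x‖ ≤ 22 / 10 → β x = 0) →
    Sec T v (endF T v u T0 β) ∧ Lf T 0 (endF T v u T0 β) (Θ v u W)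

theorem exists_maps (hA : ANX T) (hT : TRN T) (h : T.Ok) :
    ∃ C T1 : ℝ, 0 < C ∧ ∀ T0, T1 ≤ T0 → Nonempty (Maps T T0 C) := by
  obtain ⟨C, T1, hC, h1⟩ := hA h
  obtain ⟨C', T1', hC', h2⟩ := hT h 8
  refine ⟨max C C', max T1 T1', lt_max_of_lt_left hC, fun T0 hT0 => ?_⟩
  obtain ⟨h3, h4⟩ := h1 T0 ((le_max_left _ _).trans hT0)
  choose A nA hA using h3
  choose Θ nΘ cpx hΘ using fun v u => h2 v u T0 ((le_max_right _ _).trans hT0)
  choose A' c nA' nc hA' using fun (u : T.V) (hu : u ≠ T.root) => h4 (T.par u) u ⟨hu, rfl⟩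
  have m0 : 0 ≤ max C C' := hC.le.trans (le_max_left _ _)
  have mb : ∀ {S : Set E4} {x : ℝ} {f : MetricField 4}, 0 ≤ x → B2 S (C * x) f →
      B2 S (max C C' * x) f := fun hx hf y hy j hj a b =>
    (hf y hy j hj a b).trans (mul_le_mul_of_nonneg_right (le_max_left _ _) hx)
  refine ⟨⟨A, fun u => if hu : u = T.root then 0 else A' u hu,
    fun u => if hu : u = T.root then 0 else c u hu, Θ, fun v => (nA v).trans (le_max_left _ _),
    fun u => ?_, fun u => ?_, fun v u => (nΘ v u).trans (le_max_right _ _), dif_pos rfl,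
    fun v W w h1 h2 => ⟨(hA v W w h1 h2).1, (hA v W w h1 h2).2.1,
      mb (norm_nonneg _) (hA v W w h1 h2).2.2⟩, fun u hu W w h1 h2 => ?_, cpx, hΘ⟩⟩
  · split_ifs with hu
    · exact ContinuousLinearMap.opNorm_zero.trans_le m0
    · exact (nA' u hu).trans (le_max_left _ _)
  · split_ifs with hu
    · exact ContinuousLinearMap.opNorm_zero.trans_le m0
    · exact (nc u hu).trans (le_max_left _ _)
  · rw [dif_neg hu, dif_neg hu]
    exact ⟨(hA' u hu W w h1 h2).1, mb (norm_nonneg _) (hA' u hu W w h1 h2).2.1,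
      (hA' u hu W w h1 h2).2.2⟩

namespace Maps

variable {T} {T0 C : ℝ} (m : Maps T T0 C) (N : XN 8) (H : XH 8) (n : T.V → N.E)
  (W : ∀ v, XC T v 8 0)

/-- the data sent by the two cores into the neck `w` -/
def yv (w : T.V) : DD × DD := (m.A w (W w), m.A' w (W (T.par w)))

/-- the collar input on the outer end of `v` -/
def bc (v : T.V) : MJ 8 :=
  if v = T.root then (H.X (m.A v (W v))).1 else (N.X (n v, m.yv W v)).1

/-- the collar input at the puncture `u` -/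
def bp (u : T.V) : MJ 8 := (N.X (n u, m.yv W u)).2.1

/-- the collar input of the core `v` -/
def bM (v : T.V) : MC T v 8 :=
  m.Θ v v (m.bc N H n W v) + ∑ u ∈ Finset.univ.filter (T.kid v), m.Θ v u (m.bp N n W u)

/-- the action of the neck `v`; `E v` = square of the scale of `v` -/
def enC (E : T.V → ℂ) (v : T.V) : ℂ :=
  if v = T.root then
    ((Real.exp (2 * T0) / Nat.card (T.Γ v) : ℝ) : ℂ) * (H.X (m.A v (W v))).2
  else E (T.par v) * ((Real.exp (-2 * T0) / Nat.card (T.Γ v) : ℝ) : ℂ) *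
    (N.X (n v, m.yv W v)).2.2

theorem norm_yv (hC : 0 ≤ C) {s : ℝ} (hW : ∀ v, ‖W v‖ ≤ s) (w : T.V) : ‖m.yv W w‖ ≤ C * s :=
  max_le (((m.A w).le_of_opNorm_le (m.nA w) _).trans (mul_le_mul_of_nonneg_left (hW _) hC))
    (((m.A' w).le_of_opNorm_le (m.nA' w) _).trans (mul_le_mul_of_nonneg_left (hW _) hC))

end Maps

/-- **real identification** (`Gl2`): `s` bounds all unknowns -/
def GL2 : Prop :=
  ∀ (g : T.V → Fam T) (γ : ℝ), 0 < γ → T.Ok → T.Lim g γ →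
    ∀ (κ : T.V → Type) [∀ v, Fintype (κ v)] (ψ : ∀ v, κ v → Fam T) (T1 : ℝ), Psi T κ ψ T1 →
    ∀ (N : XN 8) (H : XH 8) (C δ : ℝ), 0 < C → 0 < δ → ∃ s T2 : ℝ, 0 < s ∧ ∀ T0, T2 ≤ T0 →
    ∀ (m : Maps T T0 C) (L : T.V → ℝ), (∀ w, 2 * T0 + max 10 N.ℓ0 ≤ L w) →
    ∀ (n : T.V → N.E), (∀ w, w ≠ T.root → n w = N.N ((L w - 2 * T0 : ℝ) : ℂ)) →
      (∀ w, w ≠ T.root → ‖n w - N.co 0 0‖ ≤ s) →
    ∀ (W : ∀ v, XC T v 8 0), (∀ v, (W v).1 ∈ XR T v 8 0) → (∀ v, ‖W v‖ ≤ s) →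
      (∀ v, m.bM N H n W v ∈ XR T v 8 0) ∧
      (∀ u, ∃ c' : Mt, Adm T u c' ∧ (m.c u (W (T.par u))).1 = cm c') ∧
      ∀ (ε K η : ℝ) (Φ : ∀ v, CoreStep T g (ψ v) v T0 ε K η) (μ : ∀ v, κ v → ℝ) (a : T.V → Mt)
        (ac : ∀ u, SC T u) (b : ∀ v, XC T v 8 0) (θ : (Σ v, κ v) → ℝ) (z : ∀ v, Zc T v (κ v)),
        (∀ u, Adm T u (a u) ∧ (ac u).1 = cm (a u)) → ‖ac‖ ≤ s →
        (∀ v, (b v).1 = m.bM N H n W v) →
        (∀ v, z v = ((W v, cv (μ v)), ac, b v, cv fun j => θ ⟨v, j⟩)) →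
        (∀ v, ‖z v‖ < ε) → (∀ v, K * (η + ‖z v‖) ≤ s) → (∀ v, (Φ v).Φ (z v) = (z v).1) →
        (∀ u, u ≠ T.root → cAc (ac u).1 = -(m.c u (W (T.par u))).1) →
        ∃ (μ' : (Σ v, κ v) → ℝ) (G : Fam T), LS T g T0 κ ψ δ L θ μ' G ∧
          ((actL T L (gbL T g T0 L) G : ℝ) : ℂ) =
            ∑ v, (((T.eps L v ^ 2 : ℝ) : ℂ) * (Φ v).S (z v) +
              m.enC N H n W (fun v => ((T.eps L v ^ 2 : ℝ) : ℂ)) v)

end Crest.Agent.N207.CB

end
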