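import Crest.Agent.N207.CB.Gl2a
import Crest.Agent.N207.CB.Anx1

/-!
# Row 207, block L (helper82): the real identification `gl2`
-/

set_option autoImplicit false

open scoped ContDiff
open Metric Set Filter Topology MeasureTheory
open Crest.GeometryTopology.CoordMetric
open Crest.Agent.NLib.Ell Crest.Agent.N207.I Crest.Agent.N207.Lg Crest.Agent.N207.J

noncomputable section

namespace Crest.Agent.N207.CB

namespace G2

section kit
variable {S S' : Set E4} {η η' : ℝ} {h : MetricField 4} {Γ : Subgroup Iso4}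

theorem b2_mono (hh : B2 S η h) (e : η ≤ η') : B2 S η' h :=
  fun x hx j hj a b => (hh x hx j hj a b).trans e

theorem inv_mono {m : WithTop ℕ∞} (hh : Inv Γ m S h) (e : S' ⊆ S) : Inv Γ m S' h :=
  ⟨fun a b => (hh.sm a b).mono e, fun x hx => hh.symm x (e hx),
    fun γ hγ x hx => hh.eqv γ hγ x (e hx)⟩

theorem an_mono {I I' : Set ℝ} (e : I ⊆ I') : An I ⊆ An I' := fun _ hx => ⟨hx.1, e hx.2⟩

theorem pullM_one (h : MetricField 4) (x : E4) : pullM (1 : Iso4) h x = h x := by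
  ext a b
  change pullT (fun z => z) (matT h) x ![a, b] = _
  rw [AI.pullT_id]; rfl

theorem inv_bot {m : WithTop ℕ∞} (sm : ∀ a b, ContDiffOn ℝ m (fun x => h x a b) S)
    (symm : ∀ x ∈ S, (h x).IsSymm) : Inv ⊥ m S h :=
  ⟨sm, symm, fun γ hγ x _ => by rw [Subgroup.mem_bot.1 hγ, pullM_one]⟩

theorem b2_const (hS : IsOpen S) (sm : ∀ a b, ContDiffOn ℝ 2 (fun x => h x a b) S)
    (hh : B2 S η h) {c : Mt} (hc : ∀ a b, |c a b| ≤ η') : B2 S (η + η') fun x => h x + c := by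
  intro x hx j hj a b
  have h0 : 0 ≤ η' := (abs_nonneg _).trans (hc a b)
  have h1 : ContDiffAt ℝ j (fun x => h x a b) x :=
    ((sm a b).contDiffAt (hS.mem_nhds hx)).of_le (by exact_mod_cast hj)
  have e : iteratedFDeriv ℝ j (fun y => (h y + c) a b) x =
      iteratedFDeriv ℝ j (fun y => h y a b) x + iteratedFDeriv ℝ j (fun _ : E4 => c a b) x :=
    iteratedFDeriv_add_apply h1 contDiffAt_const
  rw [e]
  refine (mul_le_mul_of_nonneg_left (norm_add_le _ _) (by positivity)).trans ?_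
  rw [mul_add]
  refine add_le_add (hh x hx j hj a b) ?_
  rcases eq_or_ne j 0 with rfl | hj0
  · simpa using hc a b
  · simpa [iteratedFDeriv_const_of_ne hj0] using h0

theorem colO_mono {ε ε' : ℝ} {y : DD} {u β : MetricField 4} (H : ColO Γ ε y u β) (e : ε' ≤ ε) :
    ColO Γ ε' y u β := ⟨H.inv, H.supp, fun w h1 h2 => H.unq w h1 (b2_mono h2 e)⟩

theorem colI_mono {ε ε' : ℝ} {y : DD} {u β : MetricField 4} (H : ColI Γ ε y u β) (e : ε' ≤ ε) :
    ColI Γ ε' y u β := ⟨H.inv, H.supp, fun w h1 h2 => H.unq w h1 (b2_mono h2 e)⟩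

theorem asol_mono {I : Set ℝ} {en : ℝ} {u : MetricField 4} (H : ASol Γ I η en u) (e : η ≤ η') :
    ASol Γ I η' en u := ⟨H.inv, H.pos, H.eq, b2_mono H.bd e, H.int, H.en⟩

theorem cm_inj {a b : Mt} (e : cm a = cm b) : a = b := by
  ext p q
  exact Complex.ofReal_injective (congrFun (congrFun e p) q)

theorem abs_le_cm (a : Mt) (p q : Fin 4) : |a p q| ≤ ‖cm a‖ := by
  simpa [cm] using (norm_le_pi_norm (cm a p) q).trans (norm_le_pi_norm (cm a) p)

end kit

variable {M : Type*} {T : TD M} {T0 C : ℝ}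

theorem sgn_log (v u : T.V) (T0 : ℝ) {x : E4} (hx : x ≠ 0) :
    sgn T v u * Real.log ‖Real.exp (-(sgn T v u * T0)) • x‖ = tau T v u T0 x := by
  rw [norm_smul, Real.norm_of_nonneg (Real.exp_pos _).le,
    Real.log_mul (Real.exp_pos _).ne' (norm_ne_zero_iff.2 hx), Real.log_exp]
  unfold sgn tau
  split_ifs <;> ring

theorem endF_zero {v u : T.V} {β : MetricField 4}
    (h : ∀ x : E4, sgn T v u * Real.log ‖x‖ ≤ 22 / 10 → β x = 0) (s : T.S) (x : E4)
    (hx : x ∈ UR T v T0 (22 / 10) s) : endF T v u T0 β s x = 0 := by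
  simp only [endF, onE]
  split_ifs with e
  · subst e
    exact h _ (by rw [sgn_log v u T0 (end_ne hx.1)]; exact (hx.2 u rfl).le)
  · rfl

theorem unit_endF (v u : T.V) (β : MetricField 4) : unit T v u T0 (endF T v u T0 β) = β := by
  funext x
  simp [unit, endF, onE, smul_smul, ← Real.exp_add]

theorem endF_ne (v : T.V) {u u' : T.V} (h : u ≠ u') (β : MetricField 4) :
    endF T v u' T0 β (Sum.inr u) = 0 := by
  simp [endF, onE, h]

variable (T T0) in
/-- the collar inputs of `core v` -/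
def bR (βc βp : T.V → MetricField 4) (v : T.V) : Fam T :=
  endF T v v T0 (βc v) + ∑ u ∈ Finset.univ.filter (T.kid v), endF T v u T0 (βp u)

theorem unit_bR_out (h : T.Ok) (βc βp : T.V → MetricField 4) (v : T.V) :
    unit T v v T0 (bR T T0 βc βp v) = βc v := by
  have e : bR T T0 βc βp v (Sum.inr v) = endF T v v T0 (βc v) (Sum.inr v) := by
    rw [bR, Pi.add_apply, Finset.sum_apply, Finset.sum_eq_zero, add_zero]
    exact fun u hu => endF_ne v (h.kid_ne (Finset.mem_filter.1 hu).2).symm _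
  rw [← unit_endF (T0 := T0) v v (βc v)]
  unfold unit
  rw [e]

theorem unit_bR_inn (h : T.Ok) (βc βp : T.V → MetricField 4) {v u : T.V} (hu : T.kid v u) :
    unit T v u T0 (bR T T0 βc βp v) = βp u := by
  have e : bR T T0 βc βp v (Sum.inr u) = endF T v u T0 (βp u) (Sum.inr u) := by
    rw [bR, Pi.add_apply, Finset.sum_apply, endF_ne v (h.kid_ne hu), zero_add,
      Finset.sum_eq_single u (fun u' _ e => endF_ne v e.symm _) fun e => absurd (by simp [hu]) e]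
  rw [← unit_endF (T0 := T0) v u (βp u)]
  unfold unit
  rw [e]

variable (m : Maps T T0 C) (N : XN 8) (H : XH 8) (n : T.V → N.E) (W : ∀ v, XC T v 8 0)

/-- the real meaning of the neck `v` -/
structure Nk (L : T.V → ℝ) (δ e : ℝ) (v : T.V) (u βc βp : MetricField 4) (en : ℝ) : Prop where
  asol : ASol (T.Γ v) (nI T T0 L v) δ en u
  colO : ColO (T.Γ v) e (m.A v (W v)) u βc
  lfc : LfJ βc (m.bc N H n W v)
  dec : v = T.root → ∀ x ∈ An (Ioi 1), ∀ j ≤ 2, ∀ p q,
    ‖x‖ ^ j * ‖iteratedFDeriv ℝ j (fun z => u z p q) x‖ ≤ δ * (Real.exp 4 / ‖x‖) ^ (3 / 2 : ℝ)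
  colI : v ≠ T.root → ColI (T.Γ v) e (m.A' v (W (T.par v)))
    (fun x => u (Real.exp (L v - 2 * T0) • x)) βp
  lfp : v ≠ T.root → LfJ βp (m.bp N n W v)
  en : m.enC N H n W (fun v => ((T.eps L v ^ 2 : ℝ) : ℂ)) v =
    ((T.eps L v ^ 2 * ((Nat.card (T.Γ v) : ℝ)⁻¹ * (Real.exp (2 * T0) * en)) : ℝ) : ℂ)

variable {m N H n W}

theorem exists_nk (h : T.Ok) (hC : 0 < C) {L : T.V → ℝ} {s δ : ℝ} (s0 : 0 < s)
    (s1 : (C + 6) * s < min N.ε H.ε) (s2 : (|N.C| + |H.C|) * ((C + 1) * s) ≤ δ)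
    (hL : ∀ w, 2 * T0 + N.ℓ0 ≤ L w)
    (hn : ∀ w, w ≠ T.root → n w = N.N ((L w - 2 * T0 : ℝ) : ℂ))
    (hn' : ∀ w, w ≠ T.root → ‖n w - N.co 0 0‖ ≤ s) (hW : ∀ v, ‖W v‖ ≤ s) {w : T.V → Fam T}
    (hw : ∀ v, SecN T v 8 (w v) ∧ Lf T 0 (w v) (W v).1) (v : T.V) :
    ∃ (u βc βp : MetricField 4) (en : ℝ), Nk m N H n W L δ (min N.ε H.ε) v u βc βp en := by
  have y1 := m.norm_yv W hC.le hW v
  obtain ⟨a1, a2, -⟩ := m.hA v (W v) (w v) (hw v).1 (hw v).2
  have a3 := inv_mono a2 (an_mono (Ioo_subset_Ioo_right (by norm_num : (3 / 2 : ℝ) ≤ 7 / 2)))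
  have q1 := min_le_left N.ε H.ε
  have q2 := min_le_right N.ε H.ε
  have q3 := abs_nonneg N.C
  have q4 := abs_nonneg H.C
  have q5 : 0 ≤ (C + 1) * s := by positivity
  by_cases hv : v = T.root
  · have y2 : ‖m.A v (W v)‖ ≤ C * s := (norm_fst_le (m.yv W v)).trans y1
    obtain ⟨u, βc, en, b1, b2, b3, b4, b5⟩ := H.real (T.Γ v) (m.A v (W v))
      (mem_ball_zero_iff.2 (by linarith)) _ a3 a1
    have d : H.C * ‖m.A v (W v)‖ ≤ δ := by
      refine (mul_le_mul (le_abs_self _) (show _ ≤ (C + 1) * s by linarith) (norm_nonneg _)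
        q4).trans (le_trans ?_ s2)
      gcongr; linarith
    refine ⟨u, βc, 0, en, ?_, colO_mono b2 q2, ?_, fun _ x hx j hj p q => (b5 x hx j hj p q).trans
      (mul_le_mul_of_nonneg_right d (by positivity)), fun e => absurd hv e, fun e => absurd hv e,
      ?_⟩
    · rw [nI, if_pos hv]; exact asol_mono b1 d
    · rw [Maps.bc, if_pos hv]; exact b3
    · rw [Maps.enC, if_pos hv, b4]
      subst hv
      rw [h.eps_root]; push_cast; ring
  · obtain ⟨c1, -, c', -, -, -, c2⟩ := m.hA' v hv (W _) (w _) (hw _).1 (hw _).2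
    have c3 := inv_mono c1 (an_mono (Ioo_subset_Ioo_left (by norm_num : (-(7 / 2) : ℝ) ≤ -(3 / 2))))
    have c4 : DatP (unit T (T.par v) v T0 (w (T.par v))) (-1) (m.A' v (W (T.par v))) := by
      simpa using (c2 0).1
    have n1 := hn' v hv
    have hb : (n v, m.yv W v) ∈ ball ((N.co 0 0, 0) : N.E × DD × DD) N.ε := by
      rw [← ball_prod_same]
      exact ⟨mem_ball_iff_norm.2 (by nlinarith), mem_ball_zero_iff.2 (by linarith)⟩
    rw [hn v hv] at hb n1
    obtain ⟨u, βc, βp, en, b1, b2, b3, b4, b5, b6⟩ := N.real (T.Γ v) (L v - 2 * T0)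
      (by linarith [hL v]) (m.yv W v) hb _ _ a3 a1 c3 c4
    have d : N.C * (‖m.yv W v‖ + ‖N.N ((L v - 2 * T0 : ℝ) : ℂ) - N.co 0 0‖) ≤ δ := by
      refine (mul_le_mul (le_abs_self _) (show _ ≤ (C + 1) * s by linarith) (by positivity)
        q3).trans (le_trans ?_ s2)
      gcongr; linarith
    refine ⟨u, βc, βp, en, ?_, colO_mono b2 q1, ?_, fun e => absurd e hv,
      fun _ => colI_mono b3 q1, fun _ => ?_, ?_⟩
    · rw [nI, if_neg hv]; exact asol_mono b1 d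
    · rw [Maps.bc, if_neg hv, hn v hv]; exact b4
    · rw [Maps.bp, hn v hv]; exact b5
    · rw [Maps.enC, if_neg hv, hn v hv, b6, h.eps_kid L hv, ← Complex.ofReal_mul,
        ← Complex.ofReal_mul]
      congr 1
      have e : Real.exp (-2 * T0) * Real.exp (-2 * (L v - 2 * T0)) =
          Real.exp (-L v) ^ 2 * Real.exp (2 * T0) := by
        rw [pow_two, ← Real.exp_add, ← Real.exp_add, ← Real.exp_add]; congr 1; ring
      rw [div_eq_mul_inv]
      linear_combination (T.eps L (T.par v) ^ 2 * (Nat.card (T.Γ v) : ℝ)⁻¹ * en) * e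

theorem bR_spec (h : T.Ok) {L : T.V → ℝ} {δ e : ℝ} {u βc βp : T.V → MetricField 4}
    {en : T.V → ℝ} (hk : ∀ v, Nk m N H n W L δ e v (u v) (βc v) (βp v) (en v)) (v : T.V) :
    Sec T v (bR T T0 βc βp v) ∧ Lf T 0 (bR T T0 βc βp v) (m.bM N H n W v) ∧
      ∀ s, ∀ x ∈ UR T v T0 (22 / 10) s, bR T T0 βc βp v s x = 0 := by
  have z1 : ∀ x : E4, sgn T v v * Real.log ‖x‖ ≤ 22 / 10 → βc v x = 0 := fun x hx =>
    (hk v).colO.supp x (Or.inl (by simpa [sgn] using hx))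
  have z2 : ∀ u' ∈ Finset.univ.filter (T.kid v), ∀ x : E4,
      sgn T v u' * Real.log ‖x‖ ≤ 22 / 10 → βp u' x = 0 := fun u' hu x hx =>
    ((hk u').colI (Finset.mem_filter.1 hu).2.1).supp x
      (Or.inl (by simpa [sgn, h.kid_ne (Finset.mem_filter.1 hu).2] using hx))
  have t1 := m.hΘ v v _ _ (hk v).lfc (hk v).colO.inv z1
  have t2 := fun u' (hu : u' ∈ Finset.univ.filter (T.kid v)) => m.hΘ v u' _ _
    ((hk u').lfp (Finset.mem_filter.1 hu).2.1) ((hk u').colI (Finset.mem_filter.1 hu).2.1).inv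
    (z2 u' hu)
  refine ⟨t1.1.add (Sec.sum _ fun u' hu => (t2 u' hu).1), fun i => ?_, fun s x hx => ?_⟩
  · rw [bR, Pi.add_apply, Finset.sum_apply]
    exact (t1.2 i).add (LfAt.sum _ fun u' hu => (t2 u' hu).2 i)
  · rw [bR, Pi.add_apply, Finset.sum_apply, Pi.add_apply, Finset.sum_apply, endF_zero z1 s x hx,
      Finset.sum_eq_zero fun u' hu => endF_zero (z2 u' hu) s x hx, add_zero]

end G2

open G2 in
/-- **real identification** -/
theorem gl2 {M : Type*} (T : TD M) (hR : REG T) (hG : GLU T) (hP : PB T) : GL2 T := by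
  intro g γ hγ h hg κ _ ψ T1 hψ N H C δ hC hδ
  obtain ⟨δ', T2, hδ', hP⟩ := hP g γ hγ h hg κ ψ T1 hψ δ hδ
  obtain ⟨T3, hG⟩ := hG g γ hγ h hg κ ψ T1 hψ
  have e0 : 0 < min N.ε H.ε := lt_min N.ε_pos H.ε_pos
  obtain ⟨s, s0, s1, s2, s3, s4⟩ : ∃ s : ℝ, 0 < s ∧ (C + 6) * s < min N.ε H.ε ∧
      (|N.C| + |H.C|) * ((C + 1) * s) ≤ δ' / 2 ∧ s ≤ δ' / 2 ∧ s ≤ 1 / 100 := by
    have t1 : ∀ᶠ s in 𝓝 (0 : ℝ), (C + 6) * s < min N.ε H.ε :=
      (by fun_prop : Continuous fun s : ℝ => (C + 6) * s).continuousAt.eventually_lt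
        continuousAt_const (by simpa using e0)
    have t2 : ∀ᶠ s in 𝓝 (0 : ℝ), (|N.C| + |H.C|) * ((C + 1) * s) < δ' / 2 :=
      (by fun_prop : Continuous fun s : ℝ => (|N.C| + |H.C|) * ((C + 1) * s)
        ).continuousAt.eventually_lt continuousAt_const (by simpa using hδ')
    obtain ⟨s, ⟨⟨⟨a, b⟩, c⟩, d⟩, e⟩ := ((((t1.and t2).and (eventually_le_nhds (half_pos hδ'))).and
      (eventually_le_nhds (by norm_num : (0 : ℝ) < 1 / 100))).filter_mono
        (nhdsWithin_le_nhds (s := Ioi 0))).and self_mem_nhdsWithin |>.exists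
    exact ⟨s, e, a, b.le, c, d⟩
  refine ⟨s, max T2 T3, s0, fun T0 hT m L hL n hn hn' W hWR hW => ?_⟩
  choose w hw using fun v => (hR h v 8).1 _ (hWR v)
  have L1 : ∀ w, 2 * T0 + 10 ≤ L w := fun w => by linarith [hL w, le_max_left 10 N.ℓ0]
  choose u βc βp en hk using exists_nk (m := m) h hC s0 s1 s2
    (fun w => by linarith [hL w, le_max_right 10 N.ℓ0]) hn hn' hW hw
  have hβ := bR_spec h hk
  have bX : ∀ v, m.bM N H n W v ∈ XR T v 8 0 := fun v => subset_closure ⟨_, (hβ v).1, (hβ v).2.1⟩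
  refine ⟨bX, fun v => ?_, fun ε K η Φ μ a ac b θ z ha hac hb hz z1 z2 fx fa => ?_⟩
  · by_cases hv : v = T.root
    · subst hv
      exact ⟨0, Adm.zero, by rw [m.root]; ext p q; simp [cm]⟩
    · obtain ⟨-, -, c', c1, c2, -⟩ := m.hA' v hv (W _) (w _) (hw _).1 (hw _).2
      exact ⟨c', c1, c2⟩
  have an : ∀ v, ‖cm (a v)‖ ≤ s := fun v => (ha v).2 ▸ (norm_le_pi_norm ac v).trans hac
  have a1 : ∀ v p q, |a v p q| ≤ s := fun v p q => (abs_le_cm _ p q).trans (an v)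
  have hM : ∀ v, ∃ G, CoM T g T0 v (ψ v) a (K * (η + ‖z v‖)) (fun j => θ ⟨v, j⟩) (μ v)
      (bR T T0 βc βp v) (w v) G ∧
      (Φ v).S (z v) = (actC T v T0 (fun s => fgfF (gbA T g T0 a v s) (G s)) : ℝ) := fun v => by
    refine (Φ v).fix (z v) (mem_ball_zero_iff.2 (z1 v)) (μ v) a _ ?_ (fx v) _ _ (hβ v).1 ?_
      (hβ v).2.2 (hw v).1 ?_
    · rw [hz]; exact ⟨hWR v, rfl, ha, (hb v).symm ▸ bX v, rfl⟩
    · rw [hz]; exact (hb v).symm ▸ (hβ v).2.1
    · rw [hz]; exact (hw v).2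
  choose G hM hS using hM
  have Cs : ∀ v, C * ‖W v‖ ≤ C * s := fun v => mul_le_mul_of_nonneg_left (hW v) hC.le
  obtain ⟨G', g1, g2⟩ := hG T0 ((le_max_right _ _).trans hT) L L1 a (fun v => (ha v).1)
    (fun v p q => (a1 v p q).trans s4) (δ' / 2) θ (fun j => -(μ j.1 j.2 / 2)) G u en
    (fun v => { (hM v).cos with
      small := fun s' x hx y hy k hk p q =>
        ((hM v).cos.small s' x hx y hy k hk p q).trans ((z2 v).trans s3)
      mu := (hM v).cos.mu.trans ((z2 v).trans s3) })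
    (fun v => (hk v).asol) (fun v x hx => by
      obtain ⟨c1, c2, c3⟩ := m.hA v (W v) (w v) (hw v).1 (hw v).2
      rw [(hM v).outG x hx, (hk v).colO.unq _ (inv_bot c2.sm c2.symm)
        (b2_mono c3 (by linarith [Cs v])) c1 (hM v).outP ?_ x hx]
      have := (hM v).outE
      rwa [unit_bR_out h] at this)
    (fun v hv x hx => by
      obtain ⟨c1, c2, c', -, c4, c5, c6⟩ := m.hA' v hv (W _) (w _) (hw _).1 (hw _).2
      have e : cA (a v) = -c' := cm_inj (by
        rw [← cAc_cm, ← (ha v).2, fa v hv, c4]; ext p q; simp [cm])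
      have n6 : ∀ p q, |cA (a v) p q| ≤ 6 * s := fun p q => (abs_le_cm _ p q).trans (by
        rw [← cAc_cm]
        exact (norm_cAc ((an v).trans (by linarith))).trans (by linarith [an v]))
      rw [(hM _).innG v ⟨hv, rfl⟩ x hx]
      congr 1
      refine ((hk v).colI hv).unq (fun x => unit T (T.par v) v T0 (w _) x + cA (a v))
        (inv_bot (fun p q => (c1.sm p q).add contDiffOn_const) fun x hx =>
          (c1.symm x hx).add (ha v).1.cA.symm)
        (b2_mono (b2_const (isOpen_An isOpen_Ioo) c1.sm c2 n6) (by linarith [Cs (T.par v)]))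
        (c6 _).1 (fun p q k => ((c6 _).2 p q k).trans ((hM _).innQ v ⟨hv, rfl⟩ p q k))
        (fun p q => by simpa only [e, ← sub_eq_add_neg] using c5 p q) ?_ x hx
      have := (hM _).innE v ⟨hv, rfl⟩
      rwa [unit_bR_inn h βc βp ⟨hv, rfl⟩] at this)
    ((hk T.root).dec rfl)
  rw [show 2 * (δ' / 2) = δ' by ring] at g1
  obtain ⟨G'', g3, g4⟩ := hP T0 ((le_max_left _ _).trans hT) L L1 a (fun v => (ha v).1)
    (fun v p q => (a1 v p q).trans (by linarith)) θ _ G' g1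
  refine ⟨_, G'', g3, ?_⟩
  rw [g4, g2, Complex.ofReal_sum]
  refine Finset.sum_congr rfl fun v _ => ?_
  rw [hS v, (hk v).en]
  push_cast; ring

end Crest.Agent.N207.CB

end
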