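import Crest.Agent.N207.CB.Gl2

/-!
# Row 207, block L (helper77): `GLB`, real points
-/

set_option autoImplicit false
set_option linter.unusedSectionVars false

open scoped ContDiff
open Metric Set Filter Topology MeasureTheory
open Crest.GeometryTopology.CoordMetric
open Crest.Agent.NLib.Ell Crest.Agent.N207.I Crest.Agent.N207.Lg Crest.Agent.N207.J

noncomputable section

namespace Crest.Agent.N207.CB.Gl

variable {M : Type*} {T : TD M} {g : T.V → Fam T} {κ : T.V → Type} [∀ v, Fintype (κ v)]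
  {ψ : ∀ v, κ v → Fam T} {T0 ε K η C : ℝ}

variable (T κ) in
/-- the real unknowns -/
def RS : Set (GX T κ) := {x | ∀ v, (x.1 v).1.1 ∈ XR T v 8 0 ∧ (∀ j, ((x.1 v).2 j).im = 0) ∧
  ∀ p q, ((x.2 v).1 p q).im = 0}

theorem RS_closed : IsClosed (RS T κ) := by
  simp only [RS, ofPred_forall, ofPred_and]
  refine isClosed_iInter fun v => (isClosed_closure.preimage (f := fun x : GX T κ => (x.1 v).1.1)
    (by fun_prop)).inter ((isClosed_iInter fun j => isClosed_eq (by fun_prop) continuous_const).inter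
      (isClosed_iInter fun p => isClosed_iInter fun q => isClosed_eq (Complex.continuous_im.comp
        ((continuous_apply_apply p q).comp (continuous_subtype_val.comp
          ((continuous_apply v).comp continuous_snd)))) continuous_const))

theorem RS_zero : (0 : GX T κ) ∈ RS T κ := fun _ => ⟨XR_zero, fun _ => rfl, fun _ _ => rfl⟩

/-- the collar inputs as a family on `core v` -/
def bF (T0 : ℝ) (βc βp : T.V → MetricField 4) (v : T.V) : Fam T :=
  endF T v v T0 (βc v) + ∑ w, if T.kid v w then endF T v w T0 (βp w) else 0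

theorem bF_inr (h : T.Ok) (βc βp : T.V → MetricField 4) (v u : T.V) (x : E4) :
    bF T0 βc βp v (Sum.inr u) x = if u = v then βc v (Real.exp (-(sgn T v u * T0)) • x)
      else if T.kid v u then βp u (Real.exp (-(sgn T v u * T0)) • x) else 0 := by
  simp only [bF, Pi.add_apply, Finset.sum_apply]
  rw [Finset.sum_eq_single u (fun w _ hw => by split_ifs <;> simp [endF, onE, hw.symm]) (by simp)]
  by_cases hu : u = v
  · subst hu
    have : ¬T.kid u u := fun hk => kid_ne h hk rfl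
    simp [endF, onE, this]
  · by_cases hk : T.kid v u <;> simp [endF, onE, hu, hk]

theorem bF_inl (βc βp : T.V → MetricField 4) (v : T.V) (b : T.B) (x : E4) :
    bF T0 βc βp v (Sum.inl b) x = 0 := by
  simp only [bF, Pi.add_apply, Finset.sum_apply]
  rw [Finset.sum_eq_zero fun w _ => by split_ifs <;> simp [endF, onE]]
  simp [endF, onE]

theorem unit_self (h : T.Ok) (βc βp : T.V → MetricField 4) (v : T.V) :
    unit T v v T0 (bF T0 βc βp v) = βc v := by
  funext x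
  rw [unit, bF_inr h, if_pos rfl, smul_smul, ← Real.exp_add]; simp

theorem unit_kid (h : T.Ok) (βc βp : T.V → MetricField 4) {v u : T.V} (hk : T.kid v u) :
    unit T v u T0 (bF T0 βc βp v) = βp u := by
  funext x
  rw [unit, bF_inr h, if_neg (kid_ne h hk), if_pos hk, smul_smul, ← Real.exp_add]; simp

theorem log_tau (v u : T.V) {x : E4} (hx : x ≠ 0) :
    sgn T v u * Real.log ‖Real.exp (-(sgn T v u * T0)) • x‖ = tau T v u T0 x := by
  rw [norm_smul, Real.norm_of_nonneg (Real.exp_pos _).le,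
    Real.log_mul (Real.exp_pos _).ne' (norm_ne_zero_iff.2 hx), Real.log_exp, sgn, tau]
  split_ifs <;> ring

namespace GD

variable (D : GD T g κ ψ T0 ε K η C)

/-- real parameters -/
structure RP (θ : (Σ v, κ v) → ℝ) (L : T.V → ℝ) (p : GP T κ D.X.E) : Prop where
  hθ : p.1 = cv θ
  hn : ∀ w, p.2 w = (D.X.N ((L w - 2 * T0 : ℝ) : ℂ), Complex.exp (-2 * (L w : ℂ)))
  hl : ∀ w, D.X.ℓ0 ≤ L w - 2 * T0

/-- the necks at a real point -/
structure Nk (ρ m : ℝ) (L : T.V → ℝ) (q : D.Q) (u βc βp : T.V → MetricField 4) (en : T.V → ℝ)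
    (v : T.V) : Prop where
  sol : ASol (T.Γ v) (nI T T0 L v) (C * (C * m + ρ)) (en v) (u v)
  co : ∃ e, C * m ≤ e ∧ ColO (T.Γ v) e (D.yc q.2 v) (u v) (βc v)
  lc : LfJ (βc v) (D.nk q v).1
  ci : v ≠ T.root →
    ColI (T.Γ v) D.X.ε (D.yp q.2 v) (fun x => u v (Real.exp (L v - 2 * T0) • x)) (βp v) ∧
      LfJ (βp v) (D.nk q v).2.1
  en : (D.nk q v).2.2 =
    (((if v = T.root then 1 else Real.exp (-2 * (L v - 2 * T0))) * en v : ℝ) : ℂ)
  dec : v = T.root → ∀ x ∈ An (Ioi 1), ∀ j ≤ 2, ∀ a b,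
    ‖x‖ ^ j * ‖iteratedFDeriv ℝ j (fun z => u v z a b) x‖ ≤
      C * (C * m + ρ) * (Real.exp 4 / ‖x‖) ^ (3 / 2 : ℝ)

variable {D} {ρ m : ℝ} {q : D.Q} {θ : (Σ v, κ v) → ℝ} {L : T.V → ℝ}

theorem exists_nk (h : D.Sm ρ m) (hq : q ∈ D.Ω ρ m) (hp : D.RP θ L q.1) (hx : q.2 ∈ RS T κ) :
    ∃ u βc βp en, ∀ v, D.Nk ρ m L q u βc βp en v := by
  have C0 := D.C0
  have := h.ρ0
  have := h.m0
  have key : ∀ v, ∃ u βc βp en, D.Nk ρ m L q (fun _ => u) (fun _ => βc) (fun _ => βp)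
      (fun _ => en) v := fun v => by
    obtain ⟨w, w1, w2⟩ := D.reg v _ (hx v).1
    obtain ⟨a1, a2, -⟩ := D.hA v _ w w1 w2
    have a3 := inv_mono a2 (An_mono (Ioo_subset_Ioo_right (by norm_num : (3 / 2 : ℝ) ≤ 7 / 2)))
    by_cases hv : v = T.root
    · obtain ⟨u, βc, en, b1, b2, b3, b4, b5⟩ := D.Y.real _ _ (memY h hq v) _ a3 a1
      have b0 : D.Y.C * ‖D.yc q.2 v‖ ≤ C * (C * m + ρ) :=
        mul_le_mul D.cY (by linarith [nyc hq v]) (norm_nonneg _) C0.le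
      refine ⟨u, βc, 0, en, by rw [nI, if_pos hv]; exact asol_mono b1 b0, ⟨_, h.hY, b2⟩,
        by rw [nk, if_pos hv]; exact b3, fun e => absurd hv e,
        by rw [nk, if_pos hv, if_pos hv, one_mul]; exact b4, fun _ x hx j hj a b =>
          (b5 x hx j hj a b).trans (mul_le_mul_of_nonneg_right b0 (by positivity))⟩
    · obtain ⟨w', w3, w4⟩ := D.reg _ _ (hx (T.par v)).1
      obtain ⟨a4, -, c', -, -, -, a5⟩ := D.hAi v hv _ w' w3 w4
      have a6 := (a5 0).1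
      simp only [add_zero] at a6
      have e : (q.1.2 v).1 = D.X.N ((L v - 2 * T0 : ℝ) : ℂ) := by rw [hp.hn]
      have n1 := (nn hq v).1
      have mx := memX h hq v
      rw [e] at mx n1
      obtain ⟨u, βc, βp, en, b1, b2, b3, b4, b5, b6⟩ := D.X.real _ _ (hp.hl v) _ mx _ _ a3 a1
        (inv_mono a4 (An_mono (Ioo_subset_Ioo_left (by norm_num)))) a6
      refine ⟨u, βc, βp, en, ?_, ⟨_, by nlinarith [h.hX], b2⟩, by rw [nk, if_neg hv, e]; exact b4,
        fun _ => ⟨b3, by rw [nk, if_neg hv, e]; exact b5⟩,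
        by rw [nk, if_neg hv, if_neg hv, e]; exact b6, fun e => absurd e hv⟩
      rw [nI, if_neg hv]
      exact asol_mono b1 (mul_le_mul D.cX (add_le_add (max_le (nyc hq v).le (nyp hq v).le) n1.le)
        (by positivity) C0.le)
  choose u βc βp en hk using key
  exact ⟨u, βc, βp, en, fun v => ⟨(hk v).sol, (hk v).co, (hk v).lc, (hk v).ci, (hk v).en, (hk v).dec⟩⟩

variable {u βc βp : T.V → MetricField 4} {en : T.V → ℝ}

theorem supp_c (hk : ∀ v, D.Nk ρ m L q u βc βp en v) (v : T.V) (x : E4)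
    (hx : sgn T v v * Real.log ‖x‖ ≤ 22 / 10) : βc v x = 0 := by
  obtain ⟨e, -, h1⟩ := (hk v).co
  exact h1.supp x (Or.inl (by rwa [sgn_self, one_mul] at hx))

theorem supp_p (hk : ∀ v, D.Nk ρ m L q u βc βp en v) {v w : T.V} (hw : T.kid v w) (x : E4)
    (hx : sgn T v w * Real.log ‖x‖ ≤ 22 / 10) : βp w x = 0 :=
  ((hk w).ci hw.1).1.supp x (Or.inl (by rwa [D.sgn_kid hw, neg_one_mul] at hx))

theorem sec_bF (hk : ∀ v, D.Nk ρ m L q u βc βp en v) (v : T.V) :
    Sec T v (bF T0 βc βp v) ∧ Lf T 0 (bF T0 βc βp v) (D.bM q v) := by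
  obtain ⟨e, -, h1⟩ := (hk v).co
  have h2 := D.hΘ' v v _ _ (hk v).lc h1.inv (supp_c hk v)
  have h3 := fun w (hw : T.kid v w) =>
    D.hΘ' v w _ _ ((hk w).ci hw.1).2 ((hk w).ci hw.1).1.inv (supp_p hk hw)
  refine ⟨h2.1.add (Sec.sum _ fun w _ => ?_), fun i => ?_⟩
  · split_ifs with hw
    exacts [(h3 w hw).1, Sec.zero]
  · rw [bF, Pi.add_apply, Finset.sum_apply]
    refine (h2.2 i).add (LfAt.sum _ fun w _ => ?_)
    split_ifs with hw
    exacts [(h3 w hw).2 i, LfAt.zero]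

theorem bF_zero (hk : ∀ v, D.Nk ρ m L q u βc βp en v) (v : T.V) (s : T.S) (x : E4)
    (hx : x ∈ UR T v T0 (22 / 10) s) : bF T0 βc βp v s x = 0 := by
  rcases s with b | w
  · exact bF_inl ..
  · have h1 := (log_tau (T0 := T0) v w (end_ne hx.1)).trans_le (hx.2 w rfl).le
    rw [bF_inr D.ok]
    split_ifs with e hw
    · subst e; exact supp_c hk _ _ h1
    · exact supp_p hk hw _ h1
    · rfl

theorem exists_zr (h : D.Sm ρ m) (hq : q ∈ D.Ω ρ m) (hp : D.RP θ L q.1) (hx : q.2 ∈ RS T κ)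
    (hk : ∀ v, D.Nk ρ m L q u βc βp en v) :
    ∃ (μ : ∀ v, κ v → ℝ) (a : T.V → Mt), ∀ v, ZR T (D.z q v) (μ v) a fun j => θ ⟨v, j⟩ := by
  choose μ hμ using fun v => real_cv (hx v).2.1
  choose a ha using fun v => real_SC (hx v).2.2
  refine ⟨μ, a, fun v => ⟨(hx v).1, hμ v, ha, ?_, ?_⟩⟩
  · change (toS _ (D.bM q v)).1 ∈ _
    rw [toS_val (bM_mem h hq v)]
    exact subset_closure ⟨_, sec_bF hk v⟩
  · change (fun j => q.1.1 ⟨v, j⟩) = _
    rw [hp.hθ]; rfl

theorem Tm_real (h : D.Sm ρ m) (hq : q ∈ D.Ω ρ m) (hp : D.RP θ L q.1) (hx : q.2 ∈ RS T κ) :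
    D.Tm q ∈ RS T κ := by
  obtain ⟨u, βc, βp, en, hk⟩ := exists_nk h hq hp hx
  obtain ⟨μ, a, hz⟩ := exists_zr h hq hp hx hk
  have h1 := fun v => (D.st v).real _ (memz h hq v) _ _ _ (hz v)
  intro v
  refine ⟨(h1 v).1, fun j => ?_, fun p r => ?_⟩
  · obtain ⟨μ', e⟩ := (h1 v).2
    change (((D.st v).Φ (D.z q v)).2 j).im = 0
    rw [e]; exact Complex.ofReal_im _
  · by_cases hv : v = T.root
    · subst hv
      rw [SC_root ((D.Tm q).2 T.root)]; rfl
    · obtain ⟨w, w1, w2⟩ := D.reg _ _ (h1 (T.par v)).1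
      obtain ⟨-, -, c', -, e, -⟩ := D.hAi v hv _ w w1 w2
      have e2 : (q.2.2 v).1 = cm (a v) := ((hz v).ha v).2
      change ((-(1 / 2) : ℂ) * ((D.c v _).1 p r + sqC (q.2.2 v).1 p r)).im = 0
      rw [e, e2, sqC_cm]
      simp [cm]

theorem Ep_real (hp : D.RP θ L q.1) (v : T.V) : D.Ep q v = ((T.eps L v ^ 2 : ℝ) : ℂ) := by
  simp only [Ep, hp.hn, ← Complex.exp_sum, TD.eps, ← Real.exp_nat_mul, ← Finset.mul_sum]
  push_cast
  congr 1; ring

/-- the meaning of a real fixed point -/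
theorem real_fix (h : D.Sm ρ m) (hq : q ∈ D.Ω ρ m) (hp : D.RP θ L q.1) (hx : q.2 ∈ RS T κ)
    (hf : D.Tm q = q.2) {δ : ℝ} (hm : m ≤ 1) (h1 : K * (η + (m + D.bb ρ m + ρ)) ≤ δ)
    (h2 : C * (C * m + ρ) ≤ δ) :
    ∃ (a : T.V → Mt) (μ : (Σ v, κ v) → ℝ) (G : T.V → Fam T) (u : T.V → MetricField 4)
      (en : T.V → ℝ), (∀ w, Adm T w (a w)) ∧ (∀ w p r, |a w p r| ≤ m) ∧
      (∀ v, CoS T g T0 v (ψ v) a δ (fun j => θ ⟨v, j⟩) (fun j => μ ⟨v, j⟩) (G v)) ∧
      (∀ w, ASol (T.Γ w) (nI T T0 L w) δ (en w) (u w)) ∧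
      (∀ w, ∀ x ∈ An (Ioo 1 2), G w (Sum.inr w) (Real.exp T0 • x) = 1 + u w x) ∧
      (∀ w, w ≠ T.root → ∀ x ∈ An (Ioo (-2) (-1)), G (T.par w) (Sum.inr w) (Real.exp (-T0) • x) =
        1 + u w (Real.exp (L w - 2 * T0) • x)) ∧
      (∀ x ∈ An (Ioi 1), ∀ j ≤ 2, ∀ p r,
        ‖x‖ ^ j * ‖iteratedFDeriv ℝ j (fun z => u T.root z p r) x‖ ≤
          δ * (Real.exp 4 / ‖x‖) ^ (3 / 2 : ℝ)) ∧
      D.F q = (∑ v, T.eps L v ^ 2 * (actC T v T0 (fun s => fgfF (gbA T g T0 a v s) (G v s)) +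
        (Nat.card (T.Γ v) : ℝ)⁻¹ * (Real.exp (2 * T0) * en v)) : ℝ) := by
  have C0 := D.C0
  obtain ⟨u, βc, βp, en, hk⟩ := exists_nk h hq hp hx
  obtain ⟨μ, a, hz⟩ := exists_zr h hq hp hx hk
  choose w w1 w2 using fun v => D.reg v _ (hx v).1
  have f1 : ∀ v, (D.st v).Φ (D.z q v) = q.2.1 v := fun v => congrFun (congrArg Prod.fst hf) v
  choose G G1 G2 using fun v => (D.st v).fix _ (memz h hq v) _ _ _ (hz v) (f1 v) _ (w v)
    (sec_bF hk v).1 (by
      change Lf T 0 _ (toS _ (D.bM q v)).1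
      rw [toS_val (bM_mem h hq v)]
      exact (sec_bF hk v).2) (bF_zero hk v) (w1 v) (w2 v)
  have ea : ∀ v, (q.2.2 v).1 = cm (a v) := fun v => ((hz v).ha v).2
  have na' : ∀ v, ‖cm (a v)‖ ≤ m := fun v =>
    ea v ▸ ((norm_le_pi_norm q.2.2 v).trans (na hq).le : ‖(q.2.2 v).1‖ ≤ m)
  have nW' : ∀ v, C * ‖(q.2.1 v).1‖ ≤ C * m := fun v =>
    mul_le_mul_of_nonneg_left ((norm_fst_le _).trans (nW hq v).le) C0.le
  refine ⟨a, fun j => -(μ j.1 j.2 / 2), G, u, en, fun v => ((hz v).ha v).1, fun v p r => ?_,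
    fun v => cos_mono (G1 v).cos (le_trans (mul_le_mul_of_nonneg_left ?_ D.K0) h1),
    fun v => asol_mono (hk v).sol h2, fun v x hx => ?_, fun v hv x hx => ?_,
    fun x hx j hj p r => ((hk _).dec rfl x hx j hj p r).trans
      (mul_le_mul_of_nonneg_right h2 (by positivity)), ?_⟩
  · simpa [cm] using (norm_entry (cm (a v)) p r).trans (na' v)
  · linarith [nz h hq v]
  · obtain ⟨e, e1, e2⟩ := (hk v).co
    obtain ⟨a1, a2, a3⟩ := D.hA v _ _ (w1 v) (w2 v)
    rw [(G1 v).outG x hx, e2.unq _ ⟨a2.sm, a2.symm, fun γ hγ => a2.eqv γ (bot_le (a := T.Γ v) hγ)⟩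
      (b2_mono a3 ((nW' v).trans e1)) a1 (G1 v).outP ?_ x hx]
    rw [← unit_self (T0 := T0) D.ok βc βp v]
    exact (G1 v).outE
  · have kd : T.kid (T.par v) v := ⟨hv, rfl⟩
    obtain ⟨a1, a2, c', -, a3, a4, a5⟩ := D.hAi v hv _ _ (w1 _) (w2 _)
    have e1 : cA (a v) = -c' := by
      have e2 := congrArg Subtype.val (congrFun (congrArg Prod.snd hf) v)
      change (-(1 / 2) : ℂ) • ((D.c v ((D.st _).Φ _).1).1 + sqC (q.2.2 v).1) = _ at e2
      rw [f1, a3, ea, sqC_cm] at e2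
      ext p r
      have e3 := congrArg Complex.re (congrFun (congrFun e2 p) r)
      simp [cm] at e3
      simp only [cA, two_smul, Matrix.add_apply, Matrix.neg_apply]
      linarith
    have e4 : ∀ p r, |cA (a v) p r| ≤ 6 * m := fun p r => by
      have := (norm_entry (cAc (cm (a v))) p r).trans (norm_cAc ((na' v).trans hm))
      rw [cAc_cm] at this
      simp only [cm, Complex.norm_real, Real.norm_eq_abs] at this
      linarith [na' v]
    rw [(G1 _).innG v kd x hx, ((hk v).ci hv).1.unq _ (inv_bot a1 ((hz v).ha v).1.cA.symm)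
      (b2_mono (b2_add a2 (by linarith [h.m0]) e4) (by linarith [nW' (T.par v), h.hX])) (a5 _).1
      (fun p r k => ((a5 _).2 p r k).trans ((G1 _).innQ v kd p r k))
      (by simpa only [e1, sub_eq_add_neg] using a4) ?_ x hx]
    rw [← unit_kid (T0 := T0) D.ok βc βp kd]
    exact (G1 _).innE v kd
  · rw [F, Complex.ofReal_sum]
    refine Finset.sum_congr rfl fun v _ => ?_
    rw [G2, (hk v).en, Ep_real hp, Ep_real hp]
    split_ifs with hv
    · have : T.eps L v = 1 := by simp [TD.eps, hv, D.ok.dep_root]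
      rw [this]; push_cast; ring
    · rw [eps_par D.ok L hv, show Real.exp (2 * T0) = Real.exp (-2 * (L v - 2 * T0)) *
        Real.exp (-(2 * T0)) * Real.exp (L v) ^ 2 by
          rw [← Real.exp_nat_mul, ← Real.exp_add, ← Real.exp_add]; congr 1; push_cast; ring,
        Real.exp_neg (L v)]
      have := Complex.ofReal_ne_zero.2 (Real.exp_pos (L v)).ne'
      simp only [Complex.ofReal_mul, Complex.ofReal_add, Complex.ofReal_pow, Complex.ofReal_inv,
        Complex.ofReal_natCast]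
      field_simp

end GD

end Crest.Agent.N207.CB.Gl

end
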