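import Crest.Agent.N207.CB.Gl3
import Crest.Agent.N207.CB.Ext2

/-!
# Row 207, block L (helper77): `GLB`
-/

set_option autoImplicit false
set_option linter.unusedSectionVars false

open scoped ContDiff
open Metric Set Filter Topology MeasureTheory
open Crest.GeometryTopology.CoordMetric
open Crest.Agent.NLib.Ell Crest.Agent.N207.I Crest.Agent.N207.Lg Crest.Agent.N207.J

noncomputable section

namespace Crest.Agent.N207.CB

namespace Gl

/-- the constants -/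
structure Cst (n C c2 c : ℝ) : Prop where
  h0 : 0 ≤ c2
  h1 : (n + 1) * C ^ 2 * (25 * C ^ 2 + 1) ≤ c2
  h2 : 5 + c2 + (6 + c2) ^ 2 ≤ c
  h3 : 5 * (C + 6) ≤ c
  h4 : C * (5 * C + 1) ≤ c
  h5 : 64 ≤ c
  h6 : 7 + c2 ≤ c

theorem exists_cst {n C : ℝ} (hn : 0 ≤ n) (hC : 0 ≤ C) : ∃ c2 c, Cst n C c2 c := by
  obtain ⟨c2, h⟩ : ∃ c2, c2 = (n + 1) * C ^ 2 * (25 * C ^ 2 + 1) := ⟨_, rfl⟩
  have h0 : 0 ≤ c2 := by rw [h]; positivity
  have h1 : 0 ≤ C * (5 * C + 1) := by positivity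
  have h2 := sq_nonneg (6 + c2)
  exact ⟨c2, 5 + c2 + (6 + c2) ^ 2 + 5 * (C + 6) + C * (5 * C + 1) + 64, h0, h.ge, by linarith,
    by linarith, by linarith, by linarith, by linarith⟩

variable {M : Type*} {T : TD M} {g : T.V → Fam T} {κ : T.V → Type} [∀ v, Fintype (κ v)]
  {ψ : ∀ v, κ v → Fam T} {T0 ε K η C : ℝ}

set_option maxHeartbeats 1600000 in
theorem GD.solve (D : GD T g κ ψ T0 ε K η C) {ρ c2 c e : ℝ} (hρ : 0 < ρ) (hη : 0 ≤ η) (hK : 1 ≤ K)
    (hc : Cst (Fintype.card T.V) C c2 c)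
    (ht : c * (((c * K) ^ (2 * Fintype.card T.V)) ^ 2 * (ρ + η)) ≤ e) (e1 : e < ε)
    (e2 : e ≤ D.X.ε) (e3 : e ≤ D.Y.ε) (e4 : e ≤ 1) :
    ∃ m, D.Sm ρ m ∧ m ≤ e ∧ K * (η + (m + D.bb ρ m + ρ)) ≤ e ∧ C * (C * m + ρ) ≤ e ∧
      ∃ x : GP T κ D.X.E → GX T κ, DifferentiableOn ℂ x (ball D.p0 ρ) ∧ ∀ p ∈ ball D.p0 ρ,
        (p, x p) ∈ D.Ω ρ m ∧ D.Tm (p, x p) = x p ∧ ∀ θ L, D.RP θ L p → x p ∈ RS T κ := by
  obtain ⟨h0, h1, h2, h3, h4, h5, h6⟩ := hc
  have C1 := D.C1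
  obtain ⟨A, hA⟩ : ∃ A, A = c * K := ⟨_, rfl⟩
  obtain ⟨s, hs⟩ : ∃ s, s = ρ + η := ⟨_, rfl⟩
  rw [← hA, ← hs] at ht
  have s0 : 0 < s := by linarith
  have Ac : c ≤ A := by nlinarith
  have A1 : 1 ≤ A := by linarith
  have pw : ∀ j, j ≤ 2 * Fintype.card T.V → A ^ j * s ≤ A ^ (2 * Fintype.card T.V) * s :=
    fun j hj => mul_le_mul_of_nonneg_right (pow_le_pow_right₀ A1 hj) s0.le
  have pw1 : ∀ j, s ≤ A ^ j * s := fun j => le_mul_of_one_le_left s0.le (one_le_pow₀ A1)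
  have AP : A ≤ A ^ (2 * Fintype.card T.V) :=
    le_self_pow₀ A1 (by have := dep_lt D.ok T.root; omega)
  obtain ⟨P, hP⟩ : ∃ P, P = A ^ (2 * Fintype.card T.V) := ⟨_, rfl⟩
  rw [← hP] at ht pw AP
  have P1 : 1 ≤ P := A1.trans AP
  obtain ⟨u, hu⟩ : ∃ u, u = P * s := ⟨_, rfl⟩
  have su : s ≤ u := by nlinarith
  obtain ⟨t, ht'⟩ : ∃ t, t = P ^ 2 * s := ⟨_, rfl⟩
  rw [← ht'] at ht
  have ut : u ≤ t := by rw [hu, ht']; gcongr; nlinarith
  have Aut : A * u ≤ t := by rw [hu, ht', ← mul_assoc, pow_two]; gcongr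
  have t1 : 64 * t ≤ 1 := by nlinarith
  have uu : u ^ 2 ≤ s := by
    rw [show u ^ 2 = t * s by rw [hu, ht']; ring]; nlinarith
  have cu : ∀ a, a ≤ c → a * u ≤ e := fun a ha =>
    (mul_le_mul ha ut (by linarith) (by linarith)).trans ht
  have hb : D.bb ρ (5 * u) ≤ c2 * s := by
    refine le_trans ?_ (mul_le_mul_of_nonneg_right h1 s0.le)
    have : (C * (5 * u)) ^ 2 + ρ ≤ (25 * C ^ 2 + 1) * s := by nlinarith [sq_nonneg C]
    calc D.bb ρ (5 * u) = (Fintype.card T.V + 1) * C ^ 2 * ((C * (5 * u)) ^ 2 + ρ) := by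
          rw [GD.bb]; ring
      _ ≤ _ := by rw [mul_assoc _ (25 * C ^ 2 + 1)]; gcongr
  have b0 : 0 ≤ D.bb ρ (5 * u) := by rw [GD.bb]; positivity
  have hz : 5 * u + D.bb ρ (5 * u) + ρ ≤ (6 + c2) * u := by nlinarith
  have hz2 : (5 * u + D.bb ρ (5 * u) + ρ) ^ 2 ≤ (6 + c2) ^ 2 * s := by
    refine (pow_le_pow_left₀ (by linarith) hz 2).trans ?_
    rw [mul_pow]; gcongr
  have hS : D.Sm ρ (5 * u) := ⟨hρ, by linarith [cu 1 (by linarith)], by linarith,
    by linarith [cu 1 (by linarith)], by linarith [cu _ h3],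
    by linarith [cu (5 * C) (by linarith)], by linarith [cu (6 + c2) (by linarith)]⟩
  have hΩ : ∀ p ∈ ball D.p0 ρ, ∀ a ≤ (4 : ℝ), ∀ x ∈ Bx (fun v => A ^ (2 * T.dep v + 1) * s)
      (fun v => A ^ (2 * T.dep v) * s) a, ((p, x) : D.Q) ∈ D.Ω ρ (5 * u) := fun p hp a ha x hx =>
    ⟨hp, mem_ball_zero_iff.2 (Bx_norm hS.m0 (fun v => by
      have := dep_lt D.ok v
      have a1 := pw (2 * T.dep v + 1) (by omega)
      have a2 := pw (2 * T.dep v) (by omega)
      have a3 := pw1 (2 * T.dep v + 1)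
      have a4 := pw1 (2 * T.dep v)
      constructor <;> nlinarith) hx)⟩
  have : ∀ v, CompleteSpace (XC T v 8 0) := fun v => (D.cl v).completeSpace_coe
  have : ∀ v, CompleteSpace (SC T v) := fun v => (SC_closed v).completeSpace_coe
  obtain ⟨x, x1, x2⟩ := fpw (T := fun p x => D.Tm (p, x)) (U := ball D.p0 ρ)
    (R := fun v => A ^ (2 * T.dep v + 1) * s) (r := fun v => A ^ (2 * T.dep v) * s)
    (fun v => by positivity) (fun v => by positivity) isOpen_ball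
    ((GD.diff_Tm hS).mono fun q hq => hΩ _ hq.1 4 le_rfl _ hq.2) fun p hp x hx => by
      have k1 : ∀ v, ‖(D.Tm (p, x)).1 v‖ ≤ A ^ (2 * T.dep v + 1) * s := fun v => by
        refine (GD.nΦ hS (hΩ p hp 4 le_rfl x hx) v).trans ?_
        have a1 := (hx v).2
        have a2 := pw1 (2 * T.dep v)
        have a3 : η + ρ + ‖x.2 v‖ + D.bb ρ (5 * u) + (5 * u + D.bb ρ (5 * u) + ρ) ^ 2 ≤
            c * (A ^ (2 * T.dep v) * s) := by
          have a4 := mul_le_mul_of_nonneg_left a2 (add_nonneg h0 (sq_nonneg (6 + c2)))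
          have a5 := mul_le_mul_of_nonneg_right h2 (s0.le.trans a2)
          simp only at a1
          linarith
        refine (mul_le_mul_of_nonneg_left a3 D.K0).trans_eq ?_
        rw [pow_succ, hA]; ring
      refine fun v => ⟨by simpa using k1 v, ?_⟩
      by_cases hv : v = T.root
      · subst hv
        rw [SC_root ((D.Tm (p, x)).2 T.root), norm_zero]; positivity
      refine (GD.nT2 _ v).trans ?_
      have a1 := (hx v).2
      have a2 := k1 (T.par v)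
      have a3 : A * (A ^ (2 * T.dep (T.par v) + 1) * s) = A ^ (2 * T.dep v) * s := by
        rw [D.ok.dep_par v hv]; ring
      have a4 := pw (2 * T.dep v) (by have := dep_lt D.ok v; omega)
      have a5 := pw1 (2 * T.dep v)
      have a6 := mul_le_mul (show C ≤ A by linarith) a2 (norm_nonneg _) (by linarith)
      have a7 := pow_le_pow_left₀ (norm_nonneg _) a1 2
      simp only at a7 ⊢
      nlinarith
  refine ⟨5 * u, hS, cu 5 (by linarith), ?_, ?_, x, x1, fun p hp => ⟨hΩ p hp 1 (by norm_num) _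
    (x2 p hp).1, (x2 p hp).2.1, fun θ L hL => (x2 p hp).2.2 _ RS_closed RS_zero fun y hy hy' =>
      GD.Tm_real hS (hΩ p hp 1 (by norm_num) y hy') hL hy⟩⟩
  · have a1 : η + (5 * u + D.bb ρ (5 * u) + ρ) ≤ c * u := by nlinarith
    refine (mul_le_mul_of_nonneg_left a1 D.K0).trans ?_
    rw [← mul_assoc, mul_comm K, ← hA]
    nlinarith
  · refine le_trans ?_ (cu _ h4)
    rw [mul_assoc C]
    gcongr; linarith

theorem ev_small {n : ℕ} (hn : 0 < n) {γ : ℝ} (hγ : 0 < γ) (c B : ℝ) {e : ℝ} (he : 0 < e) :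
    ∀ᶠ T0 : ℝ in atTop, c * (((c * (B * Real.exp (2 * (min γ 1 / (16 * n)) * T0))) ^ (2 * n)) ^ 2 *
      (2 * Real.exp (-(3 / 4 * min γ 1 * T0)) + Real.exp (-(γ * T0)))) ≤ e := by
  have h0 : 0 < min γ 1 := lt_min hγ one_pos
  have h1 := (tendsto_exp_neg (κ := min γ 1 / 4) (by positivity)).const_mul
    (|c| * ((c * B) ^ (2 * n)) ^ 2 * 3)
  rw [mul_zero] at h1
  filter_upwards [h1.eventually (ge_mem_nhds he), eventually_ge_atTop 0] with T0 h2 h3
  refine le_trans ((mul_le_mul_of_nonneg_right (le_abs_self c) (by positivity)).trans ?_) h2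
  have e1 : ((c * (B * Real.exp (2 * (min γ 1 / (16 * n)) * T0))) ^ (2 * n)) ^ 2 =
      ((c * B) ^ (2 * n)) ^ 2 * Real.exp (min γ 1 / 2 * T0) := by
    rw [← mul_assoc, mul_pow, mul_pow, ← Real.exp_nat_mul, ← Real.exp_nat_mul]
    congr 2
    have : (n : ℝ) ≠ 0 := by positivity
    push_cast; field_simp; ring
  have e2 : Real.exp (-(γ * T0)) ≤ Real.exp (-(3 / 4 * min γ 1 * T0)) :=
    Real.exp_le_exp.2 (by nlinarith [min_le_left γ 1])
  have e3 : Real.exp (-(min γ 1 / 4) * T0) =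
      Real.exp (min γ 1 / 2 * T0) * Real.exp (-(3 / 4 * min γ 1 * T0)) := by
    rw [← Real.exp_add]; congr 1; ring
  rw [e1, e3]
  calc _ ≤ |c| * (((c * B) ^ (2 * n)) ^ 2 * Real.exp (min γ 1 / 2 * T0) *
        (3 * Real.exp (-(3 / 4 * min γ 1 * T0)))) := by gcongr; linarith
    _ = _ := by ring

end Gl

open Gl

variable {M : Type*} (T : TD M)

/-- **GLB** -/
theorem glb : GLB T := by
  intro hC hX hY hA hT hR hG hP hD g γ hγ ok lim κ _ ψ hK δ hδ
  have hn : 0 < Fintype.card T.V := Fintype.card_pos_iff.2 ⟨T.root⟩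
  have hn' : (1 : ℝ) ≤ Fintype.card T.V := by exact_mod_cast hn
  have h0 : 0 < min γ 1 := lt_min hγ one_pos
  have σ0 : 0 < sig T γ := by unfold sig; positivity
  obtain ⟨ε, B, T1, ε0, B1, hψ, hst⟩ := hC g γ _ hγ σ0 (by
    rw [sig, div_lt_one (by positivity)]; linarith [min_le_right γ 1]) ok lim κ ψ hK
  obtain ⟨X⟩ := hX 8
  obtain ⟨Y⟩ := hY 8
  obtain ⟨CA, TA, CA0, hA⟩ := hA ok
  obtain ⟨CT, TT, CT0, hT⟩ := hT ok 8
  obtain ⟨TG, hG⟩ := hG g γ hγ ok lim κ ψ T1 hψ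
  obtain ⟨δ', TP, δ0, hP⟩ := hP g γ hγ ok lim κ ψ T1 hψ δ hδ
  obtain ⟨C, C1, C2, C3, C4, C5⟩ : ∃ C : ℝ, 1 ≤ C ∧ X.C ≤ C ∧ Y.C ≤ C ∧ CA ≤ C ∧ CT ≤ C :=
    ⟨max (max 1 X.C) (max Y.C (max CA CT)), by simp, by simp, by simp, by simp, by simp⟩
  obtain ⟨c2, c, hc⟩ := exists_cst (n := Fintype.card T.V) (C := C) (by positivity) (by linarith)
  obtain ⟨e, e0, e1, e2, e3, e4, e5⟩ :
      ∃ e : ℝ, 0 < e ∧ e < ε ∧ e ≤ X.ε ∧ e ≤ Y.ε ∧ e ≤ 1 / 100 ∧ e ≤ δ' / 2 :=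
    ⟨min (min (ε / 2) X.ε) (min Y.ε (min (1 / 100) (δ' / 2))), by
      have := X.ε_pos; have := Y.ε_pos; positivity,
      ((min_le_left _ _).trans (min_le_left _ _)).trans_lt (half_lt_self ε0), by simp, by simp,
      by simp, by simp⟩
  obtain ⟨T2, hT2⟩ := eventually_atTop.1 ((ev_small hn hγ c B e0).and ((eventually_ge_atTop T1).and
    ((eventually_ge_atTop TA).and ((eventually_ge_atTop TT).and ((eventually_ge_atTop TG).and
    ((eventually_ge_atTop TP).and (eventually_ge_atTop 0)))))))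
  refine ⟨T2, fun T0 hT0 => ?_⟩
  obtain ⟨t0, t1, t2, t3, t4, t5, t6⟩ := hT2 T0 hT0
  obtain ⟨h3, h4⟩ := hA T0 t2
  choose A nA hA using h3
  choose Θ nΘ cpx hΘ using fun v u => hT v u T0 t3
  choose A' c' nA' nc hA' using fun (u : T.V) (hu : u ≠ T.root) => h4 (T.par u) u ⟨hu, rfl⟩
  have K1 : 1 ≤ B * Real.exp (2 * sig T γ * T0) :=
    one_le_mul_of_one_le_of_one_le B1 (Real.one_le_exp (by positivity))
  let D : GD T g κ ψ T0 ε (B * Real.exp (2 * sig T γ * T0)) (Real.exp (-(γ * T0))) C :=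
    { ok := ok, cl := fun v => Cx.closed_XC, K0 := by linarith, C1 := C1, X := X, Y := Y
      cX := C2, cY := C3, st := fun v => (hst T0 t1 v).some, A := A
      Ai := fun u => if hu : u = T.root then 0 else A' u hu
      c := fun u => if hu : u = T.root then 0 else c' u hu
      Θ := Θ, nA := fun v => (nA v).trans C4
      nAi := fun u => by
        split_ifs with hu
        exacts [ContinuousLinearMap.opNorm_zero.trans_le (by linarith), (nA' u hu).trans C4]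
      nc := fun u => by
        split_ifs with hu
        exacts [ContinuousLinearMap.opNorm_zero.trans_le (by linarith), (nc u hu).trans C4]
      nΘ := fun v u => (nΘ v u).trans C5
      hA := fun v W w h1 h2 => ⟨(hA v W w h1 h2).1, (hA v W w h1 h2).2.1,
        b2_mono (hA v W w h1 h2).2.2 (by gcongr)⟩
      hAi := fun u hu W w h1 h2 => by
        rw [dif_neg hu, dif_neg hu]
        exact ⟨(hA' u hu W w h1 h2).1, b2_mono (hA' u hu W w h1 h2).2.1 (by gcongr),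
          (hA' u hu W w h1 h2).2.2⟩
      hΘ := cpx, hΘ' := hΘ, reg := fun v => (hR ok v 8).1 }
  have r0 := Real.exp_pos (-(3 / 4 * min γ 1 * T0))
  obtain ⟨m, hS, m1, m2, m3, x, x1, x2⟩ := D.solve (ρ := 2 * Real.exp (-(3 / 4 * min γ 1 * T0)))
    (by positivity) (Real.exp_pos _).le K1 hc t0 e1 e2 e3 (by linarith)
  obtain ⟨C', co', d1, d2, d3⟩ := hD X.E X.Cd X.N X.co X.dul (2 * T0) (by linarith)
  obtain ⟨B', hB'⟩ := GD.bd_F hS
  have ep : ((0 : (Σ v, κ v) → ℂ), fun _ : T.V => co' 0 0) = D.p0 := by rw [d2]; rfl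
  have l1 : ∀ᶠ L : ℝ in atTop, ‖X.N ((L - 2 * T0 : ℝ) : ℂ) - X.co 0 0‖ < 2 * Real.exp
      (-(3 / 4 * min γ 1 * T0)) := (tendsto_iff_norm_sub_tendsto_zero.1 (d3.comp
        (tendsto_atTop_add_const_right atTop (-(2 * T0)) tendsto_id))).eventually
      (gt_mem_nhds (by positivity))
  obtain ⟨l0, hl0⟩ := eventually_atTop.1 (l1.and (((tendsto_exp_neg (κ := 2) two_pos).eventually
    (gt_mem_nhds (show 0 < 2 * Real.exp (-(3 / 4 * min γ 1 * T0)) by positivity))).and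
    ((eventually_ge_atTop (X.ℓ0 + 2 * T0)).and (eventually_ge_atTop (2 * T0 + 10)))))
  refine ⟨{ E := X.E × ℂ, C := C', N := fun _ L => (X.N (L - (2 * T0 : ℝ)), Complex.exp (-2 * L))
            co := fun _ => co', dul := fun _ => d1, F := fun p => D.F (p, x p), ρ := _
            ρ_pos := hS.ρ0, B := B'
            hol := by
              rw [ep]
              exact (GD.diff_F hS).comp (differentiableOn_id.prodMk x1) fun p hp => (x2 p hp).1
            bd := by rw [ep]; exact fun p hp => hB' _ (x2 p hp).1 },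
    _, l0, le_rfl, by change _ < 2 * _; linarith, fun θ L hθ hL => ?_⟩
  have hp : D.RP θ L (cv θ, fun w => (X.N (L w - (2 * T0 : ℝ)), Complex.exp (-2 * L w))) :=
    ⟨rfl, fun w => by rw [Complex.ofReal_sub], fun w => by
      change X.ℓ0 ≤ _; linarith [(hl0 _ (hL w)).2.2.1]⟩
  obtain ⟨y1, y2, y3⟩ := x2 (cv θ, fun w => (X.N (L w - (2 * T0 : ℝ)), Complex.exp (-2 * L w))) (by
    rw [mem_ball_iff_norm]
    refine max_lt (by
      change ‖cv θ - 0‖ < _
      rw [sub_zero, norm_cv]; linarith) ((pi_norm_lt_iff hS.ρ0).2 fun w => max_lt ?_ ?_)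
    · have := (hl0 _ (hL w)).1
      rwa [Complex.ofReal_sub] at this
    · change ‖Complex.exp (-2 * L w) - 0‖ < _
      rw [sub_zero, Complex.norm_exp]
      simpa using (hl0 _ (hL w)).2.1)
  obtain ⟨a, μ, G, u, en, a1, a2, a3, a4, a5, a6, a7, a8⟩ := GD.real_fix hS y1 hp (y3 θ L hp) y2
    (δ := δ' / 2) (by linarith) (m2.trans e5) (m3.trans e5)
  have hL' := fun w => (hl0 _ (hL w)).2.2.2
  obtain ⟨G', g1, g2⟩ := hG T0 t4 L hL' a a1 (fun w p q => (a2 w p q).trans (m1.trans e4)) _ θ μ G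
    u en a3 a4 a5 a6 a7
  rw [mul_div_cancel₀ _ two_ne_zero] at g1
  obtain ⟨G'', g3, g4⟩ := hP T0 t5 L hL' a a1 (fun w p q => (a2 w p q).trans (by linarith)) θ μ G' g1
  exact ⟨μ, G'', g3, by rw [g4, g2]; exact a8⟩

end Crest.Agent.N207.CB

end
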