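import Crest.Agent.N207.CB.Glu1
import Crest.Agent.N207.I.Car4
import Crest.Agent.N207.I.Cal1

/-!
# Row 207, block L, leaf GLU (helper21), part 2: the regions of `glob L`
-/

set_option autoImplicit false

open scoped ContDiff
open Metric Set Filter Topology MeasureTheory
open Crest.GeometryTopology.CoordMetric
open Crest.Agent.N207.I Crest.Agent.N207.I.TD Crest.Agent.N207.Lg Crest.Agent.N207.J

noncomputable section

namespace Crest.Agent.N207.CB.Gl

theorem log_sm (t : ℝ) {x : E4} (hx : x ≠ 0) : Real.log ‖Real.exp t • x‖ = t + Real.log ‖x‖ := by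
  rw [norm_smul, Real.norm_of_nonneg (Real.exp_pos _).le,
    Real.log_mul (Real.exp_pos _).ne' (norm_ne_zero_iff.2 hx), Real.log_exp]

theorem exp_sm (s t : ℝ) (x : E4) : Real.exp s • Real.exp t • x = Real.exp (s + t) • x := by
  rw [smul_smul, Real.exp_add]

theorem ne_of_lt {c : ℝ} {x : E4} (hc : 0 ≤ c) (h : c < ‖x‖) : x ≠ 0 :=
  norm_pos_iff.1 (hc.trans_lt h)

variable {M : Type*} {T : TD M} {T0 T1 c : ℝ} {L : T.V → ℝ} {v w : T.V} {s : T.S} {x : E4}

/-- numerical assumptions -/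
structure Nm (T : TD M) (T0 : ℝ) (L : T.V → ℝ) : Prop where
  ok : T.Ok
  t0 : 1 ≤ T0
  r : Real.exp (-T0) ≤ T.r / 4
  hL : ∀ w, 2 * T0 + 10 ≤ L w

/-- the part of the chart `s` of `glob L` that lies in the part `tau < c` of `core v` -/
def RR (T : TD M) (T0 : ℝ) (L : T.V → ℝ) (v : T.V) (c : ℝ) (s : T.S) : Set E4 :=
  {x | sc (lm L) s v • x ∈ UR T v T0 c s}

/-- the extended neck -/
def NN (T : TD M) (T0 : ℝ) (L : T.V → ℝ) (w : T.V) : Set E4 :=
  {x | Real.exp (-T0) • x ∈ An (nI T T0 L w)}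

theorem tau_out (x : E4) : tau T w w T0 x = Real.log ‖x‖ - T0 := by simp [tau]

theorem tau_inn (h : w ≠ v) (x : E4) : tau T v w T0 x = -Real.log ‖x‖ - T0 := by simp [tau, h]

theorem sc_out : sc (lm L) (Sum.inr w : T.S) w = 1 := by simp [sc, lm]

theorem sc_inn (h : w ≠ v) : sc (lm L) (Sum.inr w : T.S) v = Real.exp (-L w) := by simp [sc, lm, h]

theorem sc_pos : 0 < sc (lm L) s v := by
  rcases s with a | w
  · exact one_pos
  · simp only [sc, lm, Sum.elim_inr]; split_ifs; exacts [one_pos, Real.exp_pos _]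

theorem mem_UR_inl {a : T.B} : x ∈ UR T v T0 c (Sum.inl a) ↔ T.vx a = v ∧ ‖x‖ < 2 := by
  simp [UR, mem_core_inl]

theorem mem_UR_inr : x ∈ UR T v T0 c (Sum.inr w) ↔
    x ∈ (T.core v).U (Sum.inr w) ∧ tau T v w T0 x < c := by simp [UR]

theorem mem_NN : x ∈ NN T T0 L w ↔ x ≠ 0 ∧ T0 + 1 < Real.log ‖x‖ ∧
    (w ≠ T.root → Real.log ‖x‖ < L w - T0 - 1) := by
  by_cases hx : x = 0
  · simp [NN, An, hx]
  simp only [NN, An, mem_ofPred_eq, log_sm _ hx, ne_eq, smul_eq_zero, (Real.exp_pos _).ne', hx,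
    or_self, not_false_eq_true, true_and, nI]
  split_ifs with hw
  · simp only [mem_Ioi, hw, not_true_eq_false, IsEmpty.forall_iff, and_true]
    constructor <;> intro <;> linarith
  · simp only [mem_Ioo, hw, not_false_eq_true, forall_const]
    constructor <;> rintro ⟨_, _⟩ <;> constructor <;> linarith

theorem UR_open (h : T.Ok) : IsOpen (UR T v T0 c s) := by
  refine isOpen_iff_mem_nhds.2 fun x hx => ?_
  have h1 := ((h.core_ok v).isOpen s).mem_nhds hx.1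
  rcases s with a | w
  · filter_upwards [h1] with z hz using ⟨hz, fun _ e => nomatch e⟩
  · filter_upwards [h1, (tau_sm v w T0 ((h.str_core v).ne w x hx.1)).continuousAt.eventually
      (gt_mem_nhds (hx.2 w rfl))] with z h2 h3 using mem_UR_inr.2 ⟨h2, h3⟩

theorem RR_open (h : T.Ok) : IsOpen (RR T T0 L v c s) :=
  (UR_open h).preimage (continuous_const_smul _)

theorem An_open : IsOpen (An (nI T T0 L w)) := by
  refine isOpen_An ?_
  unfold nI; split_ifs
  exacts [isOpen_Ioi, isOpen_Ioo]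

theorem NN_open : IsOpen (NN T T0 L w) := An_open.preimage (continuous_const_smul _)

theorem RR_mono {c' : ℝ} (h : c ≤ c') : RR T T0 L v c s ⊆ RR T T0 L v c' s :=
  fun _ hx => ⟨hx.1, fun u e => (hx.2 u e).trans_le h⟩

/-- the three kinds of points -/
theorem RR_cases (h : T.Ok) : x ∈ RR T T0 L v c s ↔
    (∃ a, s = Sum.inl a ∧ T.vx a = v ∧ ‖x‖ < 2) ∨
    (s = Sum.inr v ∧ 1 < ‖x‖ ∧ Real.log ‖x‖ < T0 + c) ∨
    ∃ w, s = Sum.inr w ∧ w ≠ T.root ∧ T.par w = v ∧ x ≠ 0 ∧ ‖x‖ < T.r * Real.exp (L w) ∧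
      L w - T0 - c < Real.log ‖x‖ := by
  rcases s with a | w
  · simp [RR, sc, mem_UR_inl]
  by_cases hw : w = v
  · subst hw
    simp only [RR, sc_out, one_smul, mem_ofPred_eq, mem_UR_inr, mem_core_out, tau_out,
      sub_lt_iff_lt_add', reduceCtorEq, false_and, exists_false, true_and, false_or, Sum.inr.injEq,
      exists_eq_left']
    exact (or_iff_left fun k => h.par_ne k.1 k.2.1.symm).symm
  · simp only [RR, sc_inn hw, mem_ofPred_eq, mem_UR_inr, mem_core_inn hw, tau_inn hw, nrm_exp_lt,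
      reduceCtorEq, false_and, exists_false, false_or, Sum.inr.injEq, hw, exists_eq_left', kid,
      norm_pos_iff, and_assoc, ne_eq, smul_eq_zero, (Real.exp_pos _).ne']
    refine and_congr_right fun _ => and_congr_right fun _ => and_congr_right fun hx =>
      and_congr_right fun _ => ?_
    rw [log_sm _ hx]
    constructor <;> intro <;> linarith

namespace Nm

variable (n : Nm T T0 L)
include n

theorem le_r (w : T.V) {t : ℝ} (ht : t ≤ L w - T0) : Real.exp t ≤ T.r / 4 * Real.exp (L w) :=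
  calc Real.exp t ≤ Real.exp (-T0) * Real.exp (L w) := by
        rw [← Real.exp_add]; exact Real.exp_le_exp.2 (by linarith)
    _ ≤ _ := by gcongr; exact n.r

omit n in
theorem four_le {t : ℝ} (ht : 2 ≤ t) : 4 ≤ Real.exp t := by
  have := Real.quadratic_le_exp_of_nonneg (show 0 ≤ t by linarith)
  nlinarith

theorem long : T.Long L := fun w _ => by
  have := n.le_r w (t := 2) (by linarith [n.hL w, n.t0])
  linarith [four_le (le_refl 2)]

theorem lt_r (hx : x ≠ 0) (h : Real.log ‖x‖ ≤ L w - T0) : ‖x‖ ≤ T.r / 4 * Real.exp (L w) :=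
  ((Real.log_le_iff_le_exp (norm_pos_iff.2 hx)).1 le_rfl).trans (n.le_r w h)

omit n in
theorem four_le' (hx : x ≠ 0) (h : 2 ≤ Real.log ‖x‖) : 4 ≤ ‖x‖ :=
  (four_le h).trans_eq (Real.exp_log (norm_pos_iff.2 hx))

theorem R_U (hx : x ∈ RR T T0 L v 2 s) : x ∈ (T.glob L).U s := by
  rcases (RR_cases n.ok).1 hx with ⟨a, rfl, -, h1⟩ | ⟨rfl, h1, h2⟩ | ⟨w, rfl, -, -, h1, h2, h3⟩
  · exact mem_glob_inl.2 h1
  · have := n.lt_r (w := v) (ne_of_lt zero_le_one h1) (by linarith [n.hL v])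
    exact ⟨h1, fun _ => by linarith [mul_pos n.ok.r_pos (Real.exp_pos (L v))]⟩
  · exact ⟨by linarith [four_le' h1 (by linarith [n.hL w, n.t0])], fun _ => h2⟩

theorem N_U (hx : x ∈ NN T T0 L w) : x ∈ (T.glob L).U (Sum.inr w) := by
  obtain ⟨h1, h2, h3⟩ := mem_NN.1 hx
  refine ⟨by linarith [four_le' h1 (by linarith [n.t0])], fun hw => ?_⟩
  have := n.lt_r (w := w) h1 (by linarith [h3 hw])
  linarith [mul_pos n.ok.r_pos (Real.exp_pos (L w))]

theorem cover (hx : x ∈ (T.glob L).U s) : (∃ v, x ∈ RR T T0 L v 1 s) ∨ ∃ w, s = Sum.inr w ∧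
    (x ∈ NN T T0 L w ∨ (x ∈ RR T T0 L w 2 s ∧ ‖x‖ = Real.exp (T0 + 1)) ∨
      (x ∈ RR T T0 L (T.par w) 2 s ∧ ‖x‖ = Real.exp (L w - T0 - 1))) := by
  simp only [RR_cases n.ok, mem_NN]
  rcases s with a | w
  · exact .inl ⟨_, .inl ⟨a, rfl, rfl, mem_glob_inl.1 hx⟩⟩
  have h0 := ne_of_lt zero_le_one hx.1
  have e := (Real.exp_log (norm_pos_iff.2 h0)).symm
  rcases lt_trichotomy (Real.log ‖x‖) (T0 + 1) with h1 | h1 | h1
  · exact .inl ⟨w, .inr (.inl ⟨rfl, hx.1, h1⟩)⟩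
  · exact .inr ⟨w, rfl, .inr (.inl ⟨.inr (.inl ⟨rfl, hx.1, by linarith⟩), h1 ▸ e⟩)⟩
  by_cases hw : w = T.root
  · exact .inr ⟨w, rfl, .inl ⟨h0, h1, fun k => absurd hw k⟩⟩
  rcases lt_trichotomy (Real.log ‖x‖) (L w - T0 - 1) with h2 | h2 | h2
  · exact .inr ⟨w, rfl, .inl ⟨h0, h1, fun _ => h2⟩⟩
  · exact .inr ⟨w, rfl, .inr (.inr ⟨.inr (.inr ⟨w, rfl, hw, rfl, h0, hx.2 hw, by linarith⟩), h2 ▸ e⟩)⟩
  · exact .inl ⟨_, .inr (.inr ⟨w, rfl, hw, rfl, h0, hx.2 hw, h2⟩)⟩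

theorem cover' (hx : x ∈ (T.glob L).U s) :
    (∃ v, x ∈ RR T T0 L v 2 s) ∨ ∃ w, s = Sum.inr w ∧ x ∈ NN T T0 L w := by
  rcases n.cover hx with ⟨v, h⟩ | ⟨w, e, h | h | h⟩
  exacts [.inl ⟨v, RR_mono one_le_two h⟩, .inr ⟨w, e, h⟩, .inl ⟨_, h.1⟩, .inl ⟨_, h.1⟩]

theorem R_uniq {v' : T.V} (hx : x ∈ RR T T0 L v 2 s) (hx' : x ∈ RR T T0 L v' 2 s) : v = v' := by
  rcases (RR_cases n.ok).1 hx with ⟨a, rfl, rfl, -⟩ | ⟨rfl, -, h2⟩ | ⟨w, rfl, -, rfl, -, -, h3⟩ <;>
    rcases (RR_cases n.ok).1 hx' with ⟨a, e, rfl, -⟩ | ⟨e, -, k2⟩ | ⟨w, e, -, rfl, -, -, k3⟩ <;>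
    cases e <;> first | rfl | (exfalso; linarith [n.hL ‹T.V›])

theorem R_N (hx : x ∈ RR T T0 L v 1 (Sum.inr w)) : x ∉ NN T T0 L w := fun hx' => by
  obtain ⟨-, h2, h3⟩ := mem_NN.1 hx'
  rcases (RR_cases n.ok).1 hx with ⟨a, e, -⟩ | ⟨e, -, k2⟩ | ⟨w, e, k1, -, -, -, k3⟩ <;> cases e
  · linarith
  · linarith [h3 k1]

theorem R_χ (hx : x ∈ RR T T0 L v 2 s) (s' : T.S) :
    T.χ s' ((T.glob L).c s x) = T.χ s' ((T.core v).c s (sc (lm L) s v • x)) := by
  rcases (RR_cases n.ok).1 hx with ⟨a, rfl, -, h1⟩ | ⟨rfl, h1, h2⟩ | ⟨w, rfl, hw, rfl, h1, h2, h3⟩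
  · simp only [sc, Sum.elim_inl, one_smul]; rfl
  · rw [sc_out, one_smul, glob_eq_out fun _ =>
      n.lt_r (ne_of_lt zero_le_one h1) (by linarith [n.hL v])]
  · rw [sc_inn (n.ok.par_ne hw)]
    exact n.ok.χ_glob_inn n.long hw (four_le' h1 (by linarith [n.hL w, n.t0])) s'

theorem N_χ (hx : x ∈ NN T T0 L w) : T.χ (Sum.inr w) ((T.glob L).c (Sum.inr w) x) = 1 := by
  obtain ⟨h1, h2, h3⟩ := mem_NN.1 hx
  refine (n.ok.glob_χ_mid n.long (by linarith [four_le' h1 (by linarith [n.t0])]) (fun hw => ?_)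
    _).trans (if_pos rfl)
  have := n.lt_r (w := w) h1 (by linarith [h3 hw])
  linarith [mul_pos n.ok.r_pos (Real.exp_pos (L w))]

theorem eps_eq (hx : x ∈ (T.core v).U s) : T.eps L (T.un s) = T.eps L v * sc (lm L) s v := by
  rcases s with a | w
  · simp [un, sc, (mem_core_inl.1 hx).1]
  by_cases hw : w = v
  · subst hw; simp [un, sc_out]
  · obtain ⟨hk, -⟩ := (mem_core_inn hw).1 hx
    rw [sc_inn hw, ← hk.2]; exact n.ok.eps_kid L hk.1

theorem base_UR (hx : x ∈ (T.base v).U s) : x ∈ UR T v T0 2 s ∧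
    (T.core v).c s x = Sum.inl (v, (T.base v).c s x) := by
  have e : sc (fun _ _ => 1) s v • x = x := by rcases s with a | w <;> exact one_smul _ _
  have := (n.ok.str_core v).conv' (s := s) (x := x) rfl (e.symm ▸ hx)
  rw [e] at this
  refine ⟨⟨this.1, ?_⟩, this.2⟩
  rintro w rfl
  by_cases hw : w = v
  · subst hw
    obtain ⟨h1, h2⟩ := mem_base_out.1 hx
    rw [tau_out]
    by_contra k
    linarith [four_le' (ne_of_lt zero_le_one h1) (by linarith [n.t0])]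
  · obtain ⟨-, h1, -⟩ := (mem_base_inn hw).1 hx
    have := (Real.lt_log_iff_exp_lt (by linarith [n.ok.r_pos])).2 (n.r.trans_lt h1)
    rw [tau_inn hw]; linarith

theorem R_cK {y : E4} (hy : y ∈ RR T T0 L v 2 s) (hx : x ∈ T.gK L s) :
    sc (lm L) s v • x ∈ T.cK v s ∧ rad T s (sc (lm L) s v • x) = sc (lm L) s v * rad T s x ∧
      scl T s (sc (lm L) s v • x) = sc (lm L) s v * scl T s x := by
  have e : ∀ w, ‖sc (lm L) (Sum.inr w : T.S) v • x‖ = sc (lm L) (Sum.inr w : T.S) v * ‖x‖ :=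
    fun w => by rw [norm_smul, Real.norm_of_nonneg sc_pos.le]
  rcases (RR_cases n.ok).1 hy with ⟨a, rfl, h0, -⟩ | ⟨rfl, -⟩ | ⟨w, rfl, hw, rfl, -⟩
  · simpa [sc, rad, scl, mem_cK_inl, h0] using mem_gK_inl.1 hx
  · simpa [sc_out, mem_cK_out] using hx.1
  · refine ⟨?_, by simp only [rad, Sum.elim_inr, e, mul_div_assoc], e w⟩
    rw [sc_inn (n.ok.par_ne hw), mem_cK_inn (n.ok.par_ne hw)]
    exact ⟨⟨hw, rfl⟩, lt_nrm_exp.2 (by linarith [hx.1]), nrm_exp_le.2 (hx.2 hw)⟩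

theorem cell_U {y : E4} (hx : x ∈ T.gK L s) (hy : y ∈ ball x (rad T s x)) : y ∈ (T.glob L).U s := by
  rw [mem_ball, dist_eq_norm] at hy
  have h1 := norm_le_norm_add_norm_sub' y x
  have h2 := norm_le_norm_add_norm_sub y x
  rcases s with a | w
  · simp only [rad, Sum.elim_inl] at hy
    exact mem_glob_inl.2 (by linarith [mem_gK_inl.1 hx])
  · simp only [rad, Sum.elim_inr] at hy
    have := mul_pos n.ok.r_pos (Real.exp_pos (L w))
    exact ⟨by linarith [hx.1], fun hw => by linarith [hx.2 hw]⟩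

end Nm

/-! ### the backgrounds -/

variable {g : T.V → Fam T} {a : T.V → Mt}

theorem gb_one (h : 1 / 10 ≤ tau T v w T0 x) : gb T g T0 v (Sum.inr w) x = 1 := by
  simp only [gb, Sum.elim_inr]
  rw [stp_one (by norm_num) h, sub_self, zero_smul, add_zero]

theorem etC_one (h : 4 / 5 ≤ tau T v w T0 x) : etC T v w T0 x = 1 := stp_one (by norm_num) h

theorem psiA_zero (η : E4 → ℝ) : PsiA η 0 = fun z => z := by funext z; simp [PsiA]

namespace Nm

variable (n : Nm T T0 L)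
include n

theorem tau_par (hw : w ≠ T.root) (hx : x ≠ 0) (t : ℝ) :
    tau T (T.par w) w t (Real.exp (-L w) • x) = L w - Real.log ‖x‖ - t := by
  rw [tau_inn (n.ok.par_ne hw), log_sm _ hx]; ring

theorem R_gb (hx : x ∈ RR T T0 L v 2 s) :
    gbL T g T0 L s x = gb T g T0 v s (sc (lm L) s v • x) := by
  rcases (RR_cases n.ok).1 hx with ⟨a, rfl, rfl, h1⟩ | ⟨rfl, h1, h2⟩ | ⟨w, rfl, hw, rfl, h1, h2, h3⟩
  · simp only [sc, Sum.elim_inl, one_smul]; rfl
  · simp only [sc_out, one_smul, gbL, Sum.elim_inr]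
    split_ifs with hw
    · exact add_zero _
    · rw [gb_one (v := T.par v) (by
        rw [n.tau_par hw (ne_of_lt zero_le_one h1)]; linarith [n.hL v]), sub_self, add_zero]
  · simp only [sc_inn (n.ok.par_ne hw), gbL, Sum.elim_inr, if_neg hw]
    rw [gb_one (v := w) (by rw [tau_out]; linarith [n.hL w]), add_sub_cancel]

theorem N_gb (hx : x ∈ NN T T0 L w) : gbL T g T0 L (Sum.inr w) x = 1 := by
  obtain ⟨h1, h2, h3⟩ := mem_NN.1 hx
  simp only [gbL, Sum.elim_inr]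
  rw [gb_one (v := w) (by rw [tau_out]; linarith)]
  split_ifs with hw
  · exact add_zero _
  · rw [gb_one (by rw [n.tau_par hw h1]; linarith [h3 hw]), sub_self, add_zero]

theorem R_H (ha : a T.root = 0) (hx : x ∈ RR T T0 L v 2 s) :
    gbLA T g T0 L a s x = gbA T g T0 a v s (sc (lm L) s v • x) := by
  have hO := (RR_open n.ok).mem_nhds hx
  rcases s with b | w
  · obtain ⟨rfl, -⟩ := mem_UR_inl.1 hx
    simp only [sc, Sum.elim_inl, one_smul]; rfl
  simp only [gbLA, gbA, Sum.elim_inr, n.R_gb hx]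
  rw [← pullM_dil _ _ _ _ sc_pos.ne']
  congr 2
  refine pullM_congr ?_
  by_cases hw : w = T.root
  · rw [hw, ha, psiA_zero, psiA_zero]
  filter_upwards [hO] with z hz
  simp only [PsiA, etG]
  rcases (RR_cases n.ok).1 hz with ⟨a, e, -⟩ | ⟨e, h1, h2⟩ | ⟨w, e, -, rfl, h1, h2, h3⟩ <;> cases e
  · rw [etC_one (v := T.par v) (by
      rw [n.tau_par hw (ne_of_lt zero_le_one h1)]; linarith [n.hL v]), sc_out, one_smul, mul_one]
  · rw [etC_one (v := w) (by rw [tau_out]; linarith [n.hL w]), sc_inn (n.ok.par_ne hw), one_mul]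

theorem N_H (ha : a T.root = 0) (w : T.V) :
    ∃ A : Mt, ∀ x ∈ NN T T0 L w, gbLA T g T0 L a (Sum.inr w) x = A := by
  let B : E4 →L[ℝ] E4 := 1 + LinearMap.toContinuousLinearMap (Matrix.toEuclideanLin (a w))
  refine ⟨pullM B fl1 0, fun x hx => ?_⟩
  simp only [gbLA, Sum.elim_inr, n.N_gb hx, add_sub_cancel]
  refine (pullM_congr (Φ' := B) ?_).trans (by ext p q; simp only [pullM_lin])
  filter_upwards [NN_open.mem_nhds hx] with z hz
  obtain ⟨h1, h2, h3⟩ := mem_NN.1 hz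
  by_cases hw : w = T.root
  · simp [B, hw, ha, psiA_zero]
  · simp only [PsiA, etG]
    rw [etC_one (by rw [tau_out]; linarith), etC_one (by rw [n.tau_par hw h1]; linarith [h3 hw]),
      one_mul, one_smul]
    rfl

variable {ψ : Fam T}

theorem R_to (hx : x ∈ RR T T0 L v 2 s) : toL T L v ψ s x = ψ s (sc (lm L) s v • x) := by
  rcases (RR_cases n.ok).1 hx with ⟨a, rfl, rfl, h1⟩ | ⟨rfl, h1, h2⟩ | ⟨w, rfl, hw, rfl, h1, h2, h3⟩
  · simp [toL, sc]
  · simp [toL, sc_out]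
  · simp only [toL, Sum.elim_inr, if_neg (n.ok.par_ne hw), sc_inn (n.ok.par_ne hw)]
    exact if_pos ⟨⟨hw, rfl⟩, nrm_exp_lt.2 h2⟩

theorem to_zero (h1 : T1 ≤ T0) (hψ : Van T v T1 0 ψ) (hx : x ∈ (T.glob L).U s)
    (h2 : x ∉ RR T T0 L v 1 s) : toL T L v ψ s x = 0 := by
  rw [RR_cases n.ok] at h2
  rcases s with a | w
  · exact congrFun (if_neg fun e => h2 (.inl ⟨a, rfl, e, mem_glob_inl.1 hx⟩)) x
  simp only [toL, Sum.elim_inr]
  have h0 := ne_of_lt zero_le_one hx.1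
  split_ifs with h3 h4
  · subst h3
    refine hψ w x (mem_core_out.2 hx.1) (le_of_not_gt fun k => h2 (.inr (.inl ⟨rfl, hx.1, ?_⟩)))
    rw [tau_out] at k; linarith
  · obtain ⟨⟨hw, rfl⟩, h4⟩ := h4
    refine hψ w _ ((mem_core_inn h3).2 ⟨⟨hw, rfl⟩, lt_nrm_exp.2 (by linarith [hx.1]), h4⟩)
      (le_of_not_gt fun k => h2 (.inr (.inr ⟨w, rfl, hw, rfl, h0, hx.2 hw, ?_⟩)))
    rw [n.tau_par hw h0] at k; linarith
  · rfl

omit n in
theorem loc_eq (X : Fam T) : loc T L v X s (sc (lm L) s v • x) = X s x := by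
  rcases s with a | w
  · simp [loc, sc]
  by_cases hw : w = v
  · simp [loc, hw, sc_out]
  · simp [loc, hw, sc_inn hw, exp_sm]

end Nm

theorem riem_gbA (h : T.Ok) (hg : (T.core v).IsMet (g v)) (ha : ∀ w p q, |a w p q| ≤ 1 / 100)
    (s : T.S) : IsRiemannianOn (gbA T g T0 a v s) ((T.core v).U s) := by
  rcases s with b | w
  · exact hg.riem _
  have h1 := hg.riem (Sum.inr w)
  have h2 := riemA (T := T) v w T0 (ha w)
  have h0 := (h.str_core v).ne w
  refine ⟨h1.isOpen, fun i j => ?_, fun x hx => ?_⟩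
  · refine (contDiffOn_const.add ((contDiffOn_const.sub fun x hx => ?_).mul
      ((h1.contDiffOn i j).sub contDiffOn_const))).add
      (((h2.contDiffOn i j).mono h0).sub contDiffOn_const)
    exact ((stp_sm _ _).contDiffAt.comp x (tau_sm v w T0 (h0 x hx))).contDiffWithinAt
  simp only [gbA, Sum.elim_inr]
  rcases lt_or_ge (tau T v w T0 x) (1 / 5) with k | k
  · rw [(pullM_congr (Φ' := fun z => z) ?_).trans (pullM_id x), sub_self, add_zero]
    · have a1 : 0 ≤ stp 0 (1 / 10) (tau T v w T0 x) := Real.smoothTransition.nonneg _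
      have a2 : stp 0 (1 / 10) (tau T v w T0 x) ≤ 1 := Real.smoothTransition.le_one _
      simp only [gb, Sum.elim_inr]
      generalize stp 0 (1 / 10) (tau T v w T0 x) = t at a1 a2
      rcases a2.eq_or_lt with rfl | a2
      · simpa using Matrix.PosDef.one
      · convert ((h1.posDef x hx).smul (sub_pos.2 a2)).add_posSemidef
          (Matrix.PosSemidef.one.smul a1) using 1
        module
    · filter_upwards [(tau_sm v w T0 (h0 x hx)).continuousAt.eventually (gt_mem_nhds k)] with z hz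
      rw [PsiA, etC, stp_zero (by norm_num) hz.le, zero_smul, add_zero]
  · rw [gb_one (by linarith), add_sub_cancel]
    exact h2.posDef x (h0 x hx)

end Crest.Agent.N207.CB.Gl

end
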