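import Crest.Agent.N207.CB.Glu2
import Crest.Agent.N207.I.Lim1
import Crest.Agent.N207.I.Cal3

/-!
# Row 207, block L, leaf GLU (helper21), part 3: the glued solution
-/

set_option autoImplicit false

open scoped ContDiff
open Metric Set Filter Topology MeasureTheory
open Crest.GeometryTopology.CoordMetric
open Crest.Agent.N207.I Crest.Agent.N207.I.TD Crest.Agent.N207.Lg Crest.Agent.N207.J

noncomputable section

namespace Crest.Agent.N207.CB.Gl

theorem int_dil {S : Set E4} (hS : MeasurableSet S) {t : ℝ} (ht : 0 < t) {F f : E4 → ℝ}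
    (hF : IntegrableOn F S) (e : ∀ x, t • x ∈ S → f x = t ^ 2 * F (t • x)) :
    IntegrableOn f {x | t • x ∈ S} ∧ ∫ x in {x | t • x ∈ S}, f x = (t ^ 2)⁻¹ * ∫ x in S, F x := by
  have hS' : MeasurableSet {x : E4 | t • x ∈ S} := measurable_const_smul t hS
  have e' : indicator {x | t • x ∈ S} f = fun x => t ^ 2 * indicator S F (t • x) := by
    funext x
    by_cases hx : t • x ∈ S
    · rw [indicator_of_mem hx, indicator_of_mem (show x ∈ {x | t • x ∈ S} from hx), e x hx]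
    · rw [indicator_of_notMem hx, indicator_of_notMem (show x ∉ {x | t • x ∈ S} from hx), mul_zero]
  rw [← integrable_indicator_iff hS', ← integral_indicator hS', ← integral_indicator hS, e',
    integral_const_mul, Measure.integral_comp_smul_of_nonneg volume (hR := ht.le)]
  refine ⟨(((integrable_indicator_iff hS).2 hF).comp_smul ht.ne').const_mul _, ?_⟩
  simp only [finrank_euclideanSpace, Fintype.card_fin, smul_eq_mul]
  field_simp

theorem jet_loc {f F : E4 → ℝ} {y : E4} {t : ℝ} (ht : 0 < t) (e : f =ᶠ[𝓝 y] fun z => F (t • z))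
    (k : ℕ) : ‖iteratedFDeriv ℝ k f y‖ ≤ t ^ k * ‖iteratedFDeriv ℝ k F (t • y)‖ := by
  rw [(e.iteratedFDeriv ℝ k).eq_of_nhds]; exact norm_iter_smul F ht k y

theorem pull_sc {F : E4 → E4} {x : E4} {A B G1 G2 : MetricField 4} {la lb c : ℝ} (h0 : la ≠ 0)
    (e : matT G1 (la • x) = pullT (fun z => lb • F (la⁻¹ • z)) (matT G2) (la • x))
    (h1 : A x = (c * la) ^ 2 • G1 (la • x)) (h2 : B (F x) = (c * lb) ^ 2 • G2 (lb • F x)) :
    matT A x = pullT F (matT B) x := by
  have e2 : fderiv ℝ (fun z => lb • F (la⁻¹ • z)) (la • x) = lb • la⁻¹ • fderiv ℝ F x := by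
    have := congrFun (fderiv_const_smul_field (𝕜 := ℝ) (f := fun z => F (la⁻¹ • z)) lb) (la • x)
    rw [Pi.smul_apply, fderiv_comp_smul, inv_smul_smul₀ h0] at this
    exact this
  funext I
  have := congrFun e I
  simp only [pullT, AI.evT_two, e2, inv_smul_smul₀ h0, matT, h1, h2, Matrix.smul_apply, smul_apply,
    PiLp.smul_apply, smul_eq_mul] at this ⊢
  rw [this, Finset.mul_sum]
  refine Finset.sum_congr rfl fun a _ => ?_
  rw [Finset.mul_sum]
  refine Finset.sum_congr rfl fun b _ => ?_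
  field_simp

theorem pull_one (γ : Iso4) (x : E4) : pullM γ fl1 x = 1 := by
  ext p q
  refine (pullM_lin γ.toContinuousLinearEquiv.toContinuousLinearMap fl1 x p q).trans ?_
  have := γ.inner_map_map (EuclideanSpace.single p 1) (EuclideanSpace.single q 1)
  rw [PiLp.inner_apply, EuclideanSpace.inner_single_left] at this
  simpa [Matrix.one_apply, Pi.single_apply, mul_comm, eq_comm] using this

variable {M : Type*} {T : TD M} {T0 T1 δ : ℝ} {L : T.V → ℝ} {v w : T.V} {s : T.S} {x : E4}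

/-- the glued metric -/
def glG (T : TD M) (T0 : ℝ) (L : T.V → ℝ) (G : T.V → Fam T) (u : T.V → MetricField 4) : Fam T :=
  Sum.elim (fun a => G (T.vx a) (Sum.inl a)) fun w x =>
    if Real.log ‖x‖ < T0 + 2 then G w (Sum.inr w) x
    else if w ≠ T.root ∧ L w - T0 - 2 < Real.log ‖x‖ then
      G (T.par w) (Sum.inr w) (Real.exp (-L w) • x)
    else (fl1 + u w) (Real.exp (-T0) • x)

variable {g G : T.V → Fam T} {u : T.V → MetricField 4} {a : T.V → Mt} {en : T.V → ℝ}

theorem Nm.R_G (n : Nm T T0 L) (hx : x ∈ RR T T0 L v 2 s) :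
    glG T T0 L G u s x = G v s (sc (lm L) s v • x) := by
  rcases (RR_cases n.ok).1 hx with ⟨a, rfl, rfl, h1⟩ | ⟨rfl, h1, h2⟩ | ⟨w, rfl, hw, rfl, h1, h2, h3⟩
  · simp only [sc, Sum.elim_inl, one_smul]; rfl
  · rw [sc_out, one_smul]; exact if_pos h2
  · rw [sc_inn (n.ok.par_ne hw)]
    exact (if_neg (by linarith [n.hL w])).trans (if_pos ⟨hw, h3⟩)

theorem intg_core (n : Nm T T0 L) {f : E4 → ℝ} (hf : ContinuousOn f (UR T v T0 2 s)) :
    IntegrableOn (fun x => T.χ s ((T.core v).c s x) * f x) (UR T v T0 1 s) := by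
  have h := n.ok
  have hP := h.core_pou v
  obtain ⟨lo, hi, h1, h2⟩ : ∃ lo hi : ℝ, (∀ x : E4, lo ≤ ‖x‖ → ‖x‖ ≤ hi → x ∈ UR T v T0 2 s) ∧
      ∀ x ∈ UR T v T0 1 s, ∀ y ∈ T.cK v s, ‖y‖ = ‖x‖ → lo ≤ ‖x‖ ∧ ‖x‖ ≤ hi := by
    by_cases he : ∃ y, y ∈ T.cK v s
    swap
    · exact ⟨1, 0, fun x _ _ => by linarith, fun _ _ y hy => absurd ⟨y, hy⟩ he⟩
    obtain ⟨z, hz⟩ := he
    rcases s with a | w
    · exact ⟨0, 3 / 2, fun x _ h1 => mem_UR_inl.2 ⟨(mem_cK_inl.1 hz).1, by linarith⟩,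
        fun x _ y hy e => ⟨norm_nonneg _, e ▸ (mem_cK_inl.1 hy).2⟩⟩
    by_cases hw : w = v
    · subst hw
      simp only [mem_UR_inr, mem_core_out, tau_out, mem_cK_out]
      refine ⟨3 / 2, Real.exp (T0 + 1), fun x h1 h2 => ⟨by linarith, ?_⟩, fun x hx y hy e =>
        ⟨e ▸ hy, (Real.log_le_iff_le_exp (by linarith [hx.1])).1 (by linarith [hx.2])⟩⟩
      linarith [(Real.log_le_iff_le_exp (by linarith)).2 h2]
    · simp only [mem_UR_inr, mem_core_inn hw, tau_inn hw, mem_cK_inn hw] at hz ⊢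
      refine ⟨Real.exp (-T0 - 1), 3 / 4 * T.r, fun x h1 h2 => ?_, fun x hx y hy e =>
        ⟨(Real.le_log_iff_exp_le hx.1.2.1).1 (by linarith [hx.2]), e ▸ hy.2.2⟩⟩
      have h0 := (Real.exp_pos _).trans_le h1
      exact ⟨⟨hz.1, h0, by linarith [h.r_pos]⟩, by linarith [(Real.le_log_iff_exp_le h0).2 h1]⟩
  have hK : IsCompact {x : E4 | lo ≤ ‖x‖ ∧ ‖x‖ ≤ hi} :=
    (isCompact_closedBall 0 hi).of_isClosed_subset ((isClosed_le continuous_const continuous_norm).inter
      (isClosed_le continuous_norm continuous_const)) fun x hx => mem_closedBall_zero_iff.2 hx.2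
  refine ((((hP.sm s s).continuousOn.mono fun x hx => (h1 x hx.1 hx.2).1).mul
    (hf.mono fun x hx => h1 x hx.1 hx.2)).integrableOn_compact hK).of_forall_sdiff_eq_zero
    (UR_open h).measurableSet fun x hx => mul_eq_zero_of_left ?_ _
  by_contra k
  obtain ⟨y, hy, e⟩ := hP.supp s s x hx.1.1 k
  obtain ⟨γ, -, rfl⟩ := ((h.core_ok v).fib s y (hP.sub s hy) x hx.1.1).1 e
  exact hx.2 (h2 _ hx.1 y hy (γ.norm_map y).symm)

/-- the data of `GLU` -/
structure Dat (T : TD M) (g : T.V → Fam T) (T0 T1 : ℝ) (L : T.V → ℝ) (κ : T.V → Type)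
    [∀ v, Fintype (κ v)] (ψ : ∀ v, κ v → Fam T) (a : T.V → Mt) (δ : ℝ) (θ μ : (Σ v, κ v) → ℝ)
    (G : T.V → Fam T) (u : T.V → MetricField 4) (en : T.V → ℝ) : Prop extends Nm T T0 L where
  t1 : T1 ≤ T0
  met : ∀ v, (T.core v).IsMet (g v)
  psi : Psi T κ ψ T1
  a0 : a T.root = 0
  ha : ∀ w p q, |a w p q| ≤ 1 / 100
  co : ∀ v, CoS T g T0 v (ψ v) a δ (fun j => θ ⟨v, j⟩) (fun j => μ ⟨v, j⟩) (G v)
  ne : ∀ w, ASol (T.Γ w) (nI T T0 L w) δ (en w) (u w)
  m1 : ∀ w, ∀ x ∈ An (Ioo 1 2), G w (Sum.inr w) (Real.exp T0 • x) = 1 + u w x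
  m2 : ∀ w, w ≠ T.root → ∀ x ∈ An (Ioo (-2) (-1)),
    G (T.par w) (Sum.inr w) (Real.exp (-T0) • x) = 1 + u w (Real.exp (L w - 2 * T0) • x)

namespace Dat

variable {κ : T.V → Type} [∀ v, Fintype (κ v)] {ψ : ∀ v, κ v → Fam T} {θ μ : (Σ v, κ v) → ℝ}
  (d : Dat T g T0 T1 L κ ψ a δ θ μ G u en)
include d

theorem N_G (hx : x ∈ NN T T0 L w) :
    glG T T0 L G u (Sum.inr w) x = (fl1 + u w) (Real.exp (-T0) • x) := by
  obtain ⟨h1, h2, h3⟩ := mem_NN.1 hx
  have h0 : ∀ t, Real.exp t • x ≠ 0 := fun t => smul_ne_zero (Real.exp_pos t).ne' h1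
  simp only [glG, Sum.elim_inr]
  split_ifs with k1 k2
  · have := d.m1 w _ ⟨h0 (-T0), by rw [log_sm _ h1]; constructor <;> linarith⟩
    rwa [exp_sm, add_neg_cancel, Real.exp_zero, one_smul] at this
  · have := d.m2 w k2.1 _ ⟨h0 (T0 - L w), by
      rw [log_sm _ h1]; constructor <;> linarith [k2.2, h3 k2.1]⟩
    rwa [exp_sm, exp_sm, show -T0 + (T0 - L w) = -L w by ring,
      show L w - 2 * T0 + (T0 - L w) = -T0 by ring] at this
  · rfl

theorem R_ev (hx : x ∈ RR T T0 L v 2 s) :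
    glG T T0 L G u s =ᶠ[𝓝 x] fun z => G v s (sc (lm L) s v • z) := by
  filter_upwards [(RR_open d.ok).mem_nhds hx] with z hz using d.R_G hz

theorem R_evH (hx : x ∈ RR T T0 L v 2 s) :
    gbLA T g T0 L a s =ᶠ[𝓝 x] fun z => gbA T g T0 a v s (sc (lm L) s v • z) := by
  filter_upwards [(RR_open d.ok).mem_nhds hx] with z hz using d.R_H d.a0 hz

theorem N_ev (hx : x ∈ NN T T0 L w) :
    glG T T0 L G u (Sum.inr w) =ᶠ[𝓝 x] fun z => (fl1 + u w) (Real.exp (-T0) • z) := by
  filter_upwards [NN_open.mem_nhds hx] with z hz using d.N_G hz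

theorem N_evH (hx : x ∈ NN T T0 L w) :
    ∃ A : Mt, gbLA T g T0 L a (Sum.inr w) =ᶠ[𝓝 x] fun _ => A := by
  obtain ⟨A, hA⟩ := d.N_H (g := g) d.a0 w
  exact ⟨A, by filter_upwards [NN_open.mem_nhds hx] with z hz using hA z hz⟩

theorem riem (s : T.S) : IsRiemannianOn (glG T T0 L G u s) ((T.glob L).U s) := by
  refine ⟨(d.ok.glob_ok d.long).isOpen s, fun i j x hx => ContDiffAt.contDiffWithinAt ?_,
    fun x hx => ?_⟩ <;> rcases d.cover' hx with ⟨v, h⟩ | ⟨w, rfl, h⟩
  · refine ((((d.co v).sm s i j).contDiffAt ((UR_open d.ok).mem_nhds h)).comp x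
      (contDiff_const_smul _).contDiffAt).congr_of_eventuallyEq ?_
    filter_upwards [d.R_ev h] with z hz using by rw [hz]; rfl
  · refine ((contDiffAt_const (c := (1 : Mt) i j)).add (((((d.ne w).inv.sm i j).contDiffAt
      (An_open.mem_nhds h)).comp x (contDiff_const_smul _).contDiffAt))).congr_of_eventuallyEq ?_
    filter_upwards [d.N_ev h] with z hz using by rw [hz]; rfl
  · rw [d.R_G h]; exact (d.co v).pos s _ h
  · rw [d.N_G h]; exact (d.ne w).pos _ h

theorem isMet : (T.glob L).IsMet fun s x => T.eps L (T.un s) ^ 2 • glG T T0 L G u s x := by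
  have hS := d.ok.str_glob d.long
  refine ⟨fun s => ⟨(d.riem s).isOpen, fun i j => contDiffOn_const.mul ((d.riem s).contDiffOn i j),
    fun x hx => ((d.riem s).posDef x hx).smul (pow_pos (eps_pos _ _) 2)⟩,
    hS.compat_of d.ok (fun a b x F v _ t hev => ?_) fun w γ hγ x hx => ?_⟩
  · obtain ⟨h1, h2, -⟩ := hev.self_of_nhds
    have ha := (sc_pos (T := T) (L := L) (s := a) (v := v)).ne'
    have hc : Tendsto (fun z : E4 => (sc (lm L) a v)⁻¹ • z) (𝓝 (sc (lm L) a v • x)) (𝓝 x) :=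
      (continuous_const_smul _).tendsto' _ _ (inv_smul_smul₀ ha x)
    refine pull_sc (c := T.eps L v) ha ((d.co v).compat a b _ _ ⟨(d.base_UR h1).1.1, ?_, ?_, ?_⟩)
      (by rw [d.R_G (d.base_UR h1).1, d.eps_eq (d.base_UR h1).1.1])
      (by rw [d.R_G (d.base_UR h2).1, d.eps_eq (d.base_UR h2).1.1])
    · rw [inv_smul_smul₀ ha]; exact (d.base_UR h2).1.1
    · filter_upwards [hc.eventually t.sm] with z hz
      exact (ContDiffAt.comp z hz (contDiff_const_smul _).contDiffAt).const_smul _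
    · filter_upwards [hc.eventually hev] with z hz
      obtain ⟨k1, k2, k3⟩ := hz
      rw [smul_inv_smul₀ ha] at k1 k3
      rw [(d.base_UR k1).2, (d.base_UR k2).2, k3]
  have e : ∀ t : ℝ, t ≠ 0 → (fun z => t • γ (t⁻¹ • z)) = γ := fun t ht => by
    funext z; rw [map_smul, smul_inv_smul₀ ht]
  rcases d.cover' hx with ⟨v, h⟩ | ⟨w, e', h⟩
  · have h' : γ x ∈ RR T T0 L v 2 (Sum.inr w) := by
      simpa only [RR_cases d.ok, γ.norm_map, ne_eq, map_eq_zero_iff γ γ.injective] using h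
    refine pull_sc (c := T.eps L v) sc_pos.ne' ?_ (by rw [d.R_G h, d.eps_eq h.1])
      (by rw [d.R_G h', d.eps_eq h.1])
    rw [e _ sc_pos.ne']
    exact (d.co v).compat _ _ _ _ ((d.ok.core_ok v).tr_deck hγ h.1)
  · cases e'
    have h' : γ x ∈ NN T T0 L w := by
      simpa only [mem_NN, γ.norm_map, ne_eq, map_eq_zero_iff γ γ.injective] using h
    have ht := (Real.exp_pos (-T0)).ne'
    refine pull_sc (c := T.eps L w / Real.exp (-T0)) (G1 := fl1 + u w) (G2 := fl1 + u w) ht ?_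
      (by rw [d.N_G h, div_mul_cancel₀ _ ht]; rfl) (by rw [d.N_G h', div_mul_cancel₀ _ ht]; rfl)
    rw [e _ ht]
    funext I
    have h1 := congrFun (congrFun ((d.ne w).inv.eqv γ hγ _ h) (I 0)) (I 1)
    have h2 := congrFun (congrFun (pull_one γ (Real.exp (-T0) • x)) (I 0)) (I 1)
    have h3 : ![I 0, I 1] = I := by funext i; fin_cases i <;> rfl
    simp only [pullM, Matrix.of_apply, h3] at h1 h2
    refine Eq.trans ?_ (AI.pullT_add γ (matT fl1) (matT (u w)) _ I).symm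
    rw [← h1, h2]; rfl

theorem el (hx : x ∈ (T.glob L).U s) (k : M2 (Fin 4) ℝ) (hk : ∀ a b, k a b = k b a) :
    tr2 (vG (sq (glG T T0 L G u s) x) (iv (glG T T0 L G u s) x) k)
      (a2 (redT (gbLA T g T0 L a s) (glG T T0 L G u s) x)) =
      ∑ j : Σ v, κ v, μ j * ((T.eps L (T.un s) / T.eps L j.1) ^ 2 * (sq (gbLA T g T0 L a s) x *
        tr2 (up (iv (gbLA T g T0 L a s) x) fun a b => toL T L j.1 (ψ j.1 j.2) s x a b) k)) := by
  have h0 : ∀ v j, x ∉ RR T T0 L v 1 s → μ ⟨v, j⟩ * ((T.eps L (T.un s) / T.eps L v) ^ 2 *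
      (sq (gbLA T g T0 L a s) x *
        tr2 (up (iv (gbLA T g T0 L a s) x) fun a b => toL T L v (ψ v j) s x a b) k)) = 0 :=
    fun v j h => by simp [d.to_zero d.t1 (d.psi.supp v j) hx h, tr2, up]
  rw [Fintype.sum_sigma]
  rcases d.cover' hx with ⟨v, h⟩ | ⟨w, rfl, h⟩
  · rw [Finset.sum_eq_single v (fun v' _ hv => Finset.sum_eq_zero fun j _ => h0 v' j fun h' =>
      hv (d.R_uniq (RR_mono one_le_two h') h)) (fun k => absurd (Finset.mem_univ _) k),
      (redT_congr (d.R_evH h) (d.R_ev h)).eq_of_nhds, redT_dil, (sq_congr (d.R_ev h)).eq_of_nhds,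
      (iv_congr (d.R_ev h)).eq_of_nhds, (sq_congr (d.R_evH h)).eq_of_nhds,
      (iv_congr (d.R_evH h)).eq_of_nhds]
    refine (tr2_smul _ _ _).trans ((congrArg _
      (el_pt ((d.co v).pos s _ h) ((d.co v).eq s _ h) k hk)).trans ?_)
    rw [Finset.mul_sum]
    refine Finset.sum_congr rfl fun j _ => ?_
    rw [d.R_to h, d.eps_eq h.1, mul_div_cancel_left₀ _ (eps_pos _ _).ne', mul_left_comm]
    rfl
  · obtain ⟨A, hA⟩ := d.N_evH h
    rw [Finset.sum_eq_zero fun v _ => Finset.sum_eq_zero fun j _ => h0 v j fun h' => d.R_N h' h,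
      (redT_congr hA (d.N_ev h)).eq_of_nhds, redT_cst]
    have := redT_dil fl1 (fl1 + u w) (Real.exp (-T0)) x
    rw [this]
    refine (tr2_smul _ _ _).trans (mul_eq_zero_of_right _ ?_)
    exact (congrArg _ ((d.ne w).eq _ h)).trans (tr2_zero _)

theorem con (j : Σ v, κ v) :
    pair T g j.1 (ψ j.1 j.2) (loc T L j.1 (glG T T0 L G u - gbLA T g T0 L a)) = θ j := by
  obtain ⟨v, j⟩ := j
  refine Eq.trans (Atl.int_congr (d.ok.core_ok v) fun s y hy => ?_) ((d.co v).con j)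
  by_cases h : y ∈ UR T v T0 2 s
  · obtain ⟨x, rfl⟩ : ∃ x, sc (lm L) s v • x = y := ⟨_, smul_inv_smul₀ sc_pos.ne' y⟩
    refine congrArg (ipA _ _) (funext fun I => ?_)
    simp only [matT, Nm.loc_eq, Pi.sub_apply, d.R_G h, d.R_H d.a0 h]
  · have : ψ v j s y = 0 := by
      by_contra k
      refine h ⟨hy, ?_⟩
      rintro w rfl
      have := not_le.1 fun k' => k (d.psi.supp v j w y hy k')
      have := d.t1
      unfold tau at *
      linarith
    simp [ip, matT, this, ipA]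

theorem δ_nonneg : 0 ≤ δ := (norm_nonneg _).trans (d.co T.root).mu

theorem small (hx : x ∈ T.gK L s) {y : E4} (hy : y ∈ ball x (rad T s x)) {k : ℕ} (hk : k ≤ 2)
    (p q : Fin 4) : scl T s x ^ k *
      ‖iteratedFDeriv ℝ k (fun y => (glG T T0 L G u s y - gbL T g T0 L s y) p q) y‖ ≤ 2 * δ := by
  have h0 : 0 ≤ scl T s x := by rcases s with a | w; exacts [zero_le_one, norm_nonneg _]
  rcases d.cover' (d.cell_U hx hy) with ⟨v, h⟩ | ⟨w, rfl, h⟩
  · obtain ⟨h1, h2, h3⟩ := d.R_cK h hx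
    have h4 := (d.co v).small s _ h1 (sc (lm L) s v • y) (by
      rw [mem_ball, dist_smul₀, h2, Real.norm_of_nonneg sc_pos.le]
      exact mul_lt_mul_of_pos_left hy sc_pos) k hk p q
    refine (mul_le_mul_of_nonneg_left (jet_loc (F := fun y => (G v s y - gb T g T0 v s y) p q)
      (sc_pos (L := L) (s := s) (v := v)) ?_ k) (pow_nonneg h0 k)).trans ?_
    · filter_upwards [(RR_open d.ok).mem_nhds h] with z hz using by rw [d.R_G hz, d.R_gb hz]
    · rw [h3, mul_pow] at h4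
      linarith [d.δ_nonneg]
  · have h4 := (d.ne w).bd _ h k hk p q
    have ht := Real.exp_pos (-T0)
    refine (mul_le_mul_of_nonneg_left (jet_loc (F := fun y => u w y p q) ht ?_ k)
      (pow_nonneg h0 k)).trans ?_
    · filter_upwards [NN_open.mem_nhds h] with z hz using by
        rw [d.N_G hz, d.N_gb hz]; simp
    · rw [norm_smul, Real.norm_of_nonneg ht.le, mul_pow] at h4
      rw [mem_ball, dist_eq_norm] at hy
      have h5 : ‖x‖ ≤ 8 / 7 * ‖y‖ := by
        simp only [rad, Sum.elim_inr] at hy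
        linarith [norm_le_norm_add_norm_sub y x]
      have h6 : ‖x‖ ^ k ≤ 2 * ‖y‖ ^ k := by
        refine (pow_le_pow_left₀ (norm_nonneg _) h5 k).trans ?_
        rw [mul_pow]
        gcongr
        exact (pow_le_pow_right₀ (by norm_num) hk).trans (by norm_num)
      refine (mul_le_mul_of_nonneg_right h6 (by positivity)).trans ?_
      linarith

theorem intg (s : T.S) : IntegrableOn (fun x => T.χ s ((T.glob L).c s x) *
      fgfF (gbLA T g T0 L a s) (glG T T0 L G u s) x) ((T.glob L).U s) ∧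
    T.eps L (T.un s) ^ 2 * ∫ x in (T.glob L).U s, T.χ s ((T.glob L).c s x) *
      fgfF (gbLA T g T0 L a s) (glG T T0 L G u s) x =
      ∑ v, T.eps L v ^ 2 * (∫ x in UR T v T0 1 s, T.χ s ((T.core v).c s x) *
        fgfF (gbA T g T0 a v s) (G v s) x) +
      Sum.elim (fun _ => 0) (fun w => T.eps L w ^ 2 * (Real.exp (2 * T0) * en w)) s := by
  have h1 := fun v => int_dil (f := fun x => T.χ s ((T.glob L).c s x) *
      fgfF (gbLA T g T0 L a s) (glG T T0 L G u s) x) (UR_open d.ok).measurableSet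
    (sc_pos (L := L) (s := s) (v := v)) (intg_core d.toNm (fgfF_cont (H := gbA T g T0 a v s)
      ⟨UR_open d.ok, fun i j => ((riem_gbA d.ok (d.met v) d.ha s).contDiffOn i j).mono
        fun _ h => h.1, fun x h => (riem_gbA d.ok (d.met v) d.ha s).posDef x h.1⟩
      ⟨UR_open d.ok, (d.co v).sm s, (d.co v).pos s⟩)) fun x hx => by
    have h := RR_mono (L := L) one_le_two hx
    rw [d.R_χ h, (fgfF_congr (d.R_evH h) (d.R_ev h)).eq_of_nhds, fgfF_dil, mul_left_comm]
  have h2 : ∀ v, T.eps L (T.un s) ^ 2 * ∫ x in RR T T0 L v 1 s, T.χ s ((T.glob L).c s x) *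
      fgfF (gbLA T g T0 L a s) (glG T T0 L G u s) x = T.eps L v ^ 2 * ∫ x in UR T v T0 1 s,
        T.χ s ((T.core v).c s x) * fgfF (gbA T g T0 a v s) (G v s) x := fun v => by
    refine (congrArg _ (h1 v).2).trans ?_
    rcases (UR T v T0 1 s).eq_empty_or_nonempty with e | ⟨y, hy⟩
    · simp [e]
    · rw [d.eps_eq hy.1, mul_pow, mul_assoc, mul_inv_cancel_left₀ (pow_pos sc_pos 2).ne']
  have h3 := integral_iUnion_fintype (s := fun v => RR T T0 L v 1 s)
    (fun v => (RR_open d.ok).measurableSet) (fun v v' hv => Set.disjoint_left.2 fun x k k' =>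
      hv (d.R_uniq (RR_mono one_le_two k) (RR_mono one_le_two k'))) fun v => (h1 v).1
  have h4 := (integrableOn_finite_iUnion (t := fun v => RR T T0 L v 1 s)).2 fun v => (h1 v).1
  rcases s with b | w
  · have e : (T.glob L).U (Sum.inl b) = ⋃ v, RR T T0 L v 1 (Sum.inl b) :=
      Subset.antisymm (fun x hx => (d.cover hx).elim mem_iUnion.2 fun ⟨_, e, _⟩ => nomatch e)
        (iUnion_subset fun v x hx => d.R_U (RR_mono one_le_two hx))
    rw [e, h3, Finset.mul_sum, Finset.sum_congr rfl fun v _ => h2 v]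
    exact ⟨h4, (add_zero _).symm⟩
  have h5 := int_dil (f := fun x => T.χ (Sum.inr w) ((T.glob L).c (Sum.inr w) x) *
      fgfF (gbLA T g T0 L a (Sum.inr w)) (glG T T0 L G u (Sum.inr w)) x) An_open.measurableSet
    (Real.exp_pos (-T0)) (d.ne w).int fun x hx => by
    obtain ⟨A, hA⟩ := d.N_evH hx
    rw [d.N_χ hx, one_mul, (fgfF_congr hA (d.N_ev hx)).eq_of_nhds, fgfF_cst]
    exact fgfF_dil fl1 _ _ _
  have e : (T.glob L).U (Sum.inr w) =ᵐ[volume]
      ((⋃ v, RR T T0 L v 1 (Sum.inr w)) ∪ NN T T0 L w : Set E4) := by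
    have h6 := fun r => measure_eq_zero_iff_ae_notMem.1 (Measure.addHaar_sphere volume (0 : E4) r)
    filter_upwards [h6 (Real.exp (T0 + 1)), h6 (Real.exp (L w - T0 - 1))] with x k1 k2
    refine propext ⟨fun hx => ?_, ?_⟩
    · rcases d.cover (s := Sum.inr w) hx with h | ⟨_, e, h | h | h⟩
      · exact .inl (mem_iUnion.2 h)
      all_goals cases e
      exacts [.inr h, absurd (mem_sphere_zero_iff_norm.2 h.2) k1,
        absurd (mem_sphere_zero_iff_norm.2 h.2) k2]
    · rintro (h | h)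
      · obtain ⟨v, h⟩ := mem_iUnion.1 h
        exact d.R_U (RR_mono one_le_two h)
      · exact d.N_U h
  refine ⟨(h4.union h5.1).congr_set_ae e, ?_⟩
  rw [setIntegral_congr_set e, setIntegral_union (Set.disjoint_left.2 fun x k =>
    d.R_N (mem_iUnion.1 k).choose_spec) NN_open.measurableSet h4 h5.1, h3, mul_add, Finset.mul_sum,
    Finset.sum_congr rfl fun v _ => h2 v]
  refine congrArg _ ((congrArg _ h5.2).trans ?_)
  rw [(d.ne w).en, ← Real.exp_nat_mul, ← Real.exp_neg]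
  simp [un]

end Dat

end Crest.Agent.N207.CB.Gl

namespace Crest.Agent.N207.CB

open Gl

/-- **GLU** -/
theorem glu {M : Type*} (T : TD M) : GLU T := by
  intro g γ _ h hg κ _ ψ T1 hψ
  refine ⟨max (max 1 T1) (-Real.log (T.r / 4)), fun T0 hT L hL a ha ha' δ θ μ G u en hC hA m1 m2
    hd => ?_⟩
  have d : Dat T g T0 T1 L κ ψ a δ θ μ G u en := ⟨⟨h, (le_max_left _ _).trans ((le_max_left _ _).trans hT),
    (Real.le_log_iff_exp_le (by linarith [h.r_pos])).1 (by linarith [(le_max_right _ _).trans hT]),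
    hL⟩, (le_max_right _ _).trans ((le_max_left _ _).trans hT), hg.met, hψ, (ha _).root rfl, ha',
    hC, hA, m1, m2⟩
  have hδ := d.δ_nonneg
  refine ⟨glG T T0 L G u, ⟨d.isMet, fun s x hx => d.el hx, d.con,
    fun s x hx y hy k hk => d.small hx hy hk, ?_, fun x hx k hk p q => ?_,
    fun s => (d.intg s).1⟩, ?_⟩
  · refine (pi_norm_le_iff_of_nonneg (by linarith)).2 fun j => ?_
    linarith [(norm_le_pi_norm (fun i => μ ⟨j.1, i⟩) j.2).trans (hC j.1).mu]
  · have h0 := (Real.exp_pos _).trans_le hx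
    have h1 : x ∈ NN T T0 L T.root := mem_NN.2 ⟨norm_pos_iff.1 h0,
      by linarith [(Real.le_log_iff_exp_le h0).2 hx], fun k => absurd rfl k⟩
    have ht := Real.exp_pos (-T0)
    have h2 := hd (Real.exp (-T0) • x) (by simpa [NN, nI] using h1) k hk p q
    refine (mul_le_mul_of_nonneg_left (jet_loc (F := fun y => u T.root y p q) ht ?_ k)
      (pow_nonneg h0.le k)).trans ?_
    · filter_upwards [d.N_ev h1] with z hz using by simp [TD.dv, hz]
    · rw [norm_smul, Real.norm_of_nonneg ht.le, mul_pow, ← div_div, ← Real.exp_sub,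
        show 4 - -T0 = T0 + 4 by ring] at h2
      have : 0 ≤ δ * (Real.exp (T0 + 4) / ‖x‖) ^ (3 / 2 : ℝ) := by positivity
      linarith
  · simp only [actL, actC, mul_add, Finset.sum_add_distrib, Finset.mul_sum,
      mul_left_comm (T.eps L _ ^ 2) (_ : ℝ)⁻¹, fun s => (d.intg s).2]
    rw [Finset.sum_comm, Fintype.sum_sum_type]
    simp [TD.grp]

end Crest.Agent.N207.CB

end
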