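import Crest.Agent.N207.CB.Grc1

/-!
# Row 207, block L (helper45): `grc : REG T → GRC T`
-/

set_option autoImplicit false

open scoped ContDiff
open Metric Set Filter Topology MeasureTheory
open Crest.GeometryTopology.CoordMetric
open Crest.Agent.NLib.Ell Crest.Agent.N207.I Crest.Agent.N207.Lg Crest.Agent.N207.J

noncomputable section

namespace Crest.Agent.N207.CB

namespace Gr

theorem clos_eq {Z E F : Type*} [TopologicalSpace Z] [NormedAddCommGroup E] [NormedAddCommGroup F]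
    {S : Set Z} {z : Z} (hz : z ∈ closure S) {e : E} {f : Z → E} {p : Z → F} (hf : Continuous f)
    (hp : Continuous p) {C : ℝ} (h : ∀ z' ∈ S, ‖e - f z'‖ ≤ C * ‖p z - p z'‖) : e = f z := by
  have := le_on_closure h (by fun_prop) (by fun_prop) hz
  rwa [sub_self, norm_zero, mul_zero, norm_le_zero_iff, sub_eq_zero] at this

variable {M : Type*} {T : TD M} {v u : T.V} {T0 T1 : ℝ} {g : T.V → Fam T}

theorem cK_sub {s : T.S} {x : E4} (hx : x ∈ T.cK v s) : x ∈ (T.core v).U s := by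
  simpa using cell_mem hx (mem_ball_self one_pos)

theorem cd_unit {w : Fam T} {m : WithTop ℕ∞} {x : E4} {a b : Fin 4}
    (h : ContDiffAt ℝ m (fun z => w (Sum.inr u) z a b) (Real.exp (sgn T v u * T0) • x)) :
    ContDiffAt ℝ m (fun z => unit T v u T0 w z a b) x :=
  h.comp x (contDiffAt_id.const_smul (Real.exp (sgn T v u * T0)))

/-- the amplitudes depend continuously on the lift -/
theorem amp_near (h : T.Ok) (hb : Big T T0) (hu : u = v ∨ T.kid v u) {w w' : Fam T}
    (hw : SecN T v 8 w) (hw' : Sec T v w') {W W' : MC T v 8} (l : Lf T 0 w W)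
    (l' : Lf T 0 (fun s x => zt T v T0 s x • w' s x) W') (a b : Fin 4) (k : ℕ) :
    ‖pm (cf (unit T v u T0 w) a b) k (sgn T v u * 3) -
      pm (cf (unit T v u T0 w') a b) k (sgn T v u * 3)‖ ≤ 165 * ‖W - W'‖ ∧
    ‖qm (cf (unit T v u T0 w) a b) k (sgn T v u * 3) -
      qm (cf (unit T v u T0 w') a b) k (sgn T v u * 3)‖ ≤ 165 * ‖W - W'‖ := by
  set t := sgn T v u * 3 with ht
  set c := Real.exp (sgn T v u * T0) with hc
  set w'' : Fam T := fun s x => zt T v T0 s x • w' s x with hw''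
  have n0 : ∀ o : S3, Real.exp t • (o : E4) ≠ 0 := fun o =>
    smul_ne_zero (Real.exp_pos _).ne' (ne_zero_of_mem_unit_sphere o)
  have lg : ∀ o : S3, sgn T v u * Real.log ‖Real.exp t • (o : E4)‖ = 3 := fun o => by
    rw [norm_smul, norm_eq_of_mem_sphere, mul_one, Real.norm_eq_abs, Real.abs_exp, Real.log_exp,
      ht, ← mul_assoc, sgn_sq, one_mul]
  have mK : ∀ o : S3, c • Real.exp t • (o : E4) ∈ T.cK v (Sum.inr u) := fun o =>
    unit_mem h hb hu (n0 o) (by rw [lg]; norm_num)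
  have c1 : ∀ o : S3, ContDiffAt ℝ (0 + 1 : ℕ) (fun z => w (Sum.inr u) z a b)
      (c • Real.exp t • (o : E4)) := fun o =>
    ((hw.sm _ a b).contDiffAt (((h.core_ok v).isOpen _).mem_nhds (cK_sub (mK o)))).of_le
      (by norm_cast)
  have c2 : ∀ o : S3, ContDiffAt ℝ (0 + 1 : ℕ) (fun z => w'' (Sum.inr u) z a b)
      (c • Real.exp t • (o : E4)) := fun o =>
    (sec_cda h (sec_zt h hb hw') (cK_sub (mK o)) a b).of_le (by exact_mod_cast le_top)
  have e := amp_congr (U := cf (unit T v u T0 w') a b) (V := cf (unit T v u T0 w'') a b) (t := t)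
    (fun o => by
      have e1 := zt_ev (T0 := T0) (cK_sub (mK o)) fun u' e => by
        cases e; rw [tau_unit (n0 o), lg]; norm_num
      filter_upwards [(continuous_const_smul c).continuousAt.eventually e1] with z hz
      simp only [cf, unit, hw'', ← hc, hz, one_smul]) k
  rw [e.1, e.2]
  have nb : ‖(W - W') a b‖ ≤ ‖W - W'‖ := (norm_le_pi_norm _ b).trans (norm_le_pi_norm _ a)
  have cb := fun o => cell_bd (k := 7) (mK o) (lf_sub l l' ⟨(Sum.inr u, _), mK o⟩ a b)
  refine amp_le (U := cf (unit T v u T0 w) a b) (V := cf (unit T v u T0 w'') a b)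
    (fun o => cd_ofReal (cd_unit (c1 o))) (fun o => cd_ofReal (cd_unit (c2 o)))
    (fun o => ?_) (fun o => ?_) k
  · rw [cf, cf, ← Complex.ofReal_sub, Complex.norm_real]
    exact (cb o).1.trans nb
  · have e2 : (fun x => cf (unit T v u T0 w) a b x - cf (unit T v u T0 w'') a b x) =
        fun x => (((fun z => (w - w'') (Sum.inr u) z a b) (c • x) : ℝ) : ℂ) := by
      funext x; simp [cf, unit, ← hc]
    have d : DifferentiableAt ℝ (fun z => (w - w'') (Sum.inr u) z a b)
        (c • Real.exp t • (o : E4)) := ((c1 o).sub (c2 o)).differentiableAt (by simp)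
    rw [e2, Eu, Du, fderiv_ofReal (f := fun x => (fun z => (w - w'') (Sum.inr u) z a b) (c • x))
      (d.comp _ (differentiableAt_id.const_smul c)), Complex.norm_real,
      fderiv_comp_smul (f := fun z => (w - w'') (Sum.inr u) z a b)]
    refine le_trans (le_of_eq ?_) ((cb o).2.trans (by gcongr))
    simp [Real.norm_eq_abs, mul_left_comm]

variable {κ : Type} [Fintype κ] {ψ : κ → Fam T}

theorem van_le {ψ : Fam T} (hv : Van T v T1 0 ψ) (hT : T1 ≤ T0) {x : E4}
    (hx : x ∈ (T.core v).U (Sum.inr u)) (h0 : 0 ≤ tau T v u T0 x) : ψ (Sum.inr u) x = 0 :=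
  hv u x hx (by rw [tau_eq] at h0 ⊢; linarith)

/-- the solutions are harmonic on the ends -/
theorem unit_harm (h : T.Ok) (hb : Big T T0) (hu : u = v ∨ T.kid v u) (hT : T1 ≤ T0)
    (hψ : ∀ j, Van T v T1 0 (ψ j)) {F w : Fam T} {μ : κ → ℝ} (hF : Van T v T0 (29 / 10) F)
    (hw : Sec T v w) (he : ∀ s, ∀ x ∈ (T.core v).U s,
      Pop (gb T g T0 v s) (w s) x = F s x + ∑ j, μ j • TRg (g v s x) (ψ j s x))
    {x : E4} (hx : x ≠ 0) (h1 : 29 / 10 ≤ sgn T v u * Real.log ‖x‖) (a b : Fin 4) :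
    ContDiffAt ℝ (2 : ℕ) (cf (unit T v u T0 w) a b) x ∧ Lp2 (cf (unit T v u T0 w) a b) x = 0 := by
  set c := Real.exp (sgn T v u * T0) with hc
  have mU : c • x ∈ (T.core v).U (Sum.inr u) := cK_sub (unit_mem h hb hu hx (by linarith))
  have ta : 29 / 10 ≤ tau T v u T0 (c • x) := by rw [hc, tau_unit hx]; exact h1
  have cd : ∀ a b, ContDiffAt ℝ 2 (fun z => w (Sum.inr u) z a b) (c • x) := fun a b =>
    (sec_cda h hw mU a b).of_le (WithTop.coe_le_coe.2 (le_top : (2 : ℕ∞) ≤ ⊤))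
  refine ⟨cd_ofReal (cd_unit (cd a b)), ?_⟩
  have e1 := he _ _ mU
  rw [hF u _ mU ta, Finset.sum_eq_zero fun j _ => by
    rw [van_le (hψ j) hT mU (by linarith)]; simp [TRg, tr2], add_zero,
    Pop_congr (gb' := fl1) ?_ EventuallyEq.rfl] at e1
  · have e2 := pop_flat cd (mem_of_superset (((h.core_ok v).isOpen _).mem_nhds mU)
      fun z hz => hw.symm _ z hz) a b
    rw [e1, Matrix.zero_apply, eq_comm, neg_eq_zero] at e2
    refine (Lp2_ofReal (cd_unit (cd a b))).trans ?_
    simp only [unit, ← hc, pd_scale (fun z => w (Sum.inr u) z a b), pd_cmul,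
      pd_scale (pderiv _ fun z => w (Sum.inr u) z a b), ← Finset.mul_sum, e2]
    simp
  · filter_upwards [(cda_tau (core_ne mU)).continuousAt.eventually
      (lt_mem_nhds (show 1 / 10 < tau T v u T0 (c • x) by linarith))] with z hz
    simp only [gb, Sum.elim_inr, Cu.stp_one' (by norm_num : (0 : ℝ) < 1 / 10) hz.le, sub_self,
      zero_smul, add_zero]

theorem unit_grw (h : T.Ok) (hb : Big T T0) (hu : u = v ∨ T.kid v u) {w : Fam T} {σ : ℝ}
    (hw : Grw T v σ w) (a b : Fin 4) : ∃ C : ℝ, ∀ x : E4, x ≠ 0 → 1 ≤ sgn T v u * Real.log ‖x‖ →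
      ‖cf (unit T v u T0 w) a b x‖ ≤ C * ‖x‖ ^ (-σ) := by
  obtain ⟨C, hC⟩ := hw
  refine ⟨C * Real.exp (sgn T v u * T0) ^ (-σ), fun x hx h1 => ?_⟩
  have := hC u _ (unit_mem h hb hu hx h1) a b
  rw [norm_smul, Real.norm_eq_abs, Real.abs_exp,
    Real.mul_rpow (Real.exp_pos _).le (norm_nonneg _), ← mul_assoc] at this
  rwa [cf, Complex.norm_real]

theorem pair_zt (h : T.Ok) {ψ : Fam T} (hv : Van T v T1 0 ψ) (hT : T1 ≤ T0) (w : Fam T) :
    pair T g v ψ (fun s x => zt T v T0 s x • w s x) = pair T g v ψ w := by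
  refine Atl.int_congr (h.core_ok v) fun s x hx => ?_
  by_cases h1 : ∀ u, s = Sum.inr u → tau T v u T0 x ≤ 4
  · simp [ip, ipA, matT, zt_one h1]
  · push Not at h1
    obtain ⟨u, rfl, h1⟩ := h1
    simp [ip, ipA, matT, van_le hv hT hx (by linarith)]

end Gr

open Gr in
/-- **GRC** -/
theorem grc {M : Type*} {T : TD M} (hR : REG T) : GRC T := by
  intro h g κ _ ψ v T1 σ hσ hσ2 hg hψ
  refine ⟨max T1 (max 0 (-Real.log (T.r / 4))), fun T0 hT0 P Ψ hP hΨ z hz => ?_⟩
  have hT : T1 ≤ T0 := (le_max_left _ _).trans hT0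
  have hb : Big T T0 := ⟨(le_max_left _ _).trans ((le_max_right _ _).trans hT0),
    (le_max_right _ _).trans ((le_max_right _ _).trans hT0)⟩
  have cv' : ∀ (k : ℕ) (i : CI T v) (y : E4), Continuous fun x : Cel (CI T v) k => x.val i y :=
    fun k i y => (Cel.evL i y).continuous
  have hμ : z.2.2 = cv fun j => (z.2.2 j).re := by
    refine (isClosed_eq (f := fun z : (MC T v 6 × (κ → ℂ)) × (MC T v (6 + 2) × (κ → ℂ)) => z.2.2)
      (g := fun z => cv fun j => (z.2.2 j).re) (by fun_prop)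
      (by unfold cv; fun_prop)).closure_subset_iff.2 ?_ hz
    rintro z' ⟨F, w, θ, μ, -, -, -, -, -, -, -, -, -, e⟩
    simp only [mem_ofPred_eq, e, cv, Complex.ofReal_re]
  refine ⟨map_mem_closure (f := fun z : (MC T v 6 × (κ → ℂ)) × (MC T v (6 + 2) × (κ → ℂ)) => z.2.1)
    (by fun_prop) hz ?_, _, hμ, fun i y hy hi a b => ?_, fun w hw l => ⟨fun j => ?_, ?_, ?_⟩⟩
  · rintro z' ⟨F, w, θ, μ, -, -, hw, -, -, -, -, -, l, -⟩
    exact ⟨_, sec_zt h hb hw, l⟩
  · refine (isClosed_eq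
      (f := fun z : (MC T v 6 × (κ → ℂ)) × (MC T v (6 + 2) × (κ → ℂ)) => (P z.2.1 a b).val i y)
      (g := fun z => (z.1.1 a b).val i y + ∑ j, ((z.2.2 j).re : ℂ) * (Ψ j a b).val i y)
      ((cv' _ i y).comp (by fun_prop)) (((cv' _ i y).comp (by fun_prop)).add
        (by fun_prop))).closure_subset_iff.2 ?_ hz
    rintro z' ⟨F, w, θ, μ, -, -, hw, -, he, -, lF, -, l, e⟩
    have e1 := hP _ _ (sec_zt h hb hw) l i a b y hy
    have e2 : Pop (gb T g T0 v i.1.1) (fun x => zt T v T0 i.1.1 x • w i.1.1 x) (cpt T i y) = _ :=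
      (Pop_congr EventuallyEq.rfl ((zt_ev (cpt_mem i hy) hi).mono fun x hx => by
        simp only [hx, one_smul])).trans (he _ _ (cpt_mem i hy))
    simp only [mem_ofPred_eq, e, cv, Complex.ofReal_re]
    rw [e1, lF i a b y hy, Finset.sum_congr rfl fun j _ => by rw [hΨ j i a b y hy]]
    simp only [e2, Matrix.add_apply, Matrix.sum_apply, Matrix.smul_apply, smul_eq_mul]
    push_cast
    rw [mul_add, Finset.mul_sum]
    exact congrArg _ (Finset.sum_congr rfl fun j _ => by ring)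
  · obtain ⟨C, hC⟩ := (hR h v 8).2 g (ψ j) T1 hg (hψ j).1 (hψ j).2
    refine clos_eq hz (f := fun z => z.1.2 j) (p := fun z => z.2.1) (by fun_prop) (by fun_prop)
      (C := C) ?_
    rintro z' ⟨F, w', θ, μ, -, -, hw', -, -, hp, -, e, l', -⟩
    have s' := secN_of_sec (sec_zt h hb hw') 0
    have k := hC _ _ (secN_sub (secN_zero hw) s') (lf_sub l l')
    have k2 := k.2 _ s'
    rw [sub_add_cancel, pair_zt h (hψ j).2 hT, hp j] at k2
    rw [e, cv, ← Complex.ofReal_sub, Complex.norm_real, k2, add_sub_cancel_right]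
    exact k.1
  · intro a b k
    refine clos_eq hz (f := fun _ => 0) (p := fun z => z.2.1) continuous_const (by fun_prop)
      (C := 165) ?_
    rintro z' ⟨F, w', θ, μ, -, hF, hw', hG, he, -, -, -, l', -⟩
    have s1 : sgn T v v = 1 := if_pos rfl
    have H := fun x (hx : x ∈ An (Ioi (29 / 10))) => unit_harm h hb (Or.inl rfl) hT
      (fun j => (hψ j).2) hF hw' he hx.1 (by rw [s1, one_mul]; exact le_of_lt hx.2) a b
    obtain ⟨C, hC⟩ := unit_grw h hb (Or.inl rfl) hG a b
    have := (amp_near h hb (Or.inl rfl) hw hw' l l' a b k).1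
    rwa [s1, one_mul, pm_zero_of_decay hσ (fun x hx => (H x hx).1.contDiffWithinAt)
      (fun x hx => (H x hx).2) (fun x hx => hC x hx.1 (by
        rw [s1, one_mul]; linarith [mem_Ioi.1 hx.2])) k (by norm_num)] at this
  · intro u hk a b k
    refine clos_eq hz (f := fun _ => 0) (p := fun z => z.2.1) continuous_const (by fun_prop)
      (C := 165) ?_
    rintro z' ⟨F, w', θ, μ, -, hF, hw', hG, he, -, -, -, l', -⟩
    have s1 : sgn T v u = -1 := if_neg (h.kid_ne hk)
    have H := fun x (hx : x ∈ An (Iio (-(29 / 10)))) => unit_harm h hb (Or.inr hk) hT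
      (fun j => (hψ j).2) hF hw' he hx.1 (by rw [s1]; linarith [mem_Iio.1 hx.2]) a b
    obtain ⟨C, hC⟩ := unit_grw h hb (Or.inr hk) hG a b
    have := (amp_near h hb (Or.inr hk) hw hw' l l' a b k).2
    rwa [s1, neg_one_mul, qm_zero_of_growth hσ2 (fun x hx => (H x hx).1.contDiffWithinAt)
      (fun x hx => (H x hx).2) (fun x hx => hC x hx.1 (by
        rw [s1]; linarith [mem_Iio.1 hx.2])) k (by norm_num)] at this

end Crest.Agent.N207.CB

end
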