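import Crest.Agent.N207.CB.St4
import Crest.Agent.N207.CB.Cut
import Crest.Agent.N207.CB.Lf3
import Crest.Agent.N207.Lg.Flat
import Crest.Agent.N207.I.Cal3

/-!
# Row 207, block L (helper45): tools for `GRC`
-/

set_option autoImplicit false

open scoped ContDiff
open Metric Set Filter Topology MeasureTheory
open Crest.GeometryTopology.CoordMetric
open Crest.Agent.NLib.Ell Crest.Agent.N207.I Crest.Agent.N207.Lg Crest.Agent.N207.J

noncomputable section

namespace Crest.Agent.N207.CB.Gr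

theorem Pop_congr {gb gb' w w' : MetricField 4} {y : E4} (hb : gb =ᶠ[𝓝 y] gb')
    (h : w =ᶠ[𝓝 y] w') : Pop gb w y = Pop gb' w' y := by
  ext a b
  simp only [Pop, Matrix.of_apply]
  congr 2
  funext s
  refine congrFun (redT_congr hb ?_).eq_of_nhds _
  filter_upwards [hb, h] with z h1 h2
  rw [h1, h2]

/-- `Pop` for the flat background -/
theorem pop_flat {w : MetricField 4} {y : E4} (hw : ∀ a b, ContDiffAt ℝ 2 (fun z => w z a b) y)
    (sy : ∀ᶠ z in 𝓝 y, (w z).IsSymm) (a b : Fin 4) :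
    Pop fl1 w y a b = -∑ c, pderiv c (pderiv c fun z => w z a b) y := by
  set G : ℝ → MetricField 4 := fun s z => fl1 z + s • w z with hG
  have j1 : ∀ s, jet (G s) = fun z => s • jet w z := fun s => by
    funext z c p q
    simp only [jet, hG, Matrix.add_apply, Matrix.smul_apply, smul_eq_mul, Pi.smul_apply]
    rw [← pd_cmul, pderiv, pderiv, fderiv_const_add]
  have j2 : ∀ s, jet2 (G s) y = s • jet2 w y := fun s => by
    funext c d p q
    simp only [jet2, j1, smul_eq_mul, Pi.smul_apply, pd_cmul]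
  have cG : ∀ i j, ContDiffAt ℝ 1 (fun s => G s y i j) 0 := fun i j => by
    simp only [hG, Matrix.add_apply, Matrix.smul_apply, smul_eq_mul]; fun_prop
  have g0 : G 0 y = 1 := by simp [hG]
  have dp : ∀ᶠ s in 𝓝 (0 : ℝ), 0 < (G s y).det :=
    (cA_det cG).continuousAt.eventually (lt_mem_nhds (by simp [g0]))
  have dH : DifferentiableAt ℝ (fun s => iv (G s) y) 0 := differentiableAt_pi.2 fun i =>
    differentiableAt_pi.2 fun j => (cA_inv cG (by simp [g0]) i j).differentiableAt one_ne_zero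
  have e : (fun s => redT fl1 (G s) y ![a, b]) =ᶠ[𝓝 0] fun s => s * (-(1 / 2) *
      lapJ (iv (G s) y) (jet2 w y) a b + s * qd (iv (G s) y) (jet w y) a b) := by
    filter_upwards [dp] with s hs
    have c2 : C2 (G s) y := ⟨fun p q => by
      simp only [hG, Matrix.add_apply, Matrix.smul_apply, smul_eq_mul]
      exact contDiffAt_const.add (contDiffAt_const.mul (hw p q)), sy.mono fun z hz p q => by
      simp only [hG, Matrix.add_apply, Matrix.smul_apply, Matrix.one_apply, eq_comm (a := p),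
        hz.apply p q], hs⟩
    rw [redT_one c2, j2, j1, lapJ_smul, qd_hom]
    simp only [Pi.smul_apply, smul_eq_mul]; ring
  have d1 : DifferentiableAt ℝ (fun s => -(1 / 2) * lapJ (iv (G s) y) (jet2 w y) a b +
      s * qd (iv (G s) y) (jet w y) a b) 0 := by
    have l1 := differentiableAt_pi.1 (differentiableAt_pi.1
      (dA_lapJ dH (differentiableAt_const (jet2 w y))) a) b
    have l2 := differentiableAt_pi.1 (differentiableAt_pi.1
      (dA_qd dH (differentiableAt_const (jet w y))) a) b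
    exact (l1.const_mul _).add (differentiableAt_id.mul l2)
  have d2 := ((hasDerivAt_id (0 : ℝ)).mul d1.hasDerivAt).deriv
  simp only [Pop, Matrix.of_apply]
  rw [e.deriv_eq, show deriv (fun s => s * (-(1 / 2) * lapJ (iv (G s) y) (jet2 w y) a b +
    s * qd (iv (G s) y) (jet w y) a b)) 0 = _ from d2]
  simp [lapJ, iv, g0, Matrix.one_apply, jet2, jet]

theorem fderiv_ofReal {f : E4 → ℝ} {y : E4} (hf : DifferentiableAt ℝ f y) (v : E4) :
    fderiv ℝ (fun z => (f z : ℂ)) y v = (fderiv ℝ f y v : ℝ) := by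
  rw [show fderiv ℝ (fun z => (f z : ℂ)) y = _ from
    (Complex.ofRealCLM.hasFDerivAt.comp y hf.hasFDerivAt).fderiv]
  rfl

theorem cd_ofReal {f : E4 → ℝ} {y : E4} {m : WithTop ℕ∞} (hf : ContDiffAt ℝ m f y) :
    ContDiffAt ℝ m (fun z => (f z : ℂ)) y := Complex.ofRealCLM.contDiff.contDiffAt.comp y hf

theorem Lp2_ofReal {f : E4 → ℝ} {x : E4} (hf : ContDiffAt ℝ 2 f x) :
    Lp2 (fun z => (f z : ℂ)) x = ((‖x‖ ^ 2 * ∑ i, pderiv i (pderiv i f) x : ℝ) : ℂ) := by
  rw [Lp2]
  push_cast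
  congr 1
  refine Finset.sum_congr rfl fun i _ => ?_
  have e : (fun y => fderiv ℝ (fun z => (f z : ℂ)) y (ee i)) =ᶠ[𝓝 x]
      fun y => ((pderiv i f y : ℝ) : ℂ) := by
    filter_upwards [hf.eventually (by simp)] with y hy
    exact fderiv_ofReal (hy.differentiableAt (by simp)) _
  rw [e.fderiv_eq]
  exact fderiv_ofReal (((hf.fderiv_right (m := 1) le_rfl).clm_apply
    contDiffAt_const).differentiableAt one_ne_zero) _

theorem pd_scale (f : E4 → ℝ) (c : ℝ) (i : Fin 4) :
    pderiv i (fun z => f (c • z)) = fun z => c * pderiv i f (c • z) := by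
  funext z
  rw [pderiv, fderiv_comp_smul]; rfl

section Amp

variable {U V : E4 → ℂ} {t : ℝ}

theorem mdU_sub (hU : ∀ o : S3, ContinuousAt U (Real.exp t • (o : E4)))
    (hV : ∀ o : S3, ContinuousAt V (Real.exp t • (o : E4))) (k : ℕ) :
    mdU (fun x => U x - V x) k t = mdU U k t - mdU V k t := by
  rw [mdU, mdU, mdU, ← map_sub, ← map_sub]
  congr 2
  ext o
  rw [ContinuousMap.sub_apply, rst_apply' hU, rst_apply' hV,
    rst_apply' (U := fun x => U x - V x) fun o => (hU o).sub (hV o)]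

theorem amp_congr (h : ∀ o : S3, U =ᶠ[𝓝 (Real.exp t • (o : E4))] V) (k : ℕ) :
    pm U k t = pm V k t ∧ qm U k t = qm V k t := by
  have e1 : mdU U k t = mdU V k t := by rw [mdU, mdU, rst_congr fun o => (h o).eq_of_nhds]
  have e2 : mdU (Eu U) k t = mdU (Eu V) k t := by
    rw [mdU, mdU, rst_congr (U := Eu U) (U' := Eu V) fun o => by simp only [Du, (h o).fderiv_eq]]
  exact ⟨by rw [pm, pm, e1, e2], by rw [qm, qm, e1, e2]⟩

theorem amp_le (hU : ∀ o : S3, ContDiffAt ℝ (0 + 1 : ℕ) U (Real.exp t • (o : E4)))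
    (hV : ∀ o : S3, ContDiffAt ℝ (0 + 1 : ℕ) V (Real.exp t • (o : E4))) {M : ℝ}
    (h0 : ∀ o : S3, ‖U (Real.exp t • (o : E4)) - V (Real.exp t • (o : E4))‖ ≤ M)
    (h1 : ∀ o : S3, ‖Eu (fun x => U x - V x) (Real.exp t • (o : E4))‖ ≤ 32 * M) (k : ℕ) :
    ‖pm U k t - pm V k t‖ ≤ 165 * M ∧ ‖qm U k t - qm V k t‖ ≤ 165 * M := by
  have e1 := mdU_sub (fun o => (hU o).continuousAt) (fun o => (hV o).continuousAt) k
  have e2 : mdU (Eu fun x => U x - V x) k t = mdU (Eu U) k t - mdU (Eu V) k t := by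
    rw [← mdU_sub (fun o => (contDiffAt_Du _ (hU o)).continuousAt)
      (fun o => (contDiffAt_Du _ (hV o)).continuousAt), mdU, mdU, rst_congr fun o => ?_]
    simp only [Du]
    rw [fderiv_fun_sub ((hU o).differentiableAt (by simp)) ((hV o).differentiableAt (by simp))]
    rfl
  have p1 : pm U k t - pm V k t = pm (fun x => U x - V x) k t := by
    rw [pm, pm, pm, e1, e2]; module
  have p2 : qm U k t - qm V k t = qm (fun x => U x - V x) k t := by
    rw [qm, qm, qm, e1, e2]; module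
  have b1 := norm_mdU_le (U := fun x => U x - V x) h0 k
  have b2 := norm_mdU_le h1 k
  have b3 : ((k : ℝ) + 1)⁻¹ * ‖mdU (Eu fun x => U x - V x) k t‖ ≤
      ‖mdU (Eu fun x => U x - V x) k t‖ := mul_le_of_le_one_left (norm_nonneg _)
    (inv_le_one_of_one_le₀ (by linarith [(Nat.cast_nonneg k : (0 : ℝ) ≤ k)]))
  rw [p1, p2]
  exact ⟨(norm_pm_le k t).trans (by linarith), (norm_qm_le k t).trans (by linarith)⟩

end Amp

variable {M : Type*} {T : TD M} {v u : T.V} {T0 : ℝ}

/-- value and radial derivative at the centre of a cell -/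
theorem cell_bd {k : ℕ} {X : E4} (hX : X ∈ T.cK v (Sum.inr u)) {f : E4 → ℝ}
    {W : Cel (CI T v) (k + 1)} (h : LfS T ⟨(Sum.inr u, X), hX⟩ 0 f W) :
    |f X| ≤ ‖W‖ ∧ |fderiv ℝ f X X| ≤ 32 * ‖W‖ := by
  have h0 : (0 : E4) ∈ B1 := mem_ball_self one_pos
  have hp := Cu.cK_pos hX
  have r : RpA W ⟨(Sum.inr u, X), hX⟩ fun y => (‖X‖ / 8) ^ 0 * f (X + (‖X‖ / 8) • y) := h
  refine ⟨by simpa using r.abs_le h0, ?_⟩
  have d : ∀ a, |X a * pderiv a f X| ≤ 8 * ‖W‖ := fun a => by
    have h1 := ((r.D a).abs_le h0).trans ((Cel.D a).le_of_opNorm_le (Cel.norm_D_le a) W)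
    rw [Ctx.fderiv_aff f X 0 _ (by positivity), smul_zero, add_zero, zero_add, pow_one, abs_mul,
      abs_of_pos (by positivity), one_mul] at h1
    have h2 : |X a| ≤ ‖X‖ := PiLp.norm_apply_le X a
    rw [abs_mul]
    calc _ ≤ ‖X‖ * |pderiv a f X| := by gcongr
      _ = 8 * (‖X‖ / 8 * |fderiv ℝ f X (ei a)|) := by rw [pderiv]; ring
      _ ≤ _ := by gcongr
  rw [R202.Tens.fderiv_eq_sum]
  exact (Finset.abs_sum_le_sum_abs _ _).trans ((Finset.sum_le_sum fun a _ => d a).trans
    (by simp; linarith))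

theorem tau_eq (x : E4) : tau T v u T0 x = sgn T v u * Real.log ‖x‖ - T0 := by
  unfold tau sgn; split_ifs <;> ring

theorem sgn_sq : sgn T v u * sgn T v u = 1 := by unfold sgn; split_ifs <;> ring

theorem tau_unit {x : E4} (hx : x ≠ 0) :
    tau T v u T0 (Real.exp (sgn T v u * T0) • x) = sgn T v u * Real.log ‖x‖ := by
  rw [tau_eq, norm_smul, Real.norm_eq_abs, Real.abs_exp,
    Real.log_mul (Real.exp_pos _).ne' (norm_ne_zero_iff.2 hx), Real.log_exp, mul_add, ← mul_assoc,
    sgn_sq]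
  ring

theorem cda_tau {x : E4} (hx : x ≠ 0) : ContDiffAt ℝ ∞ (tau T v u T0) x := by
  rw [show tau T v u T0 = _ from funext tau_eq]
  exact (contDiffAt_const.mul ((contDiffAt_norm ℝ hx).log (norm_ne_zero_iff.2 hx))).sub
    contDiffAt_const

theorem core_ne {x : E4} (hx : x ∈ (T.core v).U (Sum.inr u)) : x ≠ 0 := by
  by_cases h : u = v
  · subst h; rw [TD.mem_core_out] at hx; exact norm_pos_iff.1 (by linarith)
  · rw [TD.mem_core_inn h] at hx; exact norm_pos_iff.1 hx.2.1

/-- `T0` is large -/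
structure Big (T : TD M) (T0 : ℝ) : Prop where
  h0 : 0 ≤ T0
  h1 : -Real.log (T.r / 4) ≤ T0

theorem unit_mem (h : T.Ok) (b : Big T T0) (hu : u = v ∨ T.kid v u) {x : E4} (hx : x ≠ 0)
    (h1 : 1 ≤ sgn T v u * Real.log ‖x‖) : Real.exp (sgn T v u * T0) • x ∈ T.cK v (Sum.inr u) := by
  have hp := norm_pos_iff.2 hx
  have e : ‖Real.exp (sgn T v u * T0) • x‖ = Real.exp (sgn T v u * T0 + Real.log ‖x‖) := by
    rw [norm_smul, Real.norm_eq_abs, Real.abs_exp, Real.exp_add, Real.exp_log hp]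
  rcases hu with rfl | hk
  · rw [TD.mem_cK_out, e]
    simp only [sgn, if_true, one_mul] at h1 ⊢
    linarith [Real.add_one_le_exp (T0 + Real.log ‖x‖), b.h0]
  · have hne := h.kid_ne hk
    rw [TD.mem_cK_inn hne, e]
    refine ⟨hk, Real.exp_pos _, ?_⟩
    simp only [sgn, if_neg hne] at h1 ⊢
    have hr := h.r_pos
    calc _ ≤ Real.exp (Real.log (T.r / 4)) := Real.exp_le_exp.2 (by linarith [b.h1])
      _ ≤ _ := by rw [Real.exp_log (by positivity)]; linarith

theorem tau_base (h : T.Ok) (b : Big T T0) {x : E4} (hx : x ∈ (T.base v).U (Sum.inr u)) :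
    tau T v u T0 x ≤ 3 := by
  by_cases e : u = v
  · subst e
    rw [TD.mem_base_out] at hx
    simp only [tau, if_true]
    linarith [Real.log_le_sub_one_of_pos (show 0 < ‖x‖ by linarith [hx.1]), b.h0, hx.2]
  · rw [TD.mem_base_inn e] at hx
    simp only [tau, if_neg e]
    have hr := h.r_pos
    linarith [Real.log_le_log (by positivity) hx.2.1.le, b.h1]

theorem zt_one {s : T.S} {x : E4} (hx : ∀ u, s = Sum.inr u → tau T v u T0 x ≤ 4) :
    zt T v T0 s x = 1 := by
  cases s with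
  | inl a => rfl
  | inr u => simp [zt, cutF, Cu.stp_zero' (by norm_num : (4 : ℝ) < 9 / 2) (hx u rfl)]

theorem zt_ev {s : T.S} {x : E4} (hU : x ∈ (T.core v).U s)
    (hx : ∀ u, s = Sum.inr u → tau T v u T0 x < 4) : ∀ᶠ z in 𝓝 x, zt T v T0 s z = 1 := by
  cases s with
  | inl a => exact Eventually.of_forall fun _ => rfl
  | inr u =>
    filter_upwards [(cda_tau (core_ne hU)).continuousAt.eventually (gt_mem_nhds (hx u rfl))]
      with z hz
    exact zt_one fun u' e => by cases e; exact hz.le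

theorem compF_zt (h : T.Ok) (b : Big T T0) : (T.core v).CompF (zt T v T0) := by
  intro s s' x hx y hy e
  rcases (h.str_core v).rel hx hy e with ⟨v', rfl, h1, h2, -⟩ | ⟨rfl, γ, -, rfl⟩
  · have k : ∀ (s : T.S) (x : E4), TD.sc (T := T) (fun _ _ => 1) s v' • x ∈ (T.base v').U s →
        zt T v' T0 s x = 1 := fun s x hx => zt_one fun u e => by
      subst e
      linarith [tau_base h b (x := x) (by simpa [TD.sc] using hx)]
    rw [k s x h1, k s' y h2]
  · cases s with
    | inl a => rfl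
    | inr u => simp [zt, cutF, tau]

theorem sec_zt (h : T.Ok) (b : Big T T0) {w : Fam T} (hw : Sec T v w) :
    Sec T v fun s x => zt T v T0 s x • w s x := by
  refine ⟨hw.sec.smT (compF_zt h b) fun s => ?_, fun s x hx => (hw.symm s x hx).smul _⟩
  cases s with
  | inl a => exact contDiffOn_const
  | inr u =>
    exact fun x hx => (contDiffAt_const.sub ((Cu.stp_sm _ _).contDiffAt.comp x
      (cda_tau (core_ne hx)))).contDiffWithinAt

theorem sec_cda (h : T.Ok) {w : Fam T} (hw : Sec T v w) {s : T.S} {x : E4}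
    (hx : x ∈ (T.core v).U s) (a b : Fin 4) : ContDiffAt ℝ ∞ (fun z => w s z a b) x :=
  (hw.sec.sm s ![a, b]).contDiffAt (((h.core_ok v).isOpen s).mem_nhds hx)

theorem secN_of_sec {w : Fam T} (hw : Sec T v w) (m : ℕ) : SecN T v m w :=
  ⟨fun s a b => (hw.sec.sm s ![a, b]).of_le (by exact_mod_cast le_top), hw.sec.compat, hw.symm⟩

theorem secN_sub {w w' : Fam T} {m : ℕ} (hw : SecN T v m w) (hw' : SecN T v m w') :
    SecN T v m (w - w') :=
  ⟨fun s a b => (hw.sm s a b).sub (hw'.sm s a b), hw.compat.sub hw'.compat,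
    fun s x hx => (hw.symm s x hx).sub (hw'.symm s x hx)⟩

theorem secN_zero {w : Fam T} {m : ℕ} (hw : SecN T v m w) : SecN T v 0 w :=
  ⟨fun s a b => (hw.sm s a b).of_le (by exact_mod_cast Nat.zero_le m), hw.compat, hw.symm⟩

theorem lf_sub {k j : ℕ} {w w' : Fam T} {W W' : MC T v k} (h : Lf T j w W) (h' : Lf T j w' W') :
    Lf T j (w - w') (W - W') := fun i a b y hy => by
  have h1 := h i a b y hy
  have h2 := h' i a b y hy
  simp only [Pi.sub_apply, Cel.val_sub, Matrix.sub_apply, h1, h2]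
  push_cast; ring

end Crest.Agent.N207.CB.Gr

end
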