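import Crest.Agent.N207.CB.Pb4
import Crest.Agent.N207.Lg.Nat

/-!
# Row 207, leaf `CB.PB` (helper58)
-/

set_option autoImplicit false

open Crest.Agent.N207.I

namespace Crest.Agent.N207.CB

theorem Pb.nat : Pb.NAT := fun _ _ _ _ _ _ _ y p q hy =>
  ⟨Lg.rel_redT p q y hy, (Lg.fgfF_pull p q hy).trans (mul_comm _ _)⟩

theorem pb {M : Type*} (T : TD M) : PB T := Pb.pb_of Pb.nat T

end Crest.Agent.N207.CB
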