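import Crest.Agent.N207.CB.Co5
import Crest.Agent.N207.CB.Grc
import Crest.Agent.N207.CB.Reg
import Crest.Agent.N207.CB.Ana
import Crest.Agent.N207.CB.Anx2
import Crest.Agent.N207.CB.Trn2
import Crest.Agent.N207.CB.Glu3
import Crest.Agent.N207.CB.Pb
import Crest.Agent.N207.CB.Dsh
import Crest.Agent.N207.CB.Boot

/-!
# Row 207, block L (helper92): all core leaves discharged
-/

set_option autoImplicit false

open Crest.Agent.N207.I

namespace Crest.Agent.N207.CB

theorem lstmt_of {M : Type*} {T : TD M} (hG : GLB T) (hN : XNS) (hH : XHS) : LStmt T :=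
  hG (core (grc reg)) hN hH (anx T ana reg) (trn T) reg (glu T) (pb T) dsh

end Crest.Agent.N207.CB
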