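import Crest.Agent.N207.CB.Defs

/-!
# Row 207, block L, core side (helper92): the leaves `LIFT`, `IDL`, `EXT`, `REG`, `PB`
-/

set_option autoImplicit false

open scoped ContDiff
open Metric Set Filter Topology MeasureTheory
open Crest.GeometryTopology.CoordMetric
open Crest.Agent.NLib.Ell Crest.Agent.N207.I Crest.Agent.N207.Lg

noncomputable section

namespace Crest.Agent.N207.CB

/-- real `4 × 4` matrices -/
abbrev Mt : Type := Matrix (Fin 4) (Fin 4) ℝ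

/-- the reduced Ricci tensor as a matrix field -/
def redM (gb G : MetricField 4) : MetricField 4 := fun y => Matrix.of fun a b => redT gb G y ![a, b]

/-- the Euler-Lagrange equation reads `redM gb G = -∑ μ_j PsT gb G ψ_j` -/
def PsT (gb G ψ : MetricField 4) : MetricField 4 := fun y =>
  TRg (G y) ((sq gb y / sq G y) • (G y * (gb y)⁻¹ * ψ y * (gb y)⁻¹ * G y))

/-- pull-back of a matrix field -/
def pullM (Φ : E4 → E4) (G : MetricField 4) : MetricField 4 := fun y =>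
  Matrix.of fun a b => pullT Φ (matT G) y ![a, b]

variable {M : Type*} (T : TD M)

/-- matrices of cell families -/
abbrev MC (v : T.V) (k : ℕ) : Type := Fin 4 → Fin 4 → Cel (CI T v) k

/-- the point of the cell `i` with coordinate `y` -/
def cpt {v : T.V} (i : CI T v) (y : E4) : E4 := i.1.2 + rad T i.1.1 i.1.2 • y

/-- `W` is `r^j f` on the cell `i` -/
def LfS {v : T.V} {k : ℕ} (i : CI T v) (j : ℕ) (f : E4 → ℝ) (W : Cel (CI T v) k) : Prop :=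
  ∀ y ∈ B1, W.val i y = ((rad T i.1.1 i.1.2 ^ j * f (cpt T i y) : ℝ) : ℂ)

/-- `W` is `r^j w` on the cell `i` -/
def LfAt {v : T.V} {k : ℕ} (i : CI T v) (j : ℕ) (w : MetricField 4) (W : MC T v k) : Prop :=
  ∀ a b, LfS T i j (fun x => w x a b) (W a b)

/-- `W` is `r^j w` on all cells -/
def Lf {v : T.V} {k : ℕ} (j : ℕ) (w : Fam T) (W : MC T v k) : Prop := ∀ i, LfAt T i j (w i.1.1) W

/-- the holomorphic lifts; `p.1` = background - `g`, `p.2` = metric - background -/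
structure Lift (g : T.V → Fam T) (v : T.V) (k : ℕ) where
  ε : ℝ
  C : ℝ
  ε_pos : 0 < ε
  R : MC T v (k + 2) × MC T v (k + 2) → MC T v k
  Lg : MC T v (k + 2) × MC T v (k + 2) → Cel (CI T v) k
  Ps : MC T v (k + 2) × MC T v (k + 2) → MC T v k →L[ℂ] MC T v k
  hR : DifferentiableOn ℂ R (ball 0 ε)
  hL : DifferentiableOn ℂ Lg (ball 0 ε)
  hP : DifferentiableOn ℂ Ps (ball 0 ε)
  bd : ∀ p ∈ ball (0 : MC T v (k + 2) × MC T v (k + 2)) ε, ‖R p‖ ≤ C ∧ ‖Lg p‖ ≤ C ∧ ‖Ps p‖ ≤ C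
  real : ∀ p ∈ ball (0 : MC T v (k + 2) × MC T v (k + 2)) ε, ∀ (i : CI T v) (β η : MetricField 4),
    LfAt T i 0 β p.1 → LfAt T i 0 η p.2 →
    (∀ y ∈ B1, (β (cpt T i y)).IsSymm ∧ (η (cpt T i y)).IsSymm) →
    (∀ y ∈ B1, ((g v i.1.1 + β) (cpt T i y)).PosDef ∧ ((g v i.1.1 + β + η) (cpt T i y)).PosDef) ∧
    LfAt T i 2 (redM (g v i.1.1 + β) (g v i.1.1 + β + η)) (R p) ∧
    LfS T i 2 (fgfF (g v i.1.1 + β) (g v i.1.1 + β + η)) (Lg p) ∧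
    ∀ (ψ : MetricField 4) (Ψ : MC T v k), LfAt T i 2 ψ Ψ →
      LfAt T i 2 (PsT (g v i.1.1 + β) (g v i.1.1 + β + η) ψ) (Ps p Ψ)

/-- **leaf LIFT (helper17)** -/
def LIFT : Prop :=
  ∀ (g : T.V → Fam T) (γ : ℝ), 0 < γ → T.Ok → T.Lim g γ → ∀ v k, Nonempty (Lift T g v k)

/-- **leaf IDL (helper78)**: a holomorphic map sending the real points into a closed complex
subspace sends every point into it -/
def IDL : Prop :=
  ∀ (Z E : Type) [NormedAddCommGroup Z] [NormedSpace ℂ Z] [NormedAddCommGroup E] [NormedSpace ℂ E]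
    [CompleteSpace E] (ZR : Set Z) (c : ℝ), (∀ a ∈ ZR, ∀ b ∈ ZR, ∀ t : ℝ, a + (t : ℂ) • b ∈ ZR) →
    (∀ z : Z, ∃ a ∈ ZR, ∃ b ∈ ZR, z = a + Complex.I • b ∧ ‖a‖ ≤ c * ‖z‖ ∧ ‖b‖ ≤ c * ‖z‖) →
    ∀ (f : Z → E) (r : ℝ) (Y : Submodule ℂ E), IsClosed (Y : Set E) →
      DifferentiableOn ℂ f (ball 0 r) → (∀ z ∈ ball (0 : Z) r, z ∈ ZR → f z ∈ Y) →
      ∀ z ∈ ball (0 : Z) r, f z ∈ Y

/-- vanishing on `c ≤ tau` -/
def Van (v : T.V) (T0 c : ℝ) (F : Fam T) : Prop :=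
  ∀ u, ∀ x ∈ (T.core v).U (Sum.inr u), c ≤ tau T v u T0 x → F (Sum.inr u) x = 0

/-- limits of lifts of smooth sections -/
def XR (v : T.V) (k j : ℕ) : Set (MC T v k) := closure {W | ∃ w, Sec T v w ∧ Lf T j w W}

/-- limits of lifts of smooth sections vanishing on `29/10 ≤ tau` -/
def YR (v : T.V) (k : ℕ) (T0 : ℝ) : Set (MC T v k) :=
  closure {W | ∃ w, Sec T v w ∧ Van T v T0 (29 / 10) w ∧ Lf T 2 w W}

/-- complexifications -/
def XC (v : T.V) (k j : ℕ) : Submodule ℂ (MC T v k) := Submodule.span ℂ (XR T v k j)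

def YC (v : T.V) (k : ℕ) (T0 : ℝ) : Submodule ℂ (MC T v k) := Submodule.span ℂ (YR T v k T0)

/-- the cut-off `c (tau)` on the ends, `c0` on the balls -/
def cutF (v : T.V) (T0 : ℝ) (c0 : ℝ) (c : ℝ → ℝ) : T.S → E4 → ℝ :=
  Sum.elim (fun _ _ => c0) fun u x => c (tau T v u T0 x)

/-- the storage cut-off: `1` on `tau ≤ 4`, `0` on `9/2 ≤ tau` -/
def zt (v : T.V) (T0 : ℝ) : T.S → E4 → ℝ := cutF T v T0 1 fun τ => 1 - stp 4 (9 / 2) τ

/-- **leaf CUT (helper78, first)**: lifts of the collar cut-offs, uniform in `T0` -/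
def CUT : Prop :=
  T.Ok → ∀ (a b : ℝ) (k : ℕ), a < b → ∃ C : ℝ, ∀ (v u : T.V) (T0 : ℝ), ∃ W : Cel (CI T v) k,
    ‖W‖ ≤ C ∧ ∀ i : CI T v,
      LfS T i 0 (fun x => if i.1.1 = Sum.inr u then stp a b (tau T v u T0 x) else 0) W

/-- real vectors -/
def cv {κ : Type} (θ : κ → ℝ) : κ → ℂ := fun j => θ j

/-- the smooth real graph of the linear problem -/
def GR (g : T.V → Fam T) {κ : Type} [Fintype κ] (ψ : κ → Fam T) (v : T.V) (T0 σ : ℝ) (k : ℕ) :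
    Set ((MC T v k × (κ → ℂ)) × (MC T v (k + 2) × (κ → ℂ))) :=
  {z | ∃ (F w : Fam T) (θ μ : κ → ℝ), Sec T v F ∧ Van T v T0 (29 / 10) F ∧ Sec T v w ∧
    Grw T v σ w ∧ (∀ s, ∀ x ∈ (T.core v).U s,
      Pop (gb T g T0 v s) (w s) x = F s x + ∑ j, μ j • TRg (g v s x) (ψ j s x)) ∧
    (∀ j, pair T g v (ψ j) w = θ j) ∧ Lf T 2 F z.1.1 ∧ z.1.2 = cv θ ∧
    Lf T 0 (fun s x => zt T v T0 s x • w s x) z.2.1 ∧ z.2.2 = cv μ}

/-- **leaf EXT (helper78)** -/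
def EXT : Prop :=
  T.Ok → ∀ k : ℕ, ∃ C T1 : ℝ, 0 < C ∧ ∀ (v : T.V), (∀ k j, IsClosed (XC T v k j : Set (MC T v k))) ∧
    (∀ k j, ∀ W ∈ XC T v k j, ∃ a ∈ XR T v k j, ∃ b ∈ XR T v k j,
      W = a + Complex.I • b ∧ ‖a‖ ≤ ‖W‖ ∧ ‖b‖ ≤ ‖W‖) ∧ ∀ T0, T1 ≤ T0 →
    IsClosed (YC T v k T0 : Set (MC T v k)) ∧
    ∀ (g : T.V → Fam T) (κ : Type) [Fintype κ] (ψ : κ → Fam T) (σ K : ℝ) (En : Fam T → Prop),
      0 ≤ K → KAt T g ψ v T0 σ k K En →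
      ∃ 𝒢 : (YC T v k T0 × (κ → ℂ)) →L[ℂ] (XC T v (k + 2) 0 × (κ → ℂ)), ‖𝒢‖ ≤ C * K ∧
        ∀ (F : YC T v k T0) (θ : κ → ℝ), F.1 ∈ YR T v k T0 →
          ((F.1, cv θ), ((𝒢 (F, cv θ)).1.1, (𝒢 (F, cv θ)).2)) ∈ closure (GR T g ψ v T0 σ k)

/-- `C^m` symmetric compatible sections -/
structure SecN (v : T.V) (m : ℕ) (w : Fam T) : Prop where
  sm : ∀ s a b, ContDiffOn ℝ m (fun x => w s x a b) ((T.core v).U s)
  compat : (T.core v).Compat fun s => matT (w s)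
  symm : ∀ s, ∀ x ∈ (T.core v).U s, (w s x).IsSymm

/-- **leaf REG (helper78)**: elements of `XR` are sections; the pairing is continuous -/
def REG : Prop :=
  T.Ok → ∀ (v : T.V) (k : ℕ), (∀ W ∈ XR T v k 0, ∃ w, SecN T v k w ∧ Lf T 0 w W) ∧
    ∀ (g : T.V → Fam T) (ψ : Fam T) (T1 : ℝ), (T.core v).IsMet (g v) → Sec T v ψ →
      Van T v T1 0 ψ → ∃ C : ℝ, ∀ (w : Fam T) (W : MC T v k), SecN T v 0 w → Lf T 0 w W →
        |pair T g v ψ w| ≤ C * ‖W‖ ∧ ∀ w', SecN T v 0 w' →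
          pair T g v ψ (w + w') = pair T g v ψ w + pair T g v ψ w'

/-! ### the `A`-coordinates -/

/-- `y ↦ y + η(y) a y` -/
def PsiA (η : E4 → ℝ) (a : Mt) (y : E4) : E4 := y + η y • Matrix.toEuclideanLin a y

/-- the transition on the end `u` of `core v` -/
def etC (v u : T.V) (T0 : ℝ) (y : E4) : ℝ := stp (1 / 5) (4 / 5) (tau T v u T0 y)

/-- the transition on the neck `w` of `glob L` -/
def etG (T0 : ℝ) (L : T.V → ℝ) (w : T.V) (y : E4) : ℝ :=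
  etC T w w T0 y * etC T (T.par w) w T0 (Real.exp (-L w) • y)

/-- admissible matrices: symmetric, commuting with `Γ w`, zero at the root -/
structure Adm (w : T.V) (a : Mt) : Prop where
  symm : a.IsSymm
  comm : ∀ γ ∈ T.Γ w, ∀ y : E4, Matrix.toEuclideanLin a (γ y) = γ (Matrix.toEuclideanLin a y)
  root : w = T.root → a = 0

/-- the background in the `A`-coordinates on `core v` -/
def gbA (g : T.V → Fam T) (T0 : ℝ) (a : T.V → Mt) (v : T.V) : Fam T :=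
  Sum.elim (fun b => g v (Sum.inl b)) fun u x =>
    gb T g T0 v (Sum.inr u) x + (pullM (PsiA (etC T v u T0) (a u)) (fun _ => 1) x - 1)

/-- the background in the `A`-coordinates on `glob L` -/
def gbLA (g : T.V → Fam T) (T0 : ℝ) (L : T.V → ℝ) (a : T.V → Mt) : Fam T :=
  Sum.elim (fun b => g (T.vx b) (Sum.inl b)) fun w x =>
    gbL T g T0 L (Sum.inr w) x + (pullM (PsiA (etG T T0 L w) (a w)) (fun _ => 1) x - 1)

/-- `LS` for the background `H` (`LS` is the case `H = gbL`) -/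
structure LSb (g : T.V → Fam T) (T0 : ℝ) (κ : T.V → Type) [∀ v, Fintype (κ v)]
    (ψ : ∀ v, κ v → Fam T) (δ : ℝ) (L : T.V → ℝ) (θ μ : (Σ v, κ v) → ℝ) (H G : Fam T) : Prop where
  met : (T.glob L).IsMet fun s x => T.eps L (T.un s) ^ 2 • G s x
  el : ∀ s, ∀ x ∈ (T.glob L).U s, ∀ k : M2 (Fin 4) ℝ, (∀ a b, k a b = k b a) →
    tr2 (vG (sq (G s) x) (iv (G s) x) k) (a2 (redT (H s) (G s) x)) =
      ∑ j : Σ v, κ v, μ j * ((T.eps L (T.un s) / T.eps L j.1) ^ 2 * (sq (H s) x *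
        tr2 (up (iv (H s) x) fun a b => toL T L j.1 (ψ j.1 j.2) s x a b) k))
  con : ∀ j : Σ v, κ v, pair T g j.1 (ψ j.1 j.2) (loc T L j.1 (G - H)) = θ j
  small : ∀ s, ∀ x ∈ T.gK L s, ∀ y ∈ ball x (rad T s x), ∀ k ≤ 2, ∀ a b,
    scl T s x ^ k * ‖iteratedFDeriv ℝ k (fun y => (G s y - gbL T g T0 L s y) a b) y‖ ≤ δ
  mu : ‖μ‖ ≤ δ
  dec : ∀ x : E4, Real.exp (T0 + 4) ≤ ‖x‖ → ∀ k ≤ 2, ∀ a b,
    ‖x‖ ^ k * ‖iteratedFDeriv ℝ k (TD.dv (G (Sum.inr T.root)) a b) x‖ ≤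
      δ * (Real.exp (T0 + 4) / ‖x‖) ^ (3 / 2 : ℝ)
  int : ∀ s, IntegrableOn
    (fun x => T.χ s ((T.glob L).c s x) * fgfF (H s) (G s) x) ((T.glob L).U s)

/-- **leaf PB (helper58)**: back from the `A`-coordinates -/
def PB : Prop :=
  ∀ (g : T.V → Fam T) (γ : ℝ), 0 < γ → T.Ok → T.Lim g γ →
    ∀ (κ : T.V → Type) [∀ v, Fintype (κ v)] (ψ : ∀ v, κ v → Fam T) (T1 : ℝ), Psi T κ ψ T1 →
    ∀ δ : ℝ, 0 < δ → ∃ δ' T2 : ℝ, 0 < δ' ∧ ∀ T0, T2 ≤ T0 → ∀ L : T.V → ℝ,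
      (∀ w, 2 * T0 + 10 ≤ L w) → ∀ a : T.V → Mt, (∀ w, Adm T w (a w)) →
      (∀ w p q, |a w p q| ≤ δ') → ∀ (θ μ : (Σ v, κ v) → ℝ) (G : Fam T),
        LSb T g T0 κ ψ δ' L θ μ (gbLA T g T0 L a) G →
        ∃ G' : Fam T, LS T g T0 κ ψ δ L θ μ G' ∧
          actL T L (gbL T g T0 L) G' = actL T L (gbLA T g T0 L a) G

end Crest.Agent.N207.CB

end
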