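import Crest.Agent.N207.CB.Lf1
import Crest.Agent.N207.CB.St

/-!
# Row 207, LIFT (helper17): the geometric operators lift
-/

set_option autoImplicit false

open scoped ContDiff
open Metric Set Filter Topology
open Crest.GeometryTopology.CoordMetric Crest.GeometryTopology.ChartCurvature
open Crest.Agent.NLib.Ell Crest.Agent.N207.Lg

noncomputable section

namespace Crest.Agent.N207.CB.Ctx

variable {I : Type} {X : Type*} [NormedAddCommGroup X] [NormedSpace ℂ X] {P : Type*}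
  {C : Ctx X P I} {k j : ℕ}

/-- all entries lift -/
def WM (C : Ctx X P I) (k j : ℕ) (G : P → MetricField 4) : Prop :=
  ∀ a b, C.W k j fun p x => G p x a b

variable {G H gb : P → MetricField 4}

theorem WM.inc (h : C.WM (k + 1) j G) : C.WM k j G := fun a b => (h a b).inc

theorem WM.add (h : C.WM k j G) (h' : C.WM k j H) : C.WM k j fun p => G p + H p :=
  fun a b => (h a b).add (h' a b)

theorem WM.const (A : Mt) : C.WM k 0 fun _ _ => A := fun a b => W.const (A a b)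

theorem WM.mul (h : C.WM k 0 G) (h' : C.WM k 0 H) : C.WM k 0 fun p x => G p x * H p x :=
  fun a b => (W.sumU fun l => (h a l).mul0 (h' l b)).congr fun _ _ => Matrix.mul_apply

theorem WM.det (h : C.WM k 0 G) : C.W k 0 fun p x => (G p x).det :=
  (W.sumU fun σ : Equiv.Perm (Fin 4) => (W.prod Finset.univ fun i _ => h (σ i) i).cmul
    ((Equiv.Perm.sign σ : ℤ) : ℝ)).congr fun _ _ => Matrix.det_apply' _

theorem WM.adj (h : C.WM k 0 G) : C.WM k 0 fun p x => (G p x).adjugate := fun a b => by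
  refine (WM.det (G := fun p x => (G p x).updateRow b (Pi.single a 1)) fun c d => ?_).congr
    fun _ _ => Matrix.adjugate_apply _ _ _
  by_cases hc : c = b
  · subst hc
    simpa only [Matrix.updateRow_self] using W.const _
  · simpa only [Matrix.updateRow_ne hc] using h c d

/-- nondegeneracy at the base point -/
def ND (C : Ctx X P I) (G : P → MetricField 4) : Prop := C.Lo fun p x => (G p x).det

theorem WM.inv (h : C.WM k 0 G) (hn : C.ND G) : C.WM k 0 fun p x => (G p x)⁻¹ := fun a b =>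
  ((h.det.inv hn).mul0 (h.adj a b)).congr fun p x => by
    show (G p x)⁻¹ a b = (G p x).det⁻¹ * (G p x).adjugate a b
    rw [Matrix.inv_def, Ring.inverse_eq_inv', Matrix.smul_apply, smul_eq_mul]

theorem WM.sq (h : C.WM k 0 G) (hn : C.ND G) : C.W k 0 fun p x => sq (G p) x := h.det.sqrt hn

theorem WM.sq_inv (h : C.WM k 0 G) (hn : C.ND G) : C.W k 0 fun p x => (Lg.sq (G p) x)⁻¹ :=
  (h.sq hn).inv (Lo.sqrt hn)

theorem W.pd {φ : P → EE 4 → ℝ} (h : C.W (k + 1) j φ) (a : Fin 4) :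
    C.W k (j + 1) fun p x => pderiv a (φ p) x := h.D a

theorem WM.chr (h : C.WM (k + 1) 0 G) (hn : C.ND G) (a b c : Fin 4) :
    C.W k 1 fun p x => christoffel (G p) x a b c :=
  (W.sumU fun l => (h.inc.inv hn a l).mul0
    ((((h c l).pd b).add ((h b l).pd c)).sub ((h b c).pd l))).cmul (1 / 2)

theorem WM.ric (h : C.WM (k + 2) 0 G) (hn : C.ND G) (a b : Fin 4) :
    C.W k 2 fun p x => ricci (G p) x a b :=
  (((W.sumU fun c => (h.chr hn c a b).pd c).sub ((W.sumU fun c => h.chr hn c c a).pd b)).add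
    (W.sumU fun c => W.sumU fun l => (h.chr hn c c l).inc.mul (h.chr hn l a b).inc rfl)).sub
    (W.sumU fun c => W.sumU fun l => (h.chr hn c b l).inc.mul (h.chr hn l c a).inc rfl)

theorem W.cov {m : ℕ} {T : P → Tn 4 m} (h : C.WM (k + 1) 0 gb) (hn : C.ND gb)
    (hT : ∀ J, C.W (k + 1) j fun p x => T p x J) (J : Fin (m + 1) → Fin 4) :
    C.W k (j + 1) fun p x => cov (gb p) (T p) x J :=
  ((hT _).pd (J 0)).sub (W.sumU fun _ => W.sumU fun _ =>
    (h.chr hn _ _ _).mul (hT _).inc (add_comm 1 j))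

theorem WM.TG (h : C.WM (k + 1) 0 gb) (hn : C.ND gb) (hG : C.WM (k + 1) j G) (c a b : Fin 4) :
    C.W k (j + 1) fun p x => TG (gb p) (G p) x c a b :=
  W.cov (T := fun p => matT (G p)) h hn (fun J => hG (J 0) (J 1)) ![c, a, b]

section Jet

variable {s : P → EE 4 → ℝ} {A B : P → EE 4 → M2 (Fin 4) ℝ} {T T' : P → EE 4 → M3 (Fin 4) ℝ}
  {u v : P → EE 4 → Fin 4 → ℝ}

theorem w_tr2 (hA : ∀ a b, C.W k 0 fun p x => A p x a b) (hB : ∀ a b, C.W k j fun p x => B p x a b) :
    C.W k j fun p x => tr2 (A p x) (B p x) :=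
  W.sumU fun a => W.sumU fun b => (hA a b).mul0 (hB a b)

theorem w_gv (hA : ∀ a b, C.W k 0 fun p x => A p x a b)
    (hT : ∀ c a b, C.W k j fun p x => T p x c a b) (b : Fin 4) :
    C.W k j fun p x => gv (A p x) (T p x) b :=
  (W.sumU fun c => W.sumU fun a => (hA c a).mul0 (hT c a b)).sub
    ((w_tr2 (B := fun p x => T p x b) hA (hT b)).cmul (1 / 2))

theorem w_chr (hA : ∀ a b, C.W k 0 fun p x => A p x a b)
    (hT : ∀ c a b, C.W k j fun p x => T p x c a b) (c a b : Fin 4) :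
    C.W k j fun p x => Lg.chr (A p x) (T p x) c a b :=
  W.sumU fun l => (hA c l).mul0 ((((hT a b l).add (hT b a l)).sub (hT l a b)).cmul (1 / 2))

theorem w_cc (hT : ∀ c a b, C.W k 1 fun p x => T p x c a b)
    (hT' : ∀ c a b, C.W k 1 fun p x => T' p x c a b) (a b : Fin 4) :
    C.W k 2 fun p x => cc (T p x) (T' p x) a b :=
  (W.sumU fun c => W.sumU fun l => (hT c b l).mul (hT' l c a) rfl).sub
    (W.sumU fun c => W.sumU fun l => (hT c c l).mul (hT' l a b) rfl)

theorem w_ip1 (hA : ∀ a b, C.W k 0 fun p x => A p x a b) (hu : ∀ a, C.W k 1 fun p x => u p x a)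
    (hv : ∀ a, C.W k 1 fun p x => v p x a) : C.W k 2 fun p x => ip1 (A p x) (u p x) (v p x) :=
  W.sumU fun a => W.sumU fun b => (hA a b).mul0 ((hu a).mul (hv b) rfl)

theorem w_fgf (hs : C.W k 0 s) (hA : ∀ a b, C.W k 0 fun p x => A p x a b)
    (hT : ∀ c a b, C.W k 1 fun p x => T p x c a b) (hB : ∀ a b, C.W k 2 fun p x => B p x a b) :
    C.W k 2 fun p x => fgf (s p x) (A p x) (T p x) (B p x) :=
  (hs.mul0 ((w_tr2 hA hB).add
    (w_tr2 (B := fun p x => cc (Lg.chr (A p x) (T p x)) (Lg.chr (A p x) (T p x))) hA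
      (w_cc (w_chr hA hT) (w_chr hA hT))))).sub
    ((hs.cmul (1 / 2)).mul0 (w_ip1 hA (w_gv hA hT) (w_gv hA hT)))

end Jet

theorem WM.gau (h : C.WM (k + 1) 0 gb) (hn : C.ND gb) (hG : C.WM (k + 1) 0 G) (hn' : C.ND G)
    (J : Fin 1 → Fin 4) : C.W k 1 fun p x => gauT (gb p) (G p) x J :=
  w_gv (A := fun p x => iv (G p) x) (hG.inc.inv hn') (h.TG hn hG) (J 0)

theorem WM.red (h : C.WM (k + 2) 0 gb) (hn : C.ND gb) (hG : C.WM (k + 2) 0 G) (hn' : C.ND G) :
    C.WM k 2 fun p => redM (gb p) (G p) := fun a b =>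
  ((hG.ric hn' a b).sub (((W.cov h.inc hn (h.gau hn hG hn') ![a, b]).add
    (W.cov h.inc hn (h.gau hn hG hn') ![b, a])).cmul (1 / 2))).add
    (((h.gau hn hG hn' ![a]).inc.mul (h.gau hn hG hn' ![b]).inc rfl).cmul (1 / 2))

theorem WM.fgf (h : C.WM (k + 2) 0 gb) (hn : C.ND gb) (hG : C.WM (k + 2) 0 G) (hn' : C.ND G) :
    C.W k 2 fun p x => fgfF (gb p) (G p) x :=
  w_fgf (A := fun p x => iv (G p) x) (B := fun p x => ricci (gb p) x) (hG.inc.inc.sq hn')
    (hG.inc.inc.inv hn') (h.inc.TG hn hG.inc) (h.ric hn)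

theorem WM.smul {s : P → EE 4 → ℝ} (hs : C.W k 0 s) (h : C.WM k 0 G) :
    C.WM k 0 fun p x => s p x • G p x := fun a b => hs.mul0 (h a b)

theorem WM.trg (h : C.WM k 0 G) (hn : C.ND G) (h' : C.WM k 0 H) :
    C.WM k 0 fun p x => TRg (G p x) (H p x) := fun a b =>
  (h' a b).sub (((w_tr2 (A := fun p x a b => (G p x)⁻¹ a b) (B := fun p x a b => H p x a b)
    (h.inv hn) h').cmul (1 / 2)).mul0 (h a b))

theorem WM.pst (h : C.WM k 0 gb) (hn : C.ND gb) (hG : C.WM k 0 G) (hn' : C.ND G) (A : Mt) :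
    C.WM k 0 fun p => PsT (gb p) (G p) fun _ => A :=
  hG.trg hn' (WM.smul (((h.sq hn).mul0 (hG.sq_inv hn')).congr fun _ _ => div_eq_mul_inv _ _)
    ((((hG.mul (h.inv hn)).mul (WM.const A)).mul (h.inv hn)).mul hG))

end Crest.Agent.N207.CB.Ctx

namespace Crest.Agent.N207.CB

theorem TRg_add (G A B : Mt) : TRg G (A + B) = TRg G A + TRg G B := by
  ext a b
  simp only [TRg, tr2, Matrix.add_apply, Matrix.sub_apply, Matrix.smul_apply, smul_eq_mul, mul_add,
    Finset.sum_add_distrib]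
  ring

theorem TRg_smul (G A : Mt) (c : ℝ) : TRg G (c • A) = c • TRg G A := by
  ext a b
  have : ∑ p, ∑ q, G⁻¹ p q * (c * A p q) = c * ∑ p, ∑ q, G⁻¹ p q * A p q := by
    simp only [Finset.mul_sum]
    exact Finset.sum_congr rfl fun p _ => Finset.sum_congr rfl fun q _ => by ring
  simp only [TRg, tr2, Matrix.sub_apply, Matrix.smul_apply, smul_eq_mul, this]
  ring

/-- `PsT` at a point, as a linear map -/
def psL (gb G : MetricField 4) (y : E4) : Mt →ₗ[ℝ] Mt where
  toFun A := PsT gb G (fun _ => A) y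
  map_add' A B := by
    simp only [PsT, Matrix.mul_add, Matrix.add_mul, smul_add, TRg_add]
  map_smul' c A := by
    simp only [PsT, Matrix.mul_smul, Matrix.smul_mul, RingHom.id_apply]
    rw [smul_comm, TRg_smul]

theorem PsT_eq (gb G ψ : MetricField 4) (y : E4) (a b : Fin 4) : PsT gb G ψ y a b =
    ∑ c, ∑ d, PsT gb G (fun _ => Matrix.single c d 1) y a b * ψ y c d := by
  have e : ψ y = ∑ c, ∑ d, ψ y c d • Matrix.single c d (1 : ℝ) := by
    conv_lhs => rw [Matrix.matrix_eq_sum_single (ψ y)]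
    simp
  show psL gb G y (ψ y) a b = ∑ c, ∑ d, psL gb G y (Matrix.single c d 1) a b * ψ y c d
  conv_lhs => rw [e]
  simp only [map_sum, map_smul, Matrix.sum_apply, Matrix.smul_apply, smul_eq_mul, mul_comm]

end Crest.Agent.N207.CB

end
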