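import Crest.Agent.N207.CB.St2
import Crest.Agent.N207.Lg.Flat
import Crest.Agent.N207.Lg.Hom
import Crest.Agent.N207.L.Br1

/-!
# Row 207, block L (helper87): the nonlinearity `NQ` of the reduced equation and of the action
-/

set_option autoImplicit false

open scoped ContDiff ComplexConjugate
open Set Filter Topology
open Crest.GeometryTopology.CoordMetric
open Crest.Agent.N207.Lg Crest.Agent.N207.J Crest.Agent.N207.L

noncomputable section

namespace Crest.Agent.N207.CB

section Map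

variable {ι 𝕜 𝕜' : Type*} [Fintype ι] [Field 𝕜] [Field 𝕜'] (φ : 𝕜 →+* 𝕜')

theorem map_half : φ (1 / 2) = 1 / 2 := by rw [map_div₀, map_one, map_ofNat]

theorem map_lapJ (H : M2 ι 𝕜) (Q : M4 ι 𝕜) (i j : ι) :
    lapJ (fun a b => φ (H a b)) (fun c d a b => φ (Q c d a b)) i j = φ (lapJ H Q i j) := by
  simp only [lapJ, map_sum, map_mul]

theorem map_qd (H : M2 ι 𝕜) (T : M3 ι 𝕜) (i j : ι) :
    qd (fun a b => φ (H a b)) (fun c a b => φ (T c a b)) i j = φ (qd H T i j) := by
  simp only [qd, redJ, ricJ, ricC, dchr, dgv, Pi.zero_apply, chr_zero, gv_zero]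
  simp only [chr, low, up, cc, gv, uT, vT, tr2, map_sum, map_mul, map_sub, map_add, map_half,
    map_zero]

theorem map_fgf (s : 𝕜) (H : M2 ι 𝕜) (T : M3 ι 𝕜) :
    fgf (φ s) (fun a b => φ (H a b)) (fun c a b => φ (T c a b)) 0 = φ (fgf s H T 0) := by
  simp only [fgf, lag, gau, ell, tr2_zero]
  simp only [ip1, chr, low, cc, gv, uT, vT, tr2, map_sum, map_mul, map_sub, map_add, map_half,
    map_zero]

theorem map_inv' [DecidableEq ι] (A : Matrix ι ι 𝕜) (a b : ι) : (A.map φ)⁻¹ a b = φ (A⁻¹ a b) := by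
  have h1 := φ.map_det A
  have h2 := φ.map_adjugate A
  rw [RingHom.mapMatrix_apply] at h1
  rw [RingHom.mapMatrix_apply, RingHom.mapMatrix_apply] at h2
  rw [Matrix.inv_def, Matrix.inv_def, ← h1, ← h2]
  simp only [Ring.inverse_eq_inv', Matrix.smul_apply, smul_eq_mul, Matrix.map_apply, map_mul, map_inv₀]

theorem qd_sy [CharZero 𝕜] {H : M2 ι 𝕜} {T : M3 ι 𝕜} (hH : Sy2 H) (hT : Sy3 T) : Sy2 (qd H T) := by
  intro i j
  have h1 : ∀ i j, ∑ k, chr (up H (T j)) T k k i = (1 / 2) * tr2 (up H (T j)) (T i) := by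
    intro i j
    have hY := up_sy hH (hT.ap j)
    have e : ∑ k, ∑ l, up H (T j) k l * T k i l = ∑ k, ∑ l, up H (T j) k l * T l k i := by
      rw [Finset.sum_comm]
      exact Finset.sum_congr rfl fun k _ => Finset.sum_congr rfl fun l _ => by rw [hY l k, hT l i k]
    have e2 : ∑ k, chr (up H (T j)) T k k i = (1 / 2) * (∑ k, ∑ l, up H (T j) k l * T k i l +
        tr2 (up H (T j)) (T i) - ∑ k, ∑ l, up H (T j) k l * T l k i) := by
      simp only [chr, low, tr2, ← Finset.sum_add_distrib, ← Finset.sum_sub_distrib, Finset.mul_sum]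
      exact Finset.sum_congr rfl fun k _ => Finset.sum_congr rfl fun l _ => by ring
    rw [e2, e]; ring
  have hC := chr_sy H hT
  have h2 : cc (chr H T) (chr H T) i j = cc (chr H T) (chr H T) j i := by
    simp only [cc]
    congr 1
    · rw [Finset.sum_comm]
      exact Finset.sum_congr rfl fun k _ => Finset.sum_congr rfl fun l _ => by
        rw [hC l j k, hC k l i]; ring
    · exact Finset.sum_congr rfl fun k _ => Finset.sum_congr rfl fun l _ => by rw [hC l i j]
  have h3 : ∑ k, chr (up H (T k)) T k i j = ∑ k, chr (up H (T k)) T k j i :=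
    Finset.sum_congr rfl fun k _ => chr_sy _ hT k i j
  simp only [qd, redJ, ricJ, ricC, dchr, Pi.zero_apply, chr_zero, zero_sub, Finset.sum_neg_distrib]
  rw [h1, h1, h2, h3, tr2_up_comm (T j) (T i) hH]
  ring

end Map

/-- the components: the metric and the energy -/
abbrev IX : Type := (Fin 4 × Fin 4) ⊕ Unit

/-- jets -/
abbrev ZX : Type := IX × Jx → ℂ

/-- symmetrised entries -/
def sy (z : ZX) (j : Jx) : M2 (Fin 4) ℂ := fun a b =>
  (1 / 2) * (z (.inl (a, b), j) + z (.inl (b, a), j))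

def gM (z : ZX) : Matrix (Fin 4) (Fin 4) ℂ := 1 + Matrix.of (sy z none)
def hM (z : ZX) : M2 (Fin 4) ℂ := fun a b => (gM z)⁻¹ a b
def pJ (z : ZX) : M3 (Fin 4) ℂ := fun c => sy z (some (.inl c))
def qJ (z : ZX) : M4 (Fin 4) ℂ := fun c d => sy z (some (.inr (c, d)))
def on2 : M2 (Fin 4) ℂ := fun a b => (1 : Matrix (Fin 4) (Fin 4) ℂ) a b

open Classical in
/-- a square root on the right half plane -/
def csq (w : ℂ) : ℂ := if 0 < w.re then w ^ (1 / 2 : ℂ) else 0

/-- the nonlinearity -/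
def QQ (z : ZX) : IX → ℂ
  | .inl e => lapJ (on2 - hM z) (qJ z) e.1 e.2 + 2 * qd (hM z) (pJ z) e.1 e.2
  | .inr _ => fgf (csq (gM z).det) (hM z) (pJ z) 0

theorem csq_conj (w : ℂ) : csq (conj w) = conj (csq w) := by
  unfold csq
  rw [Complex.conj_re]
  split_ifs with h
  · rw [Complex.conj_cpow _ _ fun e => by linarith [(Complex.arg_eq_pi_iff.1 e).1], map_half]
  · exact (map_zero _).symm

theorem csq_real {x : ℝ} (hx : 0 < x) : csq x = (√x : ℝ) := by
  unfold csq
  rw [if_pos (by simpa using hx), Real.sqrt_eq_rpow, Complex.ofReal_cpow hx.le]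
  norm_num

theorem an_csq : AnalyticAt ℂ csq 1 := by
  refine (analyticAt_id.cpow (g := fun _ => (1 / 2 : ℂ)) analyticAt_const (by simp)).congr ?_
  filter_upwards [Complex.continuous_re.continuousAt.eventually
    (lt_mem_nhds (show (0 : ℝ) < (1 : ℂ).re by simp))] with w hw using (if_pos hw).symm

theorem sy_sy (z : ZX) (j : Jx) : Sy2 (sy z j) := fun a b => by simp only [sy]; ring

theorem gM_sy (z : ZX) : Sy2 (gM z) := fun a b => by
  simp only [gM, Matrix.add_apply, Matrix.of_apply, Matrix.one_apply, eq_comm (a := a), sy_sy z none a b]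

theorem hM_sy (z : ZX) : Sy2 (hM z) := sy_inv (gM_sy z)

theorem sy_smul (t : ℂ) (z : ZX) (j : Jx) : sy (t • z) j = t • sy z j := by
  funext a b; simp only [sy, Pi.smul_apply, smul_eq_mul]; ring

theorem gM_zero : gM 0 = 1 := by ext a b; simp [gM, sy]

theorem hM_zero : hM 0 = on2 := by funext a b; simp only [hM, gM_zero, inv_one, on2]

theorem cl_an {X : Type*} [NormedAddCommGroup X] [NormedSpace ℂ X] (x : X) :
    Cl fun f : X → ℂ => AnalyticAt ℂ f x :=
  ⟨fun _ => analyticAt_const, fun h h' => h.add h', fun h h' => h.mul h'⟩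

theorem an_sy (j : Jx) (a b : Fin 4) : AnalyticAt ℂ (fun z => sy z j a b) 0 := by
  have h : ∀ i, AnalyticAt ℂ (fun z : ZX => z i) 0 := fun i =>
    (ContinuousLinearMap.proj (R := ℂ) (φ := fun _ : IX × Jx => ℂ) i).analyticAt 0
  exact analyticAt_const.mul ((h _).add (h _))

theorem cd_gM (a b : Fin 4) : ContDiffAt ℂ ω (fun z => gM z a b) 0 :=
  (analyticAt_const.add (an_sy none a b)).contDiffAt

theorem an_hM (a b : Fin 4) : AnalyticAt ℂ (fun z => hM z a b) 0 :=
  (cA_inv cd_gM (by simp [gM_zero]) a b).analyticAt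

theorem an_s : AnalyticAt ℂ (fun z => csq (gM z).det) 0 :=
  AnalyticAt.comp_of_eq an_csq (cA_det cd_gM).analyticAt (by simp [gM_zero])

theorem an_QQ (i : IX) : AnalyticAt ℂ (fun z => QQ z i) 0 := by
  have h := cl_an (0 : ZX)
  rcases i with e | _
  · exact (h.lapJ (fun a b => analyticAt_const.sub (an_hM a b)) (fun c d => an_sy _) e.1 e.2).add
      (analyticAt_const.mul (h.qd an_hM (fun c => an_sy _) e.1 e.2))
  · exact h.fgf (ρ := fun _ => 0) an_s an_hM (fun c => an_sy _) fun _ _ => analyticAt_const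

theorem QQ_line (v : ZX) (i : IX) : ∃ ψ : ℂ → ℂ, AnalyticAt ℂ ψ 0 ∧ ψ 0 = 0 ∧
    ∀ t : ℂ, QQ (t • v) i = t * ψ t := by
  have h := cl_an (0 : ℂ)
  have hl : AnalyticAt ℂ (fun t : ℂ => t • v) 0 := analyticAt_id.smul analyticAt_const
  have hH : ∀ a b, AnalyticAt ℂ (fun t : ℂ => hM (t • v) a b) 0 := fun a b =>
    AnalyticAt.comp_of_eq (an_hM a b) hl (zero_smul _ _)
  have hp : ∀ t : ℂ, pJ (t • v) = t • pJ v := fun t => funext fun c => sy_smul t v _
  have hq : ∀ t : ℂ, qJ (t • v) = t • qJ v := fun t => funext fun c => funext fun d => sy_smul t v _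
  rcases i with e | _
  · refine ⟨fun t => lapJ (on2 - hM (t • v)) (qJ v) e.1 e.2 + 2 * t * qd (hM (t • v)) (pJ v) e.1 e.2,
      (h.lapJ (Q := fun _ => qJ v) (fun a b => analyticAt_const.sub (hH a b))
        (fun _ _ _ _ => analyticAt_const) e.1 e.2).add ((analyticAt_const.mul analyticAt_id).mul
          (h.qd (T := fun _ => pJ v) hH (fun _ _ _ => analyticAt_const) e.1 e.2)), ?_, fun t => ?_⟩
    · simp [hM_zero, lapJ]
    · simp only [QQ, hp, hq, lapJ_smul, qd_hom, Pi.smul_apply, smul_eq_mul]; ring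
  · refine ⟨fun t => t * fgf (csq (gM (t • v)).det) (hM (t • v)) (pJ v) 0, analyticAt_id.mul
      (h.fgf (ρ := fun _ => 0) (T := fun _ => pJ v) (AnalyticAt.comp_of_eq an_s hl (zero_smul _ _)) hH
        (fun _ _ _ => analyticAt_const) fun _ _ => analyticAt_const), zero_mul _, fun t => ?_⟩
    have := fgf_hom t (csq (gM (t • v)).det) (hM (t • v)) 0 (pJ v)
    rw [smul_zero] at this
    simp only [QQ, hp, this]; ring

/-- **the nonlinearity** -/
def NQ : NL IX where
  Q := QQ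
  an := analyticAt_pi_iff.2 an_QQ
  q0 := funext fun i => by
    obtain ⟨ψ, -, -, h⟩ := QQ_line 0 i
    simpa using h 0
  q1 := hasFDerivAt_pi'' fun i => by
    have hd := (an_QQ i).differentiableAt.hasFDerivAt
    refine hd.congr_fderiv (ContinuousLinearMap.ext fun v => ?_)
    obtain ⟨ψ, h1, h2, h3⟩ := QQ_line v i
    have a1 : HasDerivAt (fun t : ℂ => QQ (t • v) i) (fderiv ℂ (fun z => QQ z i) 0 v) 0 := by
      have := hd.comp_hasDerivAt_of_eq (0 : ℂ) ((hasDerivAt_id (0 : ℂ)).smul_const v) (by simp)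
      rw [one_smul] at this
      exact this
    have a2 := (hasDerivAt_id (0 : ℂ)).mul h1.differentiableAt.hasDerivAt
    rw [funext h3] at a1
    exact (a1.unique a2).trans (by simp [h2])

theorem NQ_of_sy {z z' : ZX} (h : ∀ j, sy z j = sy z' j) : NQ.Q z = NQ.Q z' := by
  have h1 : gM z = gM z' := by simp only [gM, h]
  have h2 : hM z = hM z' := by funext a b; simp only [hM, h1]
  have h3 : pJ z = pJ z' := funext fun c => h _
  have h4 : qJ z = qJ z' := funext fun c => funext fun d => h _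
  funext i
  rcases i with e | _ <;> simp only [NQ, QQ, h1, h2, h3, h4]

/-- only the jets of the metric matter -/
theorem NQ_congr {z z' : ZX} (h : ∀ e j, z (.inl e, j) = z' (.inl e, j)) : NQ.Q z = NQ.Q z' :=
  NQ_of_sy fun j => by funext a b; simp only [sy, h]

/-- transposition of the indices -/
def trI : IX → IX := Sum.map Prod.swap id

theorem NQ_tr (z : ZX) : NQ.Q (fun j => z (trI j.1, j.2)) = NQ.Q z :=
  NQ_of_sy fun j => by funext a b; simp only [sy, trI, Sum.map_inl, Prod.swap_prod_mk]; ring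

theorem NQ_symm (z : ZX) (i : IX) : NQ.Q z (trI i) = NQ.Q z i := by
  rcases i with ⟨a, b⟩ | _
  · have h1 := qd_sy (hM_sy z) (T := pJ z) (fun c => sy_sy z _) b a
    have h2 : lapJ (on2 - hM z) (qJ z) b a = lapJ (on2 - hM z) (qJ z) a b :=
      Finset.sum_congr rfl fun c _ => Finset.sum_congr rfl fun d _ => by rw [qJ, sy_sy z _ b a]
    simp only [NQ, QQ, trI, Sum.map_inl, Prod.swap_prod_mk, h1, h2]
  · rfl

theorem NQ_star (z : ZX) : NQ.Q (star z) = star (NQ.Q z) := by
  have h0 : ∀ j, sy (star z) j = fun a b => conj (sy z j a b) := fun j => by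
    funext a b; simp only [sy, map_mul, map_half, map_add]; rfl
  have h1 : gM (star z) = (gM z).map conj := by
    ext a b; simp [gM, h0, Matrix.one_apply]
  have h2 : hM (star z) = fun a b => conj (hM z a b) := by
    funext a b; simp only [hM, h1, map_inv']
  have h3 : pJ (star z) = fun c a b => conj (pJ z c a b) := funext fun c => h0 _
  have h4 : qJ (star z) = fun c d a b => conj (qJ z c d a b) := funext fun c => funext fun d => h0 _
  have h5 : on2 - hM (star z) = fun a b => conj ((on2 - hM z) a b) := by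
    funext a b; simp [h2, on2, Matrix.one_apply]
  funext i
  change QQ _ i = conj (QQ z i)
  rcases i with e | _
  · simp only [QQ]
    rw [h5, h2, h3, h4, map_lapJ, map_qd, map_add, map_mul, map_ofNat]
  · simp only [QQ]
    rw [h2, h3, h1, ← RingHom.mapMatrix_apply, ← RingHom.map_det, csq_conj, map_fgf]

theorem fderiv_cf {f : E4 → ℝ} {x : E4} (hf : DifferentiableAt ℝ f x) (c : Fin 4) :
    fderiv ℝ (fun y => ((f y : ℝ) : ℂ)) x (ee c) = (pderiv c f x : ℝ) :=
  congrArg (· (ee c)) (Complex.ofRealCLM.hasFDerivAt.comp x hf.hasFDerivAt).fderiv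

section Dict

variable {U : IX → E4 → ℂ} {u : MetricField 4} {x : E4}
  (hU : ∀ a b, U (.inl (a, b)) =ᶠ[𝓝 x] cf u a b) (h : C2 (fl1 + u) x)
include hU h

theorem cjet_dict : gM (cjet U x) = ((fl1 + u) x).map Complex.ofRealHom ∧
    pJ (cjet U x) = ((‖x‖ : ℝ) : ℂ) • (fun c a b => Complex.ofRealHom (jet (fl1 + u) x c a b)) ∧
    (qJ (cjet U x) = ((‖x‖ : ℝ) : ℂ) ^ 2 •
      fun c d a b => Complex.ofRealHom (jet2 (fl1 + u) x c d a b)) ∧
    ∀ a b, Lp2 (cf u a b) x = lapJ on2 (qJ (cjet U x)) a b := by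
  set G := fl1 + u with hG
  have e0 : ∀ a b, cf u a b = fun y => ((G y a b : ℝ) : ℂ) - ((1 : Matrix (Fin 4) (Fin 4) ℝ) a b : ℝ) :=
    fun a b => funext fun y => by simp [hG, cf]
  have e1 : ∀ a b c, ∀ y, C2 G y → fderiv ℝ (cf u a b) y (ee c) = (jet G y c a b : ℝ) := by
    intro a b c y hy
    rw [e0, fderiv_sub_const]; exact fderiv_cf (hy.d a b) c
  have e2 : ∀ a b c d, fderiv ℝ (fun y => fderiv ℝ (cf u a b) y (ee d)) x (ee c) =
      (jet2 G x c d a b : ℝ) := by
    intro a b c d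
    rw [Filter.EventuallyEq.fderiv_eq (h.ev.mono fun y hy => e1 a b d y hy)]
    exact fderiv_cf (dA_ap3 h.d_jet d a b) c
  have f1 : ∀ a b c, cjet U x (.inl (a, b), some (.inl c)) = (‖x‖ : ℝ) * (jet G x c a b : ℝ) := by
    intro a b c
    simp only [cjet, cj1, (hU a b).fderiv_eq, e1 a b c x h]
  have f2 : ∀ a b c d, cjet U x (.inl (a, b), some (.inr (c, d))) =
      ((‖x‖ : ℝ) : ℂ) ^ 2 * (jet2 G x c d a b : ℝ) := by
    intro a b c d
    simp only [cjet, cj1]
    have e3 : (fun y => fderiv ℝ (U (.inl (a, b))) y (ee d)) =ᶠ[𝓝 x]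
        fun y => fderiv ℝ (cf u a b) y (ee d) := ((hU a b).fderiv (𝕜 := ℝ)).mono fun y hy => by simp only [hy]
    rw [← e2, e3.fderiv_eq]
  have s2 : ∀ c d a b, jet2 G x c d b a = jet2 G x c d a b := fun c d a b =>
    pd_congr c (h.ev.mono fun y hy => hy.jet_sy d b a)
  have g3 : qJ (cjet U x) = ((‖x‖ : ℝ) : ℂ) ^ 2 •
      fun c d a b => Complex.ofRealHom (jet2 G x c d a b) := by
    funext c d a b
    simp only [qJ, sy, f2, s2 c d a b, Pi.smul_apply, smul_eq_mul, Complex.ofRealHom_eq_coe]; ring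
  refine ⟨?_, ?_, g3, fun a b => ?_⟩
  · ext a b
    have := h.g_sy b a
    simp only [gM, sy, cjet, cj1, (hU _ _).self_of_nhds, e0, this, Matrix.add_apply, Matrix.of_apply,
      Matrix.map_apply, Complex.ofRealHom_eq_coe, Matrix.one_apply, eq_comm (a := b)]
    split_ifs <;> simp <;> ring
  · funext c a b
    simp only [pJ, sy, f1, h.jet_sy c b a, Pi.smul_apply, smul_eq_mul, Complex.ofRealHom_eq_coe]; ring
  · simp [g3, Lp2, e2, lapJ, on2, Matrix.one_apply, Finset.mul_sum]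

/-- **dictionary**, the equation -/
theorem NQ_red (a b : Fin 4) : ((‖x‖ : ℝ) : ℂ) ^ 2 * (redM fl1 (fl1 + u) x a b : ℝ) =
    -(1 / 2) * (Lp2 (cf u a b) x - NQ.Q (cjet U x) (.inl (a, b))) := by
  obtain ⟨h1, h2, h3, h4⟩ := cjet_dict hU h
  have h5 : hM (cjet U x) = fun a b => Complex.ofRealHom (iv (fl1 + u) x a b) := by
    funext a b; simp only [hM, h1, map_inv', iv]
  simp only [NQ, QQ, redM, Matrix.of_apply]
  have h6 : lapJ (hM (cjet U x)) (qJ (cjet U x)) a b =
      ((‖x‖ : ℝ) : ℂ) ^ 2 * (lapJ (iv (fl1 + u) x) (jet2 (fl1 + u) x) a b : ℝ) := by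
    rw [h5, h3, lapJ_smul, Pi.smul_apply, Pi.smul_apply, map_lapJ]; rfl
  have h7 : qd (hM (cjet U x)) (pJ (cjet U x)) a b =
      ((‖x‖ : ℝ) : ℂ) ^ 2 * (qd (iv (fl1 + u) x) (jet (fl1 + u) x) a b : ℝ) := by
    rw [h5, h2, qd_hom, Pi.smul_apply, Pi.smul_apply, map_qd]; rfl
  rw [redT_one h, h4, sub_lapJ, Pi.sub_apply, Pi.sub_apply, h6, h7]
  push_cast; ring

/-- **dictionary**, the action density -/
theorem NQ_en (o : Unit) :
    NQ.Q (cjet U x) (.inr o) = ((‖x‖ : ℝ) : ℂ) ^ 2 * (fgfF fl1 (fl1 + u) x : ℝ) := by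
  obtain ⟨h1, h2, -, -⟩ := cjet_dict hU h
  have h5 : hM (cjet U x) = fun a b => Complex.ofRealHom (iv (fl1 + u) x a b) := by
    funext a b; simp only [hM, h1, map_inv', iv]
  have h6 := fgf_hom ((‖x‖ : ℝ) : ℂ) (Complex.ofRealHom (sq (fl1 + u) x))
    (fun a b => Complex.ofRealHom (iv (fl1 + u) x a b)) 0
    fun c a b => Complex.ofRealHom (jet (fl1 + u) x c a b)
  rw [smul_zero, map_fgf] at h6
  simp only [NQ, QQ, fgfF]
  rw [h5, h2, h1, ← RingHom.mapMatrix_apply, ← RingHom.map_det, Complex.ofRealHom_eq_coe,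
    csq_real h.pos, TG_const, ricci_const]
  exact h6

end Dict

end Crest.Agent.N207.CB

end
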