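import Crest.Agent.N207.CB.Nl1
import Crest.Agent.N207.Lg.Alg4

/-! # Row 207, block L (helper87): `NQ` commutes with orthogonal changes of the frame -/

set_option autoImplicit false

open Crest.Agent.N207.Lg Crest.Agent.N207.J Crest.Agent.N207.L

noncomputable section

namespace Crest.Agent.N207.CB.Ro

variable {ι 𝕜 : Type*} [Fintype ι] [Field 𝕜] (A : M2 ι 𝕜)

def r1 (u : ι → 𝕜) : ι → 𝕜 := fun a => ∑ c, A c a * u c
def r2 (X : M2 ι 𝕜) : M2 ι 𝕜 := fun a b => r1 A (fun c => r1 A (X c) b) a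
def r3 (T : M3 ι 𝕜) : M3 ι 𝕜 := fun a b c => r1 A (fun x => r2 A (T x) b c) a
def r4 (Q : M4 ι 𝕜) : M4 ι 𝕜 := fun a b c d => r1 A (fun x => r3 A (Q x) b c d) a

variable (u v : ι → 𝕜) (t : 𝕜) (a : ι) (H X Y : M2 ι 𝕜) (T S : M3 ι 𝕜) (Q : M4 ι 𝕜)

theorem r1_add : r1 A (fun c => u c + v c) a = r1 A u a + r1 A v a := by
  simp only [r1, mul_add, Finset.sum_add_distrib]
theorem r1_sub : r1 A (fun c => u c - v c) a = r1 A u a - r1 A v a := by
  simp only [r1, mul_sub, Finset.sum_sub_distrib]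
theorem r1_neg : r1 A (fun c => -u c) a = -r1 A u a := by
  simp only [r1, mul_neg, Finset.sum_neg_distrib]
theorem r1_cm : r1 A (fun c => t * u c) a = t * r1 A u a := by
  simp only [r1, Finset.mul_sum, mul_left_comm]
theorem r1_mc : r1 A (fun c => u c * t) a = r1 A u a * t := by
  simp only [r1, Finset.sum_mul, mul_assoc]
theorem r1_sum (f : ι → ι → 𝕜) : r1 A (fun c => ∑ l, f c l) a = ∑ l, r1 A (fun c => f c l) a := by
  simp only [r1, Finset.mul_sum]; exact Finset.sum_comm

theorem r2_snd (a b : ι) : r2 A X a b = r2 A (fun y x => X x y) b a := by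
  simp only [r2, r1, Finset.mul_sum]
  rw [Finset.sum_comm]
  simp only [mul_left_comm]

theorem r3_snd (a b c : ι) : r3 A T a b c = r3 A (fun y x z => T x y z) b a c :=
  r2_snd A (fun x y => r1 A (T x y) c) a b

theorem r3_sw (a b c : ι) : r3 A T a b c = r3 A (fun x z y => T x y z) a c b := by
  simp only [r3, r2_snd A _ b c]

theorem r3_trd (a b c : ι) : r3 A T a b c = r3 A (fun z x y => T x y z) c a b := by
  rw [r3_sw, r3_snd]

theorem low_r : low (r3 A T) = r3 A (low T) := by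
  funext m i j
  have e1 := r3_trd A T i j m
  have e2 := (r3_trd A T j i m).trans (r3_sw A _ _ _ _)
  simp only [low, e1, e2]
  delta low
  simp only [r3, r2, r1_add, r1_sub, r1_cm]

theorem up_r1 (k : ι) : up H (r3 A T k) = fun i j => r1 A (fun c => up H (r2 A (T c)) i j) k := by
  funext i j; simp only [up, r3, r1_sum, r1_cm, r1_mc]

theorem chr_r1 (k : ι) (K : M3 ι 𝕜) : chr (fun i j => r1 A (fun c => K c i j) k) T =
    fun m i j => r1 A (fun c => chr (K c) T m i j) k := by
  funext m i j; simp only [chr, r1_sum, r1_mc]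

theorem gv_r1 (k : ι) (K : M3 ι 𝕜) : gv (fun i j => r1 A (fun c => K c i j) k) T =
    fun j => r1 A (fun c => gv (K c) T j) k := by
  funext j; simp only [gv, uT, vT, tr2, r1_sum, r1_mc, r1_cm, r1_sub]

variable [DecidableEq ι] {A} (h : ∀ c d, ∑ k, A c k * A d k = if c = d then 1 else 0)
include h

theorem ctr : ∑ k, r1 A u k * r1 A v k = ∑ k, u k * v k := by
  have : ∀ k, r1 A u k * r1 A v k = ∑ c, ∑ d, u c * v d * (A c k * A d k) := fun k => by
    simp only [r1, Finset.sum_mul_sum]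
    exact Finset.sum_congr rfl fun _ _ => Finset.sum_congr rfl fun _ _ => by ring
  simp only [this]
  rw [Finset.sum_comm]
  refine Finset.sum_congr rfl fun c _ => ?_
  rw [Finset.sum_comm]
  simp only [← Finset.mul_sum, h, mul_ite, mul_one, mul_zero, Finset.sum_ite_eq, Finset.mem_univ,
    if_true]

theorem trc : ∑ k, r2 A X k k = ∑ k, X k k := by
  have : ∀ k, r2 A X k k = ∑ c, ∑ d, X c d * (A c k * A d k) := fun k => by
    simp only [r2, r1, Finset.mul_sum]
    exact Finset.sum_congr rfl fun _ _ => Finset.sum_congr rfl fun _ _ => by ring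
  simp only [this]
  rw [Finset.sum_comm]
  refine Finset.sum_congr rfl fun c _ => ?_
  rw [Finset.sum_comm]
  simp only [← Finset.mul_sum, h, mul_ite, mul_one, mul_zero, Finset.sum_ite_eq, Finset.mem_univ,
    if_true]

theorem tr2_r : tr2 (r2 A X) (r2 A Y) = tr2 X Y := by
  unfold tr2
  rw [Finset.sum_comm]
  simp only [r2, ctr _ _ h]
  rw [Finset.sum_comm]
  simp only [ctr _ _ h]

theorem mm_r (i j : ι) : ∑ a, r2 A X i a * r2 A Y a j =
    r2 A (fun i j => ∑ a, X i a * Y a j) i j := by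
  simp only [r2_snd A X i]
  simp only [r2, ctr _ _ h, r1_sum, r1_cm, r1_mc]

theorem up_r : up (r2 A H) (r2 A X) = r2 A (up H X) := by
  have e : ∀ H X : M2 ι 𝕜, up H X = fun i j => ∑ b, (∑ a, H i a * X a b) * H b j := fun H X => by
    funext i j; simp only [up, Finset.sum_mul]; exact Finset.sum_comm
  funext i j
  simp only [e, mm_r _ _ h]

theorem chr_r : chr (r2 A H) (r3 A T) = r3 A (chr H T) := by
  funext k i j
  simp only [chr, low_r, r2_snd A H k]
  delta chr
  simp only [r3, r2, ctr _ _ h, r1_sum, r1_cm, r1_mc]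

theorem vT_r : vT (r2 A H) (r3 A T) = r1 A (vT H T) := by
  funext c
  have : vT (r2 A H) (r3 A T) c = r1 A (fun x => tr2 (r2 A H) (r2 A (T x))) c := by
    simp only [vT, tr2, r3, r1_sum, r1_cm]
  simp only [this, tr2_r _ _ h]; rfl

theorem uT_r : uT (r2 A H) (r3 A T) = r1 A (uT H T) := by
  funext b
  have := congrFun (vT_r H (fun z x y => T x y z) h) b
  simp only [uT, r3_trd A T _ _ b]
  exact this

theorem gv_r : gv (r2 A H) (r3 A T) = r1 A (gv H T) := by
  funext j
  simp only [gv, uT_r _ _ h, vT_r _ _ h]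
  exact ((r1_sub A _ _ j).trans (by rw [r1_cm])).symm

theorem ip1_r : ip1 (r2 A H) (r1 A u) (r1 A v) = ip1 H u v := by
  have := tr2_r H (fun i j => u i * v j) h
  simp only [tr2, r2, r1_cm, r1_mc] at this
  exact this

theorem tr3 (l : ι) : ∑ k, r3 A T k k l = r1 A (fun l => ∑ k, T k k l) l := by
  simp only [r3_trd A T _ _ l]
  simp only [r3, ← r1_sum, trc _ h]

theorem cc_r : cc (r3 A T) (r3 A S) = r2 A (cc T S) := by
  funext i j
  have e1 : ∑ k, ∑ l, r3 A T k j l * r3 A S l k i =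
      r2 A (fun i j => tr2 (r2 A fun k l => T k j l) (r2 A fun k l => S l k i)) i j := by
    have a1 : ∀ k l, r3 A S l k i = r3 A (fun z y x => S x y z) i k l := fun k l =>
      (r3_trd A S l k i).trans (r3_sw A _ _ _ _)
    simp only [a1, r3_snd A T _ j]
    simp only [tr2, r3, r2, r1_sum, r1_cm, r1_mc]
  have e2 : ∑ k, ∑ l, r3 A T k k l * r3 A S l i j =
      r2 A (fun i j => ∑ k, ∑ l, T k k l * S l i j) i j := by
    rw [Finset.sum_comm]
    simp only [← Finset.sum_mul, tr3 _ h]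
    simp only [r3, ctr _ _ h]
    simp only [r2, r1_sum, r1_cm, Finset.sum_mul]
    exact Finset.sum_comm
  simp only [cc, e1, e2, tr2_r _ _ h]
  delta Lg.cc
  simp only [r2, r1_sub, tr2]

theorem lapJ_r : lapJ (r2 A H) (r4 A Q) = r2 A (lapJ H Q) := by
  funext i j
  have := tr2_r H (fun a b => r2 A (Q a b) i j) h
  refine this.trans ?_
  delta lapJ
  simp only [tr2, r2, r1_sum, r1_cm]

theorem fgf_r (s : 𝕜) : fgf s (r2 A H) (r3 A T) 0 = fgf s H T 0 := by
  simp only [fgf, lag, gau, ell, tr2_zero, chr_r _ _ h, cc_r _ _ h, tr2_r _ _ h, gv_r _ _ h,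
    ip1_r _ _ _ h]

theorem qd_r : qd (r2 A H) (r3 A T) = r2 A (qd H T) := by
  have e : ∀ H X : M2 ι 𝕜, up2 H X H = up H X := fun _ _ => rfl
  have w : ∀ k, chr (up (r2 A H) (r3 A T k)) (r3 A T) = r4 A (fun c => chr (up H (T c)) T) k :=
    fun k => by rw [up_r1, chr_r1]; simp only [up_r _ _ h, chr_r _ _ h]; rfl
  have g : ∀ k, gv (up (r2 A H) (r3 A T k)) (r3 A T) = r2 A (fun c => gv (up H (T c)) T) k :=
    fun k => by rw [up_r1, gv_r1]; simp only [up_r _ _ h, gv_r _ _ h]; rfl
  funext i j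
  have t1 : ∀ W : M4 ι 𝕜, ∑ k, r4 A W k k i j = r2 A (fun i j => ∑ k, W k k i j) i j := fun W =>
    (trc (fun a b => r2 A (W a b) i j) h).trans (by simp only [r2, r1_sum])
  have t2 : ∀ W : M4 ι 𝕜, ∑ k, r4 A W j k k i = r2 A (fun i j => ∑ k, W j k k i) i j := fun W => by
    rw [r2_snd]
    simp only [r4, ← r1_sum, tr3 _ h]; rfl
  simp only [qd_eq, qd4, e, w, g, t1, t2, chr_r _ _ h, cc_r _ _ h, gv_r _ _ h]
  rw [r2_snd A (fun c => gv (up H (T c)) T) j i]
  delta qd4
  simp only [r2, e, r1_add, r1_sub, r1_neg, r1_cm, r1_mc]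

omit h [DecidableEq ι] in
theorem r2_eq (A X : Matrix ι ι 𝕜) : r2 A X = (A.transpose * X * A : Matrix ι ι 𝕜) := by
  funext a b
  rw [r2_snd]
  simp only [r2, r1, Matrix.mul_apply, Matrix.transpose_apply, mul_comm]

end Ro

open Ro

/-- **equivariance** -/
theorem NQ_rot {A : Matrix (Fin 4) (Fin 4) ℂ} (hA : A.transpose * A = 1) {z z' : ZX}
    (h0 : ∀ a b, z' (.inl (a, b), none) = r2 A (fun c d => z (.inl (c, d), none)) a b)
    (h1 : ∀ e a b, z' (.inl (a, b), some (.inl e)) =
      r3 A (fun l c d => z (.inl (c, d), some (.inl l))) e a b)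
    (h2 : ∀ e f a b, z' (.inl (a, b), some (.inr (e, f))) =
      r4 A (fun l m c d => z (.inl (c, d), some (.inr (l, m)))) e f a b) :
    (∀ a b, NQ.Q z' (.inl (a, b)) = r2 A (fun c d => NQ.Q z (.inl (c, d))) a b) ∧
      NQ.Q z' (.inr ()) = NQ.Q z (.inr ()) := by
  have hA' : A * A.transpose = 1 := mul_eq_one_comm.1 hA
  have h : ∀ c d, ∑ k, A c k * A d k = if c = d then 1 else 0 := fun c d => by
    have := congrFun (congrFun hA' c) d
    simpa only [Matrix.mul_apply, Matrix.transpose_apply, Matrix.one_apply] using this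
  have s : ∀ j a b, r2 A (sy z j) a b = (1 / 2) * (r2 A (fun c d => z (.inl (c, d), j)) a b +
      r2 A (fun c d => z (.inl (c, d), j)) b a) := fun j a b => by
    rw [r2_snd A _ b a]; delta sy; simp only [r2, r1_add, r1_cm]
  have g0 : gM z' = A.transpose * gM z * A := by
    have : sy z' none = r2 A (sy z none) := by funext a b; simp only [s, sy, h0]
    rw [gM, gM, mul_add, add_mul, mul_one, hA, this]
    exact congrArg (1 + ·) (r2_eq A (Matrix.of (sy z none)))
  have g1 : hM z' = r2 A (hM z) := by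
    have : (gM z')⁻¹ = A.transpose * (gM z)⁻¹ * A := by
      rw [g0, Matrix.mul_inv_rev, Matrix.mul_inv_rev, Matrix.inv_eq_left_inv hA,
        Matrix.inv_eq_left_inv hA', mul_assoc]
    exact this.trans (r2_eq A (gM z)⁻¹).symm
  have g2 : pJ z' = r3 A (pJ z) := by
    funext e a b; simp only [pJ, sy, h1, r3, s, r1_add, r1_cm]
  have g3 : qJ z' = r4 A (qJ z) := by
    funext e f a b; simp only [qJ, sy, h2, r4, r3, s, r1_add, r1_cm]
  have g4 : (gM z').det = (gM z).det := by
    have := congrArg Matrix.det hA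
    rw [Matrix.det_mul, Matrix.det_one] at this
    rw [g0, Matrix.det_mul, Matrix.det_mul, mul_right_comm, this, one_mul]
  have g5 : on2 - hM z' = r2 A (on2 - hM z) := by
    have : r2 A on2 = on2 := (r2_eq A 1).trans (by rw [mul_one, hA]; rfl)
    funext a b
    rw [Pi.sub_apply, Pi.sub_apply, g1, ← this]
    simp only [this]
    conv_lhs => rw [← this]
    simp only [r2, Pi.sub_def, r1_sub]
  refine ⟨fun a b => ?_, ?_⟩
  · simp only [NQ, QQ]
    rw [g5, g1, g2, g3, lapJ_r _ _ h, qd_r _ _ h]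
    simp only [r2, r1_add, r1_cm]
  · simp only [NQ, QQ]
    rw [g1, g2, g4, fgf_r _ _ h]

end Crest.Agent.N207.CB

end
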