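import Crest.Agent.N207.CB.Nl3
import Crest.Agent.N207.L.Inv
import Crest.Agent.N207.L.Pc3

/-! # Row 207, block L (helper87): small solutions inherit the symmetries of their data -/

set_option autoImplicit false
set_option linter.unusedSectionVars false

open Set Filter Topology
open Crest.Agent.R246.Zon797 (Pr isoS)

noncomputable section

namespace Crest.Agent.N207.L
open J I CB

section Abs

variable {ι : Type} [Fintype ι]

/-- a symmetry of the system -/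
structure Symm (N : NL ι) (Ψ : ι → (ι → CS) →L[ℝ] CS) : Prop where
  mem : ∀ i k v, (∀ l, v l ∈ E k) → Ψ i v ∈ E k
  nm : ∀ i v, ‖toH (Ψ i v)‖ ≤ ∑ l, ‖toH (v l)‖
  eq : ∀ U0 U1 U2 G : ι → CS, (∀ l, Sb 5 (U0 l)) → (∀ l, Sb 4 (U1 l)) →
    (∀ y, (fun i => G i y) = N.Q fun j => cj (U0 j.1) (U1 j.1) (U2 j.1) j.2 y) →
    ∀ y, (fun i => Ψ i G y) = N.Q fun j => cj (Ψ j.1 U0) (Ψ j.1 U1) (Ψ j.1 U2) j.2 y

/-- the action on one mode -/
def acM (Ψ : ι → (ι → CS) →L[ℝ] CS) (i : ι) (k : ℕ) : (ι → H) →L[ℝ] H :=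
  toH.restrictScalars ℝ ∘L Ψ i ∘L ContinuousLinearMap.pi fun l =>
    (Pc k).restrictScalars ℝ ∘L ContinuousLinearMap.proj l

/-- the action on mode families -/
def acF (Ψ : ι → (ι → CS) →L[ℝ] CS) (f : ι → Md) (i : ι) : Md :=
  fun k x => acM Ψ i k fun l => f l k x

/-- fixed mode data -/
def FxM (Ψ : ι → (ι → CS) →L[ℝ] CS) (v : ι → ℕ → H) : Prop :=
  ∀ i k, Ψ i (fun l => Pc k (v l k)) = Pc k (v i k)

variable {N : NL ι} {Ψ : ι → (ι → CS) →L[ℝ] CS} {τ : ℝ → ℂ} {w om : ℝ → ℝ} {η : ℝ}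
  {p q F f : ι → Md}

theorem acM_smul {c : ℂ} (hc : ∃ r : ℝ, c = r) (i : ι) (k : ℕ) (v : ι → H) :
    acM Ψ i k (fun l => c • v l) = c • acM Ψ i k v := by
  obtain ⟨r, rfl⟩ := hc
  have e : ∀ u : H, (r : ℂ) • u = r • u := fun u => Complex.coe_smul _ _
  simp only [e]
  exact map_smul (acM Ψ i k) r v

theorem acM_add (i : ι) (k : ℕ) (u v : ι → H) :
    acM Ψ i k (fun l => u l + v l) = acM Ψ i k u + acM Ψ i k v := map_add (acM Ψ i k) u v

theorem acM_sub (i : ι) (k : ℕ) (u v : ι → H) :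
    acM Ψ i k (fun l => u l - v l) = acM Ψ i k u - acM Ψ i k v := map_sub (acM Ψ i k) u v

theorem Symm.Pc (h : Symm N Ψ) (i : ι) (k : ℕ) (v : ι → H) :
    Pc k (acM Ψ i k v) = Ψ i fun l => Pc k (v l) :=
  Pc_of_mem (h.mem i k _ fun _ => Pc_mem _ _)

theorem Symm.bd (h : Symm N Ψ) {σ : ℕ} (hf : ∀ l, Bd σ w om (f l) η) (i : ι) :
    Bd σ w om (acF Ψ f i) (Fintype.card ι * η) := by
  choose c h1 h2 using fun l => (hf l).bd
  refine ⟨mul_nonneg (Nat.cast_nonneg _) (hf i).nn, fun k x => mem_E.1 (h.mem i k _ fun _ =>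
    Pc_mem _ _), fun k => (acM Ψ i k).continuous.comp (continuous_pi fun l => (hf l).cont k),
    fun k => ∑ l, c l k, fun s => ?_, fun k x => ?_⟩
  · calc _ ≤ ∑ k ∈ s, (Fintype.card ι : ℝ) * ∑ l, c l k ^ 2 :=
          Finset.sum_le_sum fun k _ => sq_sum_le_card_mul_sum_sq
      _ = Fintype.card ι * ∑ l, ∑ k ∈ s, c l k ^ 2 := by rw [← Finset.mul_sum, Finset.sum_comm]
      _ ≤ Fintype.card ι * ∑ _l : ι, η ^ 2 := by gcongr with l; exact h1 l s
      _ = _ := by simp; ring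
  · refine (mul_le_mul_of_nonneg_left (h.nm i fun l => J.Pc k (f l k x)) (wt_pos _ _).le).trans ?_
    rw [Finset.mul_sum, Finset.sum_mul]
    exact Finset.sum_le_sum fun l _ => by rw [toH_Pc, (hf l).mode]; exact h2 l k x

theorem Symm.val (h : Symm N Ψ) {n : ℕ} {M : ℝ} (hf : ∀ l, Mb univ (n + 2) M (f l)) (i : ι)
    (x : ℝ) : val (acF Ψ f i) x = Ψ i fun l => val (f l) x := by
  have := ((Ψ i).hasSum (Pi.hasSum.2 fun l => (hf l).hasSum (mem_univ x))).tsum_eq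
  simpa only [L.val, acF, h.Pc] using this

theorem re_k (k : ℕ) : (∃ r : ℝ, (k : ℂ) = r) ∧ (∃ r : ℝ, (k : ℂ) + 2 = r) ∧
    (∃ r : ℝ, -((k : ℂ) + 2) = r) ∧ (∃ r : ℝ, (2 * (k : ℂ) + 2)⁻¹ = r) ∧
    (∃ r : ℝ, (k : ℂ) ^ 2 = r) ∧ ∃ r : ℝ, ((k : ℂ) + 2) ^ 2 = r :=
  ⟨⟨k, by simp⟩, ⟨k + 2, by simp⟩, ⟨-(k + 2), by simp⟩, ⟨(2 * k + 2)⁻¹, by simp⟩,
    ⟨k ^ 2, by simp⟩, ⟨(k + 2) ^ 2, by simp⟩⟩

theorem dt_acF (i : ι) (m : Fin 3) : dt (acF Ψ p i) (acF Ψ q i) (acF Ψ F i) m =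
    acF Ψ (fun l => dt (p l) (q l) (F l) m) i := by
  funext k x
  obtain ⟨a1, a2, -, -, a5, a6⟩ := re_k k
  match m with
  | 0 => simp only [dt, acF, acM_add]
  | 1 => simp only [dt, acF, acM_sub, acM_smul a1, acM_smul a2]
  | 2 => simp only [dt, acF, acM_add, acM_smul a5, acM_smul a6]

theorem Symm.sol (h : Symm N Ψ) (hs : Sol N τ w om η p q F) (hτ : ∀ x, ∃ r : ℝ, τ x = r)
    (hw : ∀ x, |w x| ≤ 1) (ho : ∀ x, |om x| ≤ 1) :
    Sol N τ w om (Fintype.card ι * η) (acF Ψ p) (acF Ψ q) (acF Ψ F) := by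
  refine ⟨h.bd hs.bp, h.bd hs.bq, h.bd hs.bF, fun i k x => ?_, fun i k x => ?_, fun x y => ?_⟩
  · obtain ⟨a1, -, -, a4, -⟩ := re_k k
    refine ((acM Ψ i k).hasFDerivAt.comp_hasDerivWithinAt x
      (hasDerivWithinAt_pi.2 fun l => hs.dp l k x)).congr_deriv ?_
    simp only [acF, acM_smul (hτ x), acM_add, acM_smul a1, acM_smul a4]
  · obtain ⟨-, -, a3, a4, -⟩ := re_k k
    refine ((acM Ψ i k).hasFDerivAt.comp_hasDerivWithinAt x
      (hasDerivWithinAt_pi.2 fun l => hs.dq l k x)).congr_deriv ?_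
    simp only [acF, acM_smul (hτ x), acM_sub, acM_smul a3, acM_smul a4]
  · have m := fun l => hs.mb (I := univ) zero_le_one le_rfl (fun x _ => hw x) (fun x _ => ho x) l
    have m0 : ∀ l, Mb univ (3 + 2) _ (dt (p l) (q l) (F l) 0) := fun l => mb_dt0 (m l).1 (m l).2.1
    have m1 : ∀ l, Mb univ (2 + 2) _ (dt (p l) (q l) (F l) 1) := fun l => mb_dt1 (m l).1 (m l).2.1
    have m2 : ∀ l, Mb univ (1 + 2) _ (dt (p l) (q l) (F l) 2) := fun l =>
      mb_dt2 (m l).1 (m l).2.1 (m l).2.2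
    have m3 : ∀ l, Mb univ (1 + 2) _ (F l) := fun l => (m l).2.2
    have := h.eq (fun l => L.val (dt (p l) (q l) (F l) 0) x)
      (fun l => L.val (dt (p l) (q l) (F l) 1) x) (fun l => L.val (dt (p l) (q l) (F l) 2) x)
      (fun l => L.val (F l) x) (fun l => (m0 l).ub.sb (mem_univ x))
      (fun l => (m1 l).ub.sb (mem_univ x)) (hs.eq x) y
    unfold jets
    simp only [dt_acF, h.val m0, h.val m1, h.val m2, h.val m3]
    exact this

/-- **solutions with fixed data are fixed** -/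
theorem Symm.fix (h : Symm N Ψ) {γ : Pth} {C o : ℝ} {A B : ι → D} (hγ : γ.Ok C o) (ho : 0 < o)
    (hτ : ∀ x, ∃ r : ℝ, γ.τ x = r) (hs : Sol N γ.τ γ.w γ.om η p q F) (h1 : η ≤ N.eta C o)
    (h2 : Fintype.card ι * η ≤ N.eta C o) (hd : Dat γ p q A B)
    (hA : FxM Ψ fun i => trD (γ.om γ.a) (A i))
    (hB : γ.fin = true → FxM Ψ fun i => trD (γ.om γ.b) (B i)) (x : ℝ) :
    FxM Ψ (fun i k => p i k x) ∧ FxM Ψ (fun i k => q i k x) ∧ FxM Ψ fun i k => F i k x := by
  have e : ∀ {A : ι → D} {a : ℝ}, FxM Ψ (fun i => trD a (A i)) → ∀ (r : ℝ) i k,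
      acM Ψ i k (fun l => (r : ℂ) • trD a (A l) k) = (r : ℂ) • trD a (A i) k := by
    intro A a hA r i k
    have e1 : P k (trD a (A i) k) = trD a (A i) k := by simp only [trD, map_smul, P_P]
    rw [acM_smul ⟨r, rfl⟩, ← e1, ← toH_Pc, ← hA i k]; rfl
  have s1 := (h.sol hs hτ (fun x => abs_le.2 ⟨by linarith [hγ.w0 x], hγ.w1 x⟩)
    fun x => abs_le.2 ⟨by linarith [hγ.o0 x], hγ.o1 x⟩).mono h2
  have d1 : Dat γ (acF Ψ p) (acF Ψ q) A B :=
    ⟨fun i k => by simp only [acF, hd.hq]; exact e hA _ i k,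
      fun hf i k => by simp only [acF, hd.hp hf]; exact e (hB hf) _ i k⟩
  obtain ⟨e1, e2, e3⟩ := N.uniq C ho γ hγ _ _ _ _ _ _ A B s1 (hs.mono h1) d1 hd
  have c : ∀ {f : ι → Md}, acF Ψ f = f → FxM Ψ fun i k => f i k x := fun {f} e i k =>
    (h.Pc i k fun l => f l k x).symm.trans (congrArg (J.Pc k) (congrFun (congrFun (congrFun e i) k) x))
  exact ⟨c e1, c e2, c e3⟩

end Abs

namespace Sy

/-- differentiable functions on the sphere -/
def Df (u : CS) : Prop := ∃ G, HG u G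

theorem gr_eq {u : CS} {G : Fin 4 → CS} (h : HG u G) : gr u = G := by
  have t : ∑ l, xc l * G l = 0 := by
    ext ω
    have h1 := (h ω (S3_ne ω)).comp_hasDerivAt_of_eq (1 : ℝ)
      ((hasDerivAt_id (1 : ℝ)).smul_const (ω : E4)) (by simp)
    have h2 : HasDerivAt (fun s : ℝ => u (prj (s • (ω : E4)))) 0 1 :=
      (hasDerivAt_const (1 : ℝ) (u ω)).congr_of_eventuallyEq
        ((lt_mem_nhds one_pos).mono fun s hs => by simp only [prj_smul_S3 hs])
    have h3 := h1.unique h2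
    simpa [cov_apply, prj_S3, mul_comm] using h3
  funext i
  simp only [gr, fun a => (h.HR a).R_eq, Finset.mul_sum, ← mul_assoc]
  rw [Finset.sum_comm]
  simp only [← Finset.sum_mul, gam_xc]
  simp only [sub_mul, Finset.sum_sub_distrib, mul_assoc, ← Finset.mul_sum, t]
  simp

theorem Df.hg {u : CS} (h : Df u) : HG u (gr u) := by obtain ⟨G, h⟩ := h; rwa [gr_eq h]

theorem hg_sum {κ : Type} (s : Finset κ) {u : κ → CS} {G : κ → Fin 4 → CS}
    (h : ∀ l, HG (u l) (G l)) : HG (∑ l ∈ s, u l) fun i => ∑ l ∈ s, G l i := fun x hx => by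
  have := HasFDerivAt.fun_sum (u := s) fun l _ => h l x hx
  simp only [ContinuousMap.sum_apply]
  exact this.congr_fderiv (clm_ext fun i => by simp [cov_ee, Finset.mul_sum])

theorem df_J1 {u u' : CS} (h : Sb 5 u) (h' : Sb 4 u') (i : Fin 4) : Df (J1 i u u') :=
  ⟨_, ((HG.xc i).mul (Sb.HG (n := 1) h')).add (hg_sum _ fun a => (HG_of_mem_V (rx_mem a i)).mul
    (Sb.HG (n := 1) (Sb.R (n := 2) h a)))⟩

variable (g : Iso4)

/-- the complex matrix of an isometry -/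
def gC : Matrix (Fin 4) (Fin 4) ℂ := fun c a => (gm g c a : ℝ)

theorem gC_orth : (gC g).transpose * gC g = 1 := by
  ext a b
  have := g.inner_map_map (ee a) (ee b)
  simp only [PiLp.inner_apply, RCLike.inner_apply, conj_trivial] at this
  simp only [Matrix.mul_apply, Matrix.transpose_apply, gC, gm, ← Complex.ofReal_mul,
    ← Complex.ofReal_sum, mul_comm (g (ee a) _), this]
  simp [Matrix.one_apply, Pi.single_apply, eq_comm]
  split_ifs <;> simp

theorem hg_cmp {u : CS} {G : Fin 4 → CS} (h : HG u G) :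
    HG (cmp g u) fun i => ∑ l, gC g l i • cmp g (G l) := fun x hx => by
  have e : ∀ y : E4, y ≠ 0 → prj (g y) = isoS g (prj y) := fun y hy => Subtype.ext (by
    simp [prj_coe, hy])
  have h1 := (h (g x) (by simpa using hx)).comp x g.toContinuousLinearEquiv.hasFDerivAt
  refine (h1.congr_of_eventuallyEq ((eventually_ne_nhds hx).mono fun y hy => ?_)).congr_fderiv
    (clm_ext fun i => ?_)
  · simp [e y hy]
  · rw [cov_ee]
    simp [cov_apply, e x hx, gC, gm, Finset.mul_sum, mul_comm, mul_left_comm]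

/-- mixing of rotated functions -/
def Lm {κ : Type} [Fintype κ] (m : κ → ℂ) (v : κ → CS) : CS := ∑ l, m l • cmp g (v l)

variable {κ : Type} [Fintype κ] (m : κ → ℂ) {v : κ → CS}

theorem Lm_apply (y : S3) : Lm g m v y = ∑ l, m l * v l (isoS g y) := by simp [Lm]

theorem J1_Lm (h : ∀ l, Df (v l)) (v' : κ → CS) (i : Fin 4) : J1 i (Lm g m v) (Lm g m v') =
    Lm g (fun p : Fin 4 × κ => gC g p.1 i * m p.2) fun p => J1 p.1 (v p.2) (v' p.2) := by
  have e : xc i = ∑ l, gC g l i • cmp g (xc l) := by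
    have := fun j => congrFun (congrFun (gC_orth g) i) j
    simp only [Matrix.mul_apply, Matrix.transpose_apply] at this
    simp only [cmp_xc, Finset.smul_sum, smul_smul]
    rw [Finset.sum_comm]
    simp only [← Finset.sum_smul]
    erw [Finset.sum_congr rfl fun j _ => congrArg (· • xc j) (this j)]
    ext y
    simp only [ContinuousMap.sum_apply, ContinuousMap.smul_apply]
    simp [Matrix.one_apply]
  have e1 : gr (Lm g m v) = _ := gr_eq (hg_sum _ fun l => (hg_cmp g (h l).hg).smul (m l))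
  rw [J1, e1, e]
  ext y
  simp only [Lm_apply, J1, Fintype.sum_prod_type, ContinuousMap.add_apply, ContinuousMap.mul_apply,
    ContinuousMap.sum_apply, ContinuousMap.smul_apply, cmp_apply, smul_eq_mul, Finset.sum_mul_sum,
    mul_add, Finset.sum_add_distrib, Finset.mul_sum]
  rw [Finset.sum_comm (f := fun l e => m l * (gC g e i * _))]
  simp only [Finset.sum_mul, Finset.mul_sum]
  rw [Finset.sum_comm]
  simp only [mul_assoc, mul_left_comm]

theorem J2_Lm {v' : κ → CS} (h : ∀ l, Sb 5 (v l)) (h' : ∀ l, Sb 4 (v' l)) (v'' : κ → CS)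
    (j i : Fin 4) : J2 j i (Lm g m v) (Lm g m v') (Lm g m v'') =
    Lm g (fun p : Fin 4 × Fin 4 × κ => gC g p.1 j * (gC g p.2.1 i * m p.2.2))
      fun p => J2 p.1 p.2.1 (v p.2.2) (v' p.2.2) (v'' p.2.2) := by
  have e : ∀ (m : Fin 4 × κ → ℂ) (a b : Fin 4 × κ → CS), Lm g m a - Lm g m b =
      Lm g m fun l => a l - b l := fun m a b => by
    ext y; simp [Lm_apply, mul_sub]
  change J1 j (J1 i _ _) (J1 i _ _ - J1 i _ _) = _
  rw [J1_Lm g m fun l => ⟨_, Sb.HG (n := 2) (h l)⟩, J1_Lm g m fun l => ⟨_, Sb.HG (n := 1) (h' l)⟩, e,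
    J1_Lm g _ fun p => df_J1 (h _) (h' _) _]
  rfl

theorem R_star' (a : Pr 4) (u : CS) : R a (star u) = star (R a u) := by
  by_cases h : ∃ v, HR a u v
  · obtain ⟨v, h⟩ := h; rw [h.R_eq, h.star.R_eq]
  · have : ¬∃ v, HR a (star u) v := fun ⟨v, hv⟩ => h ⟨_, by simpa using hv.star⟩
    simp only [R, dif_neg h, dif_neg this, star_zero]

theorem Dd_star (a : Fin 4) (u u' : CS) : Dd a (star u) (star u') = star (Dd a u u') := by
  have : ∀ c, star (rx c a) = rx c a := fun c => by unfold rx; split_ifs <;> simp [star_xc]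
  simp only [Dd, star_add, star_mul', star_xc, star_sum, this, R_star']

theorem cj_star (u u' u'' : CS) (j : Jx) :
    cj (star u) (star u') (star u'') j = star (cj u u' u'' j) := by
  rcases j with _ | a | e <;> simp only [cj, Dd_star, star_sub, star_mul', star_xc]

/-- conjugation -/
def st (i : IX) : (IX → CS) →L[ℝ] CS :=
  (starL' ℝ : CS ≃L[ℝ] CS).toContinuousLinearMap ∘L ContinuousLinearMap.proj i

/-- transposition -/
def tp (i : IX) : (IX → CS) →L[ℝ] CS := ContinuousLinearMap.proj (trI i)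

/-- rotation -/
def rt : IX → (IX → CS) →L[ℝ] CS
  | .inl e => ∑ p : Fin 4 × Fin 4, (gm g p.1 e.1 * gm g p.2 e.2) •
      ((cmpL g).restrictScalars ℝ ∘L ContinuousLinearMap.proj (.inl p))
  | .inr o => (cmpL g).restrictScalars ℝ ∘L ContinuousLinearMap.proj (.inr o)

theorem rt_inl (a b : Fin 4) (v : IX → CS) : rt g (.inl (a, b)) v =
    Lm g (fun p : Fin 4 × Fin 4 => gC g p.1 a * gC g p.2 b) fun p => v (.inl p) := by
  ext y; simp [rt, Lm_apply, gC]

theorem symm_st : Symm NQ st := by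
  refine ⟨fun i k v h => star_mem_E (h i), fun i v => ?_, fun U0 U1 U2 G _ _ h y => ?_⟩
  · refine le_trans (le_of_eq ?_) (Finset.single_le_sum (f := fun l => ‖toH (v l)‖)
      (fun _ _ => norm_nonneg _) (Finset.mem_univ i))
    rw [@norm_eq_sqrt_re_inner ℂ, @norm_eq_sqrt_re_inner ℂ]
    exact congrArg (fun z => √(RCLike.re z)) (inner_star _ _)
  · refine (congrArg star (h y)).trans ((NQ_star _).symm.trans (congrArg _ (funext fun j => ?_)))
    exact (congrArg (· y) (cj_star _ _ _ j.2)).symm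

theorem symm_tp : Symm NQ tp :=
  ⟨fun _ _ _ h => h _, fun i v => Finset.single_le_sum (f := fun l => ‖toH (v l)‖)
    (fun _ _ => norm_nonneg _) (Finset.mem_univ (trI i)), fun U0 U1 U2 G _ _ h y =>
      (funext fun i => (congrFun (h y) (trI i)).trans (NQ_symm _ i)).trans (NQ_tr _).symm⟩

theorem symm_rt : Symm NQ (rt g) := by
  refine ⟨fun i k v h => ?_, fun i v => ?_, fun U0 U1 U2 G h0 h1 h y => ?_⟩
  · rcases i with ⟨a, b⟩ | o
    · rw [rt_inl]; exact Submodule.sum_mem _ fun p _ => Submodule.smul_mem _ _ (cmp_mem_E g (h _))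
    · exact cmp_mem_E g (h _)
  · have n1 : ∀ c a, ‖gC g c a‖ ≤ 1 := fun c a => by
      simpa [gC, gm] using PiLp.norm_apply_le (g (ee a)) c
    rw [Fintype.sum_sum_type]
    rcases i with ⟨a, b⟩ | o
    · rw [rt_inl, Lm, map_sum]
      refine ((norm_sum_le _ _).trans (Finset.sum_le_sum fun p _ => ?_)).trans
        (le_add_of_nonneg_right (by positivity))
      rw [map_smul, norm_smul, norm_cmp, norm_mul]
      exact mul_le_of_le_one_left (norm_nonneg _) (mul_le_one₀ (n1 _ _) (norm_nonneg _) (n1 _ _))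
    · rw [Fintype.sum_unique (M := ℝ) (ι := Unit)]
      exact (norm_cmp g _).le.trans (le_add_of_nonneg_left (by positivity))
  · obtain ⟨e1, e2⟩ := NQ_rot (gC_orth g)
      (z := fun j => cj (U0 j.1) (U1 j.1) (U2 j.1) j.2 (isoS g y))
      (z' := fun j => cj (rt g j.1 U0) (rt g j.1 U1) (rt g j.1 U2) j.2 y)
      (fun a b => by
        simp only [cj, rt_inl, Lm_apply, Fintype.sum_prod_type, Ro.r2, Ro.r1, Finset.mul_sum,
          mul_assoc])
      (fun e a b => by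
        have c : ∀ u u' u'' a, cj u u' u'' (some (.inl a)) = J1 a u u' := fun _ _ _ _ => rfl
        simp only [rt_inl, c]
        rw [J1_Lm g _ fun l => ⟨_, Sb.HG (n := 2) (h0 _)⟩]
        simp only [Lm_apply, Fintype.sum_prod_type, Ro.r3, Ro.r2, Ro.r1, Finset.mul_sum, mul_assoc])
      (fun e f a b => by
        simp only [rt_inl, cj_inr]
        rw [J2_Lm g _ (fun _ => h0 _) fun _ => h1 _]
        simp only [Lm_apply, Fintype.sum_prod_type, Ro.r4, Ro.r3, Ro.r2, Ro.r1, Finset.mul_sum,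
          mul_assoc])
    funext i
    rcases i with ⟨a, b⟩ | o
    · rw [e1, ← h, rt_inl]
      simp only [Lm_apply, Fintype.sum_prod_type, Ro.r2, Ro.r1, Finset.mul_sum, mul_assoc]
    · rw [e2, ← h]; rfl

variable {Γ : Subgroup Iso4} {u : IX → ℕ → H}

theorem rt_eq (a b : Fin 4) (v : IX → CS) : rt g (.inl (a, b)) v =
    ∑ c, ∑ d, ((gm g c a * gm g d b : ℝ) : ℂ) • cmp g (v (.inl (c, d))) := by
  rw [rt_inl, Lm, Fintype.sum_prod_type]; simp only [gC, Complex.ofReal_mul]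

theorem of_inv (h : InvM Γ u) : FxM st u ∧ FxM tp u ∧ ∀ g ∈ Γ, FxM (rt g) u :=
  ⟨h.re, fun i k => by
    rcases i with ⟨a, b⟩ | o
    exacts [congrArg (Pc k) (h.sy b a k), rfl], fun g hg i k => by
    rcases i with ⟨a, b⟩ | o
    exacts [(rt_eq g a b _).trans (h.rot g hg a b k).symm, (h.en g hg k).symm]⟩

theorem to_inv (hP : ∀ i k, P k (u i k) = u i k) (h1 : FxM st u) (h2 : FxM tp u)
    (h3 : ∀ g ∈ Γ, FxM (rt g) u) : InvM Γ u :=
  .of_invC hP fun k => ⟨fun i => h1 i k, fun a b => h2 (.inl (b, a)) k, fun g hg a b =>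
    (h3 g hg _ k).symm.trans (rt_eq g a b _), fun g hg => (h3 g hg _ k).symm⟩

end Sy

open Sy

variable {Γ : Subgroup Iso4} {γ : Pth} {C o η : ℝ} {p q F : IX → Md} {A B : IX → D}

theorem InvM.trD (h : InvM Γ fun i => trD 1 (A i)) (a : ℝ) : InvM Γ fun i => trD a (A i) :=
  (h.smul fun k => a ^ k).congr fun i k => by
    simp only [L.trD, smul_smul, ← Complex.ofReal_mul, one_pow, mul_one_div]

/-- **SYM** -/
theorem Sol.sym (hs : Sol NQ γ.τ γ.w γ.om η p q F) (hγ : γ.Ok C o) (ho : 0 < o)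
    (hτ : ∀ x, ∃ r : ℝ, γ.τ x = r) (hη : 17 * η ≤ NQ.eta C o) (hd : Dat γ p q A B)
    (hA : InvM Γ fun i => trD 1 (A i)) (hB : γ.fin = true → InvM Γ fun i => trD 1 (B i)) (x : ℝ) :
    InvM Γ (fun i k => p i k x) ∧ InvM Γ (fun i k => q i k x) ∧ InvM Γ fun i k => F i k x := by
  have h1 : η ≤ NQ.eta C o := by linarith [(hs.bp (.inr ())).nn]
  have h2 : Fintype.card IX * η ≤ NQ.eta C o := by simpa using hη
  obtain ⟨a1, a2, a3⟩ := of_inv (hA.trD (γ.om γ.a))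
  have b := fun hf => of_inv ((hB hf).trD (γ.om γ.b))
  have c1 := symm_st.fix hγ ho hτ hs h1 h2 hd a1 (fun hf => (b hf).1) x
  have c2 := symm_tp.fix hγ ho hτ hs h1 h2 hd a2 (fun hf => (b hf).2.1) x
  have c3 := fun g hg => (symm_rt g).fix hγ ho hτ hs h1 h2 hd (a3 g hg)
    (fun hf => (b hf).2.2 g hg) x
  exact ⟨to_inv (fun i k => (hs.bp i).mode k x) c1.1 c2.1 fun g hg => (c3 g hg).1,
    to_inv (fun i k => (hs.bq i).mode k x) c1.2.1 c2.2.1 fun g hg => (c3 g hg).2.1,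
    to_inv (fun i k => (hs.bF i).mode k x) c1.2.2 c2.2.2 fun g hg => (c3 g hg).2.2⟩

theorem sym (hC : 0 ≤ C) (ho : 0 < o) (h1 : o ≤ 1) : ∃ η1 > 0, ∀ (Γ : Subgroup Iso4) (γ : Pth)
    (η : ℝ) (p q F : IX → Md) (A B : IX → D), γ.Ok C o → (∀ x, ∃ r : ℝ, γ.τ x = r) →
    Sol NQ γ.τ γ.w γ.om η p q F → η ≤ η1 → Dat γ p q A B → InvM Γ (fun i => trD 1 (A i)) →
    (γ.fin = true → InvM Γ fun i => trD 1 (B i)) → ∀ x, InvM Γ (fun i k => p i k x) ∧
      InvM Γ (fun i k => q i k x) ∧ InvM Γ fun i k => F i k x :=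
  ⟨NQ.eta C o / 17, div_pos (NQ.eta_pos' hC ho h1) (by norm_num),
    fun _ _ _ _ _ _ _ _ hγ hτ hs hη hd hA hB => hs.sym hγ ho hτ (by linarith) hd hA hB⟩

end Crest.Agent.N207.L

end
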