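import Crest.Agent.N207.CB.St
import Crest.Agent.N207.U.Cmp

/-!
# Row 207, leaf `CB.PB` (helper58), file 1: the diffeomorphisms `PsiA`
-/

set_option autoImplicit false

open scoped ContDiff
open Metric Set Filter Topology
open Crest.GeometryTopology.CoordMetric
open Crest.Agent.N207.U

noncomputable section

namespace Crest.Agent.N207.CB.Pb

section Gen

variable {n : ℕ}

theorem norm_le_sum_abs (u : En n) : ‖u‖ ≤ ∑ a, |u a| := by
  conv_lhs => rw [show u = ∑ j, u j • EuclideanSpace.single j (1 : ℝ) from by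
    ext k; simp [Pi.single_apply]]
  refine (norm_sum_le _ _).trans (le_of_eq (Finset.sum_congr rfl fun a _ => ?_))
  simp [norm_smul]

theorem opn_le (L : En n →L[ℝ] En n) {c : ℝ} (hc : 0 ≤ c)
    (h : ∀ a j, |L (EuclideanSpace.single j 1) a| ≤ c) : ‖L‖ ≤ n * (n * c) := by
  refine ContinuousLinearMap.opNorm_le_bound _ (by positivity) fun v => ?_
  refine (norm_le_sum_abs _).trans ((Finset.sum_le_sum (g := fun _ => n * c * ‖v‖)
    fun a _ => ?_).trans_eq (by simp; ring))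
  have := clm_eq_sum ((EuclideanSpace.proj a : En n →L[ℝ] ℝ).comp L) v
  have e : L v a = ∑ j, L (EuclideanSpace.single j 1) a * v j := this
  rw [e]
  refine (Finset.abs_sum_le_sum_abs _ _).trans ((Finset.sum_le_sum (g := fun _ => c * ‖v‖)
    fun j _ => ?_).trans_eq (by simp; ring))
  rw [abs_mul]
  exact mul_le_mul (h a j) (PiLp.norm_apply_le v j) (abs_nonneg _) hc

/-- a small perturbation of the identity is a diffeomorphism -/
theorem exists_diffeo {Ψ : En n → En n} (hΨ : ContDiff ℝ ∞ Ψ)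
    (h : ∀ y, ‖fderiv ℝ Ψ y - ContinuousLinearMap.id ℝ (En n)‖ ≤ 1 / 2) :
    ∃ Φ : En n → En n, ContDiff ℝ ∞ Φ ∧ (∀ y, Ψ (Φ y) = y) ∧ ∀ y, Φ (Ψ y) = y := by
  have hd := hΨ.differentiable (by simp)
  have h1 : ApproximatesLinearOn Ψ
      ((ContinuousLinearEquiv.refl ℝ (En n) : En n ≃L[ℝ] En n) : En n →L[ℝ] En n) univ
      (1 / 2 : NNReal) := fun x _ y _ => by
    simpa using Convex.norm_image_sub_le_of_norm_fderiv_le' (𝕜 := ℝ) (fun z _ => hd z)
      (fun z _ => h z) convex_univ (mem_univ y) (mem_univ x)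
  have h2 : Subsingleton (En n) ∨ (1 / 2 : NNReal) <
      ‖((ContinuousLinearEquiv.refl ℝ (En n)).symm : En n →L[ℝ] En n)‖₊⁻¹ := by
    rcases subsingleton_or_nontrivial (En n) with h | h
    · exact Or.inl h
    · refine Or.inr ?_
      have : ‖((ContinuousLinearEquiv.refl ℝ (En n)).symm : En n →L[ℝ] En n)‖₊ = 1 :=
        ContinuousLinearMap.nnnorm_id
      rw [this, inv_one]
      norm_num
  have hi : ∀ y, Function.Injective (fderiv ℝ Ψ y) := fun y => by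
    refine (injective_iff_map_eq_zero _).2 fun v hv => ?_
    have h3 := ((fderiv ℝ Ψ y - ContinuousLinearMap.id ℝ (En n)).le_opNorm v).trans
      (mul_le_mul_of_nonneg_right (h y) (norm_nonneg v))
    simp only [sub_apply, hv, ContinuousLinearMap.id_apply, zero_sub, norm_neg] at h3
    exact norm_le_zero_iff.1 (by linarith)
  refine ⟨(h1.toHomeomorph Ψ h2).symm, Homeomorph.contDiff_symm (h1.toHomeomorph Ψ h2)
    (f₀' := fun y => (LinearEquiv.ofInjectiveEndo (fderiv ℝ Ψ y : En n →ₗ[ℝ] En n)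
      (hi y)).toContinuousLinearEquiv) (fun y => (hd y).hasFDerivAt) hΨ,
    (h1.toHomeomorph Ψ h2).apply_symm_apply, (h1.toHomeomorph Ψ h2).symm_apply_apply⟩

end Gen

/-- the cut-off of the neck of length `L` -/
def eta (T0 L : ℝ) (y : E4) : ℝ :=
  stp (1 / 5) (4 / 5) (1 * Real.log ‖y‖ + -T0) * stp (1 / 5) (4 / 5) (-1 * Real.log ‖y‖ + (L - T0))

/-- the support of `eta` -/
def An (T0 L : ℝ) : Set E4 :=
  {y | Real.exp (T0 + 1 / 5) ≤ ‖y‖ ∧ ‖y‖ ≤ Real.exp (L - T0 - 1 / 5)}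

theorem isClosed_An (T0 L : ℝ) : IsClosed (An T0 L) :=
  (isClosed_le continuous_const continuous_norm).inter (isClosed_le continuous_norm continuous_const)

theorem stp_zero {a b t : ℝ} (hab : a < b) (h : t ≤ a) : stp a b t = 0 :=
  Real.smoothTransition.zero_of_nonpos
    (div_nonpos_of_nonpos_of_nonneg (sub_nonpos.2 h) (sub_pos.2 hab).le)

theorem stp_one {a b t : ℝ} (hab : a < b) (h : b ≤ t) : stp a b t = 1 :=
  Real.smoothTransition.one_of_one_le ((one_le_div (sub_pos.2 hab)).2 (sub_le_sub_right h _))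

theorem An.ne {T0 L : ℝ} {y : E4} (h : y ∈ An T0 L) : y ≠ 0 :=
  norm_pos_iff.1 ((Real.exp_pos _).trans_le h.1)

theorem mem_An {T0 L : ℝ} {y : E4} (hy : y ≠ 0) :
    y ∈ An T0 L ↔ T0 + 1 / 5 ≤ Real.log ‖y‖ ∧ Real.log ‖y‖ ≤ L - T0 - 1 / 5 := by
  have h := norm_pos_iff.2 hy
  rw [Real.le_log_iff_exp_le h, Real.log_le_iff_le_exp h]
  rfl

theorem eta_zero {T0 L : ℝ} (h0 : 0 ≤ T0) {y : E4} (h : y ∉ An T0 L) : eta T0 L y = 0 := by
  rcases eq_or_ne y 0 with rfl | hy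
  · rw [eta, stp_zero (by norm_num) (by simp; linarith), zero_mul]
  · rcases not_and_or.1 (mt (mem_An hy).2 h) with h | h
    · rw [eta, stp_zero (by norm_num) (by linarith), zero_mul]
    · rw [eta, stp_zero (t := -1 * _ + _) (by norm_num) (by linarith), mul_zero]

theorem pb_eta {ι : Type} {x : ι → E4} (hx : ∀ i, x i ≠ 0) (T0 L : ι → ℝ) (m : ℕ) :
    U.PB x (fun i => ‖x i‖) m (fun _ => 1) fun i => eta (T0 i) (L i) :=
  (PB.bs_log hx 1 (fun i => -T0 i) (bs_trans (1 / 5) (4 / 5) (by norm_num))).bmul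
    (PB.bs_log hx (-1) (fun i => L i - T0 i) (bs_trans (1 / 5) (4 / 5) (by norm_num)))

theorem psi_off {T0 L : ℝ} (h0 : 0 ≤ T0) (a : Mt) {y : E4} (h : y ∉ An T0 L) :
    PsiA (eta T0 L) a y = y := by rw [PsiA, eta_zero h0 h, zero_smul, add_zero]

theorem psi_ev {T0 L : ℝ} (h0 : 0 ≤ T0) (a : Mt) {y : E4} (h : y ∉ An T0 L) :
    PsiA (eta T0 L) a =ᶠ[𝓝 y] fun z => z := by
  filter_upwards [(isClosed_An T0 L).isOpen_compl.mem_nhds h] with z hz using psi_off h0 a hz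

theorem contDiff_lin (a : Mt) : ContDiff ℝ ∞ fun y : E4 => Matrix.toEuclideanLin a y :=
  (LinearMap.toContinuousLinearMap (Matrix.toEuclideanLin a)).contDiff

theorem contDiff_psi {T0 L : ℝ} (h0 : 0 ≤ T0) (a : Mt) : ContDiff ℝ ∞ (PsiA (eta T0 L) a) := by
  refine contDiff_iff_contDiffAt.2 fun y => ?_
  by_cases h : y ∈ An T0 L
  · exact contDiffAt_id.add (((pb_eta (ι := Unit) (x := fun _ => y) (fun _ => An.ne h)
      (fun _ => T0) (fun _ => L) 0).sm ()).smul (contDiff_lin a).contDiffAt)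
  · exact contDiffAt_id.congr_of_eventuallyEq (psi_ev h0 a h)

theorem psi_apply (η : E4 → ℝ) (a : Mt) (y : E4) (p : Fin 4) :
    PsiA η a y p = y p + η y * ∑ q, a p q * y q := by
  simp [PsiA, Matrix.toEuclideanLin, Matrix.mulVec, dotProduct]

theorem pb_jc {ι : Type} {x : ι → E4} (hx : ∀ i, x i ≠ 0) {T0 L δ : ι → ℝ} (h0 : ∀ i, 0 ≤ T0 i)
    {a : ι → Mt} (ha : ∀ i p q, |a i p q| ≤ δ i) (m : ℕ) (p j : Fin 4) :
    U.PB x (fun i => ‖x i‖) m δ fun i y => jc (PsiA (eta (T0 i) (L i)) (a i)) y p j - (1 : Mt) p j := by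
  have hs : ∀ i, 0 < ‖x i‖ := fun i => norm_pos_iff.2 (hx i)
  have h1 := (pb_eta hx T0 L (m + 1)).bmul (PB.sum Finset.univ fun q _ =>
    ((PB.cst fun i => a i p q).wt' fun i => ha i p q).mul
      (PB.coord hs (K := 1) (fun i => by simp) q))
  refine ((h1.pd hs j).wte fun i => by rw [mul_div_assoc, div_self (hs i).ne', mul_one]).congr
    fun i => ?_
  filter_upwards [ev_diff (h1.sm i)] with y hy
  have hd : DifferentiableAt ℝ (fun z : E4 => z p) y :=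
    (EuclideanSpace.proj p : E4 →L[ℝ] ℝ).differentiableAt
  rw [jc_eq_pd ((contDiff_psi (h0 i) (a i)).differentiable (by simp) y), ← jc_id y,
    jc_eq_pd (Φ := fun z => z) differentiableAt_id]
  simp only [psi_apply, pderiv, fderiv_fun_add hd hy, add_apply]
  ring

/-- the data of one map `PsiA` and one point -/
structure D0 where
  T0 : ℝ
  L : ℝ
  δ : ℝ
  a : Mt
  x : E4
  h0 : 0 ≤ T0
  ha : ∀ p q, |a p q| ≤ δ
  hx : x ≠ 0

theorem exists_jc0 : ∃ C : ℝ, 0 < C ∧ ∀ (T0 L δ : ℝ) (a : Mt), 0 ≤ T0 → (∀ p q, |a p q| ≤ δ) →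
    ∀ y p j, |jc (PsiA (eta T0 L) a) y p j - (1 : Mt) p j| ≤ C * δ := by
  choose C hC0 hC using fun p : Fin 4 × Fin 4 => (pb_jc (ι := D0) (fun d => d.hx) (L := fun d => d.L)
    (fun d => d.h0) (fun d => d.ha) 0 p.1 p.2).val
  have h1 : 0 ≤ ∑ p, C p := Finset.sum_nonneg fun p _ => hC0 p
  refine ⟨∑ p, C p + 1, by linarith, fun T0 L δ a h0 ha y p j => ?_⟩
  have hδ : 0 ≤ δ := (abs_nonneg _).trans (ha 0 0)
  by_cases hy : y ∈ An T0 L
  · refine (hC (p, j) ⟨T0, L, δ, a, y, h0, ha, An.ne hy⟩).trans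
      (mul_le_mul_of_nonneg_right ?_ hδ)
    linarith [Finset.single_le_sum (f := C) (fun p _ => hC0 p) (Finset.mem_univ (p, j))]
  · rw [jc_congr (psi_ev h0 a hy), jc_id, sub_self, abs_zero]
    positivity

/-- `Φ` is the inverse of `Ψ`, both are the identity off the closed set `A` -/
structure Inv (Ψ Φ : E4 → E4) (A : Set E4) : Prop where
  cl : IsClosed A
  sΨ : ContDiff ℝ ∞ Ψ
  sΦ : ContDiff ℝ ∞ Φ
  r : ∀ y, Ψ (Φ y) = y
  l : ∀ y, Φ (Ψ y) = y
  off : ∀ y, y ∉ A → Ψ y = y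
  jc : ∀ y p j, |jc Ψ y p j - (1 : Mt) p j| ≤ 1 / 32

theorem exists_inv : ∃ δ0 : ℝ, 0 < δ0 ∧ ∀ (T0 L : ℝ) (a : Mt), 0 ≤ T0 → (∀ p q, |a p q| ≤ δ0) →
    ∃ Φ, Inv (PsiA (eta T0 L) a) Φ (An T0 L) := by
  obtain ⟨C, hC, h⟩ := exists_jc0
  refine ⟨1 / (32 * C), by positivity, fun T0 L a h0 ha => ?_⟩
  have h1 : ∀ y p j, |jc (PsiA (eta T0 L) a) y p j - (1 : Mt) p j| ≤ 1 / 32 := fun y p j =>
    (h T0 L _ a h0 ha y p j).trans_eq (by field_simp)
  obtain ⟨Φ, h2, h3, h4⟩ := exists_diffeo (contDiff_psi (L := L) h0 a) fun y => by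
    refine (opn_le _ (c := 1 / 32) (by norm_num) fun p j => ?_).trans (by norm_num)
    refine le_trans (le_of_eq ?_) (h1 y p j)
    simp [jc, Matrix.one_apply]
  exact ⟨Φ, isClosed_An T0 L, contDiff_psi h0 a, h2, h3, h4, fun y => psi_off h0 a, h1⟩

namespace Inv

variable {Ψ Φ : E4 → E4} {A : Set E4} (h : Inv Ψ Φ A)
include h

theorem off' {y : E4} (hy : y ∉ A) : Φ y = y := by
  conv_lhs => rw [← h.off y hy]
  exact h.l y

theorem mem {y : E4} (hy : y ∈ A) : Φ y ∈ A := by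
  by_contra h1
  have := h.off _ h1
  rw [h.r] at this
  exact h1 (this ▸ hy)

theorem mem' {y : E4} (hy : y ∈ A) : Ψ y ∈ A := by
  by_contra h1
  have := h.off' h1
  rw [h.l] at this
  exact h1 (this ▸ hy)

theorem ev {y : E4} (hy : y ∉ A) : Φ =ᶠ[𝓝 y] fun z => z := by
  filter_upwards [h.cl.isOpen_compl.mem_nhds hy] with z hz using h.off' hz

theorem ev' {y : E4} (hy : y ∉ A) : Ψ =ᶠ[𝓝 y] fun z => z := by
  filter_upwards [h.cl.isOpen_compl.mem_nhds hy] with z hz using h.off z hz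

theorem maps {U : Set E4} (hU : A ⊆ U) {y : E4} (hy : y ∈ U) : Φ y ∈ U := by
  by_cases h1 : y ∈ A
  · exact hU (h.mem h1)
  · rwa [h.off' h1]

theorem maps' {U : Set E4} (hU : A ⊆ U) {y : E4} (hy : y ∈ U) : Ψ y ∈ U := by
  by_cases h1 : y ∈ A
  · exact hU (h.mem' h1)
  · rwa [h.off y h1]

theorem image {U : Set E4} (hU : A ⊆ U) : Φ '' U = U :=
  Subset.antisymm (image_subset_iff.2 fun _ hy => h.maps hU hy)
    fun y hy => ⟨Ψ y, h.maps' hU hy, h.l y⟩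

theorem dΦ (y : E4) : DifferentiableAt ℝ Φ y := h.sΦ.differentiable (by simp) y

theorem dΨ (y : E4) : DifferentiableAt ℝ Ψ y := h.sΨ.differentiable (by simp) y

theorem imm (y : E4) : Function.Injective (fderiv ℝ Φ y) := by
  have h1 : fderiv ℝ (fun z => Ψ (Φ z)) y = (fderiv ℝ Ψ (Φ y)).comp (fderiv ℝ Φ y) :=
    fderiv_comp y (h.dΨ _) (h.dΦ _)
  simp only [h.r, fderiv_fun_id] at h1
  intro u v e
  have h2 := congrArg (fderiv ℝ Ψ (Φ y)) e
  rwa [← ContinuousLinearMap.comp_apply, ← ContinuousLinearMap.comp_apply, ← h1] at h2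

theorem imm' (y : E4) : Function.Injective (fderiv ℝ Ψ y) := by
  have h1 : fderiv ℝ (fun z => Φ (Ψ z)) y = (fderiv ℝ Φ (Ψ y)).comp (fderiv ℝ Ψ y) :=
    fderiv_comp y (h.dΦ _) (h.dΨ _)
  simp only [h.l, fderiv_fun_id] at h1
  intro u v e
  have h2 := congrArg (fderiv ℝ Φ (Ψ y)) e
  rwa [← ContinuousLinearMap.comp_apply, ← ContinuousLinearMap.comp_apply, ← h1] at h2

/-- `|Ψ y| ≤ 3/2 |y|` when `0 ∉ A` -/
theorem norm_le (h0 : (0 : E4) ∉ A) (y : E4) : ‖y‖ ≤ 2 * ‖Φ y‖ := by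
  have h1 := Convex.norm_image_sub_le_of_norm_fderiv_le' (𝕜 := ℝ) (f := Ψ)
    (φ := ContinuousLinearMap.id ℝ E4) (C := 1 / 2) (fun z _ => h.dΨ z) (fun z _ => by
      refine (opn_le _ (c := 1 / 32) (by norm_num) fun p j => ?_).trans (by norm_num)
      refine le_trans (le_of_eq ?_) (h.jc z p j)
      simp [U.jc, Matrix.one_apply]) convex_univ (mem_univ 0) (mem_univ (Φ y))
  rw [h.r, h.off 0 h0] at h1
  simp only [sub_zero, ContinuousLinearMap.id_apply] at h1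
  linarith [norm_sub_norm_le y (Φ y), norm_nonneg (Φ y)]

end Inv

/-- the data for the jets of a pull-back -/
structure D1 (m : ℕ) where
  T0 : ℝ
  L : ℝ
  δ : ℝ
  a : Mt
  Φ : E4 → E4
  G : MetricField 4
  y : E4
  s : ℝ
  h0 : 0 ≤ T0
  ha : ∀ p q, |a p q| ≤ δ
  h1 : δ ≤ 1
  inv : Inv (PsiA (eta T0 L) a) Φ (An T0 L)
  mem : y ∈ An T0 L
  pos : 0 < s
  hs : s ≤ 2 * ‖y‖
  sm : ∀ p q, ContDiffAt ℝ ∞ (fun z => G z p q) (Φ y)
  jet : ∀ k ≤ m, ∀ p q,
    ‖Φ y‖ ^ k * ‖iteratedFDeriv ℝ k (fun z => G z p q - (1 : Mt) p q) (Φ y)‖ ≤ δ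

theorem pull_jets (m : ℕ) : ∃ C : ℝ, 0 < C ∧ ∀ d : D1 m, ∀ k ≤ m, ∀ p q, d.s ^ k *
    ‖iteratedFDeriv ℝ k (fun z => pullM d.Φ d.G z p q - (1 : Mt) p q) d.y‖ ≤ C * d.δ := by
  have hx : ∀ d : D1 m, d.Φ d.y ≠ 0 := fun d => An.ne (d.inv.mem d.mem)
  have hs : ∀ d : D1 m, 0 < ‖d.Φ d.y‖ := fun d => norm_pos_iff.2 (hx d)
  have hδ : ∀ d : D1 m, 0 ≤ d.δ := fun d => (abs_nonneg _).trans (d.ha 0 0)
  have hΦ : ∀ d : D1 m, ContDiffAt ℝ ∞ d.Φ d.y := fun d => d.inv.sΦ.contDiffAt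
  have hJ := PB.jc_inv_sub (ι := D1 m) (m := m) hΦ (fun d => d.inv.sΨ.contDiffAt)
    (fun d => Eventually.of_forall d.inv.r) (fun d => d.h1) (ε := 1 / 32) (by norm_num)
    (fun d => d.inv.jc _) (pb_jc hx (fun d => d.h0) (fun d => d.ha) m)
  have hG : ∀ p q, U.PB (fun d : D1 m => d.Φ d.y) (fun d => ‖d.Φ d.y‖) m (fun d => d.δ)
      fun d z => d.G z p q - (1 : Mt) p q := fun p q =>
    PB.of_itd hs (fun d => (d.sm p q).sub contDiffAt_const) fun k hk =>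
      ⟨1, zero_le_one, fun d => by rw [one_mul, mul_comm]; exact d.jet k hk p q⟩
  choose C hC0 hC using fun p : Fin 4 × Fin 4 =>
    ((PB.pull hΦ (fun d => d.h1) hJ hG p.1 p.2).scale (s' := fun d => d.s) hs (K := 4) fun d => by
      rw [abs_of_pos d.pos]
      linarith [d.hs, d.inv.norm_le (fun h => An.ne h rfl) d.y]).itd (fun d => d.pos) hδ
  have h1 : 0 ≤ ∑ p, C p := Finset.sum_nonneg fun p _ => hC0 p
  refine ⟨∑ p, C p + 1, by linarith, fun d k hk p q => ?_⟩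
  rw [mul_comm]
  refine (hC (p, q) k hk d).trans (mul_le_mul_of_nonneg_right ?_ (hδ d))
  linarith [Finset.single_le_sum (f := C) (fun p _ => hC0 p) (Finset.mem_univ (p, q))]

end Crest.Agent.N207.CB.Pb

end
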