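import Crest.Agent.N207.CB.Pb1
import Crest.Agent.N207.Lg.Fun2

/-!
# Row 207, leaf `CB.PB` (helper58), file 2: locality and covariance
-/

set_option autoImplicit false

open scoped ContDiff
open Metric Set Filter Topology
open Crest.GeometryTopology.CoordMetric
open Crest.Agent.N207.U Crest.Agent.N207.Lg Crest.Agent.R202.Tens

noncomputable section

namespace Crest.Agent.N207.CB.Pb

/-- naturality of the reduced Ricci tensor and of the gauge fixed density -/
def NAT : Prop :=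
  ∀ (G' G gb' gb : MetricField 4) (Φ : E4 → E4) (V W : Set E4) (y : E4), Pull G' G Φ V W →
    Pull gb' gb Φ V W → y ∈ V → redT gb' G' y = pullT Φ (redT gb G) y ∧
      fgfF gb' G' y = |(fderiv ℝ Φ y).det| * fgfF gb G (Φ y)

variable {gb gb' G G' : MetricField 4} {y : E4} {Φ Ψ : E4 → E4}

theorem cov_mat_congr (hb : gb =ᶠ[𝓝 y] gb') (hG : G =ᶠ[𝓝 y] G') :
    cov gb (matT G) =ᶠ[𝓝 y] cov gb' (matT G') :=
  AI.cov_congr hb (hG.mono fun z hz => by funext I; simp only [matT, hz])

theorem gauT_congr' (hb : gb =ᶠ[𝓝 y] gb') (hG : G =ᶠ[𝓝 y] G') :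
    gauT gb G =ᶠ[𝓝 y] gauT gb' G' := by
  filter_upwards [hG, cov_mat_congr hb hG] with z h1 h2
  funext I
  have e : iv G z = iv G' z := by funext a b; simp only [iv, h1]
  simp only [gauT, TG, e, h2]

theorem redT_congr' (hb : gb =ᶠ[𝓝 y] gb') (hG : G =ᶠ[𝓝 y] G') : redT gb G y = redT gb' G' y := by
  funext I
  simp only [redT, (AI.ricci_congr hG).eq_of_nhds, (gauT_congr' hb hG).eq_of_nhds,
    (AI.cov_congr hb (gauT_congr' hb hG)).eq_of_nhds]

theorem fgfF_congr' (hb : gb =ᶠ[𝓝 y] gb') (hG : G =ᶠ[𝓝 y] G') : fgfF gb G y = fgfF gb' G' y := by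
  have e : iv G y = iv G' y := by funext a b; simp only [iv, hG.eq_of_nhds]
  simp only [fgfF, TG, Lg.sq, e, hG.eq_of_nhds, (cov_mat_congr hb hG).eq_of_nhds,
    (AI.ricci_congr hb).eq_of_nhds]

theorem two_eq (I : Fin 2 → Fin 4) : ![I 0, I 1] = I := by
  funext s; fin_cases s <;> rfl

theorem matT_pullM (Φ : E4 → E4) (G : MetricField 4) (y : E4) :
    matT (pullM Φ G) y = pullT Φ (matT G) y := by
  funext I
  show pullT Φ (matT G) y ![I 0, I 1] = _
  rw [two_eq]

theorem pullM_eq (Φ : E4 → E4) (G : MetricField 4) (y : E4) :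
    pullM Φ G y = (jc Φ y).transpose * G (Φ y) * jc Φ y := by
  ext a b
  simp only [pullM, Matrix.of_apply, pull_two, Matrix.mul_apply, Matrix.transpose_apply,
    Finset.sum_mul]
  rw [Finset.sum_comm]
  exact Finset.sum_congr rfl fun p _ => Finset.sum_congr rfl fun q _ => by ring

theorem pullM_of_ev (h : Φ =ᶠ[𝓝 y] fun z => z) (G : MetricField 4) : pullM Φ G y = G y := by
  rw [pullM_eq, jc_congr h, jc_id, h.eq_of_nhds]
  simp

theorem pullM_smul (Φ : E4 → E4) (c : ℝ) (G : MetricField 4) (y : E4) :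
    pullM Φ (fun z => c • G z) y = c • pullM Φ G y := by
  simp only [pullM_eq, Matrix.mul_smul, Matrix.smul_mul]

theorem pullM_comp (hΦ : DifferentiableAt ℝ Φ y) (hΨ : DifferentiableAt ℝ Ψ (Φ y))
    (G : MetricField 4) : pullM Φ (pullM Ψ G) y = pullM (fun z => Ψ (Φ z)) G y := by
  simp only [pullM_eq, jc_comp hΨ hΦ, Matrix.transpose_mul, Matrix.mul_assoc]

theorem mkPull {V W : Set E4} (hV : IsOpen V) (hG : IsRiemannianOn G W) (hm : ∀ y ∈ V, Φ y ∈ W)
    (hs : ContDiffOn ℝ ∞ Φ V) (hi : ∀ y ∈ V, Function.Injective (fderiv ℝ Φ y))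
    (e : ∀ y ∈ V, G' y = pullM Φ G y) : Pull G' G Φ V W := by
  refine ⟨hV, hG, hm, hs, fun y hy i j => ?_, hi⟩
  rw [e y hy, pullM, Matrix.of_apply, pull_two]
  exact Finset.sum_congr rfl fun p _ => Finset.sum_congr rfl fun q _ => by
    simp only [jc, Matrix.of_apply]; ring

theorem riem_smul {U : Set E4} {c : ℝ} (hc : 0 < c) (h : IsRiemannianOn G U) :
    IsRiemannianOn (fun y => c • G y) U :=
  ⟨h.isOpen, fun i j => contDiffOn_const.mul (h.contDiffOn i j),
    fun y hy => (h.posDef y hy).smul hc⟩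

theorem riem_of_smul {U : Set E4} {c : ℝ} (hc : 0 < c) (h : IsRiemannianOn (fun y => c • G y) U) :
    IsRiemannianOn G U := by
  have := riem_smul (inv_pos.2 hc) h
  simpa only [smul_smul, inv_mul_cancel₀ hc.ne', one_smul] using this

theorem riem_one (U : Set E4) (hU : IsOpen U) : IsRiemannianOn (fun _ => (1 : Mt)) U :=
  ⟨hU, fun _ _ => contDiffOn_const, fun _ _ => Matrix.PosDef.one⟩

theorem tr2_eq (A B : Mt) : tr2 A B = (A.transpose * B).trace := by
  simp only [tr2, Matrix.trace, Matrix.diag, Matrix.mul_apply, Matrix.transpose_apply]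
  exact Finset.sum_comm

theorem up_eq (H k : Mt) : up H k = H * k * H := by
  funext i j
  simp only [up, Matrix.mul_apply, Finset.sum_mul]
  exact Finset.sum_comm

theorem tr2_conj {J N : Mt} (h : J * N = 1) (A X : Mt) :
    tr2 (N * A * N.transpose) (J.transpose * X * J) = tr2 A X := by
  have h1 : N.transpose * J.transpose = 1 := by rw [← Matrix.transpose_mul, h, Matrix.transpose_one]
  rw [tr2_eq, tr2_eq]
  calc ((N * A * N.transpose).transpose * (J.transpose * X * J)).trace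
      = (N * (A.transpose * (N.transpose * J.transpose) * X * J)).trace := by
        simp only [Matrix.transpose_mul, Matrix.transpose_transpose, Matrix.mul_assoc]
    _ = (A.transpose * X * (J * N)).trace := by
        rw [Matrix.trace_mul_comm, h1]; simp only [Matrix.mul_assoc, Matrix.mul_one]
    _ = _ := by rw [h, Matrix.mul_one]

/-- covariance of the Euler-Lagrange equation -/
theorem el_pull {J A X : Mt} {s s' : ℝ} (hJ : IsUnit J.det) (hs : s ≠ 0)
    (h : ∀ k : M2 (Fin 4) ℝ, (∀ a b, k a b = k b a) → tr2 (vG s (A⁻¹ : Mt) k) X = 0)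
    (k : M2 (Fin 4) ℝ) (hk : ∀ a b, k a b = k b a) :
    tr2 (vG s' ((J.transpose * A * J)⁻¹ : Mt) k) (J.transpose * X * J) = 0 := by
  have h1 : J * J⁻¹ = 1 := Matrix.mul_nonsing_inv J hJ
  have h2 : J⁻¹ * J = 1 := Matrix.nonsing_inv_mul J hJ
  have h3 : J.transpose * J⁻¹.transpose = 1 := by
    rw [← Matrix.transpose_mul, h2, Matrix.transpose_one]
  have e1 : (J.transpose * A * J)⁻¹ = J⁻¹ * A⁻¹ * J⁻¹.transpose := by
    rw [Matrix.mul_inv_rev, Matrix.mul_inv_rev, Matrix.transpose_nonsing_inv, Matrix.mul_assoc]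
  set K : Mt := Matrix.of k with hK
  have hKs : K.transpose = K := by ext a b; exact hk b a
  set k' : Mt := J⁻¹.transpose * K * J⁻¹ with hk'
  have e2 : K = J.transpose * k' * J := by
    calc K = (J.transpose * J⁻¹.transpose) * K * (J⁻¹ * J) := by rw [h3, h2]; simp
      _ = _ := by simp only [hk', Matrix.mul_assoc]
  have h4 := h k' fun a b => by
    have : k'.transpose = k' := by
      simp only [hk', Matrix.transpose_mul, Matrix.transpose_transpose, hKs, Matrix.mul_assoc]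
    exact congrFun (congrFun this b) a
  have e3 : up (J⁻¹ * A⁻¹ * J⁻¹.transpose) K = J⁻¹ * (A⁻¹ * k' * A⁻¹) * J⁻¹.transpose := by
    rw [up_eq]; simp only [hk', Matrix.mul_assoc]
  rw [tr2_vG, up_eq, mul_eq_zero] at h4
  have h5 := h4.resolve_left hs
  show tr2 (vG s' _ K) _ = 0
  rw [tr2_vG, e1, e3, tr2_conj h1, tr2_conj h1, e2, tr2_conj h1, h5, mul_zero]

theorem a2_pull (Φ : E4 → E4) (R : Tn 4 2) (y : E4) :
    a2 (pullT Φ R y) = (jc Φ y).transpose * Matrix.of (a2 (R (Φ y))) * jc Φ y := by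
  have := pullM_eq Φ (fun z => Matrix.of (a2 (R z))) y
  rw [← this]
  have e : matT (fun z => Matrix.of (a2 (R z))) = R := by
    funext z I
    show R z ![I 0, I 1] = _
    rw [two_eq]
  funext a b
  simp only [pullM, Matrix.of_apply, e, a2]

namespace Inv

variable {A O : Set E4} (h : Inv Ψ Φ A)
include h

theorem unit (y : E4) : IsUnit (U.jc Φ y).det :=
  Matrix.isUnit_det_of_left_inverse
    (jc_mul_ev h.sΦ.contDiffAt h.sΨ.contDiffAt (Eventually.of_forall h.r)).self_of_nhds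

theorem pull (hO : IsOpen O) (hA : A ⊆ O) (hG : IsRiemannianOn G O) :
    Pull (pullM Φ G) G Φ O O :=
  mkPull hO hG (fun _ hy => h.maps hA hy) h.sΦ.contDiffOn (fun y _ => h.imm y) fun _ _ => rfl

/-- the two backgrounds on the flat part -/
theorem pull_bg (hO : IsOpen O) (hA : A ⊆ O) (h1 : ∀ y ∈ O, gb y = 1)
    (h2 : ∀ y ∈ O, gb' y = pullM Ψ (fun _ => 1) y) : Pull gb gb' Φ O O := by
  have h3 : Pull gb' (fun _ => 1) Ψ O O := mkPull hO (riem_one O hO) (fun _ hy => h.maps' hA hy)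
    h.sΨ.contDiffOn (fun y _ => h.imm' y) h2
  refine mkPull hO h3.riem' (fun _ hy => h.maps hA hy) h.sΦ.contDiffOn (fun y _ => h.imm y)
    fun y hy => ?_
  rw [h1 y hy, pullM_eq, h2 _ (h.maps hA hy), ← pullM_eq, pullM_comp (h.dΦ y) (h.dΨ _),
    pullM_of_ev (Eventually.of_forall h.r)]

end Inv

end Crest.Agent.N207.CB.Pb

end
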