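import Crest.Agent.N207.CB.Pb2
import Crest.Agent.N207.I.Car3
import Crest.Agent.N207.I.Cal5

/-!
# Row 207, leaf `CB.PB` (helper58), file 3: the maps on `glob L`
-/

set_option autoImplicit false

open scoped ContDiff
open Metric Set Filter Topology MeasureTheory
open Crest.GeometryTopology.CoordMetric
open Crest.Agent.N207.U Crest.Agent.N207.Lg Crest.Agent.R202.Tens Crest.Agent.N207.I

noncomputable section

namespace Crest.Agent.N207.CB.Pb

variable {M : Type*} {T : TD M}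

/-- the standing assumptions -/
structure Hyp (T : TD M) (T0 : ℝ) (L : T.V → ℝ) : Prop where
  ok : T.Ok
  big : 16 ≤ T.r * Real.exp T0
  long : ∀ w, 2 * T0 + 10 ≤ L w

/-- the sets where the maps differ from the identity -/
def AS (T : TD M) (T0 : ℝ) (L : T.V → ℝ) : T.S → Set E4 :=
  Sum.elim (fun _ => ∅) fun w => {y | w ≠ T.root ∧ y ∈ An T0 (L w)}

/-- the maps -/
def PS (T : TD M) (T0 : ℝ) (L : T.V → ℝ) (a : T.V → Mt) : T.S → E4 → E4 :=
  Sum.elim (fun _ z => z) fun w => PsiA (etG T T0 L w) (a w)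

/-- the flat part of a neck -/
def Fl (T0 L : ℝ) : Set E4 :=
  {y | Real.exp (T0 + 1 / 10) < ‖y‖ ∧ ‖y‖ < Real.exp (L - T0 - 1 / 10)}

theorem isOpen_Fl (T0 L : ℝ) : IsOpen (Fl T0 L) :=
  (isOpen_lt continuous_const continuous_norm).inter (isOpen_lt continuous_norm continuous_const)

theorem An_sub (T0 L : ℝ) : An T0 L ⊆ Fl T0 L := fun _ hy =>
  ⟨(Real.exp_lt_exp.2 (by linarith)).trans_le hy.1, hy.2.trans_lt (Real.exp_lt_exp.2 (by linarith))⟩

theorem Fl.log {T0 L : ℝ} {y : E4} (h : y ∈ Fl T0 L) :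
    y ≠ 0 ∧ T0 + 1 / 10 ≤ Real.log ‖y‖ ∧ Real.log ‖y‖ ≤ L - T0 - 1 / 10 := by
  have h0 : 0 < ‖y‖ := (Real.exp_pos _).trans h.1
  exact ⟨norm_pos_iff.1 h0, (Real.le_log_iff_exp_le h0).2 h.1.le,
    (Real.log_le_iff_le_exp h0).2 h.2.le⟩

theorem log_exp_smul (t : ℝ) {y : E4} (hy : y ≠ 0) :
    Real.log ‖Real.exp t • y‖ = t + Real.log ‖y‖ := by
  rw [norm_smul, Real.norm_of_nonneg (Real.exp_pos t).le,
    Real.log_mul (Real.exp_pos t).ne' (norm_ne_zero_iff.2 hy), Real.log_exp]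

theorem inv_id : Inv (fun z => z) (fun z => z) ∅ :=
  ⟨isClosed_empty, contDiff_id, contDiff_id, fun _ => rfl, fun _ => rfl, fun _ _ => rfl,
    fun y p j => by rw [jc_id]; norm_num⟩

theorem mem_AS {T0 : ℝ} {L : T.V → ℝ} {s : T.S} {y : E4} (h : y ∈ AS T T0 L s) :
    ∃ w, s = Sum.inr w ∧ w ≠ T.root ∧ y ∈ An T0 (L w) := by
  rcases s with b | w
  · exact absurd h (notMem_empty y)
  · exact ⟨w, rfl, h⟩

theorem AS_inr {T0 : ℝ} {L : T.V → ℝ} {w : T.V} (hw : w ≠ T.root) :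
    AS T T0 L (Sum.inr w) = An T0 (L w) := by
  ext y; exact and_iff_right hw

namespace Hyp

variable {T0 : ℝ} {L : T.V → ℝ} (h : Hyp T T0 L) {w : T.V} {y : E4}
include h

theorem exp_ge : 16 ≤ Real.exp T0 :=
  h.big.trans (mul_le_of_le_one_left (Real.exp_pos _).le h.ok.r_lt.le)

theorem nonneg : 0 ≤ T0 := by
  by_contra h1
  linarith [Real.exp_le_one_iff.2 (not_le.1 h1).le, h.exp_ge]

theorem lng : T.Long L := fun w _ => h.big.trans (mul_le_mul_of_nonneg_left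
  (Real.exp_le_exp.2 (by linarith [h.long w, h.nonneg])) h.ok.r_pos.le)

theorem fl_bd (hy : y ∈ Fl T0 (L w)) : 16 ≤ ‖y‖ ∧ 16 * ‖y‖ ≤ T.r * Real.exp (L w) := by
  refine ⟨h.exp_ge.trans ((Real.exp_le_exp.2 (by linarith)).trans hy.1.le), ?_⟩
  have h1 : ‖y‖ ≤ Real.exp (L w - T0) := hy.2.le.trans (Real.exp_le_exp.2 (by linarith))
  calc 16 * ‖y‖ ≤ T.r * Real.exp T0 * Real.exp (L w - T0) :=
        mul_le_mul h.big h1 (norm_nonneg _) (by linarith [h.big])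
    _ = _ := by rw [mul_assoc, ← Real.exp_add]; congr 2; ring

theorem fl_U (hy : y ∈ Fl T0 (L w)) : y ∈ (T.glob L).U (Sum.inr w) := by
  obtain ⟨h1, h2⟩ := h.fl_bd hy
  exact ⟨by linarith, fun _ => by linarith⟩

theorem fl_gK (hy : y ∈ Fl T0 (L w)) : y ∈ T.gK L (Sum.inr w) := by
  obtain ⟨h1, h2⟩ := h.fl_bd hy
  exact ⟨by linarith, fun _ => by linarith⟩

theorem fl_c (hy : y ∈ Fl T0 (L w)) :
    (T.glob L).c (Sum.inr w) y = Sum.inr (w, T.orb w y) := by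
  obtain ⟨h1, h2⟩ := h.fl_bd hy
  rw [TD.glob_c_inr, if_neg (by linarith), if_neg fun h3 => by
    linarith [TD.lt_nrm_exp.1 h3.2]]

theorem fl_χ (hy : y ∈ Fl T0 (L w)) : T.χ (Sum.inr w) ((T.glob L).c (Sum.inr w) y) = 1 := by
  rw [h.fl_c hy]; simp [TD.χ]

theorem AS_sub (s : T.S) : AS T T0 L s ⊆ (T.glob L).U s := fun y hy => by
  obtain ⟨w, rfl, -, h1⟩ := mem_AS hy
  exact h.fl_U (An_sub _ _ h1)

theorem tau_inn (hw : w ≠ T.root) (hy : y ≠ 0) (t : ℝ) :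
    tau T (T.par w) w t (Real.exp (-L w) • y) = L w - Real.log ‖y‖ - t := by
  rw [tau, if_neg (h.ok.par_ne hw), log_exp_smul _ hy]; ring

theorem fl_gb (g : T.V → Fam T) (hw : w ≠ T.root) (hy : y ∈ Fl T0 (L w)) :
    gbL T g T0 L (Sum.inr w) y = 1 := by
  obtain ⟨h0, h1, h2⟩ := Fl.log hy
  have e1 : stp 0 (1 / 10) (tau T w w T0 y) = 1 :=
    stp_one (by norm_num) (by rw [tau, if_pos rfl]; linarith)
  have e2 : stp 0 (1 / 10) (tau T (T.par w) w T0 (Real.exp (-L w) • y)) = 1 :=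
    stp_one (by norm_num) (by rw [h.tau_inn hw h0]; linarith)
  simp only [gbL, gb, Sum.elim_inr, e1, e2, if_neg hw, sub_self, zero_smul, add_zero]

theorem etG_eq (hw : w ≠ T.root) : etG T T0 L w = eta T0 (L w) := by
  funext y
  have e1 : tau T w w T0 y = 1 * Real.log ‖y‖ + -T0 := by rw [tau, if_pos rfl]; ring
  rcases eq_or_ne y 0 with rfl | hy
  · rw [etG, eta, etC, e1, stp_zero (by norm_num) (by simp; linarith [h.nonneg]), zero_mul,
      zero_mul]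
  · rw [etG, eta, etC, etC, e1, h.tau_inn hw hy]
    congr 2; ring

theorem PS_inr (a : T.V → Mt) (hw : w ≠ T.root) :
    PS T T0 L a (Sum.inr w) = PsiA (eta T0 (L w)) (a w) := by
  rw [← h.etG_eq hw]; rfl

theorem exists_u {δ0 : ℝ} (h0 : ∀ (T0 L : ℝ) (a : Mt), 0 ≤ T0 → (∀ p q, |a p q| ≤ δ0) →
    ∃ Φ, Inv (PsiA (eta T0 L) a) Φ (An T0 L)) {a : T.V → Mt} (ha : ∀ w, Adm T w (a w))
    (hδ : ∀ w p q, |a w p q| ≤ δ0) : ∃ u : T.S → E4 → E4,
      ∀ s, Inv (PS T T0 L a s) (u s) (AS T T0 L s) := by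
  refine Classical.skolem (p := fun s Φ => Inv (PS T T0 L a s) Φ (AS T T0 L s)).1 fun s => ?_
  rcases s with b | w
  · exact ⟨_, inv_id⟩
  · by_cases hw : w = T.root
    · have e1 : PS T T0 L a (Sum.inr w) = fun z => z := by
        funext z; simp [PS, PsiA, (ha w).root hw]
      have e2 : AS T T0 L (Sum.inr w) = ∅ := by ext y; simp [AS, hw]
      rw [e1, e2]
      exact ⟨_, inv_id⟩
    · rw [h.PS_inr a hw, AS_inr hw]
      exact h0 T0 (L w) (a w) h.nonneg (hδ w)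

theorem toL_zero {κ : T.V → Type} {ψ : ∀ v, κ v → Fam T} {T1 : ℝ} (hψ : Psi T κ ψ T1)
    (h1 : T1 ≤ T0) (hw : w ≠ T.root) (hy : y ∈ Fl T0 (L w)) (v : T.V) (j : κ v) :
    toL T L v (ψ v j) (Sum.inr w) y = 0 := by
  obtain ⟨h0, h2, h3⟩ := Fl.log hy
  simp only [toL, Sum.elim_inr]
  split_ifs with e1 e2
  · subst e1
    exact hψ.supp w j w y (TD.mem_core_out.2 (h.fl_U hy).1) (by rw [tau, if_pos rfl]; linarith)
  · refine hψ.supp v j w _ ((TD.mem_core_inn e1).2 ⟨e2.1, norm_pos_iff.2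
      (smul_ne_zero (Real.exp_pos _).ne' h0), e2.2⟩) ?_
    rw [← e2.1.2, h.tau_inn hw h0]
    linarith
  · rfl

theorem chart_eq {s s' : T.S} {x : E4} (hx : x ∈ AS T T0 L s)
    (e : (T.glob L).c s x = (T.glob L).c s' y) : s' = s := by
  obtain ⟨w, rfl, -, h1⟩ := mem_AS hx
  rw [h.fl_c (An_sub _ _ h1)] at e
  rcases s' with b | w'
  · exact absurd e Sum.inr_ne_inl
  · rw [TD.glob_c_inr] at e
    split_ifs at e
    rw [(Prod.mk.inj (Sum.inr.inj e)).1]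

end Hyp

theorem PS_eqv {T0 : ℝ} {L : T.V → ℝ} {a : T.V → Mt} (ha : ∀ w, Adm T w (a w)) (s : T.S) :
    ∀ γ ∈ T.grp s, ∀ y, PS T T0 L a s (γ y) = γ (PS T T0 L a s y) := by
  intro γ hγ y
  rcases s with b | w
  · rfl
  · have e : etG T T0 L w (γ y) = etG T T0 L w y := by
      simp only [etG, etC, tau, norm_smul, γ.norm_map]
    simp only [PS, Sum.elim_inr, PsiA, e, (ha w).comm γ hγ, map_add, map_smul]

section U

variable {T0 : ℝ} {L : T.V → ℝ} {a : T.V → Mt} {u : T.S → E4 → E4}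
  (hu : ∀ s, Inv (PS T T0 L a s) (u s) (AS T T0 L s))
include hu

theorem mor (h : Hyp T T0 L) (ha : ∀ w, Adm T w (a w)) :
    Atl.Mor (T.glob L) (T.glob L) id u := by
  have hO := h.ok.glob_ok h.lng
  have key : ∀ s, ∀ x ∈ (T.glob L).U s, ∀ y ∈ (T.glob L).U s,
      (T.glob L).c s x = (T.glob L).c s y → (T.glob L).c s (u s x) = (T.glob L).c s (u s y) := by
    intro s x hx y hy e
    obtain ⟨γ, hγ, rfl⟩ := (hO.fib s x hx y hy).1 e
    refine (hO.fib s _ ((hu s).maps (h.AS_sub s) hx) _ ((hu s).maps (h.AS_sub s) hy)).2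
      ⟨γ, hγ, ?_⟩
    conv_rhs => rw [← (hu s).r x, ← PS_eqv ha s γ hγ, (hu s).l]
  refine ⟨fun s x hx => (hu s).maps (h.AS_sub s) hx, fun s => (hu s).sΦ.contDiffOn,
    fun s x _ => (hu s).imm x, fun s s' x hx y hy e => ?_⟩
  by_cases h1 : x ∈ AS T T0 L s
  · obtain rfl := h.chart_eq h1 e
    exact key _ x hx y hy e
  · by_cases h2 : y ∈ AS T T0 L s'
    · obtain rfl := h.chart_eq h2 e.symm
      exact key _ x hx y hy e
    · rwa [(hu s).off' h1, (hu s').off' h2]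

theorem G_off (G : Fam T) {s : T.S} {y : E4} (hy : y ∉ AS T T0 L s) :
    pullM (u s) (G s) y = G s y := pullM_of_ev ((hu s).ev hy) _

theorem G_ev (G : Fam T) {s : T.S} {y : E4} (hy : y ∉ AS T T0 L s) :
    pullM (u s) (G s) =ᶠ[𝓝 y] G s := by
  filter_upwards [(hu s).cl.isOpen_compl.mem_nhds hy] with z hz using G_off hu G hz

theorem H_off (g : T.V → Fam T) {s : T.S} {y : E4} (hy : y ∉ AS T T0 L s) :
    gbL T g T0 L s y = gbLA T g T0 L a s y := by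
  rcases s with b | w
  · rfl
  · have : pullM (PsiA (etG T T0 L w) (a w)) (fun _ => 1) y = 1 := pullM_of_ev ((hu _).ev' hy) _
    simp only [gbLA, Sum.elim_inr, this, sub_self, add_zero]

theorem H_ev (g : T.V → Fam T) {s : T.S} {y : E4} (hy : y ∉ AS T T0 L s) :
    gbL T g T0 L s =ᶠ[𝓝 y] gbLA T g T0 L a s := by
  filter_upwards [(hu s).cl.isOpen_compl.mem_nhds hy] with z hz using H_off hu g hz

theorem nat_An (hN : NAT) (h : Hyp T T0 L) (g : T.V → Fam T) {G : Fam T} {w : T.V}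
    (hw : w ≠ T.root) (hG : IsRiemannianOn (G (Sum.inr w)) ((T.glob L).U (Sum.inr w))) {y : E4}
    (hy : y ∈ An T0 (L w)) :
    redT (gbL T g T0 L (Sum.inr w)) (pullM (u (Sum.inr w)) (G (Sum.inr w))) y =
      pullT (u (Sum.inr w)) (redT (gbLA T g T0 L a (Sum.inr w)) (G (Sum.inr w))) y ∧
    fgfF (gbL T g T0 L (Sum.inr w)) (pullM (u (Sum.inr w)) (G (Sum.inr w))) y =
      |(fderiv ℝ (u (Sum.inr w)) y).det| *
        fgfF (gbLA T g T0 L a (Sum.inr w)) (G (Sum.inr w)) (u (Sum.inr w) y) := by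
  have hA : AS T T0 L (Sum.inr w) ⊆ Fl T0 (L w) := AS_inr hw ▸ An_sub _ _
  refine hN _ _ _ _ _ _ _ y ((hu _).pull (isOpen_Fl _ _) hA
    (riemOn_mono hG (isOpen_Fl _ _) fun z hz => h.fl_U hz))
    ((hu _).pull_bg (isOpen_Fl _ _) hA (fun z hz => h.fl_gb g hw hz) fun z hz => ?_) (An_sub _ _ hy)
  simp only [gbLA, Sum.elim_inr, h.fl_gb g hw hz, add_sub_cancel]
  rfl

end U

end Crest.Agent.N207.CB.Pb

end
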