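import Crest.Agent.N207.CB.Pb3

/-!
# Row 207, leaf `CB.PB` (helper58), file 4: assembly
-/

set_option autoImplicit false

open scoped ContDiff
open Metric Set Filter Topology MeasureTheory
open Crest.GeometryTopology.CoordMetric
open Crest.Agent.N207.U Crest.Agent.N207.Lg Crest.Agent.R202.Tens Crest.Agent.N207.I

noncomputable section

namespace Crest.Agent.N207.CB.Pb

variable {M : Type*} {T : TD M} {T0 : ℝ} {L : T.V → ℝ} {a : T.V → Mt} {u : T.S → E4 → E4}
  {g : T.V → Fam T} {κ : T.V → Type} [∀ v, Fintype (κ v)] {ψ : ∀ v, κ v → Fam T} {δ δ' T1 : ℝ}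
  {θ μ : (Σ v, κ v) → ℝ} {G : Fam T}

theorem ls_riem (hS : LSb T g T0 κ ψ δ' L θ μ (gbLA T g T0 L a) G) (s : T.S) :
    IsRiemannianOn (G s) ((T.glob L).U s) :=
  riem_of_smul (pow_pos (TD.eps_pos L _) 2) (hS.met.riem s)

variable (hu : ∀ s, Inv (PS T T0 L a s) (u s) (AS T T0 L s)) (h : Hyp T T0 L)
  (hS : LSb T g T0 κ ψ δ' L θ μ (gbLA T g T0 L a) G)
include hu h hS

theorem ls_met (ha : ∀ w, Adm T w (a w)) :
    (T.glob L).IsMet fun s x => T.eps L (T.un s) ^ 2 • pullM (u s) (G s) x := by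
  have hO := h.ok.glob_ok h.lng
  refine (mor hu h ha).isMet hO hO hS.met fun s x _ => ?_
  rw [← matT_pullM]
  funext I
  simp only [matT, id, pullM_smul]

theorem ls_el (hN : NAT) (hψ : Psi T κ ψ T1) (h1 : T1 ≤ T0) (s : T.S) (x : E4)
    (hx : x ∈ (T.glob L).U s) (k : M2 (Fin 4) ℝ) (hk : ∀ a b, k a b = k b a) :
    tr2 (vG (Lg.sq (pullM (u s) (G s)) x) (iv (pullM (u s) (G s)) x) k)
      (a2 (redT (gbL T g T0 L s) (pullM (u s) (G s)) x)) =
      ∑ j : Σ v, κ v, μ j * ((T.eps L (T.un s) / T.eps L j.1) ^ 2 * (Lg.sq (gbL T g T0 L s) x *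
        tr2 (up (iv (gbL T g T0 L s) x) fun a b => toL T L j.1 (ψ j.1 j.2) s x a b) k)) := by
  by_cases hA : x ∈ AS T T0 L s
  · obtain ⟨w, rfl, hw, h2⟩ := mem_AS hA
    have h3 : u (Sum.inr w) x ∈ An T0 (L w) := ((hu _).mem hA).2
    have hU := h.fl_U (An_sub _ _ h3)
    have h4 := hS.el _ _ hU
    simp only [h.toL_zero hψ h1 hw (An_sub _ _ h2), h.toL_zero hψ h1 hw (An_sub _ _ h3),
      Matrix.zero_apply, up, tr2, mul_zero, zero_mul, Finset.sum_const_zero] at h4 ⊢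
    have h5 := el_pull (s' := Lg.sq (pullM (u (Sum.inr w)) (G (Sum.inr w))) x)
      ((hu (Sum.inr w)).unit x)
      (Real.sqrt_pos.2 ((ls_riem hS _).posDef _ hU).det_pos).ne'
      (X := Matrix.of (a2 (redT (gbLA T g T0 L a (Sum.inr w)) (G (Sum.inr w))
        (u (Sum.inr w) x)))) h4 k hk
    rw [← a2_pull, ← (nat_An hu hN h g hw (ls_riem hS _) h2).1, ← pullM_eq] at h5
    exact h5
  · have e1 : Lg.sq (pullM (u s) (G s)) x = Lg.sq (G s) x := by simp only [Lg.sq, G_off hu G hA]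
    have e2 : iv (pullM (u s) (G s)) x = iv (G s) x := by
      funext p q; simp only [iv, G_off hu G hA]
    have e3 : Lg.sq (gbL T g T0 L s) x = Lg.sq (gbLA T g T0 L a s) x := by
      simp only [Lg.sq, H_off hu g hA]
    have e4 : iv (gbL T g T0 L s) x = iv (gbLA T g T0 L a s) x := by
      funext p q; simp only [iv, H_off hu g hA]
    rw [e1, e2, e3, e4, redT_congr' (H_ev hu g hA) (G_ev hu G hA)]
    exact hS.el s x hx k hk

theorem ls_con (hψ : Psi T κ ψ T1) (h1 : T1 ≤ T0) (j : Σ v, κ v) :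
    pair T g j.1 (ψ j.1 j.2) (loc T L j.1 ((fun s => pullM (u s) (G s)) - gbL T g T0 L)) = θ j := by
  rw [← hS.con j]
  obtain ⟨v, j⟩ := j
  refine Finset.sum_congr rfl fun s _ => setIntegral_congr_fun
    ((h.ok.core_ok v).isOpen s).measurableSet fun x hx => ?_
  have key : ψ v j s x = 0 ∨ loc T L v ((fun s => pullM (u s) (G s)) - gbL T g T0 L) s x =
      loc T L v (G - gbLA T g T0 L a) s x := by
    have e : ∀ s y, y ∉ AS T T0 L s → ((fun s => pullM (u s) (G s)) - gbL T g T0 L) s y =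
        (G - gbLA T g T0 L a) s y := fun s y hy => by
      simp only [Pi.sub_apply, G_off hu G hy, H_off hu g hy]
    rcases s with b | w
    · exact Or.inr (e _ x (notMem_empty x))
    · simp only [loc, Sum.elim_inr]
      split_ifs with hw
      · by_cases hA : x ∈ AS T T0 L (Sum.inr w)
        · refine Or.inl (hψ.supp v j w x hx ?_)
          rw [tau, if_pos hw]
          linarith [((mem_An (An.ne hA.2)).1 hA.2).1]
        · exact Or.inr (e _ x hA)
      · by_cases hA : Real.exp (L w) • x ∈ AS T T0 L (Sum.inr w)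
        · refine Or.inl (hψ.supp v j w x hx ?_)
          have h2 := ((mem_An (An.ne hA.2)).1 hA.2).2
          rw [log_exp_smul _ (norm_pos_iff.1 ((TD.mem_core_inn hw).1 hx).2.1)] at h2
          rw [tau, if_neg hw]
          linarith
        · exact Or.inr (e _ _ hA)
  rcases key with e | e
  · simp [ip, ipA, matT, e]
  · simp only [ip, ipA, matT, e]

theorem ls_small {C : ℝ} (hC : ∀ d : D1 2, ∀ k ≤ 2, ∀ p q, d.s ^ k *
      ‖iteratedFDeriv ℝ k (fun z => pullM d.Φ d.G z p q - (1 : Mt) p q) d.y‖ ≤ C * d.δ)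
    (hδ : ∀ w p q, |a w p q| ≤ δ') (h1 : δ' ≤ 1) (h2 : δ' ≤ δ) (h3 : C * δ' ≤ δ) (s : T.S) (x : E4)
    (hx : x ∈ T.gK L s) (y : E4) (hy : y ∈ ball x (rad T s x)) (k : ℕ) (hk : k ≤ 2) (p q : Fin 4) :
    scl T s x ^ k * ‖iteratedFDeriv ℝ k
      (fun y => (pullM (u s) (G s) y - gbL T g T0 L s y) p q) y‖ ≤ δ := by
  by_cases hA : y ∈ AS T T0 L s
  · obtain ⟨w, rfl, hw, h4⟩ := mem_AS hA
    have h5 : u (Sum.inr w) y ∈ An T0 (L w) := ((hu _).mem hA).2
    have hU := h.fl_U (An_sub _ _ h5)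
    have ev : ∀ (K : MetricField 4) (z : E4) (p q : Fin 4), z ∈ An T0 (L w) →
        (fun y => (K y - gbL T g T0 L (Sum.inr w) y) p q) =ᶠ[𝓝 z]
          fun y => K y p q - (1 : Mt) p q := fun K z p q hz => by
      filter_upwards [(isOpen_Fl _ _).mem_nhds (An_sub _ _ hz)] with y hy
      rw [h.fl_gb g hw hy, Matrix.sub_apply]
    have hi := hu (Sum.inr w)
    rw [h.PS_inr a hw, AS_inr hw] at hi
    have h6 : ‖x‖ ≤ 2 * ‖y‖ := by
      have : ‖y - x‖ < ‖x‖ / 8 := mem_ball_iff_norm.1 hy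
      linarith [norm_sub_norm_le x y, norm_sub_rev x y, norm_nonneg y]
    rw [((ev _ y p q h4).iteratedFDeriv ℝ k).eq_of_nhds]
    refine le_trans (hC ⟨T0, L w, δ', a w, u (Sum.inr w), G (Sum.inr w), y, ‖x‖, h.nonneg, hδ w, h1,
      hi, h4, by linarith [hx.1], h6, fun p q => ((ls_riem hS _).contDiffOn p q).contDiffAt
        ((ls_riem hS _).isOpen.mem_nhds hU), fun k hk p q => ?_⟩ k hk p q) h3
    rw [← ((ev _ _ p q h5).iteratedFDeriv ℝ k).eq_of_nhds]
    exact hS.small (Sum.inr w) _ (h.fl_gK (An_sub _ _ h5)) _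
      (mem_ball_self (div_pos (norm_pos_iff.2 (An.ne h5)) (by norm_num))) k hk p q
  · have e : (fun y => (pullM (u s) (G s) y - gbL T g T0 L s y) p q) =ᶠ[𝓝 y]
        fun y => (G s y - gbL T g T0 L s y) p q :=
      (G_ev hu G hA).mono fun z hz => by simp only [hz]
    rw [(e.iteratedFDeriv ℝ k).eq_of_nhds]
    exact (hS.small s x hx y hy k hk p q).trans h2

theorem ls_den (hN : NAT) (s : T.S) (x : E4) :
    T.χ s ((T.glob L).c s x) * fgfF (gbL T g T0 L s) (pullM (u s) (G s)) x =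
      |(fderiv ℝ (u s) x).det| •
        (T.χ s ((T.glob L).c s (u s x)) * fgfF (gbLA T g T0 L a s) (G s) (u s x)) := by
  by_cases hA : x ∈ AS T T0 L s
  · obtain ⟨w, rfl, hw, h4⟩ := mem_AS hA
    rw [h.fl_χ (An_sub _ _ h4), h.fl_χ (An_sub _ _ ((hu _).mem hA).2), one_mul, one_mul,
      (nat_An hu hN h g hw (ls_riem hS _) h4).2, smul_eq_mul]
  · rw [((hu s).ev hA).fderiv_eq, (hu s).off' hA, fgfF_congr' (H_ev hu g hA) (G_ev hu G hA)]
    simp [ContinuousLinearMap.det]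

theorem ls_int (hN : NAT) (s : T.S) :
    IntegrableOn (fun x => T.χ s ((T.glob L).c s x) *
      fgfF (gbL T g T0 L s) (pullM (u s) (G s)) x) ((T.glob L).U s) ∧
    ∫ x in (T.glob L).U s, T.χ s ((T.glob L).c s x) *
      fgfF (gbL T g T0 L s) (pullM (u s) (G s)) x =
    ∫ x in (T.glob L).U s, T.χ s ((T.glob L).c s x) * fgfF (gbLA T g T0 L a s) (G s) x := by
  have hm := ((h.ok.glob_ok h.lng).isOpen s).measurableSet
  have hd : ∀ x ∈ (T.glob L).U s,
      HasFDerivWithinAt (u s) (fderiv ℝ (u s) x) ((T.glob L).U s) x := fun x _ =>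
    ((hu s).dΦ x).hasFDerivAt.hasFDerivWithinAt
  have hi : InjOn (u s) ((T.glob L).U s) := (Function.LeftInverse.injective (hu s).r).injOn
  have h1 := integrableOn_image_iff_integrableOn_abs_det_fderiv_smul volume hm hd hi
    fun x => T.χ s ((T.glob L).c s x) * fgfF (gbLA T g T0 L a s) (G s) x
  have h2 := integral_image_eq_integral_abs_det_fderiv_smul volume hm hd hi
    fun x => T.χ s ((T.glob L).c s x) * fgfF (gbLA T g T0 L a s) (G s) x
  rw [(hu s).image (h.AS_sub s)] at h1 h2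
  simp only [ls_den hu h hS hN]
  exact ⟨h1.1 (hS.int s), h2.symm⟩

omit hu h hS in
theorem pb_of (hN : NAT) (T : TD M) : PB T := by
  intro g γ _ hT _ κ _ ψ T1 hψ δ hδ
  obtain ⟨δ0, h0, hinv⟩ := exists_inv
  obtain ⟨C, hC, hj⟩ := pull_jets 2
  have hr := hT.r_pos
  refine ⟨min (min δ0 1) (min δ (δ / C)), max T1 (Real.log (16 / T.r)), by positivity,
    fun T0 hT0 L hL a ha hδ' θ μ G hS => ?_⟩
  have h : Hyp T T0 L := ⟨hT, by
    have := (Real.log_le_iff_le_exp (by positivity)).1 ((le_max_right _ _).trans hT0)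
    rwa [div_le_iff₀' hr] at this, hL⟩
  have h1 : T1 ≤ T0 := (le_max_left _ _).trans hT0
  have h2 : min (min δ0 1) (min δ (δ / C)) ≤ δ := (min_le_right _ _).trans (min_le_left _ _)
  obtain ⟨u, hu⟩ := h.exists_u hinv ha fun w p q =>
    (hδ' w p q).trans ((min_le_left _ _).trans (min_le_left _ _))
  refine ⟨fun s => pullM (u s) (G s), ⟨ls_met hu h hS ha, ls_el hu h hS hN hψ h1,
    ls_con hu h hS hψ h1, ls_small hu h hS hj hδ' ((min_le_left _ _).trans (min_le_right _ _)) h2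
      ((le_div_iff₀' hC).1 ((min_le_right _ _).trans (min_le_right _ _))), hS.mu.trans h2,
    fun x hx k hk p q => ?_, fun s => (ls_int hu h hS hN s).1⟩, ?_⟩
  · have e : pullM (u (Sum.inr T.root)) (G (Sum.inr T.root)) = G (Sum.inr T.root) :=
      funext fun y => G_off hu G fun hy => hy.1 rfl
    rw [e]
    exact (hS.dec x hx k hk p q).trans (mul_le_mul_of_nonneg_right h2 (by positivity))
  · exact Finset.sum_congr rfl fun s _ => by rw [(ls_int hu h hS hN s).2]

end Crest.Agent.N207.CB.Pb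

end
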