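import Crest.Agent.N207.CB.St2

/-!
# Row 207, block L (helper92): leaves `BG0`, `BGA`, `TRN`, `SECR`, `INT`, `GLU`
-/

set_option autoImplicit false

open scoped ContDiff
open Metric Set Filter Topology MeasureTheory
open Crest.GeometryTopology.CoordMetric
open Crest.Agent.NLib.Ell Crest.Agent.N207.I Crest.Agent.N207.Lg Crest.Agent.N207.J

noncomputable section

namespace Crest.Agent.N207.CB

variable {M : Type*} (T : TD M)

/-- complex matrices (sup norm) -/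
abbrev MtC : Type := Fin 4 → Fin 4 → ℂ

/-- a real matrix as a complex one -/
def cm (a : Mt) : MtC := fun p q => ((a p q : ℝ) : ℂ)

/-- a field on the end `u` only -/
def onE (u : T.V) (β : MetricField 4) : Fam T := fun s => if s = Sum.inr u then β else 0

/-- `+1` on the outer end, `-1` at a puncture -/
def sgn (v u : T.V) : ℝ := if u = v then 1 else -1

/-- a field given in the unit scale, put on the end `u` of `core v` -/
def endF (v u : T.V) (T0 : ℝ) (β : MetricField 4) : Fam T :=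
  onE T u fun x => β (Real.exp (-(sgn T v u * T0)) • x)

/-- **leaf BG0**: the reference metric is close to the limit -/
def BG0 : Prop :=
  ∀ (g : T.V → Fam T) (γ : ℝ), 0 < γ → T.Ok → T.Lim g γ → ∀ k : ℕ, ∃ C T1 : ℝ, ∀ v T0, T1 ≤ T0 →
    Sec T v (gb T g T0 v - g v) ∧ ∃ W : MC T v k, Lf T 0 (gb T g T0 v - g v) W ∧
      ‖W‖ ≤ C * Real.exp (-(γ * T0))

/-- **leaf BGA**: the background in the `A`-coordinates is a polynomial in `a`, and flat where it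
differs from `gb` -/
def BGA : Prop :=
  T.Ok → ∀ k : ℕ, ∃ C T1 : ℝ, 0 < C ∧ ∀ v T0, T1 ≤ T0 →
    (∀ u, ∃ (B₁ : MtC →L[ℂ] MC T v k) (B₂ : MtC →L[ℂ] MtC →L[ℂ] MC T v k), ‖B₁‖ ≤ C ∧ ‖B₂‖ ≤ C ∧
      ∀ a : Mt, Lf T 0 (onE T u (pullM (PsiA (etC T v u T0) a) fl1 - fl1))
        (B₁ (cm a) + B₂ (cm a) (cm a))) ∧
    (∀ u a, Adm T u a → Sec T v (onE T u (pullM (PsiA (etC T v u T0) a) fl1 - fl1))) ∧
    (∀ u (a : Mt), a.IsSymm → ∀ x : E4, x ≠ 0 → 4 / 5 ≤ tau T v u T0 x →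
      pullM (PsiA (etC T v u T0) a) fl1 x = (1 + a) * (1 + a)) ∧
    ∀ (g : T.V → Fam T) (a : T.V → Mt) s, ∀ x ∈ (T.core v).U s, (gbA T g T0 a v s x).PosDef →
      redM (gbA T g T0 a v s) (gbA T g T0 a v s) x = redM (gb T g T0 v s) (gb T g T0 v s) x

/-- **leaf TRN**: transport of a collar input to an end, averaged over `Γ` and symmetrised -/
def TRN : Prop :=
  T.Ok → ∀ k : ℕ, ∃ C T1 : ℝ, 0 < C ∧ ∀ v u T0, T1 ≤ T0 → ∃ Θ : MJ k →L[ℂ] MC T v k, ‖Θ‖ ≤ C ∧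
    (∀ W, Cpx (sgn T v u) W → Θ W ∈ XC T v k 0) ∧
    ∀ (β : MetricField 4) (W : MJ k), LfJ β W → Inv (T.Γ u) ∞ {x | x ≠ 0} β →
      (∀ x : E4, sgn T v u * Real.log ‖x‖ ≤ 22 / 10 → β x = 0) →
      Sec T v (endF T v u T0 β) ∧ Lf T 0 (endF T v u T0 β) (Θ W)

/-- **leaf SECR**: naturality on an atlas -/
def SECR (X : Type*) : Prop :=
  ∀ (α : Type) (A : Atl X α) (H G ψ : α → MetricField 4), A.Ok → A.IsMet H → A.IsMet G →
    (A.Sec (fun s => matT (redM (H s) (G s))) ∧ ∀ s, ∀ x ∈ A.U s, (redM (H s) (G s) x).IsSymm) ∧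
    (A.Sec (fun s => matT (ψ s)) → (∀ s, ∀ x ∈ A.U s, (ψ s x).IsSymm) →
      A.Sec (fun s => matT (PsT (H s) (G s) (ψ s))) ∧
        ∀ s, ∀ x ∈ A.U s, (PsT (H s) (G s) (ψ s) x).IsSymm)

/-- the part `tau < c` of the chart `s` of `core v` -/
def UR (v : T.V) (T0 c : ℝ) (s : T.S) : Set E4 :=
  {x | x ∈ (T.core v).U s ∧ ∀ u, s = Sum.inr u → tau T v u T0 x < c}

/-- the integral of a density over `tau < 1` -/
def actC (v : T.V) (T0 : ℝ) (f : T.S → E4 → ℝ) : ℝ :=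
  ∑ s, (Nat.card (T.grp s) : ℝ)⁻¹ * ∫ x in UR T v T0 1 s, T.χ s ((T.core v).c s x) * f s x

/-- **leaf INT** -/
def INT : Prop :=
  T.Ok → ∀ (v : T.V) (k : ℕ) (T0 : ℝ), ∃ (S : Submodule ℂ (Cel (CI T v) k)) (I : S →L[ℂ] ℂ),
    IsClosed (S : Set (Cel (CI T v) k)) ∧ ∀ (f : T.S → E4 → ℝ) (W : Cel (CI T v) k),
      (∀ i : CI T v, LfS T i 2 (f i.1.1) W) → ∃ h : W ∈ S, I ⟨W, h⟩ = (actC T v T0 f : ℝ)

/-- a solution on the part `tau < 2` of `core v` -/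
structure CoS (g : T.V → Fam T) (T0 : ℝ) {κ : Type} [Fintype κ] (v : T.V) (ψ : κ → Fam T)
    (a : T.V → Mt) (δ : ℝ) (θ μ : κ → ℝ) (G : Fam T) : Prop where
  sm : ∀ s p q, ContDiffOn ℝ ∞ (fun x => G s x p q) (UR T v T0 2 s)
  pos : ∀ s, ∀ x ∈ UR T v T0 2 s, (G s x).PosDef
  compat : (T.core v).Compat fun s => matT (G s)
  eq : ∀ s, ∀ x ∈ UR T v T0 2 s, redM (gbA T g T0 a v s) (G s) x =
    -∑ j, μ j • PsT (gbA T g T0 a v s) (G s) (ψ j s) x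
  con : ∀ j, pair T g v (ψ j) (G - gbA T g T0 a v) = θ j
  small : ∀ s, ∀ x ∈ T.cK v s, ∀ y ∈ ball x (rad T s x), ∀ k ≤ 2, ∀ p q,
    scl T s x ^ k * ‖iteratedFDeriv ℝ k (fun y => (G s y - gb T g T0 v s y) p q) y‖ ≤ δ
  mu : ‖μ‖ ≤ δ

/-- the `log`-radii of the extended neck `w` in the unit scale -/
def nI (T0 : ℝ) (L : T.V → ℝ) (w : T.V) : Set ℝ :=
  if w = T.root then Ioi 1 else Ioo 1 (L w - 2 * T0 - 1)

/-- **leaf GLU**: gluing on `glob L` and the action -/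
def GLU : Prop :=
  ∀ (g : T.V → Fam T) (γ : ℝ), 0 < γ → T.Ok → T.Lim g γ →
    ∀ (κ : T.V → Type) [∀ v, Fintype (κ v)] (ψ : ∀ v, κ v → Fam T) (T1 : ℝ), Psi T κ ψ T1 →
    ∃ T2 : ℝ, ∀ T0, T2 ≤ T0 → ∀ L : T.V → ℝ, (∀ w, 2 * T0 + 10 ≤ L w) →
      ∀ a : T.V → Mt, (∀ w, Adm T w (a w)) → (∀ w p q, |a w p q| ≤ 1 / 100) →
      ∀ (δ : ℝ) (θ μ : (Σ v, κ v) → ℝ) (G : T.V → Fam T) (u : T.V → MetricField 4)
        (en : T.V → ℝ),
        (∀ v, CoS T g T0 v (ψ v) a δ (fun j => θ ⟨v, j⟩) (fun j => μ ⟨v, j⟩) (G v)) →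
        (∀ w, ASol (T.Γ w) (nI T T0 L w) δ (en w) (u w)) →
        (∀ w, ∀ x ∈ An (Ioo 1 2), G w (Sum.inr w) (Real.exp T0 • x) = 1 + u w x) →
        (∀ w, w ≠ T.root → ∀ x ∈ An (Ioo (-2) (-1)),
          G (T.par w) (Sum.inr w) (Real.exp (-T0) • x) =
            1 + u w (Real.exp (L w - 2 * T0) • x)) →
        (∀ x ∈ An (Ioi 1), ∀ j ≤ 2, ∀ p q,
          ‖x‖ ^ j * ‖iteratedFDeriv ℝ j (fun z => u T.root z p q) x‖ ≤
            δ * (Real.exp 4 / ‖x‖) ^ (3 / 2 : ℝ)) →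
        ∃ G' : Fam T, LSb T g T0 κ ψ (2 * δ) L θ μ (gbLA T g T0 L a) G' ∧
          actL T L (gbLA T g T0 L a) G' =
            ∑ v, T.eps L v ^ 2 * (actC T v T0 (fun s => fgfF (gbA T g T0 a v s) (G v s)) +
              (Nat.card (T.Γ v) : ℝ)⁻¹ * (Real.exp (2 * T0) * en v))

end Crest.Agent.N207.CB

end
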