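import Crest.Agent.N207.CB.St3

/-!
# Row 207, block L (helper92): leaves `ANX`, `GRC`, `POPL`
-/

set_option autoImplicit false

open scoped ContDiff
open Metric Set Filter Topology MeasureTheory
open Crest.GeometryTopology.CoordMetric
open Crest.Agent.NLib.Ell Crest.Agent.N207.I Crest.Agent.N207.Lg Crest.Agent.N207.J

noncomputable section

namespace Crest.Agent.N207.CB

variable {M : Type*} (T : TD M)

/-- the end `u` of a family on `core v`, in the unit scale -/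
def unit (v u : T.V) (T0 : ℝ) (w : Fam T) : MetricField 4 :=
  fun x => w (Sum.inr u) (Real.exp (sgn T v u * T0) • x)

/-- complex admissible matrices -/
def SC (w : T.V) : Submodule ℂ MtC := Submodule.span ℂ (cm '' {a | Adm T w a})

/-- **leaf ANX**: amplitudes and constant mode of the elements of `XC` -/
def ANX : Prop :=
  T.Ok → ∃ C T1 : ℝ, 0 < C ∧ ∀ T0, T1 ≤ T0 →
    (∀ v, ∃ A : XC T v 8 0 →L[ℂ] DD, ‖A‖ ≤ C ∧ ∀ (W : XC T v 8 0) (w : Fam T), SecN T v 8 w →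
      Lf T 0 w W.1 → DatQ (unit T v v T0 w) 1 (A W) ∧
        Inv (T.Γ v) 2 (An (Ioo (1 / 2) (7 / 2))) (unit T v v T0 w) ∧
        B2 (An (Ioo (1 / 2) (7 / 2))) (C * ‖W‖) (unit T v v T0 w)) ∧
    ∀ v u, T.kid v u → ∃ (A : XC T v 8 0 →L[ℂ] DD) (c : XC T v 8 0 →L[ℂ] SC T u), ‖A‖ ≤ C ∧
      ‖c‖ ≤ C ∧ ∀ (W : XC T v 8 0) (w : Fam T), SecN T v 8 w → Lf T 0 w W.1 →
        Inv (T.Γ u) 2 (An (Ioo (-(7 / 2)) (-(1 / 2)))) (unit T v u T0 w) ∧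
        B2 (An (Ioo (-(7 / 2)) (-(1 / 2)))) (C * ‖W‖) (unit T v u T0 w) ∧
        ∃ c' : Mt, Adm T u c' ∧ (c W).1 = cm c' ∧
          (∀ a b, pm (cf (fun x => unit T v u T0 w x - c') a b) 0 (-3) = 0) ∧
          ∀ c'' : Mt, DatP (fun x => unit T v u T0 w x + c'') (-1) (A W) ∧ ∀ a b k,
            qm (cf (fun x => unit T v u T0 w x + c'') a b) k (-3) =
              qm (cf (unit T v u T0 w) a b) k (-3)

/-- **leaf GRC**: the meaning of the closure of the smooth graph -/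
def GRC : Prop :=
  T.Ok → ∀ (g : T.V → Fam T) (κ : Type) [Fintype κ] (ψ : κ → Fam T) (v : T.V) (T1 σ : ℝ),
    0 < σ → σ < 2 → (T.core v).IsMet (g v) → (∀ j, Sec T v (ψ j) ∧ Van T v T1 0 (ψ j)) →
    ∃ T2 : ℝ, ∀ T0, T2 ≤ T0 → ∀ (P : MC T v 8 →L[ℂ] MC T v 6) (Ψ : κ → MC T v 6),
      (∀ w W, Sec T v w → Lf T 0 w W → Lf T 2 (fun s => Pop (gb T g T0 v s) (w s)) (P W)) →
      (∀ j, Lf T 2 (fun s x => TRg (g v s x) (ψ j s x)) (Ψ j)) →
      ∀ z ∈ closure (GR T g ψ v T0 σ 6), z.2.1 ∈ XR T v 8 0 ∧ ∃ (μ : κ → ℝ), z.2.2 = cv μ ∧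
        (∀ (i : CI T v), ∀ y ∈ B1, (∀ u, i.1.1 = Sum.inr u → tau T v u T0 (cpt T i y) < 4) →
          ∀ a b, (P z.2.1 a b).val i y = (z.1.1 a b).val i y + ∑ j, μ j * (Ψ j a b).val i y) ∧
        ∀ w, SecN T v 8 w → Lf T 0 w z.2.1 → (∀ j, (pair T g v (ψ j) w : ℂ) = z.1.2 j) ∧
          (∀ a b k, pm (cf (unit T v v T0 w) a b) k 3 = 0) ∧
          ∀ u, T.kid v u → ∀ a b k, qm (cf (unit T v u T0 w) a b) k (-3) = 0

/-- **leaf POPL**: `Pop` is the derivative of the lift (for `C²` fields) -/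
def POPL : Prop :=
  ∀ (g : T.V → Fam T) (v : T.V) (k : ℕ) (Λ : Lift T g v k) (B : MC T v (k + 2)), ‖B‖ < Λ.ε →
    ∀ (i : CI T v) (β η : MetricField 4) (W : MC T v (k + 2)), LfAt T i 0 β B → LfAt T i 0 η W →
      (∀ y ∈ B1, (β (cpt T i y)).IsSymm ∧ (η (cpt T i y)).IsSymm) →
      LfAt T i 2 (Pop (g v i.1.1 + β) η) ((2 : ℂ) • fderiv ℂ Λ.R (B, 0) (0, W))

end Crest.Agent.N207.CB

end
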