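import Crest.Agent.N207.CB.St4

/-!
# Row 207, block L (helper92): the core step `CORE` and the global assembly `GLB`
-/

set_option autoImplicit false

open scoped ContDiff
open Metric Set Filter Topology MeasureTheory
open Crest.GeometryTopology.CoordMetric
open Crest.Agent.NLib.Ell Crest.Agent.N207.I Crest.Agent.N207.Lg Crest.Agent.N207.J

noncomputable section

namespace Crest.Agent.N207.CB

variable {M : Type*} (T : TD M)

/-- the arguments `((W, μ), a, b, θ)` of the core step -/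
abbrev Zc (v : T.V) (κ : Type) : Type :=
  (XC T v 8 0 × (κ → ℂ)) × (∀ u, SC T u) × XC T v 8 0 × (κ → ℂ)

/-- `(1 + a)² - 1` -/
def cA (a : Mt) : Mt := 2 • a + a * a

/-- the constant mode of the parent is cut on the outer end of `v` -/
def cutA (v : T.V) (T0 : ℝ) (a : Mt) : Fam T :=
  onE T v fun x => stp (17 / 20) (19 / 20) (tau T v v T0 x) • cA a

/-- the real points -/
structure ZR {v : T.V} {κ : Type} (z : Zc T v κ) (μ : κ → ℝ) (a : T.V → Mt) (θ : κ → ℝ) : Prop where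
  hW : z.1.1.1 ∈ XR T v 8 0
  hμ : z.1.2 = cv μ
  ha : ∀ u, Adm T u (a u) ∧ (z.2.1 u).1 = cm (a u)
  hb : z.2.2.1.1 ∈ XR T v 8 0
  hθ : z.2.2.2 = cv θ

/-- what a real fixed point of the core step means -/
structure CoM (g : T.V → Fam T) (T0 : ℝ) {κ : Type} [Fintype κ] (v : T.V) (ψ : κ → Fam T)
    (a : T.V → Mt) (δ : ℝ) (θ μ : κ → ℝ) (β w G : Fam T) : Prop where
  cos : CoS T g T0 v ψ a δ θ (fun j => -(μ j / 2)) G
  outP : ∀ p q k, pm (cf (unit T v v T0 w) p q) k 3 = 0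
  outE : ∀ x ∈ An (Ioo 1 3), (1 - rho (Real.log ‖x‖)) • Pop fl1 (unit T v v T0 w) x +
    (2 * rho (Real.log ‖x‖)) • redM fl1 (fl1 + unit T v v T0 β + unit T v v T0 w) x = 0
  outG : ∀ x ∈ An (Ioo 1 2), G (Sum.inr v) (Real.exp T0 • x) = 1 + unit T v v T0 w x
  innQ : ∀ u, T.kid v u → ∀ p q k, qm (cf (unit T v u T0 w) p q) k (-3) = 0
  innE : ∀ u, T.kid v u → ∀ x ∈ An (Ioo (-3) (-1)),
    (1 - rho (-Real.log ‖x‖)) • Pop fl1 (fun x => unit T v u T0 w x + cA (a u)) x +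
      (2 * rho (-Real.log ‖x‖)) •
        redM fl1 (fl1 + unit T v u T0 β + fun x => unit T v u T0 w x + cA (a u)) x = 0
  innG : ∀ u, T.kid v u → ∀ x ∈ An (Ioo (-2) (-1)),
    G (Sum.inr u) (Real.exp (-T0) • x) = 1 + (unit T v u T0 w x + cA (a u))

/-- **one step of the iteration on `core v`**, and the action of the core -/
structure CoreStep (g : T.V → Fam T) {κ : Type} [Fintype κ] (ψ : κ → Fam T) (v : T.V)
    (T0 ε K η : ℝ) where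
  Φ : Zc T v κ → XC T v 8 0 × (κ → ℂ)
  S : Zc T v κ → ℂ
  B : ℝ
  hΦ : DifferentiableOn ℂ Φ (ball 0 ε)
  hS : DifferentiableOn ℂ S (ball 0 ε)
  bΦ : ∀ z ∈ ball (0 : Zc T v κ) ε,
    ‖Φ z‖ ≤ K * (η + ‖z.2.2.2‖ + ‖z.2.1 v‖ + ‖z.2.2.1‖ + ‖z‖ ^ 2)
  bS : ∀ z ∈ ball (0 : Zc T v κ) ε, ‖S z‖ ≤ B
  real : ∀ z ∈ ball (0 : Zc T v κ) ε, ∀ μ a θ, ZR T z μ a θ →
    (Φ z).1.1 ∈ XR T v 8 0 ∧ ∃ μ', (Φ z).2 = cv μ'
  fix : ∀ z ∈ ball (0 : Zc T v κ) ε, ∀ μ a θ, ZR T z μ a θ → Φ z = z.1 → ∀ β w : Fam T,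
    Sec T v β → Lf T 0 β z.2.2.1.1 →
    (∀ s, ∀ x ∈ UR T v T0 (22 / 10) s, β s x = 0) → SecN T v 8 w → Lf T 0 w z.1.1.1 →
    ∃ G, CoM T g T0 v ψ a (K * (η + ‖z‖)) θ μ β w G ∧
      S z = (actC T v T0 (fun s => fgfF (gbA T g T0 a v s) (G s)) : ℝ)

/-- **CORE (helper92)** -/
def CORE : Prop :=
  ∀ (g : T.V → Fam T) (γ σ : ℝ), 0 < γ → 0 < σ → σ < 1 → T.Ok → T.Lim g γ →
    ∀ (κ : T.V → Type) [∀ v, Fintype (κ v)] (ψ : ∀ v, κ v → Fam T), KLin T g κ ψ σ →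
      ∃ ε C T1 : ℝ, 0 < ε ∧ 1 ≤ C ∧ Psi T κ ψ T1 ∧ ∀ T0, T1 ≤ T0 → ∀ v,
        Nonempty (CoreStep T g (ψ v) v T0 ε (C * Real.exp (2 * σ * T0)) (Real.exp (-(γ * T0))))

/-- **GLB**: the global fixed point -/
def GLB : Prop :=
  CORE T → XNS → XHS → ANX T → TRN T → REG T → GLU T → PB T → DSH → LStmt T

end Crest.Agent.N207.CB

end
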