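import Crest.Agent.N207.CB.St3
import Crest.Agent.N207.I.Car4

/-!
# Row 207, block L (helper78): rotations of cells, averaging over a finite group of isometries
-/

set_option autoImplicit false

open scoped ContDiff Matrix
open Metric Set Filter Topology MeasureTheory
open Crest.GeometryTopology.CoordMetric
open Crest.Agent.NLib.Ell Crest.Agent.N207.I Crest.Agent.N207.Lg Crest.Agent.N207.J
open Crest.Agent.R273.SchA_152

noncomputable section

namespace Crest.Agent.N207.CB.Trn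

/-- the matrix of a linear isometry -/
def mat (γ : Iso4) : Mt := Matrix.of fun p a => γ (EuclideanSpace.single a 1) p

theorem iso_eq (γ : Iso4) (v : E4) : γ v = ∑ q, v q • γ (EuclideanSpace.single q 1) := by
  have h : v = ∑ q, v q • (EuclideanSpace.single q 1 : E4) := by
    ext p; simp [Finset.sum_apply, Pi.single_apply]
  conv_lhs => rw [h]
  simp only [map_sum, map_smul]

theorem abs_mat (γ : Iso4) (p a : Fin 4) : |mat γ p a| ≤ 1 := by
  have := PiLp.norm_apply_le (γ (EuclideanSpace.single a (1 : ℝ))) p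
  simpa [mat] using this

theorem mat_mul (γ δ : Iso4) : mat (γ * δ) = mat γ * mat δ := by
  ext p a
  simp only [mat, Matrix.of_apply, Matrix.mul_apply, LinearIsometryEquiv.coe_mul, Function.comp]
  rw [iso_eq γ]
  simp [Finset.sum_apply, mul_comm]

theorem pullM_sum (γ : Iso4) (h : MetricField 4) (x : E4) (a b : Fin 4) :
    pullM γ h x a b = ∑ p, ∑ q, mat γ p a * mat γ q b * h (γ x) p q := by
  simp only [pullM, Matrix.of_apply, pullT, evT, matT, γ.fderiv]
  rw [← (finTwoArrowEquiv (Fin 4)).symm.sum_comp, Fintype.sum_prod_type]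
  simp [Fin.prod_univ_two, finTwoArrowEquiv, mat]

theorem pullM_iso (γ : Iso4) (h : MetricField 4) (x : E4) :
    pullM γ h x = (mat γ)ᵀ * h (γ x) * mat γ := by
  ext a b
  rw [pullM_sum]
  simp only [Matrix.mul_apply, Matrix.transpose_apply, Finset.sum_mul]
  rw [Finset.sum_comm]
  exact Finset.sum_congr rfl fun _ _ => Finset.sum_congr rfl fun _ _ => by ring

theorem matT_pullM (Φ : E4 → E4) (h : MetricField 4) : matT (pullM Φ h) = pullT Φ (matT h) := by
  funext y I
  simp only [matT, pullM, Matrix.of_apply]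
  congr 1
  funext s; fin_cases s <;> rfl

theorem cka_iso {F : Type} [NormedAddCommGroup F] [NormedSpace ℝ F] (γ : Iso4) {k : ℕ} {M : ℝ}
    {f : E4 → F} (h : CKA (1 / 2) B1 k M f) : CKA (1 / 2) B1 k (4 ^ k * M) fun y => f (γ y) := by
  have hm : ∀ y ∈ B1, γ y ∈ B1 := fun y hy => by simpa using hy
  have h0 : ∀ {f : E4 → F} {M : ℝ}, HO (1 / 2) M B1 f → HO (1 / 2) M B1 fun y => f (γ y) :=
    fun h => ⟨fun y hy => h.bdd _ (hm y hy), fun y hy z hz => by
      have := h.hol _ (hm y hy) _ (hm z hz)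
      rwa [← map_sub, γ.norm_map] at this⟩
  induction k generalizing f M with
  | zero => rw [pow_zero, one_mul]; exact h0 h
  | succ k ih =>
    have M0 : 0 ≤ M := h.nonneg (mem_ball_self one_pos)
    have hd : ∀ y ∈ B1, HasFDerivAt (fun y => f (γ y))
        ((fderiv ℝ f (γ y)).comp (γ.toContinuousLinearEquiv : E4 →L[ℝ] E4)) y := fun y hy =>
      (h.diffAt isOpen_ball (hm y hy)).hasFDerivAt.comp y γ.toContinuousLinearEquiv.hasFDerivAt
    refine ⟨(h0 h.ho).mono (le_mul_of_one_le_left M0 (one_le_pow₀ (by norm_num))),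
      fun y hy => (hd y hy).differentiableAt.differentiableWithinAt, fun a => ?_⟩
    have h1 := CKA.sum_le isOpen_ball fun p : Fin 4 =>
      ((ih (h.pd p)).smul isOpen_ball (mat γ p a)).mono
        (mul_le_of_le_one_left (by positivity) (abs_mat γ p a))
    refine (h1.congr isOpen_ball fun y hy => ?_).mono (le_of_eq (by simp; ring))
    rw [(hd y hy).fderiv]
    show fderiv ℝ f (γ y) (γ (EuclideanSpace.single a 1)) = _
    have e : γ (EuclideanSpace.single a 1) = ∑ p, mat γ p a • (EuclideanSpace.single p 1 : E4) :=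
      iso_eq 1 _
    rw [e]
    simp only [map_sum, map_smul]

variable {I J : Type} {k : ℕ}

theorem cka_rot (j : I → Option J) (γ : Iso4) (W : Cel J k) (i : I) :
    CKA (1 / 2) B1 k (4 ^ k * (‖W‖ / 2 ^ (k + 1))) fun y => (j i).elim 0 fun x => W.val x (γ y) := by
  cases j i with
  | none => exact CKA.zero.mono (by positivity)
  | some x => exact cka_iso γ (W.cka' x)

/-- re-indexing and rotating a family of cells -/
def rot (j : I → Option J) (γ : Iso4) : Cel J k →L[ℂ] Cel I k :=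
  LinearMap.mkContinuous
    { toFun := fun W => Cel.mk (fun i y => (j i).elim 0 fun x => W.val x (γ y))
        ⟨_, by positivity, cka_rot j γ W⟩
      map_add' := fun x z => Cel.ext fun i y hy => by
        simp only [Cel.val_mk _ _ i hy, Cel.val_add, Pi.add_apply]
        cases j i <;> simp
      map_smul' := fun c x => Cel.ext fun i y hy => by
        simp only [Cel.val_mk _ _ i hy, Cel.val_smul, Pi.smul_apply, RingHom.id_apply]
        cases j i <;> simp } (4 ^ k) fun W => by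
      refine (Cel.norm_mk_le ⟨_, by positivity, cka_rot j γ W⟩ (by positivity)
        (cka_rot j γ W)).trans (le_of_eq ?_)
      field_simp

theorem val_rot (j : I → Option J) (γ : Iso4) (W : Cel J k) (i : I) {y : E4} (hy : y ∈ B1) :
    (rot j γ W).val i y = (j i).elim 0 fun x => W.val x (γ y) :=
  Cel.cut_in (fun i y => (j i).elim 0 fun x => W.val x (γ y)) i hy

theorem norm_rot (j : I → Option J) (γ : Iso4) (W : Cel J k) : ‖rot j γ W‖ ≤ 4 ^ k * ‖W‖ :=
  (rot j γ).le_of_opNorm_le (LinearMap.mkContinuous_norm_le _ (by positivity) _) W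

/-- a real-linear map applied to the values -/
theorem exists_map (φ : ℂ →L[ℝ] ℂ) (W : Cel J k) :
    ∃ W' : Cel J k, ∀ x, ∀ y ∈ B1, W'.val x y = φ (W.val x y) :=
  ⟨Cel.mk (fun x y => φ (W.val x y)) ⟨_, by positivity, fun x =>
    (W.cka x).clm isOpen_ball φ le_rfl⟩, fun x _ hy => Cel.val_mk _ _ x hy⟩

theorem cpx_split {e : ℝ} {W : MJ k} (h : Cpx e W) : ∃ (β₁ β₂ : MetricField 4) (W₁ W₂ : MJ k),
    (∀ a b, ContDiffOn ℝ ∞ (fun x => β₁ x a b) {x | x ≠ 0}) ∧
    (∀ a b, ContDiffOn ℝ ∞ (fun x => β₂ x a b) {x | x ≠ 0}) ∧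
    (∀ x : E4, e * Real.log ‖x‖ ≤ 22 / 10 → β₁ x = 0) ∧
    (∀ x : E4, e * Real.log ‖x‖ ≤ 22 / 10 → β₂ x = 0) ∧
    LfJ β₁ W₁ ∧ LfJ β₂ W₂ ∧ W = W₁ + Complex.I • W₂ := by
  obtain ⟨β₁, β₂, h1, h2, h3⟩ := h
  choose W₁ e₁ using fun a b => exists_map (Complex.ofRealCLM.comp Complex.reCLM) (W a b)
  choose W₂ e₂ using fun a b => exists_map (Complex.ofRealCLM.comp Complex.imCLM) (W a b)
  refine ⟨β₁, β₂, W₁, W₂, fun a b => (h1 a b).1, fun a b => (h1 a b).2,
    fun x hx => (h2 x (Or.inl hx)).1, fun x hx => (h2 x (Or.inl hx)).2,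
    fun x a b y hy => ?_, fun x a b y hy => ?_, ?_⟩
  · rw [e₁ a b x y hy, h3 x a b y hy]; simp [cf]
  · rw [e₂ a b x y hy, h3 x a b y hy]; simp [cf]
  · funext a b
    refine Cel.ext fun x y hy => ?_
    simp only [Pi.add_apply, Pi.smul_apply, Cel.val_add, Cel.val_smul, e₁ a b x y hy,
      e₂ a b x y hy, smul_eq_mul]
    simp [mul_comm Complex.I]

/-- symmetrisation and average over `Γ` -/
def av (Γ : Subgroup Iso4) [Fintype Γ] (β : MetricField 4) : MetricField 4 := fun x =>
  (2 * Fintype.card Γ : ℝ)⁻¹ • ∑ γ : Γ, pullM (γ : Iso4) (fun z => β z + (β z)ᵀ) x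

variable {Γ : Subgroup Iso4} [Fintype Γ] {β : MetricField 4}

theorem av_apply (x : E4) (a b : Fin 4) : av Γ β x a b = (2 * Fintype.card Γ : ℝ)⁻¹ *
    ∑ γ : Γ, ∑ p, ∑ q, mat γ p a * mat γ q b * (β ((γ : Iso4) x) p q + β ((γ : Iso4) x) q p) := by
  simp [av, Matrix.sum_apply, pullM_sum]

theorem av_inv (h : ∀ a b, ContDiffOn ℝ ∞ (fun x => β x a b) {x | x ≠ 0}) :
    Inv Γ ∞ {x | x ≠ 0} (av Γ β) := by
  refine ⟨fun a b => ?_, fun x _ => ?_, fun δ hδ x _ => ?_⟩
  · simp only [av_apply]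
    have hc : ∀ (γ : Iso4) p q, ContDiffOn ℝ ∞ (fun x => β (γ x) p q) {x | x ≠ 0} := fun γ p q =>
      (h p q).comp γ.contDiff.contDiffOn fun x hx => by simpa using hx
    exact contDiffOn_const.mul (ContDiffOn.sum fun γ _ => ContDiffOn.sum fun p _ =>
      ContDiffOn.sum fun q _ => contDiffOn_const.mul ((hc γ p q).add (hc γ q p)))
  · simp only [av, pullM_iso, Matrix.IsSymm, Matrix.transpose_smul, Matrix.transpose_sum,
      Matrix.transpose_mul, Matrix.transpose_add, Matrix.transpose_transpose, Matrix.mul_assoc,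
      add_comm]
  · rw [pullM_iso]
    simp only [av, pullM_iso, Matrix.mul_smul, Matrix.smul_mul, Matrix.mul_sum, Matrix.sum_mul]
    congr 1
    rw [← Equiv.sum_comp (Equiv.mulRight (⟨δ, hδ⟩ : Γ))]
    refine Finset.sum_congr rfl fun γ _ => ?_
    simp [mat_mul, Matrix.mul_assoc]

theorem av_eq (h : Inv Γ ∞ {x | x ≠ 0} β) {x : E4} (hx : x ≠ 0) : av Γ β x = β x := by
  have : ∀ γ : Γ, pullM (γ : Iso4) (fun z => β z + (β z)ᵀ) x = (2 : ℝ) • β x := fun γ => by
    rw [pullM_iso, h.symm _ (by simpa using hx), h.eqv γ γ.2 x hx, pullM_iso, ← two_smul ℝ,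
      Matrix.mul_smul, Matrix.smul_mul]
  have hc : (Fintype.card Γ : ℝ) ≠ 0 := by positivity
  simp only [av, this, Finset.sum_const, Finset.card_univ, ← Nat.cast_smul_eq_nsmul ℝ, smul_smul]
  rw [show (2 * Fintype.card Γ : ℝ)⁻¹ * (Fintype.card Γ * 2) = 1 by field_simp, one_smul]

theorem av_zero {x : E4} (h : ∀ z : E4, ‖z‖ = ‖x‖ → β z = 0) : av Γ β x = 0 := by
  ext a b
  simp [av_apply, h]

end Crest.Agent.N207.CB.Trn

end
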