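import Crest.Agent.N207.CB.Unq1
import Crest.Agent.N207.CB.Cut

/-! # Row 207, block L (helper72): `ColO`, `ColI` -/

set_option autoImplicit false
open scoped ContDiff
open Set Filter Topology
open Crest.GeometryTopology.CoordMetric
open Crest.Agent.N207.Lg Crest.Agent.N207.J Crest.Agent.N207.L Crest.Agent.N207.I

noncomputable section

namespace Crest.Agent.N207.CB
open Cu Uq

/-- `C²`, symmetric and small on `S` -/
structure SB (S : Set E4) (η : ℝ) (h : MetricField 4) : Prop where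
  sm : ∀ a b, ContDiffOn ℝ 2 (fun x => h x a b) S
  symm : ∀ x ∈ S, (h x).IsSymm
  bd : B2 S η h

theorem SB.ps {S : Set E4} {η : ℝ} {h : MetricField 4} (p : SB S η h) {x : E4} (hx : S ∈ 𝓝 x) :
    PS x η h := by
  have h1 := fun a b => (p.sm a b).contDiffAt hx
  refine ⟨h1, eventually_of_mem hx fun y hy a b => (p.symm y hy).apply b a, fun a b =>
    ⟨cd_cf (h1 a b), fun j hj => le_trans (le_of_eq ?_) (p.bd x (mem_of_mem_nhds hx) j hj a b)⟩⟩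
  exact congrArg _ (Complex.ofRealLI.norm_iteratedFDeriv_comp_left (h1 a b) (by exact_mod_cast hj))

namespace Uq

/-- the cut-off -/
def chi (e : ℝ) (x : E4) : ℂ := (stp (22 / 10) (24 / 10) (e * Real.log ‖x‖) : ℝ)

/-- the difference of the two solutions -/
def dd (e : ℝ) (w u : MetricField 4) (l : Fin 4 → Fin 4 → E4 → ℂ) (i : Fin 4 × Fin 4) (x : E4) :
    ℂ := cf w i.1 i.2 x - cf u i.1 i.2 x + chi e x * (cf u i.1 i.2 x - l i.1 i.2 x)

variable {e c t : ℝ} {x : E4} {w u : MetricField 4} {l : Fin 4 → Fin 4 → E4 → ℂ}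

theorem ev_lt (hx : x ≠ 0) (h : e * Real.log ‖x‖ < c) : ∀ᶠ y in 𝓝 x, e * Real.log ‖y‖ < c :=
  ((hasFDerivAt_logn hx).continuousAt.const_mul e).eventually (gt_mem_nhds h)

theorem ev_gt (hx : x ≠ 0) (h : c < e * Real.log ‖x‖) : ∀ᶠ y in 𝓝 x, c < e * Real.log ‖y‖ :=
  ((hasFDerivAt_logn hx).continuousAt.const_mul e).eventually (lt_mem_nhds h)

theorem chi_lo (hx : x ≠ 0) (h : e * Real.log ‖x‖ < 22 / 10) : ∀ᶠ y in 𝓝 x, chi e y = 0 :=
  (ev_lt hx h).mono fun y hy => by rw [chi, stp_zero' (by norm_num) hy.le, Complex.ofReal_zero]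

theorem dd_lo (hx : x ≠ 0) (h : e * Real.log ‖x‖ < 22 / 10) (i : Fin 4 × Fin 4) :
    dd e w u l i =ᶠ[𝓝 x] fun y => cf w i.1 i.2 y - cf u i.1 i.2 y :=
  (chi_lo hx h).mono fun y hy => by simp [dd, hy]

theorem dd_hi (hx : x ≠ 0) (h : 24 / 10 < e * Real.log ‖x‖) (i : Fin 4 × Fin 4) :
    dd e w u l i =ᶠ[𝓝 x] fun y => cf w i.1 i.2 y - l i.1 i.2 y :=
  (ev_gt hx h).mono fun y hy => by
    simp only [dd, chi]; rw [stp_one' (by norm_num) hy.le]; simp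

theorem exists_chi : ∃ K : ℝ, 0 < K ∧ ∀ e : ℝ, e = 1 ∨ e = -1 → ∀ x ∈ An (Icc (-3) 3),
    J.PB 2 (chi e) x K := by
  have h := fun e : ℝ => exists_PB (U := chi e) 2 (fun x hx =>
    Complex.ofRealCLM.contDiff.contDiffAt.comp x (((stp_sm _ _).of_le (by norm_cast)).contDiffAt.comp
      x (contDiffAt_const.mul ((contDiffAt_norm ℝ hx).log (norm_ne_zero_iff.2 hx))))) (-3) 3
  obtain ⟨K, h0, hK⟩ := h 1
  obtain ⟨K', -, hK'⟩ := h (-1)
  refine ⟨max K K', by positivity, ?_⟩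
  rintro e (rfl | rfl) x hx
  · exact (hK x hx).mono le_rfl (le_max_left _ _)
  · exact (hK' x hx).mono le_rfl (le_max_right _ _)

theorem unq_mid : ∃ ε : ℝ, 0 < ε ∧ ∀ (e a b : ℝ) (w u β : MetricField 4)
    (l : Fin 4 → Fin 4 → E4 → ℂ) (Γ : Subgroup Iso4), e = 1 ∨ e = -1 → a < b → b - a ≤ 2 →
    Ioo a b ⊆ Icc (-3) 3 → Inv Γ ∞ {x | x ≠ 0} β →
    (∀ x ∈ An (Ioo a b), PS x ε w ∧ PS x ε u ∧ redM fl1 (fl1 + u) x = 0 ∧
      (1 - rho (e * Real.log ‖x‖)) • Pop fl1 w x +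
        (2 * rho (e * Real.log ‖x‖)) • redM fl1 (fl1 + β + w) x = 0 ∧
      (2 < e * Real.log ‖x‖ → ∀ a b, J.PB 2 (l a b) x ε ∧ Lp2 (l a b) x = 0) ∧
      (e * Real.log ‖x‖ < 285 / 100 → ∀ a b, cf β a b x = chi e x * (cf u a b x - l a b x))) →
    (∀ i k, Bc a b (dd e w u l i) k) →
    ∀ x ∈ An (Ioo a b), e * Real.log ‖x‖ < 2 → w x = u x := by
  obtain ⟨η, h0, hη⟩ := h2_unique (Fin 4 × Fin 4) 2
  obtain ⟨δ, h1, hδ⟩ := pt_est h0
  obtain ⟨K, h2, hK⟩ := exists_chi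
  refine ⟨δ / (8 * K + 1), by positivity, fun e a b w u β l Γ he hab hl hs hβ h hb x hx hx2 => ?_⟩
  set ε := δ / (8 * K + 1) with hε
  have k0 : ε * (8 * K + 1) = δ := div_mul_cancel₀ _ (by positivity)
  have ε0 : 0 < ε := by positivity
  have k1 : ε ≤ δ := by nlinarith
  have pm : ∀ x ∈ An (Ioo a b), ∀ p q,
      J.PB 2 (fun y => chi e y * (cf u p q y - l p q y)) x δ := fun x hx p q => by
    obtain ⟨-, pu, -, -, pl, -⟩ := h x hx
    by_cases hc : e * Real.log ‖x‖ < 22 / 10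
    · exact ((PB.zero 2 x).congr ((chi_lo hx.1 hc).mono fun y hy => by simp [hy])).mono le_rfl h1.le
    · exact ((hK e he x ⟨hx.1, hs hx.2⟩).mul ((pu.pb p q).sub (pl (by linarith) p q).1)).mono le_rfl
        (by nlinarith)
  have hz := hη a b (ε + ε + δ) (dd e w u l) hab hl (fun i x hx =>
    (((h x hx).1.pb _ _).sub ((h x hx).2.1.pb _ _)).add (pm x hx _ _)) hb fun x hx => by
    obtain ⟨pw, pu, eu, ew, pl, -⟩ := h x hx
    refine hδ x w u β _ (rho (e * Real.log ‖x‖)) (sub_nonneg.2 (Real.smoothTransition.le_one _))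
      (sub_le_self _ (Real.smoothTransition.nonneg _)) (pw.mono k1) ew (fun hρ => ?_) fun hρ i => ?_
    · have hc : e * Real.log ‖x‖ < 285 / 100 := by
        by_contra hc
        exact hρ (by rw [rho, stp_one' (by norm_num) (by linarith), sub_self])
      have ev : ∀ p q, cf β p q =ᶠ[𝓝 x] fun y => chi e y * (cf u p q y - l p q y) := fun p q => by
        filter_upwards [ev_lt hx.1 hc, An_mem_nhds isOpen_Ioo hx] with y hy hy'
        exact (h y hy').2.2.2.2.2 hy p q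
      have hn : {x : E4 | x ≠ 0} ∈ 𝓝 x := isOpen_ne.mem_nhds hx.1
      refine ⟨pu.mono k1, ⟨fun p q => ((hβ.sm p q).contDiffAt hn).of_le (by norm_cast),
        eventually_of_mem hn fun y hy p q => (hβ.symm y hy).apply q p,
        fun p q => (pm x hx p q).congr (ev p q)⟩, eu, fun i => (ev i.1 i.2).mono fun y hy => ?_⟩
      simp only [dd, cf_add, hy]; ring
    · have hc : 26 / 10 < e * Real.log ‖x‖ := by
        by_contra hc
        exact hρ (by rw [rho, stp_zero' (by norm_num) (by linarith), sub_zero])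
      obtain ⟨p1, p2⟩ := pl (by linarith) i.1 i.2
      rw [Lp2_lin 1 (-1) (pw.pb i.1 i.2).1 p1.1 (by
        simpa [sub_eq_add_neg] using dd_hi hx.1 (by linarith) i), p2]
      ring
  ext p q
  have := (dd_lo (e := e) (w := w) (u := u) (l := l) hx.1 (by linarith) (p, q)).eq_of_nhds
  rw [hz _ x hx, eq_comm, sub_eq_zero] at this
  exact Complex.ofReal_injective this

theorem log_polar (t : ℝ) (o : S3) : Real.log ‖Real.exp t • (o : E4)‖ = t := by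
  rw [norm_smul_S3 (Real.exp_pos t), Real.log_exp]

theorem cont_amp {I : Set ℝ} (hI : IsOpen I)
    (h : ∀ a b, ContDiffOn ℝ 2 (fun x => w x a b) (An I)) (ht : t ∈ I) (a b : Fin 4) (k : ℕ) :
    ContinuousAt (pm (cf w a b) k) t ∧ ContinuousAt (qm (cf w a b) k) t :=
  have h1 : ContDiffOn ℝ (2 : ℕ) (cf w a b) (An I) := fun _ hx =>
    (cd_cf ((h a b).contDiffAt (An_mem_nhds hI hx))).contDiffWithinAt
  ⟨(hasDerivAt_pm hI h1 k ht).continuousAt, (hasDerivAt_qm hI h1 k ht).continuousAt⟩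

theorem An_mono {I I' : Set ℝ} (h : I ⊆ I') : An I ⊆ An I' := fun _ hx => ⟨hx.1, h hx.2⟩

end Uq

/-- **the outer collar** -/
theorem colO : ∃ ε : ℝ, 0 < ε ∧ ∀ (Γ : Subgroup Iso4) (y : DD) (u β : MetricField 4)
    (l : Fin 4 → Fin 4 → E4 → ℂ), SB (An (Ioo 1 3)) ε u →
    (∀ x ∈ An (Ioo 1 3), redM fl1 (fl1 + u) x = 0) →
    (∀ a b k, Tendsto (qm (cf u a b) k) (𝓝[>] 1) (𝓝 (trD 1 (y (a, b)) k))) →
    (∀ a b, ∀ x ∈ An (Ioo 2 3), J.PB 2 (l a b) x ε ∧ Lp2 (l a b) x = 0) →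
    (∀ a b k, ∀ t ∈ Ioo (2 : ℝ) 3, pm (l a b) k t = 0) → Inv Γ ∞ {x | x ≠ 0} β →
    (∀ x : E4, Real.log ‖x‖ ≤ 22 / 10 ∨ 29 / 10 ≤ Real.log ‖x‖ → β x = 0) →
    (∀ x ∈ An (Ioo 1 (285 / 100)), ∀ a b, cf β a b x =
      (stp (22 / 10) (24 / 10) (Real.log ‖x‖) : ℝ) * (cf u a b x - l a b x)) →
    ∀ ε' ≤ ε, ColO Γ ε' y u β := by
  obtain ⟨ε, h0, h⟩ := unq_mid
  refine ⟨ε, h0, fun Γ y u β l hu eu lu hl pl hβ sβ eβ ε' hε => ⟨hβ, sβ,
    fun w iw bw dw pw ew x hx => ?_⟩⟩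
  have sw : ∀ x ∈ An (Ioo 1 3), PS x ε w := fun x hx => (SB.ps ⟨iw.sm, iw.symm, bw⟩ (An_mem_nhds
    isOpen_Ioo (An_mono (Ioo_subset_Ioo (by norm_num) (by norm_num)) hx))).mono hε
  have su := fun x hx => hu.ps (x := x) (An_mem_nhds isOpen_Ioo hx)
  refine h 1 1 3 w u β l Γ (Or.inl rfl) (by norm_num) (by norm_num)
    (Ioo_subset_Icc_self.trans (Icc_subset_Icc (by norm_num) le_rfl)) hβ (fun x hx => ?_)
    (fun i k => ⟨?_, Or.inl ?_⟩) x (An_mono (Ioo_subset_Ioo le_rfl (by norm_num)) hx)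
    (by simpa using hx.2.2)
  · simp only [chi, one_mul]
    exact ⟨sw x hx, su x hx, eu x hx, ew x hx, fun hc a b => hl a b x ⟨hx.1, hc, hx.2.2⟩,
      fun hc => eβ x ⟨hx.1, hx.2.1, hc⟩⟩
  · have := ((cont_amp isOpen_Ioo iw.sm (t := 1) (by norm_num) i.1 i.2 k).2.tendsto.mono_left
      nhdsWithin_le_nhds).sub (lu i.1 i.2 k)
    rw [dw, sub_self] at this
    refine this.congr' ?_
    filter_upwards [Ioo_mem_nhdsGT (show (1 : ℝ) < 2 by norm_num)] with t ht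
    have ht' : t ∈ Ioo (1 : ℝ) 3 := ⟨ht.1, by linarith [ht.2]⟩
    exact (pm_qm_sub (n := 1) (fun o => ((sw _ (polar_mem_An ht' o)).pb _ _).1)
      (fun o => ((su _ (polar_mem_An ht' o)).pb _ _).1) (fun o => dd_lo (polar_mem_An ht' o).1
        (by rw [log_polar]; linarith [ht.2]) i) k).2.symm
  · have := (cont_amp isOpen_Ioo iw.sm (t := 3) (by norm_num) i.1 i.2 k).1.tendsto.mono_left
      (nhdsWithin_le_nhds (s := Iio 3))
    rw [pw] at this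
    refine this.congr' ?_
    filter_upwards [Ioo_mem_nhdsLT (show (5 / 2 : ℝ) < 3 by norm_num)] with t ht
    have ht' : t ∈ Ioo (1 : ℝ) 3 := ⟨by linarith [ht.1], ht.2⟩
    have ht'' : t ∈ Ioo (2 : ℝ) 3 := ⟨by linarith [ht.1], ht.2⟩
    rw [(pm_qm_sub (n := 1) (fun o => ((sw _ (polar_mem_An ht' o)).pb _ _).1)
      (fun o => (hl _ _ _ (polar_mem_An ht'' o)).1.1) (fun o => dd_hi (polar_mem_An ht' o).1
        (by rw [log_polar]; linarith [ht.1]) i) k).1, pl _ _ _ _ ht'', sub_zero]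

/-- **the collar at a puncture** -/
theorem colI : ∃ ε : ℝ, 0 < ε ∧ ∀ (Γ : Subgroup Iso4) (y : DD) (u β : MetricField 4)
    (l : Fin 4 → Fin 4 → E4 → ℂ), SB (An (Ioo (-3) (-1))) ε u →
    (∀ x ∈ An (Ioo (-3) (-1)), redM fl1 (fl1 + u) x = 0) →
    (∀ a b k, k ≠ 0 → Tendsto (pm (cf u a b) k) (𝓝[<] (-1)) (𝓝 (trD 1 (y (a, b)) k))) →
    (∀ a b, ∀ x ∈ An (Ioo (-3) (-2)), J.PB 2 (l a b) x ε ∧ Lp2 (l a b) x = 0) →
    (∀ a b, ∀ t ∈ Ioo (-3 : ℝ) (-2), pm (l a b) 0 t = 0 ∧ ∀ k, qm (l a b) k t = 0) →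
    Inv Γ ∞ {x | x ≠ 0} β →
    (∀ x : E4, -Real.log ‖x‖ ≤ 22 / 10 ∨ 29 / 10 ≤ -Real.log ‖x‖ → β x = 0) →
    (∀ x ∈ An (Ioo (-(285 / 100)) (-1)), ∀ a b, cf β a b x =
      (stp (22 / 10) (24 / 10) (-Real.log ‖x‖) : ℝ) * (cf u a b x - l a b x)) →
    ∀ ε' ≤ ε, ColI Γ ε' y u β := by
  obtain ⟨ε, h0, h⟩ := unq_mid
  refine ⟨ε, h0, fun Γ y u β l hu eu lu hl pl hβ sβ eβ ε' hε => ⟨hβ, sβ,
    fun w iw bw dw qw pw ew x hx => ?_⟩⟩
  have sw : ∀ x ∈ An (Ioo (-3) (-1)), PS x ε w := fun x hx => (SB.ps ⟨iw.sm, iw.symm, bw⟩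
    (An_mem_nhds isOpen_Ioo (An_mono (Ioo_subset_Ioo (by norm_num) (by norm_num)) hx))).mono hε
  have su := fun x hx => hu.ps (x := x) (An_mem_nhds isOpen_Ioo hx)
  have cw := fun (i : Fin 4 × Fin 4) k =>
    cont_amp isOpen_Ioo iw.sm (t := -3) (by norm_num) i.1 i.2 k
  have ev : ∀ (i : Fin 4 × Fin 4) k, ∀ᶠ t in 𝓝[>] (-3 : ℝ),
      pm (dd (-1) w u l i) k t = pm (cf w i.1 i.2) k t - pm (l i.1 i.2) k t ∧
      qm (cf w i.1 i.2) k t = qm (dd (-1) w u l i) k t ∧ pm (l i.1 i.2) 0 t = 0 := fun i k => by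
    filter_upwards [Ioo_mem_nhdsGT (show (-3 : ℝ) < -(5 / 2) by norm_num)] with t ht
    have ht' : t ∈ Ioo (-3 : ℝ) (-1) := ⟨ht.1, by linarith [ht.2]⟩
    have ht'' : t ∈ Ioo (-3 : ℝ) (-2) := ⟨ht.1, by linarith [ht.2]⟩
    have := pm_qm_sub (n := 1) (fun o => ((sw _ (polar_mem_An ht' o)).pb _ _).1)
      (fun o => (hl _ _ _ (polar_mem_An ht'' o)).1.1) (fun o => dd_hi (e := -1) (u := u)
        (polar_mem_An ht' o).1 (by rw [log_polar]; linarith [ht.2]) i) k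
    exact ⟨this.1, by rw [this.2, (pl _ _ _ ht'').2, sub_zero], (pl _ _ _ ht'').1⟩
  refine h (-1) (-3) (-1) w u β l Γ (Or.inr rfl) (by norm_num) (by norm_num)
    (Ioo_subset_Icc_self.trans (Icc_subset_Icc le_rfl (by norm_num))) hβ (fun x hx => ?_)
    (fun i k => ⟨?_, ?_⟩) x (An_mono (Ioo_subset_Ioo (by norm_num) le_rfl) hx)
    (by linarith [hx.2.1])
  · simp only [chi, neg_one_mul]
    exact ⟨sw x hx, su x hx, eu x hx, ew x hx,
      fun hc a b => hl a b x ⟨hx.1, hx.2.1, by linarith⟩,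
      fun hc => eβ x ⟨hx.1, by linarith, hx.2.2⟩⟩
  · have := (cw i k).2.tendsto.mono_left (nhdsWithin_le_nhds (s := Ioi (-3)))
    rw [qw] at this
    exact this.congr' ((ev i k).mono fun t ht => ht.2.1)
  · rcases eq_or_ne k 0 with rfl | hk
    · have := (cw i 0).1.tendsto.mono_left (nhdsWithin_le_nhds (s := Ioi (-3)))
      rw [pw] at this
      exact Or.inr ⟨rfl, this.congr' ((ev i 0).mono fun t ht => by rw [ht.1, ht.2.2, sub_zero])⟩
    have := ((cont_amp isOpen_Ioo iw.sm (t := -1) (by norm_num) i.1 i.2 k).1.tendsto.mono_left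
      nhdsWithin_le_nhds).sub (lu i.1 i.2 k hk)
    rw [← dw _ _ _ hk, sub_self] at this
    refine Or.inl (this.congr' ?_)
    filter_upwards [Ioo_mem_nhdsLT (show (-2 : ℝ) < -1 by norm_num)] with t ht
    have ht' : t ∈ Ioo (-3 : ℝ) (-1) := ⟨by linarith [ht.1], ht.2⟩
    exact (pm_qm_sub (n := 1) (fun o => ((sw _ (polar_mem_An ht' o)).pb _ _).1)
      (fun o => ((su _ (polar_mem_An ht' o)).pb _ _).1) (fun o => dd_lo (polar_mem_An ht' o).1
        (by rw [log_polar]; linarith [ht.1]) i) k).1.symm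

end Crest.Agent.N207.CB

end
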