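import Crest.Agent.N207.CB.Nl1
import Crest.Agent.N207.K.Pop1
import Crest.Agent.N207.L.Br4
import Crest.Agent.N207.L.Br5

/-! # Row 207, block L (helper72): the pointwise estimate behind `ColO.unq`, `ColI.unq` -/

set_option autoImplicit false
open scoped ContDiff
open Set Filter Topology
open Crest.GeometryTopology.CoordMetric
open Crest.Agent.N207.Lg Crest.Agent.N207.J Crest.Agent.N207.L

noncomputable section

namespace Crest.Agent.N207.CB.Uq

variable {x : E4} {η η' : ℝ} {h h' : MetricField 4}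

theorem cd_cf {n : WithTop ℕ∞} {a b : Fin 4} (hs : ContDiffAt ℝ n (fun y => h y a b) x) :
    ContDiffAt ℝ n (cf h a b) x := Complex.ofRealCLM.contDiff.contDiffAt.comp x hs

/-- **`Pop` at the flat metric** -/
theorem pop_flat (hw : ∀ a b, ContDiffAt ℝ 2 (fun y => h y a b) x)
    (hs : ∀ᶠ y in 𝓝 x, Sy2 (h y)) (a b : Fin 4) :
    ((‖x‖ : ℝ) : ℂ) ^ 2 * (Pop fl1 h x a b : ℝ) = -Lp2 (cf h a b) x := by
  have e2 : ∀ c, fderiv ℝ (fun y => fderiv ℝ (cf h a b) y (ee c)) x (ee c) =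
      (jet2 h x c c a b : ℝ) := fun c => by
    rw [Filter.EventuallyEq.fderiv_eq (f₁ := fun y => fderiv ℝ (cf h a b) y (ee c))
      ((ev_d hw).mono fun y hy => fderiv_cf (hy a b) c)]
    exact fderiv_cf (f := fun y => fderiv ℝ (fun z => h z a b) y (ee c))
      ((((hw a b).fderiv_right (m := 1) (by norm_num)).clm_apply
        contDiffAt_const).differentiableAt one_ne_zero) c
  rw [K.pop_eq (c2_one x) hw hs, ← lapJ_TTG, TTG_const, riemann_const]
  simp [Lp2, e2, lapJ, cvJ, iv, Matrix.one_apply]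

/-- small, symmetric and `C²` near `x` -/
structure PS (x : E4) (η : ℝ) (h : MetricField 4) : Prop where
  sm : ∀ a b, ContDiffAt ℝ 2 (fun y => h y a b) x
  sy : ∀ᶠ y in 𝓝 x, Sy2 (h y)
  pb : ∀ a b, J.PB 2 (cf h a b) x η

theorem cf_add (h h' : MetricField 4) (a b : Fin 4) :
    cf (h + h') a b = fun y => cf h a b y + cf h' a b y := by
  funext y; simp [cf]

theorem PS.add (p : PS x η h) (p' : PS x η' h') : PS x (η + η') (h + h') where
  sm a b := (p.sm a b).add (p'.sm a b)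
  sy := (p.sy.and p'.sy).mono fun y hy a b => by
    simp only [Pi.add_apply, Matrix.add_apply, hy.1 a b, hy.2 a b]
  pb a b := cf_add h h' a b ▸ (p.pb a b).add (p'.pb a b)

theorem PS.mono (p : PS x η h) (e : η ≤ η') : PS x η' h :=
  ⟨p.sm, p.sy, fun a b => (p.pb a b).mono le_rfl e⟩

theorem exists_c2 : ∃ δ : ℝ, 0 < δ ∧ ∀ x h, PS x δ h → C2 (fl1 + h) x := by
  have hc : Continuous fun A : Fin 4 → Fin 4 → ℝ => (1 + Matrix.of A).det :=
    (continuous_const.add continuous_id).matrix_det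
  obtain ⟨δ, h0, hδ⟩ := Metric.nhds_basis_closedBall.eventually_iff.1
    (hc.continuousAt.eventually (lt_mem_nhds
      (show (0 : ℝ) < (1 + Matrix.of (0 : Fin 4 → Fin 4 → ℝ)).det by simp)))
  refine ⟨δ, h0, fun x h p => ⟨fun a b => contDiffAt_const.add (p.sm a b),
    p.sy.mono fun y hy a b => ?_, hδ (x := fun a b => h x a b) ?_⟩⟩
  · simp only [Pi.add_apply, Matrix.add_apply, hy a b, Matrix.one_apply, eq_comm (a := a)]
  · rw [mem_closedBall_zero_iff]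
    exact (pi_norm_le_iff_of_nonneg h0.le).2 fun a => (pi_norm_le_iff_of_nonneg h0.le).2 fun b => by
      simpa [cf] using (p.pb a b).norm_le

theorem exists_lip {ι : Type} [Fintype ι] (N : NL ι) (hη : 0 < η) : ∃ δ : ℝ, 0 < δ ∧
    ∀ z z', ‖z‖ ≤ δ → ‖z'‖ ≤ δ → ‖N.Q z - N.Q z'‖ ≤ η * ‖z - z'‖ := by
  have h1 := N.an.hasStrictFDerivAt
  rw [N.q1.fderiv] at h1
  obtain ⟨δ, h0, hδ⟩ := Metric.nhds_basis_closedBall.eventually_iff.1 (h1.isLittleO.def hη)
  refine ⟨δ, h0, fun z z' hz hz' => by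
    simpa using hδ (x := (z, z')) (mem_closedBall_zero_iff.2 (max_le hz hz'))⟩

/-- the entries as a family on `IX` -/
def UX (h : MetricField 4) : IX → E4 → ℂ := Sum.elim (fun e => cf h e.1 e.2) fun _ _ => 0

theorem cj1_zero (x : E4) (j : Jx) : cj1 (fun _ => 0) x j = 0 :=
  norm_le_zero_iff.1 (norm_cj1_le (PB.zero 2 x) j)

theorem PS.cjet (p : PS x η h) : ‖cjet (UX h) x‖ ≤ η := by
  have h0 := (p.pb 0 0).nonneg
  refine (pi_norm_le_iff_of_nonneg h0).2 ?_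
  rintro ⟨e | _, j⟩
  · exact norm_cj1_le (p.pb _ _) j
  · exact (congrArg norm (cj1_zero x j)).trans_le (by simpa using h0)

theorem pt_est (hη : 0 < η) : ∃ ε : ℝ, 0 < ε ∧ ∀ (x : E4) (w u β : MetricField 4)
    (d : Fin 4 × Fin 4 → E4 → ℂ) (ρ : ℝ), 0 ≤ ρ → ρ ≤ 1 → PS x ε w →
    (1 - ρ) • Pop fl1 w x + (2 * ρ) • redM fl1 (fl1 + β + w) x = 0 →
    (ρ ≠ 0 → PS x ε u ∧ PS x ε β ∧ redM fl1 (fl1 + u) x = 0 ∧
      ∀ i, d i =ᶠ[𝓝 x] fun y => cf (β + w) i.1 i.2 y - cf u i.1 i.2 y) →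
    (ρ ≠ 1 → ∀ i, Lp2 (d i) x = Lp2 (cf w i.1 i.2) x) →
    ∀ i, ‖Lp2 (d i) x‖ ≤ η * ‖cjet d x‖ := by
  obtain ⟨δ, h0, hδ⟩ := exists_c2
  obtain ⟨δ', h0', hδ'⟩ := exists_lip NQ hη
  refine ⟨min δ δ' / 2, by positivity, fun x w u β d ρ r0 r1 pw he hu hl i => ?_⟩
  have e0 := congrArg (fun A : Mt => ((‖x‖ : ℝ) : ℂ) ^ 2 * (A i.1 i.2 : ℝ)) he
  have e1 := pop_flat pw.sm pw.sy i.1 i.2
  simp only [Matrix.add_apply, Matrix.smul_apply, smul_eq_mul, Matrix.zero_apply] at e0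
  push_cast at e0
  by_cases hρ : ρ = 0
  · subst hρ
    rw [hl zero_ne_one, show Lp2 (cf w i.1 i.2) x = 0 by
      push_cast at e0; linear_combination e1 - e0, norm_zero]
    positivity
  obtain ⟨pu, pβ, hu, hd⟩ := hu hρ
  have pv := pβ.add pw
  rw [add_halves] at pv
  have pu' := pu.mono (half_le_self (by positivity))
  have e2 := NQ_red (U := UX u) (fun _ _ => EventuallyEq.rfl)
    (hδ x u (pu'.mono (min_le_left _ _))) i.1 i.2
  have e3 := NQ_red (U := UX (β + w)) (fun _ _ => EventuallyEq.rfl)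
    (hδ x _ (pv.mono (min_le_left _ _))) i.1 i.2
  have hd' : ∀ i, d i =ᶠ[𝓝 x] fun y => 1 * cf (β + w) i.1 i.2 y + -1 * cf u i.1 i.2 y :=
    fun i => by simpa [sub_eq_add_neg] using hd i
  have e4 := Lp2_lin _ _ (pv.pb i.1 i.2).1 (pu.pb i.1 i.2).1 (hd' i)
  have e5 : (1 - (ρ : ℂ)) * (Lp2 (d i) x - Lp2 (cf w i.1 i.2) x) = 0 := by
    by_cases h1 : ρ = 1
    · simp [h1]
    · simp [hl h1]
  rw [hu, Matrix.zero_apply] at e2
  rw [← add_assoc] at e3
  push_cast at e2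
  have e6 : Lp2 (d i) x = ρ * (NQ.Q (cjet (UX (β + w)) x) - NQ.Q (cjet (UX u) x)) (.inl i) := by
    rw [Pi.sub_apply]
    linear_combination e5 + ρ * e4 - e0 + (1 - ρ) * e1 + 2 * ρ * e3 - 2 * ρ * e2
  rw [e6, norm_mul, Complex.norm_real, Real.norm_of_nonneg r0]
  refine (mul_le_of_le_one_left (norm_nonneg _) r1).trans ((norm_le_pi_norm _ _).trans
    ((hδ' _ _ (pv.cjet.trans (min_le_right _ _)) (pu'.cjet.trans (min_le_right _ _))).trans
      (mul_le_mul_of_nonneg_left ((pi_norm_le_iff_of_nonneg (norm_nonneg _)).2 ?_) hη.le)))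
  rintro ⟨e | _, j⟩
  · refine le_trans (le_of_eq (congrArg norm ?_)) (norm_le_pi_norm (cjet d x) (e, j))
    have := cj1_lin _ _ (pv.pb e.1 e.2).1 (pu.pb e.1 e.2).1 (hd' e) j
    simp only [Pi.sub_apply, L.cjet, UX, Sum.elim_inl, this]
    ring
  · simp [L.cjet, UX]

end Crest.Agent.N207.CB.Uq

end
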